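import Mathlib

/-!
# Row 264, part P0: Noether projections (commutative algebra)
-/

namespace Crest.Agent.R264.A

open MvPolynomial

/-- complex polynomials in `N` variables -/
abbrev Pl (N : ℕ) := MvPolynomial (Fin N) ℂ

/-- the polynomial map with components `π i` -/
noncomputable def pmap {N n : ℕ} (π : Fin n → Pl N) (x : Fin N → ℂ) : Fin n → ℂ :=
  fun i => eval x (π i)

/-- `q(t, l)` -/
noncomputable def ev2 {n : ℕ} (q : Polynomial (Pl n)) (t : Fin n → ℂ) (l : ℂ) : ℂ :=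
  (q.map (eval t)).eval l

/-- `q(π, f)` -/
noncomputable def sub {N n : ℕ} (π : Fin n → Pl N) (q : Polynomial (Pl n)) (f : Pl N) : Pl N :=
  q.eval₂ (aeval π : Pl n →ₐ[ℂ] Pl N).toRingHom f

theorem eval_aeval {N n : ℕ} (π : Fin n → Pl N) (a : Pl n) (x : Fin N → ℂ) :
    eval x (aeval π a) = eval (pmap π x) a := by
  induction a using MvPolynomial.induction_on with
  | C c => simp
  | add a b ha hb => simp only [map_add, ha, hb]
  | mul_X a i ha => simp only [map_mul, ha, aeval_X, eval_X, pmap]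

theorem eval_sub {N n : ℕ} (π : Fin n → Pl N) (q : Polynomial (Pl n)) (f : Pl N) (x : Fin N → ℂ) :
    eval x (sub π q f) = ev2 q (pmap π x) (eval x f) := by
  unfold sub ev2
  rw [Polynomial.hom_eval₂, Polynomial.eval_map]
  congr 1
  exact RingHom.ext fun a => eval_aeval π a x

theorem mem_zeroLocus {N : ℕ} {p : Ideal (Pl N)} {x : Fin N → ℂ} :
    x ∈ zeroLocus ℂ p ↔ ∀ f ∈ p, eval x f = 0 := by
  simp only [mem_zeroLocus_iff, aeval_eq_eval]

theorem mem_vanishingIdeal {N : ℕ} {U : Set (Fin N → ℂ)} {f : Pl N} :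
    f ∈ vanishingIdeal ℂ U ↔ ∀ x ∈ U, eval x f = 0 := by
  simp only [mem_vanishingIdeal_iff, aeval_eq_eval]

/-- `π` is a Noether projection for the prime ideal `p`. -/
structure Noe {N : ℕ} (p : Ideal (Pl N)) (n : ℕ) (π : Fin n → Pl N) : Prop where
  prime : p.IsPrime
  inj : ∀ a : Pl n, aeval π a ∈ p → a = 0
  int : ∀ f : Pl N, ∃ q : Polynomial (Pl n), q.Monic ∧ sub π q f ∈ p

theorem exists_noe {N : ℕ} (p : Ideal (Pl N)) (hp : p.IsPrime) : ∃ n π, Noe p n π := by
  obtain ⟨n, -, g, hinj, hint⟩ := exists_integral_inj_algHom_of_quotient p hp.ne_top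
  choose π hπ using fun i : Fin n => Ideal.Quotient.mk_surjective (g (X i))
  have hg : g = (Ideal.Quotient.mkₐ ℂ p).comp (aeval π) := by
    ext i
    simp [hπ]
  refine ⟨n, π, hp, fun a ha => ?_, fun f => ?_⟩
  · apply hinj
    rw [hg, map_zero]
    simpa [Ideal.Quotient.eq_zero_iff_mem] using ha
  · obtain ⟨q, hq, h⟩ := hint (Ideal.Quotient.mk p f)
    refine ⟨q, hq, ?_⟩
    rw [← Ideal.Quotient.eq_zero_iff_mem, sub, Polynomial.hom_eval₂, ← h, hg]
    rfl

section
variable {N n : ℕ} {p : Ideal (Pl N)} {π : Fin n → Pl N}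

/-- the algebra structure on the coordinate ring -/
@[reducible] noncomputable def alg (p : Ideal (Pl N)) (π : Fin n → Pl N) : Algebra (Pl n) (Pl N ⧸ p) :=
  ((Ideal.Quotient.mk p).comp (aeval π : Pl n →ₐ[ℂ] Pl N).toRingHom).toAlgebra

theorem aeval_mk (q : Polynomial (Pl n)) (f : Pl N) :
    letI := alg p π
    Polynomial.aeval (Ideal.Quotient.mk p f) q = Ideal.Quotient.mk p (sub π q f) := by
  letI := alg p π
  rw [sub, Polynomial.hom_eval₂, Polynomial.aeval_def]
  rfl

theorem Noe.isIntegral (h : Noe p n π) :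
    letI := alg p π
    Algebra.IsIntegral (Pl n) (Pl N ⧸ p) := by
  letI := alg p π
  refine ⟨fun b => ?_⟩
  obtain ⟨f, rfl⟩ := Ideal.Quotient.mk_surjective b
  obtain ⟨q, hq, hf⟩ := h.int f
  refine ⟨q, hq, ?_⟩
  rw [← Polynomial.aeval_def, aeval_mk, Ideal.Quotient.eq_zero_iff_mem]
  exact hf

theorem Noe.injective (h : Noe p n π) :
    letI := alg p π
    Function.Injective (algebraMap (Pl n) (Pl N ⧸ p)) := by
  letI := alg p π
  rw [injective_iff_map_eq_zero]
  intro a ha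
  apply h.inj
  rw [← Ideal.Quotient.eq_zero_iff_mem]
  exact ha

/-- minimal polynomials -/
theorem Noe.minpoly (h : Noe p n π) (f : Pl N) :
    ∃ q : Polynomial (Pl n), q.Monic ∧ sub π q f ∈ p ∧ ∀ r, sub π r f ∈ p → q ∣ r := by
  letI := alg p π
  haveI := h.prime
  haveI := h.isIntegral
  haveI : Module.IsTorsionFree (Pl n) (Pl N ⧸ p) :=
    Module.isTorsionFree_iff_algebraMap_injective.mpr h.injective
  have hi : IsIntegral (Pl n) (Ideal.Quotient.mk p f) := Algebra.IsIntegral.isIntegral _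
  refine ⟨_root_.minpoly (Pl n) (Ideal.Quotient.mk p f), _root_.minpoly.monic hi, ?_, fun r hr => ?_⟩
  · rw [← Ideal.Quotient.eq_zero_iff_mem, ← aeval_mk]
    exact _root_.minpoly.aeval _ _
  · apply _root_.minpoly.isIntegrallyClosed_dvd hi
    rw [aeval_mk, Ideal.Quotient.eq_zero_iff_mem]
    exact hr

/-- the norm lemma -/
theorem Noe.norm (h : Noe p n π) {f : Pl N} (hf : f ∉ p) :
    ∃ a : Pl n, a ≠ 0 ∧ ∃ g : Pl N, aeval π a - f * g ∈ p := by
  letI := alg p π
  haveI := h.prime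
  haveI := h.isIntegral
  have hi : IsIntegral (Pl n) (Ideal.Quotient.mk p f) := Algebra.IsIntegral.isIntegral _
  have h0 : Ideal.Quotient.mk p f ≠ 0 := by rwa [Ne, Ideal.Quotient.eq_zero_iff_mem]
  have := Ideal.comap_ne_bot_of_integral_mem (R := Pl n) (I := Ideal.span {Ideal.Quotient.mk p f}) h0
    (Ideal.mem_span_singleton_self _) hi
  obtain ⟨a, ha, ha0⟩ := Submodule.exists_mem_ne_zero_of_ne_bot this
  rw [Ideal.mem_comap, Ideal.mem_span_singleton] at ha
  obtain ⟨b, hb⟩ := ha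
  obtain ⟨g, rfl⟩ := Ideal.Quotient.mk_surjective b
  refine ⟨a, ha0, g, ?_⟩
  rw [← Ideal.Quotient.eq_zero_iff_mem, map_sub, map_mul, ← hb, sub_eq_zero]
  rfl

/-- lying over -/
theorem Noe.lift (h : Noe p n π) {f : Pl N} {q : Polynomial (Pl n)}
    (hq : ∀ r, sub π r f ∈ p → q ∣ r) {t : Fin n → ℂ} {l : ℂ} (hl : ev2 q t l = 0) :
    ∃ y ∈ zeroLocus ℂ p, pmap π y = t ∧ eval y f = l := by
  letI := alg p π
  haveI := h.prime
  haveI := h.isIntegral
  let φ : Polynomial (Pl n) →ₐ[Pl n] (Pl N ⧸ p) := Polynomial.aeval (Ideal.Quotient.mk p f)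
  letI : Algebra (Polynomial (Pl n)) (Pl N ⧸ p) := φ.toRingHom.toAlgebra
  haveI : IsScalarTower (Pl n) (Polynomial (Pl n)) (Pl N ⧸ p) :=
    IsScalarTower.of_algebraMap_eq fun a => (φ.commutes a).symm
  haveI : Algebra.IsIntegral (Polynomial (Pl n)) (Pl N ⧸ p) := Algebra.IsIntegral.tower_top (Pl n)
  let χ : Polynomial (Pl n) →+* ℂ := (Polynomial.evalRingHom l).comp (Polynomial.mapRingHom (eval t))
  have hχ : ∀ r, χ r = ev2 r t l := fun r => rfl
  haveI : (RingHom.ker χ).IsMaximal := by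
    refine RingHom.ker_isMaximal_of_surjective χ fun z => ⟨Polynomial.C (C z), ?_⟩
    simp [hχ, ev2]
  have hker : RingHom.ker (algebraMap (Polynomial (Pl n)) (Pl N ⧸ p)) ≤ RingHom.ker χ := by
    intro r hr
    have hr' : φ r = 0 := hr
    have : sub π r f ∈ p := by
      rw [← Ideal.Quotient.eq_zero_iff_mem, ← aeval_mk]; exact hr'
    obtain ⟨s, rfl⟩ := hq r this
    rw [RingHom.mem_ker, map_mul, hχ, hl, zero_mul]
  obtain ⟨Q, hQ, hQc⟩ := Ideal.exists_ideal_over_maximal_of_isIntegral (S := Pl N ⧸ p) _ hker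
  have hM : (Q.comap (Ideal.Quotient.mk p)).IsMaximal :=
    Ideal.comap_isMaximal_of_surjective _ Ideal.Quotient.mk_surjective
  obtain ⟨y, hy⟩ := isMaximal_iff_eq_vanishingIdeal_singleton.mp hM
  have key : ∀ g : Pl N, Ideal.Quotient.mk p g ∈ Q → eval y g = 0 := by
    intro g hg
    have : g ∈ vanishingIdeal ℂ {y} := hy ▸ hg
    exact mem_vanishingIdeal.mp this y rfl
  have key2 : ∀ r : Polynomial (Pl n), ev2 r t l = 0 → eval y (sub π r f) = 0 := by
    intro r hr
    apply key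
    rw [← aeval_mk]
    have : r ∈ Q.comap (algebraMap (Polynomial (Pl n)) (Pl N ⧸ p)) := by
      rw [hQc]; exact hr
    exact this
  refine ⟨y, mem_zeroLocus.mpr fun g hg => key g ?_, ?_, ?_⟩
  · rw [Ideal.Quotient.eq_zero_iff_mem.mpr hg]; exact Q.zero_mem
  · funext i
    have := key2 (Polynomial.C (X i - C (t i))) (by simp [ev2])
    rw [eval_sub] at this
    simpa [ev2, sub_eq_zero] using this
  · have := key2 (Polynomial.X - Polynomial.C (C l)) (by simp [ev2])
    rw [eval_sub] at this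
    simpa [ev2, sub_eq_zero] using this

end

end Crest.Agent.R264.A
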