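import Mathlib
import Crest.Prelude.Def_SemialgDomain

/-!
# Row 264: basic definitions (see `Plan.lean`)
-/

set_option autoImplicit false
open Set Filter Topology Metric Complex
open scoped Matrix ComplexOrder

noncomputable section
namespace Crest.Agent.R264

abbrev CN (n : ℕ) : Type := Fin n → ℂ

/-- `f` is, near every point of `U`, the restriction to `U` of an ambient holomorphic map. -/
def Hol {E F : Type*} [NormedAddCommGroup E] [NormedSpace ℂ E] [NormedAddCommGroup F]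
    [NormedSpace ℂ F] (U : Set E) (f : E → F) : Prop :=
  ∀ x ∈ U, ∃ O : Set E, IsOpen O ∧ x ∈ O ∧ ∃ Φ : E → F, DifferentiableOn ℂ Φ O ∧
    ∀ y ∈ U, y ∈ O → f y = Φ y

/-- A holomorphic parametrisation of a relatively open part of `U`, with an entire left inverse. -/
structure Chart (n : ℕ) {N : ℕ} (U : Set (CN N)) where
  c : CN n → CN N
  l : CN N → CN n
  s : Set (CN n)
  s_open : IsOpen s
  c_diff : DifferentiableOn ℂ c s
  l_diff : Differentiable ℂ l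
  left : ∀ u ∈ s, l (c u) = u
  maps : MapsTo c s U
  nhds : ∀ u ∈ s, c '' s ∈ 𝓝[U] (c u)

/-- Tautness in the quantitative form used everywhere. -/
def TautSet {N : ℕ} (U : Set (CN N)) : Prop :=
  ∀ K : Set (CN N), IsCompact K → K ⊆ U → ∀ ρ : ℝ, ρ < 1 →
    ∃ K' : Set (CN N), IsCompact K' ∧ K' ⊆ U ∧ ∀ f : ℂ → CN N,
      DifferentiableOn ℂ f (ball 0 1) → MapsTo f (ball 0 1) U → f 0 ∈ K →
        MapsTo f (closedBall 0 ρ) K'

/-- A bounded connected taut complex submanifold of `ℂ^N`. -/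
structure TM where
  N : ℕ
  n : ℕ
  U : Set (CN N)
  chart : ∀ x ∈ U, ∃ ch : Chart n U, x ∈ ch.c '' ch.s
  conn : IsConnected U
  bdd : Bornology.IsBounded U
  taut : TautSet U

/-- Tangent space of a subset. -/
def Tan {N : ℕ} (U : Set (CN N)) (x : CN N) : Submodule ℂ (CN N) :=
  Submodule.span ℂ (tangentConeAt ℂ U x)

theorem Hol.zero {E F : Type*} [NormedAddCommGroup E] [NormedSpace ℂ E] [NormedAddCommGroup F]
    [NormedSpace ℂ F] (U : Set E) : Hol U (0 : E → F) := fun _ _ =>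
  ⟨univ, isOpen_univ, mem_univ _, 0, differentiableOn_const 0, fun _ _ _ => rfl⟩

theorem Hol.add {E F : Type*} [NormedAddCommGroup E] [NormedSpace ℂ E] [NormedAddCommGroup F]
    [NormedSpace ℂ F] {U : Set E} {f g : E → F} (hf : Hol U f) (hg : Hol U g) :
    Hol U (f + g) := by
  intro x hx
  obtain ⟨O, hO, hxO, Φ, hΦ, h⟩ := hf x hx
  obtain ⟨O', hO', hxO', Φ', hΦ', h'⟩ := hg x hx
  refine ⟨O ∩ O', hO.inter hO', ⟨hxO, hxO'⟩, Φ + Φ',
    (hΦ.mono inter_subset_left).add (hΦ'.mono inter_subset_right), fun y hy hyO => ?_⟩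
  simp [h y hy hyO.1, h' y hy hyO.2]

theorem Hol.const_smul {E F : Type*} [NormedAddCommGroup E] [NormedSpace ℂ E]
    [NormedAddCommGroup F] [NormedSpace ℂ F] {U : Set E} {f : E → F} (hf : Hol U f) (a : ℂ) :
    Hol U (a • f) := by
  intro x hx
  obtain ⟨O, hO, hxO, Φ, hΦ, h⟩ := hf x hx
  exact ⟨O, hO, hxO, a • Φ, hΦ.const_smul a, fun y hy hyO => by simp [h y hy hyO]⟩

namespace TM
variable (M : TM)

/-- Tangent space. -/
abbrev T (x : CN M.N) : Submodule ℂ (CN M.N) := Tan M.U x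

/-- Derivative within `U` (meaningful on tangent vectors). -/
abbrev D {F : Type*} [NormedAddCommGroup F] [NormedSpace ℂ F] (f : CN M.N → F) (x : CN M.N) :
    CN M.N →L[ℂ] F := fderivWithin ℂ f M.U x

/-- Holomorphic vector fields on `U` (zero off `U`). -/
def VF : Submodule ℂ (CN M.N → CN M.N) where
  carrier := {X | Hol M.U X ∧ (∀ x ∈ M.U, X x ∈ M.T x) ∧ ∀ x ∉ M.U, X x = 0}
  add_mem' := by
    rintro X Y ⟨h1, h2, h3⟩ ⟨h1', h2', h3'⟩
    exact ⟨h1.add h1', fun x hx => add_mem (h2 x hx) (h2' x hx),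
      fun x hx => by simp [h3 x hx, h3' x hx]⟩
  zero_mem' := ⟨Hol.zero _, fun _ _ => zero_mem _, fun _ _ => rfl⟩
  smul_mem' := by
    rintro a X ⟨h1, h2, h3⟩
    exact ⟨h1.const_smul a, fun x hx => Submodule.smul_mem _ a (h2 x hx),
      fun x hx => by simp [h3 x hx]⟩

/-- The bracket of vector fields, `[X,Y] = DY(X) - DX(Y)`. -/
def br (X Y : CN M.N → CN M.N) : CN M.N → CN M.N :=
  M.U.indicator fun x => M.D Y x (X x) - M.D X x (Y x)

open Classical in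
/-- A permutation of `U` as a map of the ambient space (zero off `U`). -/
def act (h : Equiv.Perm M.U) : CN M.N → CN M.N :=
  fun x => if hx : x ∈ M.U then (h ⟨x, hx⟩ : CN M.N) else 0

/-- Push-forward of a vector field by a permutation. -/
def push (h : Equiv.Perm M.U) (X : CN M.N → CN M.N) : CN M.N → CN M.N :=
  M.U.indicator fun x => M.D (M.act h) (M.act h⁻¹ x) (X (M.act h⁻¹ x))

end TM

/-- An endomorphism that is skew for some positive definite symmetric form. -/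
def IsSkew {V : Type*} [AddCommGroup V] [Module ℝ V] (f : Module.End ℝ V) : Prop :=
  ∃ β : LinearMap.BilinForm ℝ V, (∀ u v, β u v = β v u) ∧ (∀ v, v ≠ 0 → 0 < β v v) ∧
    ∀ u v, β (f u) v + β u (f v) = 0

/-! ### Polynomials in `(x, conj x)` -/

abbrev P2 (N : ℕ) : Type := MvPolynomial (Fin N ⊕ Fin N) ℂ

/-- Evaluation of a polynomial in two groups of variables; the second group stands for the
conjugate coordinates. -/
def pe {N : ℕ} (P : P2 N) (x y : CN N) : ℂ := MvPolynomial.eval (Sum.elim x y) P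

/-- Hermitian symmetry (the function `x ↦ pe P x (star x)` is real). -/
def IsHerm {N : ℕ} (P : P2 N) : Prop := ∀ x y : CN N, pe P x y = star (pe P (star y) (star x))

/-- The real function attached to a Hermitian polynomial. -/
def rv {N : ℕ} (P : P2 N) (x : CN N) : ℝ := (pe P x (star x)).re

/-- Derivative in the first group of variables, at `(x, y)`, along `v`. -/
def dx {N : ℕ} (P : P2 N) (x y v : CN N) : ℂ := fderiv ℂ (fun x' => pe P x' y) x v

/-- Sets covered by countably many Lipschitz images of real codimension two. -/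
def Thin2 {n : ℕ} (A : Set (CN n)) : Prop :=
  ∃ (f : ℕ → (Fin (2 * n - 2) → ℝ) → CN n) (S : ℕ → Set (Fin (2 * n - 2) → ℝ)),
    (∀ i, ∃ C : NNReal, LipschitzOnWith C (f i) (S i)) ∧ A ⊆ ⋃ i, f i '' S i

/-- Algebraic frame: the irreducible variety `V` containing `U` as an open subset, a finite
projection `π`, a discriminant `D` and polynomial vector fields `ξ i = D • ∂/∂π_i`. -/
structure AlgFrame {N : ℕ} (n : ℕ) (U : Set (CN N)) where
  I : Ideal (MvPolynomial (Fin N) ℂ)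
  π : Fin n → MvPolynomial (Fin N) ℂ
  D : MvPolynomial (Fin n) ℂ
  ξ : Fin n → Fin N → MvPolynomial (Fin N) ℂ
  prime : I.IsPrime
  isOpen : ∃ O : Set (CN N), IsOpen O ∧ U = O ∩ MvPolynomial.zeroLocus ℂ I
  exists_ne : ∃ x ∈ U, MvPolynomial.eval (fun i => MvPolynomial.eval x (π i)) D ≠ 0
  indep : ∀ q : MvPolynomial (Fin n) ℂ, MvPolynomial.aeval π q ∈ I → q = 0
  integral : ∀ a : Fin N, ∃ q : Polynomial (MvPolynomial (Fin n) ℂ), q.Monic ∧
    q.eval₂ (MvPolynomial.aeval π : MvPolynomial (Fin n) ℂ →ₐ[ℂ] _).toRingHom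
      (MvPolynomial.X a) ∈ I
  sect : ∀ x ∈ MvPolynomial.zeroLocus ℂ I,
    MvPolynomial.eval (fun i => MvPolynomial.eval x (π i)) D ≠ 0 →
    ∃ ch : Chart n (MvPolynomial.zeroLocus ℂ I : Set (CN N)), x ∈ ch.c '' ch.s ∧
      (ch.l = fun y i => MvPolynomial.eval y (π i)) ∧
      ∀ u ∈ ch.s, MvPolynomial.eval u D ≠ 0 ∧ ∀ i,
        MvPolynomial.eval u D • fderiv ℂ ch.c u (Pi.single i 1) =
          fun a => MvPolynomial.eval (ch.c u) (ξ i a)
  deriv : ∀ (K : Type) [Field K] (φ : ℂ →+* K) (Y : Fin N → K),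
    (∀ f ∈ I, MvPolynomial.eval₂ φ Y f = 0) → ∀ δ : Derivation ℤ K K, (∀ c, δ (φ c) = 0) →
    ∀ a, MvPolynomial.eval₂ φ (fun i => MvPolynomial.eval₂ φ Y (π i)) D * δ (Y a) =
      ∑ i, MvPolynomial.eval₂ φ Y (ξ i a) * δ (MvPolynomial.eval₂ φ Y (π i))

namespace AlgFrame
variable {N n : ℕ} {U : Set (CN N)} (F : AlgFrame n U)

/-- The variety. -/
def V : Set (CN N) := MvPolynomial.zeroLocus ℂ F.I
/-- The projection as a map. -/
def pr (x : CN N) : CN n := fun i => MvPolynomial.eval x (F.π i)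
/-- The discriminant as a function on the ambient space. -/
def dv (x : CN N) : ℂ := MvPolynomial.eval (F.pr x) F.D
/-- The frame vector fields as maps. -/
def xi (i : Fin n) (x : CN N) : CN N := fun a => MvPolynomial.eval x (F.ξ i a)

/-- `ch` is a local section of the projection, off the discriminant. -/
def IsSect (ch : Chart n F.V) : Prop :=
  ch.l = F.pr ∧ ∀ u ∈ ch.s, MvPolynomial.eval u F.D ≠ 0 ∧ ∀ i,
    MvPolynomial.eval u F.D • fderiv ℂ ch.c u (Pi.single i 1) = F.xi i (ch.c u)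

/-- `p` is a boundary point near which `U` contains the side `ρ > 0` of the smooth real
hypersurface `ρ = 0` of `V`, misses the hypersurface, and contains or misses the other side. -/
structure GoodSide (p : CN N) (ρ : P2 N) : Prop where
  herm : IsHerm ρ
  mem : p ∈ F.V
  dv_ne : F.dv p ≠ 0
  zero : rv ρ p = 0
  grad : ∃ i, dx ρ p (star p) (F.xi i p) ≠ 0
  nbhd : ∃ O : Set (CN N), IsOpen O ∧ p ∈ O ∧
    (∀ x ∈ O ∩ F.V, 0 < rv ρ x → x ∈ U) ∧ (∀ x ∈ O ∩ F.V, rv ρ x = 0 → x ∉ U) ∧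
    ((∀ x ∈ O ∩ F.V, rv ρ x < 0 → x ∈ U) ∨ (∀ x ∈ O ∩ F.V, rv ρ x < 0 → x ∉ U))

/-- Good boundary points. -/
def Gd : Set (CN N) := {p | ∃ ρ, F.GoodSide p ρ}

/-- Bad boundary points off the discriminant. -/
def Bad : Set (CN N) := {p | p ∈ closure U ∧ p ∉ U ∧ F.dv p ≠ 0 ∧ p ∉ F.Gd}

end AlgFrame

/-! ### The model domains -/

/-- Model space. -/
abbrev PM (r k : ℕ) : Type := ℂ × CN r × CN k

/-- `ζ ↦ ζ + κ ζbar`. -/
def bz {r : ℕ} (κ : Matrix (Fin r) (Fin r) ℂ) (ζ : CN r) : CN r := ζ + κ *ᵥ star ζ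

/-- The inverse of `bz κ` for symmetric `κ` of norm `< 1`. -/
def bzInv {r : ℕ} (κ : Matrix (Fin r) (Fin r) ℂ) (z : CN r) : CN r :=
  (1 - κ * κ.map star)⁻¹ *ᵥ (z - κ *ᵥ star z)

/-- The quadratic form of the model: `Q (bz ζ) = Re (ζbar · bz ζ)`. -/
def Qk {r : ℕ} (κ : Matrix (Fin r) (Fin r) ℂ) (z : CN r) : ℝ := (star (bzInv κ z) ⬝ᵥ z).re

/-- Symmetric matrices of operator norm `< 1`. -/
def Small {r : ℕ} (κ : Matrix (Fin r) (Fin r) ℂ) : Prop :=
  κ.IsSymm ∧ (1 - κᴴ * κ).PosDef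

/-- The model domain over `T`. -/
def Wm {r k : ℕ} (κ : CN k → Matrix (Fin r) (Fin r) ℂ) (T : Set (CN k)) : Set (PM r k) :=
  {ω | ω.2.2 ∈ T ∧ Qk (κ ω.2.2) ω.2.1 < ω.1.im}

/-- The dilation field. -/
def fA {r k : ℕ} (ω : PM r k) : PM r k := (ω.1, (1 / 2 : ℂ) • ω.2.1, 0)
/-- The central translation field. -/
def fZ {r k : ℕ} (_ : PM r k) : PM r k := (1, 0, 0)
/-- The Heisenberg fields. -/
def fX {r k : ℕ} (κ : CN k → Matrix (Fin r) (Fin r) ℂ) (ζ : CN r) (ω : PM r k) : PM r k :=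
  (2 * I * (star ζ ⬝ᵥ ω.2.1), bz (κ ω.2.2) ζ, 0)

/-- Base data of a model: a ball `T` and a holomorphic family of small symmetric matrices. -/
structure MBase (r k : ℕ) where
  t0 : CN k
  R : ℝ
  R_pos : 0 < R
  κ : CN k → Matrix (Fin r) (Fin r) ℂ
  κ_diff : ∀ i j, DifferentiableOn ℂ (fun t => κ t i j) (ball t0 R)
  small : ∀ t ∈ ball t0 R, Small (κ t)

/-- The model domain. -/
def MBase.W {r k : ℕ} (b : MBase r k) : Set (PM r k) := Wm b.κ (ball b.t0 b.R)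

/-- Abstract graded model: a finite-dimensional real Lie algebra of holomorphic vector fields on a
model domain, with the properties coming from a proper action on a taut manifold. -/
structure GM (𝔤 : Type) [LieRing 𝔤] [LieAlgebra ℝ 𝔤] (r k : ℕ) extends MBase r k where
  ev : 𝔤 →ₗ[ℝ] (PM r k → PM r k)
  diff : ∀ X, DifferentiableOn ℂ (ev X) toMBase.W
  lie : ∀ X Y, ∀ ω ∈ toMBase.W, ev ⁅X, Y⁆ ω = VectorField.lieBracket ℂ (ev X) (ev Y) ω
  A : 𝔤
  Z : 𝔤
  Xn : CN r →ₗ[ℝ] 𝔤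
  evA : ∀ ω ∈ toMBase.W, ev A ω = fA ω
  evZ : ∀ ω ∈ toMBase.W, ev Z ω = fZ ω
  evX : ∀ ζ, ∀ ω ∈ toMBase.W, ev (Xn ζ) ω = fX κ ζ ω
  jet : ∀ X, ∀ ω ∈ toMBase.W, ev X ω = 0 → fderiv ℂ (ev X) ω = 0 → X = 0
  ell : ∀ X, ∀ ω ∈ toMBase.W, ev X ω = 0 → IsSkew (LieAlgebra.ad ℝ 𝔤 X)
  noC : ∀ X Y, ⁅X, Y⁆ = 0 → ∀ ω ∈ toMBase.W, ∀ c : ℂ, c.im ≠ 0 → ev Y ω = c • ev X ω →
    ev X ω = 0
  tang : ∀ X, ∀ (c : ℝ → PM r k) (ε : ℝ), 0 < ε →
    (∀ s ∈ Ioo (0 : ℝ) ε, c s ∈ toMBase.W ∧ HasDerivAt c (ev X (c s)) s) →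
    ∀ ω : PM r k, ω.2.2 ∈ ball t0 R → Tendsto c (𝓝[>] 0) (𝓝 ω) → ω ∈ toMBase.W
  uni : ∀ X, LinearMap.trace ℝ 𝔤 (LieAlgebra.ad ℝ 𝔤 X) = 0

end Crest.Agent.R264
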