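import Crest.Agent.R264.A0
import Crest.Agent.R264.Defs

/-!
# Row 264, part P0: topology of a Noether projection
-/

set_option autoImplicit false
open Set Filter Topology Metric

namespace Crest.Agent.R264.A

open MvPolynomial

theorem analyticAt_eval {N : ℕ} (f : Pl N) (x : CN N) : AnalyticAt ℂ (fun y : CN N => eval y f) x :=
  AnalyticOnNhd.eval_mvPolynomial f x (mem_univ x)

theorem differentiable_eval {N : ℕ} (f : Pl N) : Differentiable ℂ (fun y : CN N => eval y f) :=
  fun x => (analyticAt_eval f x).differentiableAt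

theorem continuous_eval' {N : ℕ} (f : Pl N) : Continuous (fun y : CN N => eval y f) :=
  (differentiable_eval f).continuous

theorem analyticAt_pmap {N n : ℕ} (π : Fin n → Pl N) (x : CN N) : AnalyticAt ℂ (pmap π) x :=
  analyticAt_pi_iff.mpr fun i => analyticAt_eval (π i) x

theorem differentiable_pmap {N n : ℕ} (π : Fin n → Pl N) : Differentiable ℂ (pmap π) :=
  fun x => (analyticAt_pmap π x).differentiableAt

theorem continuous_pmap {N n : ℕ} (π : Fin n → Pl N) : Continuous (pmap π) :=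
  (differentiable_pmap π).continuous

theorem isClosed_zeroLocus {N : ℕ} (I : Ideal (Pl N)) : IsClosed (zeroLocus ℂ I : Set (CN N)) := by
  have : (zeroLocus ℂ I : Set (CN N)) = ⋂ f ∈ I, {y | eval y f = 0} := by
    ext y; simp only [mem_zeroLocus, mem_iInter, mem_ofPred_eq]
  rw [this]
  exact isClosed_biInter fun f _ => isClosed_eq (continuous_eval' f) continuous_const

theorem ev2_add {n : ℕ} (q r : Polynomial (Pl n)) (t : CN n) (l : ℂ) :
    ev2 (q + r) t l = ev2 q t l + ev2 r t l := by simp [ev2]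

theorem ev2_monomial {n : ℕ} (k : ℕ) (a : Pl n) (t : CN n) (l : ℂ) :
    ev2 (Polynomial.monomial k a) t l = eval t a * l ^ k := by simp [ev2]

theorem analyticAt_ev2 {n : ℕ} (q : Polynomial (Pl n)) (z : CN n × ℂ) :
    AnalyticAt ℂ (fun z : CN n × ℂ => ev2 q z.1 z.2) z := by
  induction q using Polynomial.induction_on' with
  | add p q hp hq => simp only [ev2_add]; exact hp.add hq
  | monomial k a =>
    simp only [ev2_monomial]
    exact ((analyticAt_eval a z.1).comp analyticAt_fst).mul (analyticAt_snd.pow k)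

theorem continuous_ev2 {n : ℕ} (q : Polynomial (Pl n)) :
    Continuous (fun z : CN n × ℂ => ev2 q z.1 z.2) :=
  continuous_iff_continuousAt.mpr fun z => (analyticAt_ev2 q z).continuousAt

/-- roots of a monic polynomial with bounded parameters are bounded -/
theorem root_bound {n : ℕ} {q : Polynomial (Pl n)} (hq : q.Monic) (R : ℝ) :
    ∃ C : ℝ, ∀ t : CN n, ‖t‖ ≤ R → ∀ l, ev2 q t l = 0 → ‖l‖ ≤ C := by
  have hb : ∀ i, ∃ C : NNReal, ∀ t : CN n, ‖t‖ ≤ R → ‖eval t (q.coeff i)‖₊ ≤ C := by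
    intro i
    obtain ⟨C, hC⟩ := (isCompact_closedBall (0 : CN n) R).exists_bound_of_continuousOn
      (continuous_eval' (q.coeff i)).continuousOn
    refine ⟨⟨max C 0, le_max_right _ _⟩, fun t ht => ?_⟩
    have := hC t (by simpa using ht)
    exact_mod_cast this.trans (le_max_left _ _)
  choose C hC using hb
  refine ⟨((Finset.range q.natDegree).sup C : NNReal) + 1, fun t ht l hl => ?_⟩
  have hm : (q.map (eval t)).Monic := hq.map _
  have h1 := Polynomial.IsRoot.norm_lt_cauchyBound hm.ne_zero (a := l) hl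
  have h2 : (q.map (eval t)).cauchyBound ≤ (Finset.range q.natDegree).sup C + 1 := by
    unfold Polynomial.cauchyBound
    rw [hm.leadingCoeff, nnnorm_one, div_one, hq.natDegree_map]
    gcongr with i hi
    rw [Polynomial.coeff_map]
    exact hC i t ht
  exact_mod_cast (h1.trans_le h2).le

/-- continuity of roots -/
theorem root_near {n : ℕ} {q : Polynomial (Pl n)} (hq : q.Monic) {t0 : CN n} {l0 : ℂ}
    (h0 : ev2 q t0 l0 = 0) {ε : ℝ} (hε : 0 < ε) :
    ∀ᶠ t in 𝓝 t0, ∃ l, ev2 q t l = 0 ∧ ‖l - l0‖ < ε := by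
  have hc : ContinuousAt (fun t : CN n => ‖ev2 q t l0‖) t0 :=
    ((continuous_ev2 q).comp (continuous_id.prodMk continuous_const)).norm.continuousAt
  have : ∀ᶠ t in 𝓝 t0, ‖ev2 q t l0‖ < ε ^ q.natDegree :=
    hc.eventually_lt continuousAt_const (by simpa [h0] using pow_pos hε _)
  filter_upwards [this] with t ht
  by_contra! hcon
  have hm : (q.map (eval t)).Monic := hq.map _
  have hs : (q.map (eval t)).Splits := IsAlgClosed.splits _
  have h1 : ev2 q t l0 = ((q.map (eval t)).roots.map (l0 - ·)).prod := hs.eval_eq_prod_roots_of_monic hm l0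
  have hcard : (q.map (eval t)).roots.card = q.natDegree := by
    rw [← hs.natDegree_eq_card_roots, hq.natDegree_map]
  have h2 : ε ^ q.natDegree ≤ ‖ev2 q t l0‖ := by
    rw [h1, ← hcard]
    have : ∀ s : Multiset ℂ, (∀ l ∈ s, ε ≤ ‖l - l0‖) → ε ^ s.card ≤ ‖(s.map (l0 - ·)).prod‖ := by
      intro s
      induction s using Multiset.induction_on with
      | empty => simp
      | cons a s ih =>
        intro h
        simp only [Multiset.card_cons, Multiset.map_cons, Multiset.prod_cons, norm_mul, pow_succ']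
        have ha := h a (Multiset.mem_cons_self _ _)
        rw [norm_sub_rev] at ha
        exact mul_le_mul ha (ih fun l hl => h l (Multiset.mem_cons_of_mem hl)) (by positivity)
          (norm_nonneg _)
    refine this _ fun l hl => hcon l ?_
    exact (Polynomial.mem_roots hm.ne_zero).mp hl
  exact absurd ht (not_lt.mpr h2)

theorem dense_ne {n : ℕ} {a : Pl n} (ha : a ≠ 0) : Dense {t : CN n | eval t a ≠ 0} := by
  rw [dense_iff_inter_open]
  rintro O hO ⟨t0, ht0⟩
  by_contra hcon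
  apply ha
  have h1 : (fun t : CN n => eval t a) =ᶠ[𝓝 t0] 0 := by
    filter_upwards [hO.mem_nhds ht0] with t ht
    by_contra h
    exact hcon ⟨t, ht, h⟩
  have h2 := (AnalyticOnNhd.eval_mvPolynomial a).eqOn_zero_of_preconnected_of_eventuallyEq_zero
    isPreconnected_univ (mem_univ t0) h1
  exact MvPolynomial.funext fun x => by simpa using h2 (mem_univ x)

theorem exists_sep {N : ℕ} {S : Set (CN N)} (hS : S.Finite) {y0 : CN N} (hy : y0 ∉ S) :
    ∃ f : Pl N, eval y0 f ≠ 0 ∧ ∀ y ∈ S, eval y f = 0 := by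
  induction S, hS using Set.Finite.induction_on with
  | empty => exact ⟨1, by simp, by simp⟩
  | @insert a s _ _ ih =>
    obtain ⟨f, hf, hf'⟩ := ih fun h => hy (mem_insert_of_mem _ h)
    have : y0 ≠ a := fun h => hy (h ▸ mem_insert _ _)
    obtain ⟨i, hi⟩ := Function.ne_iff.mp this
    refine ⟨f * (X i - C (a i)), ?_, ?_⟩
    · simpa [sub_eq_zero, hf] using hi
    · rintro y (rfl | hy)
      · simp
      · simp [hf' y hy]

section
variable {N n : ℕ} {p : Ideal (Pl N)} {π : Fin n → Pl N}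

theorem ev2_of_mem {q : Polynomial (Pl n)} {f : Pl N} (hq : sub π q f ∈ p) {y : CN N}
    (hy : y ∈ zeroLocus ℂ p) : ev2 q (pmap π y) (eval y f) = 0 := by
  rw [← eval_sub]; exact mem_zeroLocus.mp hy _ hq

theorem Noe.bounded (h : Noe p n π) (R : ℝ) :
    ∃ C : ℝ, ∀ y ∈ (zeroLocus ℂ p : Set (CN N)), ‖pmap π y‖ ≤ R → ‖y‖ ≤ C := by
  choose q hq hq' using fun i => h.int (X i)
  choose C hC using fun i => root_bound (hq i) R
  refine ⟨∑ i, |C i|, fun y hy hR => ?_⟩
  refine (pi_norm_le_iff_of_nonneg (by positivity)).mpr fun i => ?_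
  have := hC i _ hR _ (ev2_of_mem (hq' i) hy)
  rw [eval_X] at this
  exact this.trans ((le_abs_self _).trans
    (Finset.single_le_sum (f := fun i => |C i|) (fun _ _ => abs_nonneg _) (Finset.mem_univ i)))

theorem Noe.fibre (h : Noe p n π) : ∃ e : ℕ, ∀ t : CN n,
    {y ∈ (zeroLocus ℂ p : Set (CN N)) | pmap π y = t}.Finite ∧
      {y ∈ (zeroLocus ℂ p : Set (CN N)) | pmap π y = t}.ncard ≤ e := by
  classical
  choose q hq hq' using fun i => h.int (X i)
  refine ⟨∏ i, (q i).natDegree, fun t => ?_⟩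
  let S : Finset (CN N) := Fintype.piFinset fun i => ((q i).map (eval t)).roots.toFinset
  have hsub : {y ∈ (zeroLocus ℂ p : Set (CN N)) | pmap π y = t} ⊆ S := by
    rintro y ⟨hy, rfl⟩
    simp only [S, Finset.mem_coe, Fintype.mem_piFinset, Multiset.mem_toFinset]
    intro i
    rw [Polynomial.mem_roots ((hq i).map _).ne_zero]
    have := ev2_of_mem (hq' i) hy
    rwa [eval_X] at this
  refine ⟨S.finite_toSet.subset hsub, (Set.ncard_le_ncard hsub S.finite_toSet).trans ?_⟩
  rw [Set.ncard_coe_finset, Fintype.card_piFinset]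
  refine Finset.prod_le_prod' fun i _ => (Multiset.toFinset_card_le _).trans ?_
  exact (Polynomial.card_roots' _).trans ((hq i).natDegree_map _).le

/-- properness: a neighbourhood of a fibre contains the nearby fibres -/
theorem Noe.tube (h : Noe p n π) (t0 : CN n) {W : Set (CN N)} (hW : IsOpen W)
    (hfib : ∀ y ∈ (zeroLocus ℂ p : Set (CN N)), pmap π y = t0 → y ∈ W) :
    ∀ᶠ t in 𝓝 t0, ∀ y ∈ (zeroLocus ℂ p : Set (CN N)), pmap π y = t → y ∈ W := by
  obtain ⟨C, hC⟩ := h.bounded (‖t0‖ + 1)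
  have hK : IsCompact ((closedBall (0 : CN N) C ∩ zeroLocus ℂ p) \ W) :=
    ((isCompact_closedBall _ _).inter_right (isClosed_zeroLocus p)).diff hW
  have hcl : IsClosed (pmap π '' ((closedBall (0 : CN N) C ∩ zeroLocus ℂ p) \ W)) :=
    (hK.image (continuous_pmap π)).isClosed
  have h0 : t0 ∈ (pmap π '' ((closedBall (0 : CN N) C ∩ zeroLocus ℂ p) \ W))ᶜ := by
    rintro ⟨y, ⟨⟨-, hy⟩, hyW⟩, hyt⟩
    exact hyW (hfib y hy hyt)
  filter_upwards [hcl.isOpen_compl.mem_nhds h0, ball_mem_nhds t0 one_pos] with t ht ht1 y hy hyt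
  by_contra hyW
  refine ht ⟨y, ⟨⟨?_, hy⟩, hyW⟩, hyt⟩
  rw [mem_closedBall_zero_iff]
  refine hC y hy ?_
  rw [hyt]
  have := mem_ball_iff_norm.mp ht1
  calc ‖t‖ = ‖t0 + (t - t0)‖ := by simp
    _ ≤ ‖t0‖ + ‖t - t0‖ := norm_add_le _ _
    _ ≤ _ := by linarith

/-- a Noether projection is an open map -/
theorem Noe.opn (h : Noe p n π) {y0 : CN N} (hy0 : y0 ∈ (zeroLocus ℂ p : Set (CN N)))
    {W : Set (CN N)} (hW : W ∈ 𝓝 y0) :
    ∀ᶠ t in 𝓝 (pmap π y0), ∃ y ∈ (zeroLocus ℂ p : Set (CN N)), y ∈ W ∧ pmap π y = t := by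
  obtain ⟨e, he⟩ := h.fibre
  obtain ⟨f, hf0, hf⟩ := exists_sep (S := {y ∈ (zeroLocus ℂ p : Set (CN N)) | pmap π y = pmap π y0} \ {y0})
    ((he _).1.subset sdiff_subset) (y0 := y0) (by simp)
  obtain ⟨q, hq, hq1, hq2⟩ := h.minpoly f
  have hpos : 0 < ‖eval y0 f‖ / 2 := by positivity
  have hopen : IsOpen (interior W ∪ {y : CN N | ‖eval y f‖ < ‖eval y0 f‖ / 2}) :=
    isOpen_interior.union (isOpen_lt (continuous_eval' f).norm continuous_const)
  have h1 := h.tube (pmap π y0) hopen (by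
    intro y hy hyt
    by_cases hyy : y = y0
    · left; rw [hyy]; exact mem_interior_iff_mem_nhds.mpr hW
    · right
      have := hf y ⟨⟨hy, hyt⟩, hyy⟩
      simpa [this] using hpos)
  filter_upwards [h1, root_near hq (ev2_of_mem hq1 hy0) hpos] with t ht ⟨l, hl, hl'⟩
  obtain ⟨y, hy, hyt, hyl⟩ := h.lift hq2 hl
  refine ⟨y, hy, ?_, hyt⟩
  rcases ht y hy hyt with h' | h'
  · exact interior_subset h'
  · exfalso
    simp only [mem_ofPred_eq, hyl] at h'
    have : ‖eval y0 f‖ ≤ ‖l‖ + ‖l - eval y0 f‖ := by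
      calc ‖eval y0 f‖ = ‖l - (l - eval y0 f)‖ := by simp
        _ ≤ _ := norm_sub_le _ _
    linarith

/-- the complement of a hypersurface pulled back by `π` is dense -/
theorem Noe.dense_pull (h : Noe p n π) {a : Pl n} (ha : a ≠ 0) {y0 : CN N}
    (hy0 : y0 ∈ (zeroLocus ℂ p : Set (CN N))) :
    y0 ∈ closure {y ∈ (zeroLocus ℂ p : Set (CN N)) | eval (pmap π y) a ≠ 0} := by
  rw [mem_closure_iff_nhds]
  intro W hW
  obtain ⟨t, ⟨y, hy, hyW, rfl⟩, ht⟩ := (dense_ne ha).inter_nhds_nonempty (h.opn hy0 hW) |>.imp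
    fun t ht => ht.symm
  exact ⟨y, hyW, hy, ht⟩

/-- Zariski open sets are dense -/
theorem Noe.dense (h : Noe p n π) {f : Pl N} (hf : f ∉ p) {y0 : CN N}
    (hy0 : y0 ∈ (zeroLocus ℂ p : Set (CN N))) :
    y0 ∈ closure {y ∈ (zeroLocus ℂ p : Set (CN N)) | eval y f ≠ 0} := by
  obtain ⟨a, ha, g, hg⟩ := h.norm hf
  refine closure_mono ?_ (h.dense_pull ha hy0)
  rintro y ⟨hy, hya⟩
  refine ⟨hy, fun h0 => hya ?_⟩
  have := mem_zeroLocus.mp hy _ hg
  rw [map_sub, map_mul, h0, zero_mul, sub_zero, eval_aeval] at this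
  exact this

end

end Crest.Agent.R264.A
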