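import Crest.Agent.R264.A1

/-!
# Row 264, part P0: local sections of a Noether projection and the algebraic frame
-/

set_option autoImplicit false
open Set Filter Topology Metric

namespace Crest.Agent.R264.A

open MvPolynomial

theorem hasFDerivAt_eval {σ : Type} [Fintype σ] [DecidableEq σ] (f : MvPolynomial σ ℂ) (x : σ → ℂ) :
    HasFDerivAt (fun y : σ → ℂ => eval y f)
      (∑ b, eval x (pderiv b f) • (ContinuousLinearMap.proj b : (σ → ℂ) →L[ℂ] ℂ)) x := by
  induction f using MvPolynomial.induction_on with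
  | C c =>
    simp only [eval_C]
    refine (hasFDerivAt_const (𝕜 := ℂ) c x).congr_fderiv (ContinuousLinearMap.ext fun v => ?_)
    simp
  | add a b ha hb =>
    simp only [map_add]
    refine (ha.add hb).congr_fderiv (ContinuousLinearMap.ext fun v => ?_)
    simp [add_mul, Finset.sum_add_distrib]
  | mul_X a i ha =>
    simp only [map_mul, eval_X]
    refine (ha.mul (hasFDerivAt_apply i x)).congr_fderiv (ContinuousLinearMap.ext fun v => ?_)
    simp [Derivation.leibniz, pderiv_X, Pi.single_apply, add_mul, Finset.sum_add_distrib,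
      Finset.mul_sum, mul_assoc, apply_ite]

theorem fderiv_eval {σ : Type} [Fintype σ] [DecidableEq σ] (f : MvPolynomial σ ℂ) (x v : σ → ℂ) :
    fderiv ℂ (fun y : σ → ℂ => eval y f) x v = ∑ b, eval x (pderiv b f) * v b := by
  rw [(hasFDerivAt_eval f x).fderiv]
  simp

/-- coefficientwise partial derivative -/
noncomputable def dq {n : ℕ} (k : Fin n) (q : Polynomial (Pl n)) : Polynomial (Pl n) :=
  q.sum fun j a => Polynomial.monomial j (pderiv k a)

theorem dq_add {n : ℕ} (k : Fin n) (q r : Polynomial (Pl n)) : dq k (q + r) = dq k q + dq k r := by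
  unfold dq
  rw [Polynomial.sum_add_index] <;> simp

theorem dq_monomial {n : ℕ} (k : Fin n) (j : ℕ) (a : Pl n) :
    dq k (Polynomial.monomial j a) = Polynomial.monomial j (pderiv k a) := by
  unfold dq
  rw [Polynomial.sum_monomial_index]; simp

theorem hasFDerivAt_ev2 {n : ℕ} (q : Polynomial (Pl n)) (z : CN n × ℂ) :
    HasFDerivAt (fun z : CN n × ℂ => ev2 q z.1 z.2)
      ((∑ k, ev2 (dq k q) z.1 z.2 • (ContinuousLinearMap.proj k : CN n →L[ℂ] ℂ)).comp
          (ContinuousLinearMap.fst ℂ _ _) +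
        ev2 q.derivative z.1 z.2 • ContinuousLinearMap.snd ℂ (CN n) ℂ) z := by
  induction q using Polynomial.induction_on' with
  | add p q hp hq =>
    simp only [ev2_add, dq_add, map_add]
    refine (hp.add hq).congr_fderiv (ContinuousLinearMap.ext fun v => ?_)
    simp [add_mul, Finset.sum_add_distrib]
    ring
  | monomial j a =>
    simp only [ev2_monomial, dq_monomial, Polynomial.derivative_monomial]
    refine (((hasFDerivAt_eval a z.1).comp z hasFDerivAt_fst).mul
      ((hasFDerivAt_snd (𝕜 := ℂ) (p := z)).pow j)).congr_fderiv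
      (ContinuousLinearMap.ext fun v => ?_)
    simp [Finset.mul_sum, mul_comm, mul_left_comm, add_comm]
    ring

/-- simple roots depend analytically on the parameters -/
theorem root_fun {n : ℕ} {q : Polynomial (Pl n)} {t0 : CN n} {l0 : ℂ} (h0 : ev2 q t0 l0 = 0)
    (h1 : ev2 q.derivative t0 l0 ≠ 0) :
    ∃ ψ : CN n → ℂ, AnalyticAt ℂ ψ t0 ∧
      ∀ᶠ z in 𝓝 (t0, l0), ev2 q z.1 z.2 = 0 ↔ ψ z.1 = z.2 := by
  have cdf : ContDiffAt ℂ ⊤ (fun z : CN n × ℂ => ev2 q z.1 z.2) (t0, l0) :=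
    (analyticAt_ev2 q _).contDiffAt
  have hinv : (fderiv ℂ (fun z : CN n × ℂ => ev2 q z.1 z.2) (t0, l0) ∘L
      .inr ℂ (CN n) ℂ).IsInvertible := by
    rw [(hasFDerivAt_ev2 q _).fderiv]
    refine ⟨ContinuousLinearEquiv.unitsEquivAut ℂ (Units.mk0 _ h1), ?_⟩
    ext; simp
  refine ⟨cdf.implicitFunction (by simp) hinv, ?_, ?_⟩
  · exact (cdf.contDiffAt_implicitFunction (by simp) hinv).analyticAt
  · simpa [h0] using cdf.eventually_apply_eq_iff_implicitFunction (by simp) hinv

section deriv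
variable {K : Type} [CommRing K] (φ : ℂ →+* K) (δ : Derivation ℤ K K)

theorem deriv_eval₂ (hδ : ∀ c, δ (φ c) = 0) {σ : Type} [Fintype σ] [DecidableEq σ] (T : σ → K)
    (a : MvPolynomial σ ℂ) :
    δ (eval₂ φ T a) = ∑ k, eval₂ φ T (pderiv k a) * δ (T k) := by
  induction a using MvPolynomial.induction_on with
  | C c => simp [hδ]
  | add a b ha hb => simp only [eval₂_add, map_add, ha, hb, add_mul, Finset.sum_add_distrib]
  | mul_X a i ha =>
    simp only [eval₂_mul, eval₂_X, Derivation.leibniz, ha, pderiv_X, Pi.single_apply, smul_eq_mul,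
      eval₂_add, add_mul, Finset.sum_add_distrib, Finset.mul_sum, apply_ite (eval₂ φ T), eval₂_one,
      eval₂_zero, mul_ite, mul_one, mul_zero, ite_mul, zero_mul, Finset.sum_ite_eq,
      Finset.mem_univ, if_true, mul_assoc]

theorem deriv_eval₂' (hδ : ∀ c, δ (φ c) = 0) {n : ℕ} (T : Fin n → K) (y : K)
    (q : Polynomial (Pl n)) :
    δ (q.eval₂ (eval₂Hom φ T) y) = q.derivative.eval₂ (eval₂Hom φ T) y * δ y +
      ∑ k, (dq k q).eval₂ (eval₂Hom φ T) y * δ (T k) := by
  induction q using Polynomial.induction_on' with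
  | add p q hp hq =>
    simp only [Polynomial.eval₂_add, map_add, hp, hq, dq_add, add_mul, Finset.sum_add_distrib]
    ring
  | monomial j a =>
    simp only [Polynomial.eval₂_monomial, dq_monomial, Polynomial.derivative_monomial,
      Derivation.leibniz, Derivation.leibniz_pow, coe_eval₂Hom, deriv_eval₂ φ δ hδ, smul_eq_mul,
      eval₂_mul, nsmul_eq_mul, Finset.mul_sum, map_natCast, eval₂_natCast]
    congr 1
    · ring
    · exact Finset.sum_congr rfl fun k _ => by ring

theorem eval₂_aeval' {N n : ℕ} (π : Fin n → Pl N) (a : Pl n) (Y : Fin N → K) :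
    eval₂ φ Y (aeval π a) = eval₂ φ (fun i => eval₂ φ Y (π i)) a := by
  induction a using MvPolynomial.induction_on with
  | C c => simp
  | add a b ha hb => simp only [map_add, eval₂_add, ha, hb]
  | mul_X a i ha => simp only [map_mul, eval₂_mul, ha, aeval_X, eval₂_X]

theorem eval₂_sub' {N n : ℕ} (π : Fin n → Pl N) (q : Polynomial (Pl n)) (f : Pl N) (Y : Fin N → K) :
    eval₂ φ Y (sub π q f) =
      q.eval₂ (eval₂Hom φ fun i => eval₂ φ Y (π i)) (eval₂ φ Y f) := by
  unfold sub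
  rw [← coe_eval₂Hom, Polynomial.hom_eval₂]
  congr 1
  exact RingHom.ext fun a => eval₂_aeval' φ π a Y

end deriv

section
variable {N n : ℕ} {p : Ideal (Pl N)} {π : Fin n → Pl N}

theorem Noe.deriv_not_mem (h : Noe p n π) {f : Pl N} {q : Polynomial (Pl n)} (hq : q.Monic)
    (hq1 : sub π q f ∈ p) (hq2 : ∀ r, sub π r f ∈ p → q ∣ r) : sub π q.derivative f ∉ p := by
  intro hd
  have hdvd := hq2 _ hd
  have h0 : q.natDegree ≠ 0 := by
    intro h0
    have : q = 1 := hq.natDegree_eq_zero.mp h0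
    rw [this] at hq1
    exact h.prime.ne_top ((Ideal.eq_top_iff_one _).mpr (by simpa [sub] using hq1))
  have h1 : q.derivative = 0 :=
    Polynomial.eq_zero_of_dvd_of_natDegree_lt hdvd (Polynomial.natDegree_derivative_lt h0)
  exact h0 (Polynomial.natDegree_eq_zero_of_derivative_eq_zero h1)

/-- local sections through points where the coordinates are simple roots -/
theorem Noe.sect (h : Noe p n π) {q : Fin N → Polynomial (Pl n)}
    (hq : ∀ a, sub π (q a) (X a) ∈ p) {x : CN N} (hx : x ∈ (zeroLocus ℂ p : Set (CN N)))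
    (hd : ∀ a, ev2 (q a).derivative (pmap π x) (x a) ≠ 0) {S : Set (CN n)} (hS : S ∈ 𝓝 (pmap π x)) :
    ∃ ch : Chart n (zeroLocus ℂ p : Set (CN N)), x ∈ ch.c '' ch.s ∧ ch.l = pmap π ∧ ch.s ⊆ S := by
  have hz : ∀ a, ∀ y ∈ (zeroLocus ℂ p : Set (CN N)), ev2 (q a) (pmap π y) (y a) = 0 := by
    intro a y hy
    have := ev2_of_mem (hq a) hy
    rwa [eval_X] at this
  choose ψ hψ hψ' using fun a => root_fun (hz a x hx) (hd a)
  let c : CN n → CN N := fun u a => ψ a u
  have hc : AnalyticAt ℂ c (pmap π x) := analyticAt_pi_iff.mpr hψ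
  have hW : ∀ᶠ y in 𝓝 x, y ∈ (zeroLocus ℂ p : Set (CN N)) → c (pmap π y) = y := by
    have : ∀ a, ∀ᶠ y in 𝓝 x, y ∈ (zeroLocus ℂ p : Set (CN N)) → ψ a (pmap π y) = y a := by
      intro a
      have ht : Tendsto (fun y : CN N => (pmap π y, y a)) (𝓝 x) (𝓝 (pmap π x, x a)) :=
        ((continuous_pmap π).prodMk (continuous_apply a)).continuousAt
      filter_upwards [ht.eventually (hψ' a)] with y hy hy'
      exact hy.mp (hz a y hy')
    filter_upwards [eventually_all.mpr this] with y hy hy'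
    exact funext fun a => hy a hy'
  obtain ⟨W, hW1, hWo, hxW⟩ := _root_.mem_nhds_iff.mp hW
  have h1 : ∀ᶠ t in 𝓝 (pmap π x), AnalyticAt ℂ c t ∧ t ∈ S ∧ c t ∈ (zeroLocus ℂ p : Set (CN N)) ∧
      c t ∈ W ∧ pmap π (c t) = t := by
    filter_upwards [hc.eventually_analyticAt, hS, h.opn hx (hWo.mem_nhds hxW)] with t h1 h2
      ⟨y, hy, hyW, hyt⟩
    have : c t = y := hyt ▸ hW1 hyW hy
    exact ⟨h1, h2, this ▸ hy, this ▸ hyW, this ▸ hyt⟩
  obtain ⟨s, hs1, hso, hxs⟩ := _root_.mem_nhds_iff.mp h1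
  refine ⟨⟨c, pmap π, s, hso, fun t ht => (hs1 ht).1.differentiableAt.differentiableWithinAt,
    differentiable_pmap π, fun u hu => (hs1 hu).2.2.2.2, fun u hu => (hs1 hu).2.2.1, ?_⟩,
    ⟨pmap π x, hxs, hW1 hxW hx⟩, rfl, fun u hu => (hs1 hu).2.1⟩
  intro u hu
  have : W ∩ pmap π ⁻¹' s ∈ 𝓝 (c u) :=
    (hWo.inter (hso.preimage (continuous_pmap π))).mem_nhds
      ⟨(hs1 hu).2.2.2.1, by rw [mem_preimage, (hs1 hu).2.2.2.2]; exact hu⟩
  filter_upwards [mem_nhdsWithin_of_mem_nhds this, self_mem_nhdsWithin] with y hy hy'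
  exact ⟨pmap π y, hy.2, hW1 hy.1 hy'⟩

/-- The discriminant and the frame. -/
theorem Noe.frame (h : Noe p n π) : ∃ (D : Pl n) (ξ : Fin n → Fin N → Pl N), D ≠ 0 ∧
    (∀ x ∈ (zeroLocus ℂ p : Set (CN N)), eval (pmap π x) D ≠ 0 →
      ∃ ch : Chart n (zeroLocus ℂ p : Set (CN N)), x ∈ ch.c '' ch.s ∧ ch.l = pmap π ∧
        ∀ u ∈ ch.s, eval u D ≠ 0 ∧ ∀ i, eval u D • fderiv ℂ ch.c u (Pi.single i 1) =
          fun a => eval (ch.c u) (ξ i a)) ∧
    ∀ (K : Type) [Field K] (φ : ℂ →+* K) (Y : Fin N → K),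
      (∀ f ∈ p, eval₂ φ Y f = 0) → ∀ δ : Derivation ℤ K K, (∀ c, δ (φ c) = 0) →
      ∀ a, eval₂ φ (fun i => eval₂ φ Y (π i)) D * δ (Y a) =
        ∑ i, eval₂ φ Y (ξ i a) * δ (eval₂ φ Y (π i)) := by
  classical
  choose q hq hq1 hq2 using fun a => h.minpoly (X a)
  choose D hD g hg using fun a => h.norm (h.deriv_not_mem (hq a) (hq1 a) (hq2 a))
  have hg' : ∀ a, ∀ y ∈ (zeroLocus ℂ p : Set (CN N)),
      eval (pmap π y) (D a) = ev2 (q a).derivative (pmap π y) (y a) * eval y (g a) := by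
    intro a y hy
    have := mem_zeroLocus.mp hy _ (hg a)
    rwa [map_sub, map_mul, eval_aeval, eval_sub, eval_X, sub_eq_zero] at this
  refine ⟨∏ a, D a, fun i a => -(aeval π (∏ b ∈ Finset.univ.erase a, D b) * g a *
    sub π (dq i (q a)) (X a)), Finset.prod_ne_zero_iff.mpr fun a _ => hD a, ?_, ?_⟩
  · intro x hx hxD
    have hd : ∀ a, ev2 (q a).derivative (pmap π x) (x a) ≠ 0 := by
      intro a h0
      apply hxD
      rw [map_prod]
      exact Finset.prod_eq_zero (Finset.mem_univ a) (by rw [hg' a x hx, h0, zero_mul])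
    obtain ⟨ch, hx1, hl, hs⟩ := h.sect hq1 hx hd (S := {t | eval t (∏ a, D a) ≠ 0})
      ((isOpen_ne_fun (continuous_eval' _) continuous_const).mem_nhds hxD)
    refine ⟨ch, hx1, hl, fun u hu => ⟨hs hu, fun i => ?_⟩⟩
    funext a
    have hcu : HasFDerivAt ch.c (fderiv ℂ ch.c u) u :=
      (ch.c_diff.differentiableAt (ch.s_open.mem_nhds hu)).hasFDerivAt
    have hl' : ∀ t ∈ ch.s, pmap π (ch.c t) = t := fun t ht => hl ▸ ch.left t ht
    have h1 : HasFDerivAt (fun t => (t, ch.c t a)) ((ContinuousLinearMap.id ℂ _).prod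
        ((ContinuousLinearMap.proj a).comp (fderiv ℂ ch.c u))) u :=
      (hasFDerivAt_id u).prodMk (hasFDerivAt_pi'.mp hcu a)
    have h2 := (hasFDerivAt_ev2 (q a) (u, ch.c u a)).comp u h1
    have h3 : HasFDerivAt (fun _ : CN n => (0 : ℂ)) _ u := h2.congr_of_eventuallyEq (by
      filter_upwards [ch.s_open.mem_nhds hu] with t ht
      have := ev2_of_mem (hq1 a) (ch.maps ht)
      rw [eval_X, hl' t ht] at this
      exact this.symm)
    have h4 := congrArg (fun L => L (Pi.single i 1)) (h3.unique (hasFDerivAt_const (0 : ℂ) u))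
    simp only [ContinuousLinearMap.comp_apply, ContinuousLinearMap.add_apply,
      ContinuousLinearMap.prod_apply, ContinuousLinearMap.id_apply, ContinuousLinearMap.coe_fst',
      ContinuousLinearMap.sum_apply, ContinuousLinearMap.smul_apply, ContinuousLinearMap.proj_apply,
      ContinuousLinearMap.coe_snd', smul_eq_mul, Pi.single_apply, mul_ite, mul_one, mul_zero,
      Finset.sum_ite_eq', Finset.mem_univ, if_true, ContinuousLinearMap.zero_apply] at h4
    have h5 := hg' a _ (ch.maps hu)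
    rw [hl' u hu] at h5
    simp only [Pi.smul_apply, smul_eq_mul, map_neg, map_mul, eval_aeval, eval_sub, eval_X, hl' u hu]
    rw [← Finset.mul_prod_erase _ _ (Finset.mem_univ a), map_mul, h5]
    linear_combination (eval (ch.c u) (g a) * eval u (∏ b ∈ Finset.univ.erase a, D b)) * h4
  · intro K _ φ Y hY δ hδ a
    have h1 := hY _ (hq1 a)
    have h2 := hY _ (hg a)
    rw [eval₂_sub', eval₂_X] at h1
    have h3 := deriv_eval₂' φ δ hδ (fun i => eval₂ φ Y (π i)) (Y a) (q a)
    rw [h1, map_zero] at h3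
    rw [eval₂_sub, eval₂_mul, eval₂_aeval', eval₂_sub', eval₂_X, sub_eq_zero] at h2
    simp only [eval₂_neg, eval₂_mul, eval₂_aeval', eval₂_sub', eval₂_X]
    rw [← Finset.mul_prod_erase _ _ (Finset.mem_univ a), eval₂_mul, h2]
    have : ∑ i, -(eval₂ φ (fun i => eval₂ φ Y (π i)) (∏ b ∈ Finset.univ.erase a, D b) *
        eval₂ φ Y (g a) * (dq i (q a)).eval₂ (eval₂Hom φ fun i => eval₂ φ Y (π i)) (Y a)) *
        δ (eval₂ φ Y (π i)) = -(eval₂ φ (fun i => eval₂ φ Y (π i)) (∏ b ∈ Finset.univ.erase a, D b) *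
        eval₂ φ Y (g a)) * ∑ i, (dq i (q a)).eval₂ (eval₂Hom φ fun i => eval₂ φ Y (π i)) (Y a) *
        δ (eval₂ φ Y (π i)) := by
      rw [Finset.mul_sum]
      exact Finset.sum_congr rfl fun i _ => by ring
    rw [this]
    linear_combination (-(eval₂ φ (fun i => eval₂ φ Y (π i)) (∏ b ∈ Finset.univ.erase a, D b) *
        eval₂ φ Y (g a))) * h3

end

end Crest.Agent.R264.A
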