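import Crest.Agent.R264.A2

/-!
# Row 264, part P0: equicontinuity of bounded holomorphic functions on an irreducible variety
-/

set_option autoImplicit false
open Set Filter Topology Metric

namespace Crest.Agent.R264.A

open MvPolynomial

section hol
variable {E F G : Type*} [NormedAddCommGroup E] [NormedSpace ℂ E] [NormedAddCommGroup F]
  [NormedSpace ℂ F] [NormedAddCommGroup G] [NormedSpace ℂ G]

theorem hol_continuousOn {U : Set E} {f : E → F} (hf : Hol U f) : ContinuousOn f U := by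
  intro x hx
  obtain ⟨O, hO, hxO, Φ, hΦ, h⟩ := hf x hx
  refine ((hΦ.differentiableAt (hO.mem_nhds hxO)).continuousAt.continuousWithinAt).congr_of_eventuallyEq
    ?_ (h x hx hxO)
  filter_upwards [self_mem_nhdsWithin, mem_nhdsWithin_of_mem_nhds (hO.mem_nhds hxO)] with y hy hy'
  exact h y hy hy'

theorem hol_comp_differentiableAt {U : Set E} {f : E → F} (hf : Hol U f) {c : G → E} {u : G}
    (hc : DifferentiableAt ℂ c u) (hU : ∀ᶠ t in 𝓝 u, c t ∈ U) :
    DifferentiableAt ℂ (fun t => f (c t)) u := by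
  obtain ⟨O, hO, hxO, Φ, hΦ, h⟩ := hf (c u) hU.self_of_nhds
  refine ((hΦ.differentiableAt (hO.mem_nhds hxO)).comp u hc).congr_of_eventuallyEq ?_
  filter_upwards [hU, hc.continuousAt.eventually (hO.mem_nhds hxO)] with t ht ht'
  exact h _ ht ht'

theorem hol_comp_differentiableOn {U : Set E} {f : E → F} (hf : Hol U f) {c : G → E} {s : Set G}
    (hs : IsOpen s) (hc : DifferentiableOn ℂ c s) (hU : MapsTo c s U) :
    DifferentiableOn ℂ (fun t => f (c t)) s := fun u hu =>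
  (hol_comp_differentiableAt hf (hc.differentiableAt (hs.mem_nhds hu))
    (by filter_upwards [hs.mem_nhds hu] with t ht using hU ht)).differentiableWithinAt

theorem hol_comp {U : Set E} {V : Set F} {g : F → G} {f : E → F} (hg : Hol V g) (hf : Hol U f)
    (hm : MapsTo f U V) : Hol U (fun x => g (f x)) := by
  intro x hx
  obtain ⟨O, hO, hxO, Φ, hΦ, h⟩ := hf x hx
  obtain ⟨O', hO', hxO', Ψ, hΨ, h'⟩ := hg (f x) (hm hx)
  have hopen : IsOpen (O ∩ Φ ⁻¹' O') := hΦ.continuousOn.isOpen_inter_preimage hO hO'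
  refine ⟨O ∩ Φ ⁻¹' O', hopen, ⟨hxO, by rw [mem_preimage, ← h x hx hxO]; exact hxO'⟩, Ψ ∘ Φ,
    hΨ.comp (hΦ.mono inter_subset_left) fun y hy => hy.2, fun y hy hyO => ?_⟩
  have := h y hy hyO.1
  rw [Function.comp_apply, ← this]
  exact h' _ (hm hy) (by rw [this]; exact hyO.2)

theorem hol_mono {U V : Set E} {f : E → F} (hf : Hol U f) (h : V ⊆ U) : Hol V f := by
  intro x hx
  obtain ⟨O, hO, hxO, Φ, hΦ, h'⟩ := hf x (h hx)
  exact ⟨O, hO, hxO, Φ, hΦ, fun y hy hyO => h' y (h hy) hyO⟩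

theorem hol_of_differentiable (U : Set E) {f : E → F} (hf : Differentiable ℂ f) : Hol U f :=
  fun _ _ => ⟨univ, isOpen_univ, mem_univ _, f, hf.differentiableOn, fun _ _ _ => rfl⟩

end hol

/-- removable singularities, finite set -/
theorem removable_finite {S : Set ℂ} (hS : S.Finite) : ∀ {U : Set ℂ} {g : ℂ → ℂ} {M : ℝ}, IsOpen U →
    DifferentiableOn ℂ g (U \ S) → (∀ z ∈ U \ S, ‖g z‖ ≤ M) →
    ∃ g' : ℂ → ℂ, DifferentiableOn ℂ g' U ∧ EqOn g' g (U \ S) := by
  classical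
  induction S, hS using Set.Finite.induction_on with
  | empty => intro U g M _ hg _; exact ⟨g, by simpa using hg, fun _ _ => rfl⟩
  | @insert a s ha hs ih =>
    intro U g M hU hg hM
    by_cases haU : a ∈ U
    · have he : (U \ s) \ {a} = U \ insert a s := by
        ext z; simp only [Set.mem_sdiff, mem_singleton_iff, mem_insert_iff]; tauto
      have h1 := Complex.differentiableOn_update_limUnder_of_bddAbove (f := g) (s := U \ s) (c := a)
        ((hU.sdiff hs.isClosed).mem_nhds ⟨haU, ha⟩) (he ▸ hg)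
        ⟨M, by rintro _ ⟨z, hz, rfl⟩; exact hM z (he ▸ hz)⟩
      obtain ⟨g', hg', h'⟩ := ih (M := max M ‖limUnder (𝓝[≠] a) g‖) hU h1 (by
        intro z hz
        by_cases hza : z = a
        · rw [hza, Function.update_self]; exact le_max_right _ _
        · rw [Function.update_of_ne hza]
          exact (hM z (he ▸ ⟨hz, hza⟩)).trans (le_max_left _ _))
      refine ⟨g', hg', fun z hz => ?_⟩
      rw [← he] at hz
      rw [h' hz.1, Function.update_of_ne hz.2]
    · have he : U \ s = U \ insert a s := by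
        ext z; simp only [Set.mem_sdiff, mem_insert_iff]
        exact ⟨fun h => ⟨h.1, by rintro (rfl | h'); exacts [haU h.1, h.2 h']⟩, fun h => ⟨h.1, fun h' => h.2 (Or.inr h')⟩⟩
      rw [← he] at hg hM ⊢
      exact ih hU hg hM

theorem eventually_notMem_finite {S : Set ℂ} (hS : S.Finite) (z : ℂ) : ∀ᶠ s in 𝓝[≠] z, s ∉ S := by
  have : (S \ {z})ᶜ ∈ 𝓝 z := (hS.subset sdiff_subset).isClosed.isOpen_compl.mem_nhds (by simp)
  filter_upwards [mem_nhdsWithin_of_mem_nhds this, self_mem_nhdsWithin] with s hs hs' h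
  exact hs ⟨h, hs'⟩

/-- Schwarz lemma with removable singularities -/
theorem schwarz_punct {S : Set ℂ} (hS : S.Finite) {g : ℂ → ℂ} {M R m : ℝ}
    (hg : DifferentiableOn ℂ g (ball 0 R \ S)) (hM : ∀ z ∈ ball 0 R \ S, ‖g z‖ ≤ M) {s : ℂ}
    (hs : s ∈ ball 0 R \ S) (h0 : g s = 0) (hm : ∀ᶠ z in 𝓝[≠] 0, m ≤ ‖g z‖) :
    m ≤ 2 * M / R * ‖s‖ := by
  obtain ⟨g', hg', h'⟩ := removable_finite hS isOpen_ball hg hM
  have hev : ∀ z ∈ ball (0 : ℂ) R, ∀ᶠ w in 𝓝[≠] z, w ∈ ball 0 R \ S := fun z hz => by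
    filter_upwards [mem_nhdsWithin_of_mem_nhds (isOpen_ball.mem_nhds hz),
      eventually_notMem_finite hS z] with w h1 h2 using ⟨h1, h2⟩
  have ht : ∀ z ∈ ball (0 : ℂ) R, Tendsto (fun w => ‖g' w‖) (𝓝[≠] z) (𝓝 ‖g' z‖) := fun z hz =>
    ((hg'.differentiableAt (isOpen_ball.mem_nhds hz)).continuousAt.norm.tendsto).mono_left
      nhdsWithin_le_nhds
  have hb : ∀ z ∈ ball (0 : ℂ) R, ‖g' z‖ ≤ M := fun z hz =>
    le_of_tendsto (ht z hz) (by filter_upwards [hev z hz] with w hw; rw [h' hw]; exact hM w hw)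
  have hR : (0 : ℂ) ∈ ball (0 : ℂ) R := mem_ball_self (nonempty_ball.mp ⟨s, hs.1⟩)
  have h1 : m ≤ ‖g' 0‖ := ge_of_tendsto (ht 0 hR) (by
    filter_upwards [hev 0 hR, hm] with w hw hw'; rw [h' hw]; exact hw')
  have h2 := Complex.dist_le_div_mul_dist_of_mapsTo_ball hg' (R₂ := 2 * M) (fun z hz => by
    rw [mem_closedBall, dist_eq_norm]
    exact (norm_sub_le _ _).trans (by linarith [hb z hz, hb 0 hR])) hs.1
  rw [h' hs, h0, dist_comm, dist_zero_right, dist_zero_right] at h2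
  exact h1.trans h2

theorem finite_line {n : ℕ} (D : Pl n) (t v : CN n) (h : eval (t + v) D ≠ 0) :
    {s : ℂ | eval (t + s • v) D = 0}.Finite := by
  let P : Polynomial ℂ := aeval (fun i => Polynomial.C (t i) + Polynomial.C (v i) * Polynomial.X) D
  have hP : ∀ s, P.eval s = eval (t + s • v) D := by
    intro s
    simp only [P]
    clear h P
    induction D using MvPolynomial.induction_on with
    | C c => simp
    | add a b ha hb => simp only [map_add, Polynomial.eval_add, ha, hb]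
    | mul_X a i ha =>
      simp only [map_mul, Polynomial.eval_mul, ha, aeval_X, eval_X, Polynomial.eval_add,
        Polynomial.eval_C, Polynomial.eval_X, Pi.add_apply, Pi.smul_apply, smul_eq_mul, mul_comm s]
  have h0 : P ≠ 0 := fun h0 => h (by simpa [h0] using (hP 1).symm)
  refine (P.roots.toFinset.finite_toSet).subset fun s hs => ?_
  simp only [Finset.mem_coe, Multiset.mem_toFinset, Polynomial.mem_roots h0, Polynomial.IsRoot, hP]
  exact hs

section
variable {N n : ℕ} {p : Ideal (Pl N)} {π : Fin n → Pl N}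

/-- local structure of the fibres inside a ball near an unramified point -/
theorem Noe.fib_local (h : Noe p n π) {x : CN N} {r : ℝ} {t1 : CN n}
    (hsph : ∀ y ∈ (zeroLocus ℂ p : Set (CN N)), pmap π y = t1 → y ∈ ball x r ∪ (closedBall x r)ᶜ)
    (hch : ∀ y ∈ (zeroLocus ℂ p : Set (CN N)), pmap π y = t1 →
      ∃ ch : Chart n (zeroLocus ℂ p : Set (CN N)), y ∈ ch.c '' ch.s ∧ ch.l = pmap π) :
    ∃ c : CN N → CN n → CN N,
      (∀ y ∈ (zeroLocus ℂ p : Set (CN N)), pmap π y = t1 → DifferentiableAt ℂ (c y) t1) ∧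
      ∀ᶠ t in 𝓝 t1, {y ∈ (zeroLocus ℂ p : Set (CN N)) | pmap π y = t} ∩ ball x r =
          (fun y => c y t) '' ({y ∈ (zeroLocus ℂ p : Set (CN N)) | pmap π y = t1} ∩ ball x r) ∧
        InjOn (fun y => c y t) ({y ∈ (zeroLocus ℂ p : Set (CN N)) | pmap π y = t1} ∩ ball x r) := by
  obtain ⟨e, he⟩ := h.fibre
  have hch' : ∀ y ∈ (zeroLocus ℂ p : Set (CN N)), pmap π y = t1 → ∃ (c : CN n → CN N) (s : Set (CN n))
      (O : Set (CN N)), s ∈ 𝓝 t1 ∧ c t1 = y ∧ DifferentiableAt ℂ c t1 ∧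
      (∀ u ∈ s, pmap π (c u) = u ∧ c u ∈ (zeroLocus ℂ p : Set (CN N))) ∧ IsOpen O ∧ y ∈ O ∧
      O ∩ zeroLocus ℂ p ⊆ c '' s := by
    intro y hy hyt
    obtain ⟨ch, ⟨u, hu, huy⟩, hl⟩ := hch y hy hyt
    have hl' : ∀ t ∈ ch.s, pmap π (ch.c t) = t := fun t ht => hl ▸ ch.left t ht
    have hut : u = t1 := by rw [← hl' u hu, huy, hyt]
    subst hut
    obtain ⟨O, hO, hyO, hO'⟩ := mem_nhdsWithin.mp (ch.nhds u hu)
    exact ⟨ch.c, ch.s, O, ch.s_open.mem_nhds hu, huy, ch.c_diff.differentiableAt (ch.s_open.mem_nhds hu),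
      fun t ht => ⟨hl' t ht, ch.maps ht⟩, hO, huy ▸ hyO, hO'⟩
  choose! c s O hs hc hd hl hO hyO hO' using hch'
  refine ⟨c, hd, ?_⟩
  set Fb := {y ∈ (zeroLocus ℂ p : Set (CN N)) | pmap π y = t1} ∩ ball x r with hFb
  have hfin : Fb.Finite := (he t1).1.subset inter_subset_left
  have h1 : ∀ᶠ t in 𝓝 t1, ∀ y ∈ Fb, t ∈ s y ∧ c y t ∈ ball x r := by
    refine (hfin.eventually_all).mpr fun y hy => ?_
    refine (Filter.Eventually.and (hs y hy.1.1 hy.1.2) ?_)
    exact (hd y hy.1.1 hy.1.2).continuousAt.eventually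
      (isOpen_ball.mem_nhds (by rw [hc y hy.1.1 hy.1.2]; exact hy.2))
  have h2 : ∀ᶠ t in 𝓝 t1, ∀ y ∈ Fb, ∀ y' ∈ Fb, y ≠ y' → c y t ≠ c y' t := by
    refine (hfin.eventually_all).mpr fun y hy => (hfin.eventually_all).mpr fun y' hy' => ?_
    by_cases hyy : y = y'
    · exact Eventually.of_forall fun _ h => (h hyy).elim
    · have := ((hd y hy.1.1 hy.1.2).continuousAt.ne_iff_eventually_ne
        (hd y' hy'.1.1 hy'.1.2).continuousAt).mp (by rw [hc y hy.1.1 hy.1.2, hc y' hy'.1.1 hy'.1.2]; exact hyy)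
      filter_upwards [this] with t ht _ using ht
  have h3 := h.tube t1 (W := (⋃ y ∈ Fb, O y) ∪ (closedBall x r)ᶜ)
    ((isOpen_biUnion fun y hy => hO y hy.1.1 hy.1.2).union isClosed_closedBall.isOpen_compl) (by
      intro y hy hyt
      rcases hsph y hy hyt with h' | h'
      · exact Or.inl (mem_biUnion (show y ∈ Fb from ⟨⟨hy, hyt⟩, h'⟩) (hyO y hy hyt))
      · exact Or.inr h')
  filter_upwards [h1, h2, h3] with t h1 h2 h3
  refine ⟨subset_antisymm ?_ ?_, fun y hy y' hy' hyy => by_contra fun hne => h2 y hy y' hy' hne hyy⟩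
  · rintro y' ⟨⟨hy', hyt⟩, hyb⟩
    rcases h3 y' hy' hyt with h' | h'
    · obtain ⟨y, hy, hy'O⟩ := mem_iUnion₂.mp h'
      obtain ⟨u, hu, huy⟩ := hO' y hy.1.1 hy.1.2 ⟨hy'O, hy'⟩
      refine ⟨y, hy, ?_⟩
      have : u = t := by rw [← (hl y hy.1.1 hy.1.2 u hu).1, huy, hyt]
      rw [← huy, this]
    · exact (h' (ball_subset_closedBall hyb)).elim
  · rintro _ ⟨y, hy, rfl⟩
    have := hl y hy.1.1 hy.1.2 t (h1 y hy).1
    exact ⟨⟨this.2, this.1⟩, (h1 y hy).2⟩

theorem Noe.equi (h : Noe p n π) {x : CN N} (hx : x ∈ (zeroLocus ℂ p : Set (CN N)))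
    {O : Set (CN N)} (hO : IsOpen O) (hxO : x ∈ O) {ε : ℝ} (hε : 0 < ε) :
    ∃ W ∈ 𝓝 x, ∀ f : CN N → ℂ, Hol (O ∩ zeroLocus ℂ p) f →
      (∀ y ∈ O ∩ zeroLocus ℂ p, ‖f y‖ ≤ 1) → ∀ y ∈ W ∩ (O ∩ zeroLocus ℂ p), ‖f y - f x‖ ≤ ε := by
  classical
  obtain ⟨D, ξ, hD, hsect, -⟩ := h.frame
  obtain ⟨e, he⟩ := h.fibre
  set Y : Set (CN N) := zeroLocus ℂ p with hY
  set t0 := pmap π x with ht0
  -- a ball meeting the fibre only in `x`
  obtain ⟨r, hr, hrO⟩ : ∃ r > 0, closedBall x r ⊆ O ∩ ({y ∈ Y | pmap π y = t0} \ {x})ᶜ :=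
    nhds_basis_closedBall.mem_iff.mp (inter_mem (hO.mem_nhds hxO)
      (((he t0).1.subset sdiff_subset).isClosed.isOpen_compl.mem_nhds (by simp)))
  have hfib0 : ∀ y ∈ Y, pmap π y = t0 → y ∈ closedBall x r → y = x := fun y hy hyt hyb =>
    by_contra fun hne => (hrO hyb).2 ⟨⟨hy, hyt⟩, hne⟩
  have hBO : ball x r ⊆ O := fun y hy => (hrO (ball_subset_closedBall hy)).1
  have htube : ∀ W : Set (CN N), IsOpen W → x ∈ W →
      ∀ᶠ t in 𝓝 t0, ∀ y ∈ Y, pmap π y = t → y ∈ W ∪ (closedBall x r)ᶜ := fun W hW hxW =>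
    h.tube t0 (hW.union isClosed_closedBall.isOpen_compl) fun y hy hyt => by
      by_cases hb : y ∈ closedBall x r
      · exact Or.inl (hfib0 y hy hyt hb ▸ hxW)
      · exact Or.inr hb
  obtain ⟨δ, hδ, hδ'⟩ := Metric.eventually_nhds_iff_ball.mp (htube _ isOpen_ball (mem_ball_self hr))
  set δ' := min δ (δ * (ε / 2) ^ e / (2 * 4 ^ e)) with hδ'def
  have hδ'pos : 0 < δ' := lt_min hδ (by positivity)
  have hWo : IsOpen (ball x r ∩ pmap π ⁻¹' ball t0 δ') :=
    isOpen_ball.inter (isOpen_ball.preimage (continuous_pmap π))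
  refine ⟨ball x r ∩ pmap π ⁻¹' ball t0 δ', hWo.mem_nhds ⟨mem_ball_self hr, mem_ball_self hδ'pos⟩,
    fun f hf hf1 => ?_⟩
  have hfc := hol_continuousOn hf
  have hxU : x ∈ O ∩ Y := ⟨hxO, hx⟩
  let Fb : CN n → Set (CN N) := fun t => {y ∈ Y | pmap π y = t} ∩ ball x r
  have hfin : ∀ t, (Fb t).Finite := fun t => (he t).1.subset inter_subset_left
  have hcard : ∀ t, (hfin t).toFinset.card ≤ e := fun t => by
    rw [← Set.ncard_eq_toFinset_card _ (hfin t)]
    exact (Set.ncard_le_ncard inter_subset_left (he t).1).trans (he t).2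
  have hFbU : ∀ t, ∀ y ∈ Fb t, y ∈ O ∩ Y := fun t y hy => ⟨hBO hy.2, hy.1.1⟩
  have hsub : ∀ y ∈ O ∩ Y, ‖f y - f x‖ ≤ 2 := fun y hy =>
    (norm_sub_le _ _).trans (by linarith [hf1 y hy, hf1 x hxU])
  -- the generic case
  have key : ∀ y ∈ (ball x r ∩ pmap π ⁻¹' ball t0 δ') ∩ (O ∩ Y), eval (pmap π y) D ≠ 0 →
      ‖f y - f x‖ ≤ ε := by
    rintro y ⟨⟨hyb, hyt⟩, hyU⟩ hyD
    set l := f y - f x with hl
    by_cases hl0 : l = 0
    · rw [hl0, norm_zero]; exact hε.le
    have hl2 : ‖l‖ ≤ 2 := hsub y hyU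
    have hlpos : 0 < ‖l‖ := norm_pos_iff.mpr hl0
    set v := pmap π y - t0 with hv
    have hv0 : v ≠ 0 := by
      intro h0
      have := hfib0 y hyU.2 (sub_eq_zero.mp h0) (ball_subset_closedBall hyb)
      exact hl0 (by rw [hl, this, sub_self])
    have hvpos : 0 < ‖v‖ := norm_pos_iff.mpr hv0
    have hvδ' : ‖v‖ < δ' := mem_ball_iff_norm.mp hyt
    have hvδ : ‖v‖ < δ := hvδ'.trans_le (min_le_left _ _)
    let G : CN n → ℂ := fun t => ∏ z ∈ (hfin t).toFinset, (l - (f z - f x))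
    have hG1 : ∀ t ∈ ball t0 δ, eval t D ≠ 0 → DifferentiableAt ℂ G t := by
      intro t ht htD
      obtain ⟨c, hc, hev⟩ := h.fib_local (hδ' t ht) (fun z hz hzt => by
        obtain ⟨ch, h1, h2, -⟩ := hsect z hz (hzt ▸ htD)
        exact ⟨ch, h1, h2⟩)
      have hd : DifferentiableAt ℂ (fun t' => ∏ z ∈ (hfin t).toFinset, (l - (f (c z t') - f x))) t := by
        refine (HasFDerivAt.finsetProd (g := fun z t' => l - (f (c z t') - f x))
          fun z hz => DifferentiableAt.hasFDerivAt ?_).differentiableAt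
        have hz' : z ∈ Fb t := (hfin t).mem_toFinset.mp hz
        refine ((hol_comp_differentiableAt hf (hc z hz'.1.1 hz'.1.2) ?_).sub_const _).const_sub _
        filter_upwards [hev] with t' ht'
        exact hFbU t' _ (ht'.1.symm.subset (mem_image_of_mem (fun y => c y t') hz'))
      refine hd.congr_of_eventuallyEq ?_
      filter_upwards [hev] with t' ht'
      have : (hfin t').toFinset = (hfin t).toFinset.image fun z => c z t' := by
        apply Finset.coe_injective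
        rw [Finset.coe_image, Finite.coe_toFinset, Finite.coe_toFinset]
        exact ht'.1
      simp only [G]
      rw [this, Finset.prod_image (by rw [Finite.coe_toFinset]; exact ht'.2)]
    have hG2 : ∀ t, ‖G t‖ ≤ 4 ^ e := by
      intro t
      simp only [G, norm_prod]
      refine le_trans ?_ (pow_le_pow_right₀ (by norm_num) (hcard t))
      rw [← Finset.prod_const]
      refine Finset.prod_le_prod (fun _ _ => norm_nonneg _) fun z hz => ?_
      exact (norm_sub_le _ _).trans (by linarith [hsub z (hFbU t z ((hfin t).mem_toFinset.mp hz))])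
    have hG3 : ∀ᶠ t in 𝓝 t0, (‖l‖ / 2) ^ e ≤ ‖G t‖ := by
      have h1 : ∀ᶠ z in 𝓝[O ∩ Y] x, dist (f z) (f x) < ‖l‖ / 2 :=
        Metric.tendsto_nhds.mp (hfc x hxU) _ (by positivity)
      obtain ⟨W, hW, hxW, hW'⟩ := mem_nhdsWithin.mp h1
      filter_upwards [htube W hW hxW] with t ht
      simp only [G, norm_prod]
      refine (pow_le_pow_of_le_one (by positivity) (by linarith) (hcard t)).trans ?_
      rw [← Finset.prod_const]
      refine Finset.prod_le_prod (fun _ _ => by positivity) fun z hz => ?_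
      have hz' : z ∈ Fb t := (hfin t).mem_toFinset.mp hz
      have hzW : z ∈ W := (ht z hz'.1.1 hz'.1.2).resolve_right fun h' =>
        h' (ball_subset_closedBall hz'.2)
      have h2 : ‖f z - f x‖ < ‖l‖ / 2 := by
        rw [← dist_eq_norm]; exact hW' ⟨hzW, hFbU t z hz'⟩
      linarith [norm_sub_norm_le l (f z - f x)]
    have hline : ∀ s : ℂ, DifferentiableAt ℂ (fun s : ℂ => t0 + s • v) s := fun s => by fun_prop
    have hyv : t0 + v = pmap π y := by rw [hv]; abel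
    have hS := finite_line D t0 v (hyv ▸ hyD)
    have hmain := schwarz_punct hS (g := fun s => G (t0 + s • v)) (M := 4 ^ e) (R := δ / ‖v‖)
      (m := (‖l‖ / 2) ^ e) (s := 1) (by
        intro s hs
        refine ((hG1 _ ?_ hs.2).comp s (hline s)).differentiableWithinAt
        have := mem_ball_zero_iff.mp hs.1
        rw [mem_ball_iff_norm, add_sub_cancel_left, norm_smul]
        exact (lt_div_iff₀ hvpos).mp this) (fun s _ => hG2 _)
      ⟨by rw [mem_ball_zero_iff, norm_one, lt_div_iff₀ hvpos, one_mul]; exact hvδ,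
        by simpa [hyv] using hyD⟩ (by
        simp only [G, one_smul, hyv]
        exact Finset.prod_eq_zero ((hfin _).mem_toFinset.mpr ⟨⟨hyU.2, rfl⟩, hyb⟩) (sub_self _))
      (by
        have : Tendsto (fun s : ℂ => t0 + s • v) (𝓝 0) (𝓝 t0) := by
          simpa using (hline 0).continuousAt.tendsto
        exact mem_nhdsWithin_of_mem_nhds (this.eventually hG3))
    have h2 : ‖v‖ < δ * (ε / 2) ^ e / (2 * 4 ^ e) := hvδ'.trans_le (min_le_right _ _)
    have h3 : (‖l‖ / 2) ^ e < (ε / 2) ^ e := by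
      refine hmain.trans_lt ?_
      rw [norm_one, mul_one, div_div_eq_mul_div, div_lt_iff₀ hδ]
      rw [lt_div_iff₀ (by positivity)] at h2
      linarith
    have := lt_of_pow_lt_pow_left₀ e (by positivity) h3
    linarith
  -- density
  rintro y ⟨hyW, hyU⟩
  have hcl := h.dense_pull hD hyU.2
  haveI := mem_closure_iff_nhdsWithin_neBot.mp hcl
  have hev : ∀ᶠ z in 𝓝[{y ∈ Y | eval (pmap π y) D ≠ 0}] y,
      z ∈ (ball x r ∩ pmap π ⁻¹' ball t0 δ') ∩ (O ∩ Y) ∧ eval (pmap π z) D ≠ 0 := by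
    filter_upwards [self_mem_nhdsWithin, mem_nhdsWithin_of_mem_nhds (hWo.mem_nhds hyW),
      mem_nhdsWithin_of_mem_nhds (hO.mem_nhds hyU.1)] with z h1 h2 h3
    exact ⟨⟨h2, h3, h1.1⟩, h1.2⟩
  have ht : Tendsto f (𝓝[{y ∈ Y | eval (pmap π y) D ≠ 0}] y) (𝓝 (f y)) :=
    (hfc y hyU).tendsto.comp (tendsto_nhdsWithin_iff.mpr
      ⟨tendsto_id.mono_left nhdsWithin_le_nhds, hev.mono fun z hz => hz.1.2⟩)
  exact le_of_tendsto ((ht.sub_const (f x)).norm) (hev.mono fun z hz => key z hz.1 hz.2)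

end

end Crest.Agent.R264.A
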