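import Crest.Agent.R264.A3

/-!
# Row 264, part P0: equicontinuity on `U` and the uniqueness principle
-/

set_option autoImplicit false
open Set Filter Topology Metric

namespace Crest.Agent.R264.A

open MvPolynomial

/-- `g`, `g'` are mutually inverse holomorphic self-maps of `U`. -/
structure Bih {N : ℕ} (U : Set (CN N)) (g g' : CN N → CN N) : Prop where
  hol : Hol U g
  hol' : Hol U g'
  maps : MapsTo g U U
  maps' : MapsTo g' U U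
  left : ∀ x ∈ U, g' (g x) = x
  right : ∀ x ∈ U, g (g' x) = x

theorem Bih.symm {N : ℕ} {U : Set (CN N)} {g g' : CN N → CN N} (h : Bih U g g') : Bih U g' g :=
  ⟨h.hol', h.hol, h.maps', h.maps, h.right, h.left⟩

/-- The biholomorphisms of `U` act cocompactly. -/
def Cocpt {N : ℕ} (U : Set (CN N)) : Prop :=
  ∃ K : Set (CN N), IsCompact K ∧ K ⊆ U ∧ ∀ x ∈ U, ∃ g g', Bih U g g' ∧ g' x ∈ K

/-- Equicontinuity of the bounded holomorphic functions. -/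
def Equi {N : ℕ} (U : Set (CN N)) : Prop :=
  ∀ x ∈ U, ∀ ε > 0, ∃ W ∈ 𝓝 x, ∀ f : CN N → ℂ, Hol U f → (∀ y ∈ U, ‖f y‖ ≤ 1) →
    ∀ y ∈ W ∩ U, ‖f y - f x‖ ≤ ε

theorem exists_minimalPrime {N : ℕ} {I : Ideal (Pl N)} {y : CN N}
    (hy : y ∈ (zeroLocus ℂ I : Set (CN N))) :
    ∃ p ∈ I.minimalPrimes, y ∈ (zeroLocus ℂ p : Set (CN N)) := by
  have : I ≤ vanishingIdeal ℂ {y} := fun f hf => mem_vanishingIdeal.mpr fun x hx =>
    hx ▸ mem_zeroLocus.mp hy f hf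
  obtain ⟨p, hp, hp'⟩ := Ideal.exists_minimalPrimes_le this
  exact ⟨p, hp, mem_zeroLocus.mpr fun f hf => mem_vanishingIdeal.mp (hp' hf) y rfl⟩

theorem equi {N : ℕ} (I : Ideal (Pl N)) {O : Set (CN N)} (hO : IsOpen O) :
    Equi (O ∩ zeroLocus ℂ I) := by
  intro x hx ε hε
  have hfin : I.minimalPrimes.Finite := Ideal.finite_minimalPrimes_of_isNoetherianRing _ I
  have key : ∀ p ∈ I.minimalPrimes, ∃ W ∈ 𝓝 x, ∀ f : CN N → ℂ, Hol (O ∩ zeroLocus ℂ I) f →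
      (∀ y ∈ O ∩ zeroLocus ℂ I, ‖f y‖ ≤ 1) → ∀ y ∈ W ∩ (O ∩ zeroLocus ℂ p), ‖f y - f x‖ ≤ ε := by
    intro p hp
    have hsub : O ∩ (zeroLocus ℂ p : Set (CN N)) ⊆ O ∩ zeroLocus ℂ I :=
      inter_subset_inter_right _ (zeroLocus_anti_mono hp.1.2)
    by_cases hxp : x ∈ (zeroLocus ℂ p : Set (CN N))
    · obtain ⟨n, π, h⟩ := exists_noe p hp.1.1
      obtain ⟨W, hW, h'⟩ := h.equi hxp hO hx.1 hε
      exact ⟨W, hW, fun f hf hf1 => h' f (hol_mono hf hsub) fun y hy => hf1 y (hsub hy)⟩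
    · exact ⟨_, (isClosed_zeroLocus p).isOpen_compl.mem_nhds hxp, fun f _ _ y hy => (hy.1 hy.2.2).elim⟩
  choose! W hW hW' using key
  refine ⟨⋂ p ∈ I.minimalPrimes, W p, (biInter_mem hfin).mpr hW, fun f hf hf1 y hy => ?_⟩
  obtain ⟨p, hp, hyp⟩ := exists_minimalPrime hy.2.2
  exact hW' p hp f hf hf1 y ⟨mem_iInter₂.mp hy.1 p hp, hy.2.1, hyp⟩

theorem hol_pow {N : ℕ} {U : Set (CN N)} {f : CN N → ℂ} (hf : Hol U f) (k : ℕ) :
    Hol U (fun y => f y ^ k) :=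
  hol_comp (hol_of_differentiable univ (f := fun z : ℂ => z ^ k) (by fun_prop)) hf (mapsTo_univ _ _)

/-- A uniform bound on a compact set for functions vanishing at a point. -/
theorem Equi.bound {N : ℕ} {U : Set (CN N)} (hE : Equi U) (hc : IsPreconnected U) {z0 : CN N}
    (hz : z0 ∈ U) {K : Set (CN N)} (hK : IsCompact K) (hKU : K ⊆ U) :
    ∃ k : ℕ, ∀ y ∈ K, ∀ f : CN N → ℂ, Hol U f → (∀ y ∈ U, ‖f y‖ ≤ 1) → f z0 = 0 →
      ‖f y‖ ^ k ≤ 1 / 2 := by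
  let A : ℕ → CN N → Prop := fun k y => ∀ f : CN N → ℂ, Hol U f → (∀ y ∈ U, ‖f y‖ ≤ 1) →
    f z0 = 0 → ‖f y‖ ^ k ≤ 1 / 2
  have hmono : ∀ k k', k ≤ k' → ∀ y ∈ U, A k y → A k' y := fun k k' hk y hy h f hf hf1 hf0 =>
    (pow_le_pow_of_le_one (norm_nonneg _) (hf1 y hy) hk).trans (h f hf hf1 hf0)
  have hstep : ∀ x ∈ U, ∃ W ∈ 𝓝 x, ∀ y ∈ W ∩ U, ∀ k,
      (A k x → A (2 * k) y) ∧ (A k y → A (2 * k) x) := by
    intro x hx
    obtain ⟨W, hW, h⟩ := hE x hx (1 / 4) (by norm_num)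
    refine ⟨W, hW, fun y hy k => ?_⟩
    have h1 : ∀ f : CN N → ℂ, Hol U f → (∀ y ∈ U, ‖f y‖ ≤ 1) →
        ‖f y ^ (2 * k) - f x ^ (2 * k)‖ ≤ 1 / 4 := fun f hf hf1 =>
      h _ (hol_pow hf _) (fun y hy => by rw [norm_pow]; exact pow_le_one₀ (norm_nonneg _) (hf1 y hy))
        y hy
    have h2 : ∀ a : ℂ, ‖a‖ ^ k ≤ 1 / 2 → ‖a ^ (2 * k)‖ ≤ 1 / 4 := fun a ha => by
      rw [norm_pow, pow_mul']
      nlinarith [pow_nonneg (norm_nonneg a) k]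
    refine ⟨fun hA f hf hf1 hf0 => ?_, fun hA f hf hf1 hf0 => ?_⟩
    · rw [← norm_pow]
      linarith [norm_sub_norm_le (f y ^ (2 * k)) (f x ^ (2 * k)), h1 f hf hf1, h2 _ (hA f hf hf1 hf0)]
    · rw [← norm_pow]
      linarith [norm_sub_norm_le (f x ^ (2 * k)) (f y ^ (2 * k)), h1 f hf hf1, h2 _ (hA f hf hf1 hf0),
        norm_sub_rev (f x ^ (2 * k)) (f y ^ (2 * k))]
  have hall : ∀ y ∈ U, ∃ k, A k y := by
    intro y hy
    have := hc.induction₂ (fun x y => (∃ k, A k x) ↔ ∃ k, A k y) (fun x hx => by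
      obtain ⟨W, hW, h⟩ := hstep x hx
      filter_upwards [mem_nhdsWithin_of_mem_nhds hW, self_mem_nhdsWithin] with y h1 h2
      exact ⟨fun ⟨k, hk⟩ => ⟨_, (h y ⟨h1, h2⟩ k).1 hk⟩, fun ⟨k, hk⟩ => ⟨_, (h y ⟨h1, h2⟩ k).2 hk⟩⟩)
      (fun _ _ _ _ _ _ h1 h2 => h1.trans h2) (fun _ _ _ _ h => h.symm) hz hy
    exact this.mp ⟨1, fun f _ _ hf0 => by simp [hf0]⟩
  have : ∃ k, ∀ y ∈ K ∩ U, A k y := by
    refine hK.induction_on (p := fun s => ∃ k, ∀ y ∈ s ∩ U, A k y) ⟨0, by simp⟩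
      (fun s t hst ⟨k, hk⟩ => ⟨k, fun y hy => hk y ⟨hst hy.1, hy.2⟩⟩) ?_ ?_
    · rintro s t ⟨k, hk⟩ ⟨k', hk'⟩
      refine ⟨max k k', ?_⟩
      rintro y ⟨hy | hy, hyU⟩
      · exact hmono _ _ (le_max_left _ _) y hyU (hk y ⟨hy, hyU⟩)
      · exact hmono _ _ (le_max_right _ _) y hyU (hk' y ⟨hy, hyU⟩)
    · intro x hx
      obtain ⟨W, hW, h⟩ := hstep x (hKU hx)
      obtain ⟨k, hk⟩ := hall x (hKU hx)
      exact ⟨W, mem_nhdsWithin_of_mem_nhds hW, 2 * k, fun y hy => (h y hy k).1 hk⟩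
  obtain ⟨k, hk⟩ := this
  exact ⟨k, fun y hy => hk y ⟨hy, hKU hy⟩⟩

/-- **Uniqueness principle**: a nonempty invariant set is a uniqueness set for bounded holomorphic
functions. -/
theorem uniq {N : ℕ} {U : Set (CN N)} (hE : Equi U) (hc : IsPreconnected U) (hK : Cocpt U)
    {z0 : CN N} (hz : z0 ∈ U) {f : CN N → ℂ} (hf : Hol U f) {C : ℝ} (hC : ∀ y ∈ U, ‖f y‖ ≤ C)
    (h0 : ∀ g g', Bih U g g' → f (g z0) = 0) : ∀ y ∈ U, f y = 0 := by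
  obtain ⟨K, hK, hKU, hcov⟩ := hK
  obtain ⟨k, hk⟩ := hE.bound hc hz hK hKU
  set m : ℝ := 1 - 1 / (2 * (k + 1)) with hm
  have ha : (0 : ℝ) < 1 / (2 * (k + 1)) := by positivity
  have ha' : (1 : ℝ) / (2 * (k + 1)) ≤ 1 / 2 :=
    one_div_le_one_div_of_le (by norm_num) (by nlinarith [k.cast_nonneg (α := ℝ)])
  have hm0 : 0 < m := by linarith
  have hm1 : m < 1 := by linarith
  have hmk : 1 / 2 < m ^ k := by
    have := one_add_mul_le_pow (a := -(1 / (2 * (k + 1)) : ℝ)) (by linarith) k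
    rw [← sub_eq_add_neg] at this
    refine lt_of_lt_of_le ?_ this
    have : (k : ℝ) * (1 / (2 * (k + 1))) < 1 / 2 := by
      rw [mul_one_div, div_lt_div_iff₀ (by positivity) (by norm_num)]; linarith
    linarith
  have hstep : ∀ C' : ℝ, 0 < C' → (∀ y ∈ U, ‖f y‖ ≤ C') → ∀ y ∈ U, ‖f y‖ ≤ m * C' := by
    intro C' hC' hb y hy
    obtain ⟨g, g', hg, hgy⟩ := hcov y hy
    have hn : ∀ a : ℂ, ‖(C' : ℂ)⁻¹ • a‖ = ‖a‖ / C' := fun a => by
      rw [norm_smul, norm_inv, Complex.norm_real, Real.norm_of_nonneg hC'.le, inv_mul_eq_div]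
    have := hk _ hgy ((C' : ℂ)⁻¹ • fun x => f (g x)) ((hol_comp hf hg.hol hg.maps).const_smul _)
      (fun x hx => by
        rw [Pi.smul_apply, hn, div_le_one hC']; exact hb _ (hg.maps hx)) (by simp [h0 g g' hg])
    rw [Pi.smul_apply, hn, hg.right y hy] at this
    have h1 := lt_of_pow_lt_pow_left₀ k hm0.le (this.trans_lt hmk)
    exact ((div_lt_iff₀ hC').mp h1).le
  have hind : ∀ j : ℕ, ∀ y ∈ U, ‖f y‖ ≤ m ^ j * (|C| + 1) := by
    intro j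
    induction j with
    | zero => intro y hy; rw [pow_zero, one_mul]; linarith [hC y hy, le_abs_self C]
    | succ j ih => rw [pow_succ', mul_assoc]; exact hstep _ (by positivity) ih
  intro y hy
  have ht : Tendsto (fun j : ℕ => m ^ j * (|C| + 1)) atTop (𝓝 0) := by
    simpa using (tendsto_pow_atTop_nhds_zero_of_lt_one hm0.le hm1).mul_const (|C| + 1)
  exact norm_le_zero_iff.mp (ge_of_tendsto' ht fun j => hind j y hy)

end Crest.Agent.R264.A
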