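import Mathlib

/-!
# Holomorphic maps of several variables: Cauchy estimates, Weierstrass' theorem, analyticity
-/

set_option autoImplicit false
open Set Filter Topology Metric
open scoped Nat

namespace Crest.Agent.R264.SCV

variable {E F : Type*} [NormedAddCommGroup E] [NormedSpace ℂ E] [NormedAddCommGroup F]
  [NormedSpace ℂ F]

/-- Cauchy estimate for the first derivative. -/
theorem norm_fderiv_le {f : E → F} {c : E} {r M : ℝ} (hr : 0 < r)
    (hf : DifferentiableOn ℂ f (ball c r)) (hM : ∀ z ∈ ball c r, ‖f z‖ ≤ M) :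
    ‖fderiv ℂ f c‖ ≤ 2 * M / r :=
  Complex.norm_fderiv_le_div_of_mapsTo_ball hf (fun z hz => by
    rw [mem_closedBall, dist_eq_norm]
    exact (norm_sub_le _ _).trans (by linarith [hM z hz, hM c (mem_ball_self hr)])) hr

/-- Lipschitz estimate at the centre. -/
theorem norm_sub_le {f : E → F} {c z : E} {r M : ℝ}
    (hf : DifferentiableOn ℂ f (ball c r)) (hM : ∀ z ∈ ball c r, ‖f z‖ ≤ M) (hz : z ∈ ball c r) :
    ‖f z - f c‖ ≤ 2 * M / r * ‖z - c‖ := by
  have hr : 0 < r := nonempty_ball.mp ⟨z, hz⟩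
  have := Complex.dist_le_div_mul_dist_of_mapsTo_ball hf (R₂ := 2 * M) (fun z hz => by
    rw [mem_closedBall, dist_eq_norm]
    exact (_root_.norm_sub_le _ _).trans (by linarith [hM z hz, hM c (mem_ball_self hr)])) hz
  rwa [dist_eq_norm, dist_eq_norm] at this

/-- Second order estimate. -/
theorem norm_sub_sub_fderiv_le {f : E → F} {c z : E} {r M : ℝ}
    (hf : DifferentiableOn ℂ f (ball c r)) (hM : ∀ z ∈ ball c r, ‖f z‖ ≤ M) (hz : z ∈ ball c r) :
    ‖f z - f c - fderiv ℂ f c (z - c)‖ ≤ 4 * M * (‖z - c‖ / r) ^ 2 := by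
  have hr : 0 < r := nonempty_ball.mp ⟨z, hz⟩
  have hc := mem_ball_self (x := c) hr
  have hM0 : 0 ≤ M := (norm_nonneg _).trans (hM c hc)
  have hd : HasFDerivAt f (fderiv ℂ f c) c := (hf.differentiableAt (ball_mem_nhds c hr)).hasFDerivAt
  have := Complex.dist_le_mul_div_pow_of_mapsTo_ball_of_isLittleO (n := 1) (R₂ := 4 * M)
    (f := fun w => f w - f c - fderiv ℂ f c (w - c)) (c := c) (R₁ := r) (z := z)
    ((hf.sub_const _).sub (by fun_prop)) (fun w hw => by
      simp only [sub_self, map_zero, mem_closedBall, dist_zero_right]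
      have h1 : ‖fderiv ℂ f c (w - c)‖ ≤ 2 * M := by
        refine ((fderiv ℂ f c).le_opNorm _).trans ?_
        have h2 := norm_fderiv_le hr hf hM
        have h3 : ‖w - c‖ ≤ r := (mem_ball_iff_norm.mp hw).le
        calc _ ≤ 2 * M / r * r := by gcongr
          _ = 2 * M := by field_simp
      have h2 := _root_.norm_sub_le (f w) (f c)
      have h3 := _root_.norm_sub_le (f w - f c) (fderiv ℂ f c (w - c))
      linarith [hM w hw, hM c hc]) (by
      simp only [sub_self, map_zero, sub_zero, pow_one]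
      exact hd.isLittleO.norm_right) hz
  simpa [dist_eq_norm] using this

/-- A holomorphic map is locally bounded. -/
theorem exists_ball_bound {f : E → F} {s : Set E} (hs : IsOpen s) (hf : DifferentiableOn ℂ f s)
    {x : E} (hx : x ∈ s) : ∃ r > 0, ∃ M : ℝ, ball x r ⊆ s ∧ ∀ z ∈ ball x r, ‖f z‖ ≤ M := by
  have h1 : ∀ᶠ z in 𝓝 x, z ∈ s ∧ ‖f z‖ < ‖f x‖ + 1 :=
    (hs.eventually_mem hx).and (((hf.differentiableAt (hs.mem_nhds hx)).continuousAt.norm).eventually_lt
      continuousAt_const (by linarith))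
  obtain ⟨r, hr, h⟩ := Metric.eventually_nhds_iff_ball.mp h1
  exact ⟨r, hr, ‖f x‖ + 1, fun z hz => (h z hz).1, fun z hz => (h z hz).2.le⟩

theorem ball_half_subset {x y : E} {r : ℝ} (hy : y ∈ ball x (r / 2)) : ball y (r / 2) ⊆ ball x r :=
  ball_subset_ball' (by linarith [mem_ball.mp hy])

section weier
variable [CompleteSpace F] {ι : Type*} {l : Filter ι} [l.NeBot] {g : ι → E → F} {G : E → F}

/-- Weierstrass' theorem on a ball. -/
theorem weierstrass_ball {x : E} {r : ℝ} (hg : ∀ᶠ i in l, DifferentiableOn ℂ (g i) (ball x r))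
    (hG : TendstoUniformlyOn g G l (ball x r)) :
    (∀ y ∈ ball x (r / 2), DifferentiableAt ℂ G y) ∧
      TendstoUniformlyOn (fun i => fderiv ℂ (g i)) (fderiv ℂ G) l (ball x (r / 2)) := by
  by_cases hr : 0 < r
  swap
  · have : ball x (r / 2) = ∅ := ball_eq_empty.mpr (by linarith)
    simp [this, tendstoUniformlyOn_empty]
  have hsub : ball x (r / 2) ⊆ ball x r := ball_subset_ball (by linarith)
  have hC : UniformCauchySeqOn (fun i => fderiv ℂ (g i)) l (ball x (r / 2)) := by
    intro u hu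
    obtain ⟨ε, hε, hεu⟩ := Metric.mem_uniformity_dist.mp hu
    have h1 := hG.uniformCauchySeqOn _ (Metric.dist_mem_uniformity (show 0 < ε * r / 8 by positivity))
    filter_upwards [h1, tendsto_fst.eventually hg, tendsto_snd.eventually hg] with m hm h2 h3 y hy
    apply hεu
    have hb := ball_half_subset hy
    have hyn : ball x r ∈ 𝓝 y := isOpen_ball.mem_nhds (hsub hy)
    rw [dist_eq_norm, ← fderiv_fun_sub (h2.differentiableAt hyn) (h3.differentiableAt hyn)]
    refine (norm_fderiv_le (M := ε * r / 8) (half_pos hr) ((h2.mono hb).fun_sub (h3.mono hb))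
      fun z hz => ?_).trans_lt ?_
    · rw [← dist_eq_norm]; exact (hm z (hb hz)).le
    · rw [div_lt_iff₀ (half_pos hr)]; nlinarith
  choose! g' hg' using fun y (hy : y ∈ ball x (r / 2)) =>
    cauchy_map_iff_exists_tendsto.mp (hC.cauchy_map hy)
  have hU := hC.tendstoUniformlyOn_of_tendsto hg'
  have hd : ∀ y ∈ ball x (r / 2), HasFDerivAt G (g' y) y := by
    intro y hy
    have hyn : ball x (r / 2) ∈ 𝓝 y := isOpen_ball.mem_nhds hy
    refine hasFDerivAt_of_tendstoUniformlyOnFilter (f := g) (f' := fun i => fderiv ℂ (g i)) (l := l)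
      ((tendstoUniformlyOn_iff_tendstoUniformlyOnFilter.mp hU).mono_right (le_principal_iff.mpr hyn))
      ?_ ?_
    · filter_upwards [tendsto_fst.eventually hg, tendsto_snd.eventually hyn] with m h1 h2
      exact (h1.differentiableAt (isOpen_ball.mem_nhds (hsub h2))).hasFDerivAt
    · filter_upwards [hyn] with z hz using hG.tendsto_at (hsub hz)
  exact ⟨fun y hy => (hd y hy).differentiableAt, hU.congr_right fun y hy => (hd y hy).fderiv.symm⟩

/-- Weierstrass' theorem: locally uniform limits of holomorphic maps. -/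
theorem weierstrass [FiniteDimensional ℂ E] {s : Set E} (hs : IsOpen s) (hg : ∀ᶠ i in l, DifferentiableOn ℂ (g i) s)
    (hG : TendstoLocallyUniformlyOn g G l s) :
    DifferentiableOn ℂ G s ∧
      TendstoLocallyUniformlyOn (fun i => fderiv ℂ (g i)) (fderiv ℂ G) l s := by
  haveI := FiniteDimensional.proper ℂ E
  have key : ∀ x ∈ s, ∃ r > 0, (∀ y ∈ ball x (r / 2), DifferentiableAt ℂ G y) ∧
      TendstoUniformlyOn (fun i => fderiv ℂ (g i)) (fderiv ℂ G) l (ball x (r / 2)) := by
    intro x hx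
    obtain ⟨r, hr, hrs⟩ := nhds_basis_closedBall.mem_iff.mp (hs.mem_nhds hx)
    refine ⟨r, hr, weierstrass_ball (hg.mono fun i hi => hi.mono (ball_subset_closedBall.trans hrs))
      (((tendstoLocallyUniformlyOn_iff_forall_isCompact hs).mp hG _ hrs
        (isCompact_closedBall x r)).mono ball_subset_closedBall)⟩
  refine ⟨fun x hx => ?_, fun u hu x hx => ?_⟩
  · obtain ⟨r, hr, h, -⟩ := key x hx
    exact (h x (mem_ball_self (half_pos hr))).differentiableWithinAt
  · obtain ⟨r, hr, -, h⟩ := key x hx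
    exact ⟨ball x (r / 2), mem_nhdsWithin_of_mem_nhds (ball_mem_nhds x (half_pos hr)), h u hu⟩

end weier

variable [CompleteSpace F]

theorem differentiableOn_fderiv_apply {f : E → F} {s : Set E} (hs : IsOpen s)
    (hf : DifferentiableOn ℂ f s) (v : E) : DifferentiableOn ℂ (fun y => fderiv ℂ f y v) s := by
  intro x hx
  obtain ⟨r, hr, M, hrs, hM⟩ := exists_ball_bound hs hf hx
  have hM0 : 0 ≤ M := (norm_nonneg _).trans (hM x (mem_ball_self hr))
  have hsub : ball x (r / 2) ⊆ ball x r := ball_subset_ball (by linarith)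
  have hsm : ∀ᶠ t : ℂ in 𝓝[≠] 0, ‖t • v‖ < r / 2 := by
    have : ContinuousAt (fun t : ℂ => ‖t • v‖) 0 := by fun_prop
    exact mem_nhdsWithin_of_mem_nhds (this.eventually_lt continuousAt_const (by simpa using half_pos hr))
  have := weierstrass_ball (l := 𝓝[≠] (0 : ℂ)) (g := fun t y => t⁻¹ • (f (y + t • v) - f y))
    (G := fun y => fderiv ℂ f y v) (x := x) (r := r / 2) (by
      filter_upwards [hsm] with t ht
      refine DifferentiableOn.const_smul (DifferentiableOn.fun_sub ?_ (hf.mono (hsub.trans hrs))) _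
      refine hf.comp (by fun_prop) fun y hy => hrs (ball_half_subset hy ?_)
      simpa [mem_ball_iff_norm] using ht) (by
      rw [Metric.tendstoUniformlyOn_iff]
      intro ε hε
      have h2 : ∀ᶠ t : ℂ in 𝓝[≠] 0, 4 * M * (‖v‖ / (r / 2)) ^ 2 * ‖t‖ < ε := by
        have : ContinuousAt (fun t : ℂ => 4 * M * (‖v‖ / (r / 2)) ^ 2 * ‖t‖) 0 := by fun_prop
        exact mem_nhdsWithin_of_mem_nhds (this.eventually_lt continuousAt_const (by simpa using hε))
      filter_upwards [hsm, h2, self_mem_nhdsWithin] with t ht h2 (ht0 : t ≠ 0) y hy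
      have hb := ball_half_subset hy
      have h3 := norm_sub_sub_fderiv_le (hf.mono (hb.trans hrs)) (fun z hz => hM z (hb hz))
        (z := y + t • v) (by simpa [mem_ball_iff_norm] using ht)
      rw [add_sub_cancel_left, map_smul] at h3
      have h4 : t⁻¹ • (f (y + t • v) - f y) - fderiv ℂ f y v =
          t⁻¹ • (f (y + t • v) - f y - t • fderiv ℂ f y v) := by
        rw [smul_sub t⁻¹ (f (y + t • v) - f y), smul_smul, inv_mul_cancel₀ ht0, one_smul]
      rw [dist_comm, dist_eq_norm, h4, norm_smul, norm_inv]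
      have htp : 0 < ‖t‖ := norm_pos_iff.mpr ht0
      refine lt_of_le_of_lt ?_ h2
      rw [inv_mul_le_iff₀ htp]
      refine h3.trans (le_of_eq ?_)
      rw [norm_smul]; ring)
  exact (this.1 x (mem_ball_self (by linarith))).differentiableWithinAt

variable [FiniteDimensional ℂ E]

theorem contDiffOn_nat {s : Set E} (hs : IsOpen s) (k : ℕ) : ∀ {f : E → F},
    DifferentiableOn ℂ f s → ContDiffOn ℂ k f s := by
  induction k with
  | zero => intro f hf; simpa using hf.continuousOn
  | succ k ih =>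
    intro f hf
    rw [Nat.cast_succ]
    refine contDiffOn_succ_of_fderiv_apply hf (by simp) fun v => ?_
    exact (ih (differentiableOn_fderiv_apply hs hf v)).congr fun x hx => by
      rw [fderivWithin_of_isOpen hs hx]

theorem differentiableAt_iteratedFDeriv {s : Set E} (hs : IsOpen s) {f : E → F}
    (hf : DifferentiableOn ℂ f s) (k : ℕ) {x : E} (hx : x ∈ s) :
    DifferentiableAt ℂ (iteratedFDeriv ℂ k f) x :=
  ((contDiffOn_nat hs (k + 1) hf).contDiffAt (hs.mem_nhds hx)).differentiableAt_iteratedFDeriv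
    (by exact_mod_cast Nat.lt_succ_self k)

/-- Cauchy estimates for higher derivatives. -/
theorem norm_iteratedFDeriv_le {s : Set E} (hs : IsOpen s) {f : E → F}
    (hf : DifferentiableOn ℂ f s) {M ρ : ℝ} (hρ : 0 < ρ) (hM : ∀ z ∈ s, ‖f z‖ ≤ M) (k : ℕ) :
    ∀ y ∈ s, ball y (k * ρ) ⊆ s → ‖iteratedFDeriv ℂ k f y‖ ≤ M * (2 / ρ) ^ k := by
  induction k with
  | zero => intro y hy _; simpa using hM y hy
  | succ k ih =>
    intro y hy hb
    have h1 : ball y ρ ⊆ s := (ball_subset_ball (by push_cast; nlinarith [k.cast_nonneg (α := ℝ)])).trans hb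
    rw [← norm_fderiv_iteratedFDeriv]
    refine (norm_fderiv_le hρ (M := M * (2 / ρ) ^ k) (fun z hz =>
      (differentiableAt_iteratedFDeriv hs hf k (h1 hz)).differentiableWithinAt) fun z hz =>
      ih z (h1 hz) ((ball_subset_ball' ?_).trans hb)).trans (le_of_eq (by ring))
    push_cast
    linarith [mem_ball.mp hz]

theorem iteratedDeriv_line {s : Set E} (hs : IsOpen s) {f : E → F}
    (hf : DifferentiableOn ℂ f s) (x v : E) (k : ℕ) : ∀ z : ℂ, x + z • v ∈ s →
    iteratedDeriv k (fun z : ℂ => f (x + z • v)) z = iteratedFDeriv ℂ k f (x + z • v) fun _ => v := by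
  induction k with
  | zero => intro z _; simp
  | succ k ih =>
    intro z hz
    have hl : HasDerivAt (fun z : ℂ => x + z • v) v z := by
      simpa using ((hasDerivAt_id z).smul_const v).const_add x
    have hev : iteratedDeriv k (fun z : ℂ => f (x + z • v)) =ᶠ[𝓝 z]
        fun z => iteratedFDeriv ℂ k f (x + z • v) fun _ => v := by
      filter_upwards [hl.continuousAt.eventually (hs.mem_nhds hz)] with w hw using ih w hw
    rw [iteratedDeriv_succ, hev.deriv_eq, iteratedFDeriv_succ_apply_left]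
    have h1 := (differentiableAt_iteratedFDeriv hs hf k hz).hasFDerivAt.comp_hasDerivAt z hl
    exact ((ContinuousMultilinearMap.apply ℂ (fun _ : Fin k => E) F (fun _ => v)).hasFDerivAt.comp_hasDerivAt
      z h1).deriv

/-- **Osgood**: holomorphic maps on open subsets of finite-dimensional spaces are analytic. -/
theorem analyticOnNhd {s : Set E} (hs : IsOpen s) {f : E → F} (hf : DifferentiableOn ℂ f s) :
    AnalyticOnNhd ℂ f s := by
  intro x hx
  obtain ⟨R, hR, M, hRs, hM⟩ := exists_ball_bound hs hf hx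
  have hM0 : 0 ≤ M := (norm_nonneg _).trans (hM x (mem_ball_self hR))
  have hf' := hf.mono hRs
  let p : FormalMultilinearSeries ℂ E F := fun k => (k ! : ℂ)⁻¹ • iteratedFDeriv ℂ k f x
  have he : 1 ≤ Real.exp 1 := Real.one_le_exp zero_le_one
  let r : NNReal := ⟨R / (2 * Real.exp 1), by positivity⟩
  have hr : (r : ℝ) = R / (2 * Real.exp 1) := rfl
  refine ⟨p, r, p.le_radius_of_bound M fun k => ?_, ?_, fun {v} hv => ?_⟩
  · rcases Nat.eq_zero_or_pos k with rfl | hk
    · simpa [p] using hM x (mem_ball_self hR)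
    have hk' : (0 : ℝ) < k := by exact_mod_cast hk
    have h1 := norm_iteratedFDeriv_le isOpen_ball hf' (ρ := R / k) (by positivity) hM k x
      (mem_ball_self hR) (by rw [mul_div_cancel₀ _ hk'.ne'])
    have h2 : (k : ℝ) ^ k / k ! ≤ Real.exp 1 ^ k := by
      rw [← Real.exp_nat_mul, mul_one]
      exact Real.pow_div_factorial_le_exp _ hk'.le k
    have h3 : ‖p k‖ ≤ (k ! : ℝ)⁻¹ * (M * (2 / (R / k)) ^ k) := by
      simp only [p]
      rw [norm_smul, norm_inv, Complex.norm_natCast]
      gcongr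
    calc ‖p k‖ * (r : ℝ) ^ k ≤ (k ! : ℝ)⁻¹ * (M * (2 / (R / k)) ^ k) * (R / (2 * Real.exp 1)) ^ k := by
          rw [hr]; gcongr
      _ = M * ((k : ℝ) ^ k / k !) / Real.exp 1 ^ k := by
          rw [mul_assoc, mul_assoc, ← mul_pow]
          have : 2 / (R / k) * (R / (2 * Real.exp 1)) = k / Real.exp 1 := by field_simp
          rw [this, div_pow]; ring
      _ ≤ M * Real.exp 1 ^ k / Real.exp 1 ^ k := by gcongr
      _ = M := by field_simp
  · rw [ENNReal.coe_pos, ← NNReal.coe_pos, hr]; positivity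
  · rw [Metric.eball_coe, mem_ball_zero_iff, hr] at hv
    have hvR : ‖v‖ < R := hv.trans_le (div_le_self hR.le (by linarith))
    obtain ⟨ρ, hρ1, hρ⟩ : ∃ ρ : ℝ, 1 < ρ ∧ ρ * ‖v‖ ≤ R := by
      rcases (norm_nonneg v).eq_or_lt with h0 | h0
      · exact ⟨2, by norm_num, by rw [← h0]; linarith⟩
      · exact ⟨R / ‖v‖, (one_lt_div h0).mpr hvR, by rw [div_mul_cancel₀ _ h0.ne']⟩
    have hm : MapsTo (fun z : ℂ => x + z • v) (ball 0 ρ) (ball x R) := by
      intro z hz
      rw [mem_ball_iff_norm, add_sub_cancel_left, norm_smul]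
      rcases (norm_nonneg v).eq_or_lt with h0 | h0
      · rw [← h0, mul_zero]; exact hR
      · exact (mul_lt_mul_of_pos_right (mem_ball_zero_iff.mp hz) h0).trans_le hρ
    have h1 := Complex.hasSum_taylorSeries_on_ball (f := fun z : ℂ => f (x + z • v)) (c := 0) (r := ρ)
      (z := 1) (hf'.comp (by fun_prop) hm) (by simpa using hρ1)
    simp only [sub_zero, one_pow, one_smul] at h1
    convert h1 using 2 with k
    rw [iteratedDeriv_line isOpen_ball hf' x v k 0 (by simpa using hR)]
    simp [p]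

theorem analyticAt {s : Set E} {f : E → F} (hf : DifferentiableOn ℂ f s) {x : E} (hx : s ∈ 𝓝 x) :
    AnalyticAt ℂ f x := by
  obtain ⟨t, hts, ht, hxt⟩ := _root_.mem_nhds_iff.mp hx
  exact analyticOnNhd ht (hf.mono hts) x hxt

theorem analyticAt_of_eventually {f : E → F} {x : E} (hf : ∀ᶠ y in 𝓝 x, DifferentiableAt ℂ f y) :
    AnalyticAt ℂ f x :=
  analyticAt (s := {y | DifferentiableAt ℂ f y}) (fun _ hy => hy.differentiableWithinAt) hf

theorem differentiableOn_fderiv {s : Set E} (hs : IsOpen s) {f : E → F}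
    (hf : DifferentiableOn ℂ f s) : DifferentiableOn ℂ (fderiv ℂ f) s :=
  (analyticOnNhd hs hf).fderiv.differentiableOn

/-- Identity theorem. -/
theorem eqOn_of_eventuallyEq {s : Set E} (hs : IsOpen s) (hc : IsPreconnected s) {f g : E → F}
    (hf : DifferentiableOn ℂ f s) (hg : DifferentiableOn ℂ g s) {x : E} (hx : x ∈ s)
    (h : f =ᶠ[𝓝 x] g) : EqOn f g s :=
  (analyticOnNhd hs hf).eqOn_of_preconnected_of_eventuallyEq (analyticOnNhd hs hg) hc hx h

end Crest.Agent.R264.SCV
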