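import Crest.Agent.R264.A4
import Crest.Agent.R264.Osgood

/-!
# Row 264, part P0: charts, identity theorem, smoothness
-/

set_option autoImplicit false
open Set Filter Topology Metric

namespace Crest.Agent.R264.A

open MvPolynomial

section chart
variable {N n : ℕ} {U : Set (CN N)}

theorem chart_nhds (ch : Chart n U) {u : CN n} (hu : u ∈ ch.s) {t : Set (CN n)} (ht : t ∈ 𝓝 u) :
    ch.c '' (t ∩ ch.s) ∈ 𝓝[U] (ch.c u) := by
  have : ch.l ⁻¹' t ∈ 𝓝 (ch.c u) :=
    ch.l_diff.continuous.continuousAt.preimage_mem_nhds (by rw [ch.left u hu]; exact ht)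
  filter_upwards [ch.nhds u hu, mem_nhdsWithin_of_mem_nhds this] with y ⟨w, hw, hwy⟩ hy
  refine ⟨w, ⟨?_, hw⟩, hwy⟩
  rw [← hwy, mem_preimage, ch.left w hw] at hy
  exact hy

theorem chart_tendsto (ch : Chart n U) {u : CN n} (hu : u ∈ ch.s) :
    Tendsto ch.c (𝓝 u) (𝓝[U] (ch.c u)) :=
  tendsto_nhdsWithin_iff.mpr ⟨(ch.c_diff.differentiableAt (ch.s_open.mem_nhds hu)).continuousAt,
    by filter_upwards [ch.s_open.mem_nhds hu] with t ht using ch.maps ht⟩

theorem chart_eventually_iff (ch : Chart n U) {u : CN n} (hu : u ∈ ch.s) {P : CN N → Prop} :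
    (∀ᶠ y in 𝓝[U] (ch.c u), P y) ↔ ∀ᶠ t in 𝓝 u, P (ch.c t) :=
  ⟨fun h => (chart_tendsto ch hu).eventually h, fun h => by
    filter_upwards [chart_nhds ch hu h] with y ⟨t, ht, hty⟩ using hty ▸ ht.1⟩

/-- Identity theorem on a connected complex submanifold. -/
theorem ident {F : Type*} [NormedAddCommGroup F] [NormedSpace ℂ F] [CompleteSpace F]
    (hch : ∀ x ∈ U, ∃ ch : Chart n U, x ∈ ch.c '' ch.s) (hc : IsPreconnected U) {f : CN N → F}
    (hf : Hol U f) {x : CN N} (hx : x ∈ U) (h : ∀ᶠ y in 𝓝[U] x, f y = 0) : ∀ y ∈ U, f y = 0 := by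
  intro y hy
  have := hc.induction₂ (fun x y => (∀ᶠ z in 𝓝[U] x, f z = 0) ↔ ∀ᶠ z in 𝓝[U] y, f z = 0) (fun x hx => by
    obtain ⟨ch, u, hu, rfl⟩ := hch x hx
    obtain ⟨r, hr, hrs⟩ := Metric.isOpen_iff.mp ch.s_open u hu
    have han : AnalyticOnNhd ℂ (fun t => f (ch.c t)) (ball u r) :=
      SCV.analyticOnNhd isOpen_ball ((hol_comp_differentiableOn hf ch.s_open ch.c_diff ch.maps).mono hrs)
    have key : ∀ v ∈ ball u r, ∀ w ∈ ball u r, (∀ᶠ t in 𝓝 v, f (ch.c t) = 0) →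
        ∀ᶠ t in 𝓝 w, f (ch.c t) = 0 := fun v hv w hw h => by
      have := han.eqOn_zero_of_preconnected_of_eventuallyEq_zero (convex_ball u r).isPreconnected hv h
      filter_upwards [isOpen_ball.mem_nhds hw] with t ht using this ht
    filter_upwards [chart_nhds ch hu (ball_mem_nhds u hr)] with y ⟨w, hw, hwy⟩
    rw [← hwy, chart_eventually_iff ch hu, chart_eventually_iff ch hw.2]
    exact ⟨key u (mem_ball_self hr) w hw.1, key w hw.1 u (mem_ball_self hr)⟩)
    (fun _ _ _ _ _ _ h1 h2 => h1.trans h2) (fun _ _ _ _ h => h.symm) hx hy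
  exact (this.mp h).self_of_nhdsWithin hy

/-- Transfer of a chart to a set that agrees with `V` on an open set. -/
theorem chart_transfer {V O : Set (CN N)} (ch : Chart n V) (hO : IsOpen O) (h : U ∩ O = V ∩ O) :
    ∃ ch' : Chart n U, ch'.c = ch.c ∧ ch'.l = ch.l ∧ ch'.s = ch.s ∩ ch.c ⁻¹' O := by
  have hs : IsOpen (ch.s ∩ ch.c ⁻¹' O) := ch.c_diff.continuousOn.isOpen_inter_preimage ch.s_open hO
  refine ⟨⟨ch.c, ch.l, ch.s ∩ ch.c ⁻¹' O, hs, ch.c_diff.mono inter_subset_left, ch.l_diff,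
    fun u hu => ch.left u hu.1, fun u hu => (h.symm.subset ⟨ch.maps hu.1, hu.2⟩).1, fun u hu => ?_⟩,
    rfl, rfl, rfl⟩
  have h1 := chart_nhds ch hu.1 (hs.mem_nhds hu)
  rw [← nhdsWithin_inter_of_mem' (mem_nhdsWithin_of_mem_nhds (hO.mem_nhds hu.2)), h,
    nhdsWithin_inter_of_mem' (mem_nhdsWithin_of_mem_nhds (hO.mem_nhds hu.2))]
  exact mem_of_superset h1 (image_mono inter_subset_left)

/-- Biholomorphisms preserve the manifold points. -/
theorem Bih.chart {g g' : CN N → CN N} (h : Bih U g g') (ch : Chart n U) {x : CN N}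
    (hx : x ∈ ch.c '' ch.s) : ∃ ch' : Chart n U, g x ∈ ch'.c '' ch'.s := by
  obtain ⟨u0, hu0, rfl⟩ := hx
  have hc' : DifferentiableOn ℂ (fun t => g (ch.c t)) ch.s :=
    hol_comp_differentiableOn h.hol ch.s_open ch.c_diff ch.maps
  have hxU := ch.maps hu0
  obtain ⟨O, hO, hxO, Φ, hΦ, hΦ'⟩ := h.hol' _ (h.maps hxU)
  have hd0 := hc'.differentiableAt (ch.s_open.mem_nhds hu0)
  have hd1 : DifferentiableAt ℂ (fun y => ch.l (Φ y)) (g (ch.c u0)) :=
    (ch.l_diff _).comp _ (hΦ.differentiableAt (hO.mem_nhds hxO))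
  set L := fderiv ℂ (fun y => ch.l (Φ y)) (g (ch.c u0)) with hL
  have h1 : HasFDerivAt (fun t : CN n => t) (L.comp (fderiv ℂ (fun t => g (ch.c t)) u0)) u0 := by
    refine (hd1.hasFDerivAt.comp u0 hd0.hasFDerivAt).congr_of_eventuallyEq ?_
    filter_upwards [ch.s_open.mem_nhds hu0, hd0.continuousAt.eventually (hO.mem_nhds hxO)] with t ht ht'
    simp only [Function.comp_apply]
    rw [← hΦ' _ (h.maps (ch.maps ht)) ht', h.left _ (ch.maps ht), ch.left t ht]
  have h2 := h1.unique (hasFDerivAt_id u0)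
  have hψ : ContDiffAt ℂ ⊤ (fun t => L (g (ch.c t))) u0 :=
    ((L.analyticAt _).comp (SCV.analyticAt hc' (ch.s_open.mem_nhds hu0))).contDiffAt
  have hψ' : HasFDerivAt (fun t => L (g (ch.c t)))
      (ContinuousLinearEquiv.refl ℂ (CN n) : CN n →L[ℂ] CN n) u0 := by
    have := L.hasFDerivAt.comp u0 hd0.hasFDerivAt
    rw [h2] at this
    exact this
  set e := hψ.toOpenPartialHomeomorph _ hψ' (by simp) with he
  have he1 : ∀ t, e t = L (g (ch.c t)) := fun t => rfl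
  have hs0 : u0 ∈ e.source := hψ.mem_toOpenPartialHomeomorph_source hψ' _
  have han : AnalyticAt ℂ e.symm (e u0) := (hψ.to_localInverse hψ' (by simp)).analyticAt
  have hev : ∀ᶠ w in 𝓝 (e u0), w ∈ e.target ∧ AnalyticAt ℂ e.symm w ∧ e.symm w ∈ ch.s := by
    refine (e.open_target.eventually_mem (e.map_source hs0)).and (han.eventually_analyticAt.and ?_)
    exact han.continuousAt.eventually (ch.s_open.mem_nhds (by rw [e.left_inv hs0]; exact hu0))
  obtain ⟨s, hs1, hso, hxs⟩ := _root_.mem_nhds_iff.mp hev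
  refine ⟨⟨fun w => g (ch.c (e.symm w)), L, s, hso, ?_, L.differentiable, fun w hw => ?_,
    fun w hw => h.maps (ch.maps (hs1 hw).2.2), fun w hw => ?_⟩, e u0, hxs, ?_⟩
  · exact hc'.comp (fun w hw => (hs1 hw).2.1.differentiableAt.differentiableWithinAt)
      fun w hw => (hs1 hw).2.2
  · rw [← he1, e.right_inv (hs1 hw).1]
  · have hw' := hs1 hw
    have hT : e.source ∩ e ⁻¹' s ∈ 𝓝 (e.symm w) :=
      (e.continuousOn.isOpen_inter_preimage e.open_source hso).mem_nhds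
        ⟨e.map_target hw'.1, by rw [mem_preimage, e.right_inv hw'.1]; exact hw⟩
    have h3 := chart_nhds ch hw'.2.2 hT
    have hU := ch.maps hw'.2.2
    have h4 : Tendsto g' (𝓝[U] (g (ch.c (e.symm w)))) (𝓝[U] (ch.c (e.symm w))) := by
      have := (hol_continuousOn h.hol' _ (h.maps hU)).tendsto_nhdsWithin h.maps'
      rwa [h.left _ hU] at this
    filter_upwards [h4.eventually h3, self_mem_nhdsWithin] with y ⟨t, ht, hty⟩ hy
    refine ⟨e t, ht.1.2, ?_⟩
    simp only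
    rw [e.left_inv ht.1.1, hty, h.right y hy]
  · simp only
    rw [e.left_inv hs0]

end chart

/-- **Smoothness**: `U` is a connected manifold, open in an irreducible variety. -/
theorem smooth {N : ℕ} (I : Ideal (Pl N)) {O U : Set (CN N)} (hO : IsOpen O)
    (hU : U = O ∩ zeroLocus ℂ I) (hc : IsConnected U) (hb : Bornology.IsBounded U) (hK : Cocpt U) :
    ∃ (p : Ideal (Pl N)) (n : ℕ) (π : Fin n → Pl N), Noe p n π ∧ U = O ∩ zeroLocus ℂ p ∧
      (∀ x ∈ U, ∃ ch : Chart n U, x ∈ ch.c '' ch.s) ∧ ∀ f ∉ p, ∃ x ∈ U, eval x f ≠ 0 := by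
  classical
  have hE : Equi U := hU ▸ equi I hO
  set J : Ideal (Pl N) := vanishingIdeal ℂ U with hJ
  have hUJ : U ⊆ zeroLocus ℂ J := zeroLocus_vanishingIdeal_le U
  have hIJ : I ≤ J := fun f hf => mem_vanishingIdeal.mpr fun x hx =>
    mem_zeroLocus.mp (hU ▸ hx).2 f hf
  have hU' : U = O ∩ zeroLocus ℂ J := subset_antisymm (fun x hx => ⟨(hU ▸ hx).1, hUJ hx⟩)
    fun x hx => hU ▸ ⟨hx.1, zeroLocus_anti_mono hIJ hx.2⟩
  obtain ⟨x0, hx0⟩ := hc.nonempty
  obtain ⟨p, hp, -⟩ := exists_minimalPrime (hUJ hx0)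
  haveI hpp : p.IsPrime := hp.1.1
  have hJp : J ≤ p := hp.1.2
  have hfin : J.minimalPrimes.Finite := Ideal.finite_minimalPrimes_of_isNoetherianRing _ J
  have hP : ∀ q ∈ hfin.toFinset.erase p, ∃ P ∈ q, P ∉ p := by
    intro q hq
    rw [Finset.mem_erase, Finite.mem_toFinset] at hq
    by_contra! hcon
    exact hq.1 (le_antisymm hcon (hp.2 hq.2.1 hcon))
  choose! P hP1 hP2 using hP
  set Q := ∏ q ∈ hfin.toFinset.erase p, P q with hQ
  have hQp : Q ∉ p := fun h => by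
    obtain ⟨q, hq, h'⟩ := Ideal.IsPrime.prod_mem_iff.mp h
    exact hP2 q hq h'
  have hQ' : ∀ y ∈ U, eval y Q ≠ 0 → y ∈ (zeroLocus ℂ p : Set (CN N)) := by
    intro y hy hyQ
    obtain ⟨q, hq, hyq⟩ := exists_minimalPrime (hUJ hy)
    by_contra hne
    have hq' : q ∈ hfin.toFinset.erase p :=
      Finset.mem_erase.mpr ⟨fun h => hne (h ▸ hyq), hfin.mem_toFinset.mpr hq⟩
    apply hyQ
    rw [hQ, map_prod]
    exact Finset.prod_eq_zero hq' (mem_zeroLocus.mp hyq _ (hP1 q hq'))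
  obtain ⟨n, π, h⟩ := exists_noe p hpp
  obtain ⟨D, ξ, hD, hsect, -⟩ := h.frame
  have hDQ : aeval π D * Q ∉ p := fun h' => (hpp.mem_or_mem h').elim (fun h' => hD (h.inj _ h')) hQp
  have hch : ∀ x ∈ U, ∃ ch : Chart n U, x ∈ ch.c '' ch.s := by
    intro z hz
    by_contra hcon
    obtain ⟨C, hC⟩ := (hb.isCompact_closure).exists_bound_of_continuousOn
      (continuous_eval' (aeval π D * Q)).continuousOn
    refine hDQ (hJp (mem_vanishingIdeal.mpr (uniq hE hc.isPreconnected hK hz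
      (hol_of_differentiable U (differentiable_eval _)) (fun y hy => hC y (subset_closure hy))
      fun g g' hg => by_contra fun hne => hcon ?_)))
    rw [map_mul, eval_aeval, mul_eq_zero, not_or] at hne
    have hgz := hg.maps hz
    obtain ⟨ch, ⟨u, hu, hux⟩, -⟩ := hsect _ (hQ' _ hgz hne.2) hne.1
    obtain ⟨ch', h1, -, h2⟩ := chart_transfer (U := U) ch (O := O ∩ {y | eval y Q ≠ 0})
      (hO.inter (isOpen_ne_fun (continuous_eval' Q) continuous_const)) (by
        ext y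
        exact ⟨fun hy => ⟨hQ' y hy.1 hy.2.2, hy.2⟩,
          fun hy => ⟨hU' ▸ ⟨hy.2.1, zeroLocus_anti_mono hJp hy.1⟩, hy.2⟩⟩)
    have := hg.symm.chart ch' (x := g z) ⟨u, by
      rw [h2]; exact ⟨hu, by rw [mem_preimage, hux]; exact ⟨(hU ▸ hgz).1, hne.2⟩⟩, by rw [h1, hux]⟩
    rwa [hg.left z hz] at this
  have hpJ : p ≤ J := by
    intro f hf
    obtain ⟨x, hx, hxQ⟩ : ∃ x ∈ U, eval x Q ≠ 0 := by
      by_contra! hcon
      exact hQp (hJp (mem_vanishingIdeal.mpr hcon))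
    refine mem_vanishingIdeal.mpr (ident hch hc.isPreconnected
      (hol_of_differentiable U (differentiable_eval f)) hx ?_)
    filter_upwards [self_mem_nhdsWithin, mem_nhdsWithin_of_mem_nhds
      ((isOpen_ne_fun (continuous_eval' Q) continuous_const).mem_nhds hxQ)] with y hy hy'
    exact mem_zeroLocus.mp (hQ' y hy hy') f hf
  refine ⟨p, n, π, h, le_antisymm hpJ hJp ▸ hU', hch, fun f hf => ?_⟩
  by_contra! hcon
  exact hf (hJp (mem_vanishingIdeal.mpr hcon))

end Crest.Agent.R264.A
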