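import Crest.Agent.R264.A5

/-!
# Row 264, part P0: tautness from cocompactness
-/

set_option autoImplicit false
open Set Filter Topology Metric

namespace Crest.Agent.R264.A

/-- one step: small discs -/
theorem taut_step {N : ℕ} {O V U : Set (CN N)} (hO : IsOpen O) (hV : IsClosed V) (hU : U = O ∩ V)
    (hb : Bornology.IsBounded U) (hK : Cocpt U) :
    ∃ r : ℝ, 0 < r ∧ r < 1 ∧ ∀ K0 : Set (CN N), IsCompact K0 → K0 ⊆ U →
      ∃ K1 : Set (CN N), IsCompact K1 ∧ K1 ⊆ U ∧ ∀ f : ℂ → CN N,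
        DifferentiableOn ℂ f (ball 0 1) → MapsTo f (ball 0 1) U → f 0 ∈ K0 →
          MapsTo f (closedBall 0 r) K1 := by
  obtain ⟨K, hK, hKU, hcov⟩ := hK
  obtain ⟨δ, hδ, hδO⟩ := hK.exists_cthickening_subset_open hO (fun x hx => (hU ▸ hKU hx).1)
  obtain ⟨R, hR, hRU⟩ := hb.exists_pos_norm_le
  have hK2 : IsCompact (cthickening δ K ∩ V) := hK.cthickening.inter_right hV
  have hK2U : cthickening δ K ∩ V ⊆ U := fun x hx => hU ▸ ⟨hδO hx.1, hx.2⟩
  set r := min (1 / 2) (δ / (4 * R)) with hr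
  have hr1 : r < 1 := (min_le_left _ _).trans_lt (by norm_num)
  refine ⟨r, lt_min (by norm_num) (by positivity), hr1, fun K0 hK0 hK0U => ?_⟩
  refine hK0.induction_on (p := fun s => ∃ K1 : Set (CN N), IsCompact K1 ∧ K1 ⊆ U ∧
    ∀ f : ℂ → CN N, DifferentiableOn ℂ f (ball 0 1) → MapsTo f (ball 0 1) U → f 0 ∈ s →
      MapsTo f (closedBall 0 r) K1) ⟨∅, isCompact_empty, empty_subset _, fun f _ _ h => h.elim⟩
    (fun s t hst ⟨K1, h1, h2, h3⟩ => ⟨K1, h1, h2, fun f hf hf' h => h3 f hf hf' (hst h)⟩) ?_ ?_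
  · rintro s t ⟨K1, h1, h2, h3⟩ ⟨K1', h1', h2', h3'⟩
    refine ⟨K1 ∪ K1', h1.union h1', union_subset h2 h2', ?_⟩
    rintro f hf hf' (h | h)
    · exact (h3 f hf hf' h).mono_right subset_union_left
    · exact (h3' f hf hf' h).mono_right subset_union_right
  · intro x hx
    obtain ⟨g, g', hg, hgx⟩ := hcov x (hK0U hx)
    have h1 : ∀ᶠ y in 𝓝[U] x, dist (g' y) (g' x) < δ / 2 :=
      Metric.tendsto_nhds.mp (hol_continuousOn hg.hol' x (hK0U hx)) _ (half_pos hδ)
    refine ⟨_, nhdsWithin_mono x hK0U h1, g '' (cthickening δ K ∩ V),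
      hK2.image_of_continuousOn ((hol_continuousOn hg.hol).mono hK2U),
      by rintro _ ⟨y, hy, rfl⟩; exact hg.maps (hK2U hy), fun f hf hf' h z hz => ?_⟩
    have hz1 : z ∈ ball (0 : ℂ) 1 := closedBall_subset_ball hr1 hz
    have h2 := SCV.norm_sub_le (hol_comp_differentiableOn hg.hol' isOpen_ball hf hf')
      (fun w hw => hRU _ (hg.maps' (hf' hw))) hz1
    have h3 : ‖z‖ ≤ δ / (4 * R) := (mem_closedBall_zero_iff.mp hz).trans (min_le_right _ _)
    have h4 : dist (g' (f z)) (g' (f 0)) ≤ δ / 2 := by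
      rw [dist_eq_norm]
      refine h2.trans ?_
      rw [div_one, sub_zero]
      calc 2 * R * ‖z‖ ≤ 2 * R * (δ / (4 * R)) := by gcongr
        _ = δ / 2 := by field_simp; ring
    refine ⟨g' (f z), ⟨mem_cthickening_of_dist_le _ _ _ _ hgx ?_, (hU ▸ hg.maps' (hf' hz1)).2⟩,
      hg.right _ (hf' hz1)⟩
    have h5 : dist (g' (f 0)) (g' x) < δ / 2 := h
    linarith [dist_triangle (g' (f z)) (g' (f 0)) (g' x)]

/-- **Tautness**. -/
theorem taut {N : ℕ} {O V U : Set (CN N)} (hO : IsOpen O) (hV : IsClosed V) (hU : U = O ∩ V)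
    (hb : Bornology.IsBounded U) (hK : Cocpt U) : TautSet U := by
  obtain ⟨r, hr0, hr1, hstep⟩ := taut_step hO hV hU hb hK
  intro K hKc hKU ρ hρ
  set a := (1 - ρ) * r with ha
  have hρ' : 0 < 1 - ρ := by linarith
  have ha0 : 0 < a := by positivity
  have key : ∀ m : ℕ, ∃ K' : Set (CN N), IsCompact K' ∧ K' ⊆ U ∧ ∀ f : ℂ → CN N,
      DifferentiableOn ℂ f (ball 0 1) → MapsTo f (ball 0 1) U → f 0 ∈ K →
        ∀ z : ℂ, ‖z‖ ≤ ρ → ‖z‖ ≤ m * a → f z ∈ K' := by
    intro m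
    induction m with
    | zero =>
      refine ⟨K, hKc, hKU, fun f _ _ h0 z _ hz => ?_⟩
      have : z = 0 := by simpa using hz
      rwa [this]
    | succ m ih =>
      obtain ⟨K', h1, h2, h3⟩ := ih
      obtain ⟨K1, h4, h5, h6⟩ := hstep K' h1 h2
      refine ⟨K1, h4, h5, fun f hf hf' h0 z hz hzm => ?_⟩
      have hm : (0 : ℝ) < m + 1 := by positivity
      set w : ℂ := ((m / (m + 1) : ℝ) : ℂ) * z with hw
      have hq : (m : ℝ) / (m + 1) ≤ 1 := (div_le_one hm).mpr (by linarith)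
      have hq0 : (0 : ℝ) ≤ m / (m + 1) := by positivity
      have hnw : ‖w‖ = m / (m + 1) * ‖z‖ := by
        rw [hw, norm_mul, Complex.norm_real, Real.norm_of_nonneg hq0]
      push_cast at hzm
      have hw1 : ‖w‖ ≤ ρ := by rw [hnw]; nlinarith [norm_nonneg z]
      have hw2 : ‖w‖ ≤ m * a := by
        rw [hnw]
        calc (m : ℝ) / (m + 1) * ‖z‖ ≤ m / (m + 1) * ((m + 1) * a) := by gcongr
          _ = m * a := by field_simp
      have hmaps : MapsTo (fun s : ℂ => w + ((1 - ρ : ℝ) : ℂ) * s) (ball 0 1) (ball 0 1) := by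
        intro s hs
        rw [mem_ball_zero_iff] at hs ⊢
        refine (norm_add_le _ _).trans_lt ?_
        rw [norm_mul ((1 - ρ : ℝ) : ℂ), Complex.norm_real, Real.norm_of_nonneg hρ'.le]
        nlinarith
      have hne : ((1 - ρ : ℝ) : ℂ) ≠ 0 := by exact_mod_cast hρ'.ne'
      have := h6 (fun s => f (w + ((1 - ρ : ℝ) : ℂ) * s)) (hf.comp (by fun_prop) hmaps)
        (hf'.comp hmaps) (by simpa using h3 f hf hf' h0 w hw1 hw2)
        (x := (z - w) / ((1 - ρ : ℝ) : ℂ)) (by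
          rw [mem_closedBall_zero_iff, norm_div, Complex.norm_real, Real.norm_of_nonneg hρ'.le,
            div_le_iff₀ hρ']
          have : z - w = ((1 / (m + 1) : ℝ) : ℂ) * z := by
            rw [hw]; push_cast; field_simp; ring
          rw [this, norm_mul, Complex.norm_real, Real.norm_of_nonneg (by positivity), one_div,
            inv_mul_le_iff₀ hm]
          linarith)
      simp only [mul_div_cancel₀ _ hne, add_sub_cancel] at this
      exact this
  obtain ⟨m, hm⟩ := exists_nat_ge (ρ / a)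
  obtain ⟨K', h1, h2, h3⟩ := key m
  refine ⟨K', h1, h2, fun f hf hf' h0 z hz => ?_⟩
  have hz' := mem_closedBall_zero_iff.mp hz
  exact h3 f hf hf' h0 z hz' (hz'.trans ((div_le_iff₀ ha0).mp hm))

end Crest.Agent.R264.A
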