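import Crest.Agent.R264.A6

/-!
# Row 264, part P0: from the hypotheses of the theorem to `TMG` and `AlgFrame`
-/

set_option autoImplicit false
open Set Filter Topology Metric

namespace Crest.Agent.R264.A

open MvPolynomial Crest.AlgGeometry

open Classical in
/-- A permutation of `U` as a map of the ambient space. -/
noncomputable def act {N : ℕ} (U : Set (CN N)) (h : Equiv.Perm U) : CN N → CN N :=
  fun x => if hx : x ∈ U then (h ⟨x, hx⟩ : CN N) else 0

theorem act_apply {N : ℕ} {U : Set (CN N)} (h : Equiv.Perm U) {x : CN N} (hx : x ∈ U) :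
    act U h x = h ⟨x, hx⟩ := dif_pos hx

theorem hol_act {N : ℕ} {U : Set (CN N)} {h : Equiv.Perm U}
    (hh : Semialg.IsHolomorphicMap U (fun y : U => ((h y : U) : CN N))) : Hol U (act U h) := by
  intro x hx
  obtain ⟨O, hO, hxO, Φ, hΦ, h'⟩ := hh ⟨x, hx⟩
  exact ⟨O, hO, hxO, Φ, hΦ, fun y hy hyO => by rw [act_apply h hy]; exact h' ⟨y, hy⟩ hyO⟩

theorem act_act {N : ℕ} {U : Set (CN N)} (g h : Equiv.Perm U) {x : CN N} (hx : x ∈ U) :
    act U g (act U h x) = act U (g * h) x := by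
  rw [act_apply h hx, act_apply g (h ⟨x, hx⟩).2, act_apply _ hx]
  rfl

theorem bih_act {N : ℕ} {U : Set (CN N)} {h : Equiv.Perm U} (h1 : Hol U (act U h))
    (h2 : Hol U (act U h⁻¹)) : Bih U (act U h) (act U h⁻¹) :=
  ⟨h1, h2, fun x hx => by rw [act_apply h hx]; exact (h ⟨x, hx⟩).2,
    fun x hx => by rw [act_apply _ hx]; exact (h⁻¹ ⟨x, hx⟩).2,
    fun x hx => by rw [act_act _ _ hx, inv_mul_cancel, act_apply _ hx]; rfl,
    fun x hx => by rw [act_act _ _ hx, mul_inv_cancel, act_apply _ hx]; rfl⟩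

theorem exists_cover {N : ℕ} {O V U : Set (CN N)} (hO : IsOpen O) (hV : IsClosed V) (hU : U = O ∩ V)
    (Γ : Subgroup (Equiv.Perm U)) (hΓ : ∀ γ ∈ Γ, Hol U (act U γ))
    (hcpt : CompactSpace (Quotient (MulAction.orbitRel Γ U))) :
    ∃ K : Set (CN N), IsCompact K ∧ K ⊆ U ∧ ∀ x ∈ U, ∃ γ ∈ Γ, ∃ y ∈ K, act U γ y = x := by
  haveI : ContinuousConstSMul Γ U := ⟨fun γ => by
    refine continuous_induced_rng.mpr ?_
    have := continuousOn_iff_continuous_restrict.mp (hol_continuousOn (hΓ γ γ.2))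
    refine this.congr fun x => ?_
    exact act_apply _ x.2⟩
  have hr : ∀ x : U, ∃ r > 0, closedBall (x : CN N) r ⊆ O := fun x =>
    nhds_basis_closedBall.mem_iff.mp (hO.mem_nhds (hU.subset x.2).1)
  choose r hr hrO using hr
  obtain ⟨t, ht⟩ := (isCompact_univ (X := Quotient (MulAction.orbitRel Γ U))).elim_finite_subcover
    (fun x : U => Quotient.mk (MulAction.orbitRel Γ U) '' (Subtype.val ⁻¹' ball (x : CN N) (r x)))
    (fun x => isOpenMap_quotient_mk'_mul _ (isOpen_ball.preimage continuous_subtype_val)) (by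
      intro q _
      obtain ⟨x, rfl⟩ := Quotient.exists_rep q
      exact mem_iUnion.mpr ⟨x, x, mem_ball_self (hr x), rfl⟩)
  refine ⟨⋃ x ∈ t, closedBall (x : CN N) (r x) ∩ V,
    t.isCompact_biUnion fun x _ => (isCompact_closedBall _ _).inter_right hV, ?_, fun x hx => ?_⟩
  · intro y hy
    obtain ⟨x, _, hy⟩ := mem_iUnion₂.mp hy
    exact hU ▸ ⟨hrO x hy.1, hy.2⟩
  · obtain ⟨z, hz, y, hy, hyx⟩ := mem_iUnion₂.mp (ht (mem_univ (Quotient.mk _ ⟨x, hx⟩)))
    obtain ⟨γ, hγ⟩ : (⟨x, hx⟩ : U) ∈ MulAction.orbit Γ y :=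
      MulAction.orbitRel_apply.mp (Quotient.exact hyx.symm)
    refine ⟨γ, γ.2, y, mem_biUnion hz ⟨ball_subset_closedBall hy, (hU.subset y.2).2⟩, ?_⟩
    rw [act_apply _ y.2]
    exact congrArg Subtype.val hγ

/-- The algebraic frame. -/
theorem exists_frame {N n : ℕ} {p : Ideal (Pl N)} {π : Fin n → Pl N} (h : Noe p n π)
    {O U : Set (CN N)} (hO : IsOpen O) (hU : U = O ∩ zeroLocus ℂ p)
    (hne : ∀ f ∉ p, ∃ x ∈ U, eval x f ≠ 0) : Nonempty (AlgFrame n U) := by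
  obtain ⟨D, ξ, hD, hsect, hder⟩ := h.frame
  refine ⟨⟨p, π, D, ξ, h.prime, ⟨O, hO, hU⟩, ?_, h.inj, fun a => h.int (X a), hsect, hder⟩⟩
  obtain ⟨x, hx, hx'⟩ := hne (aeval π D) fun h' => hD (h.inj _ h')
  exact ⟨x, hx, by rwa [eval_aeval] at hx'⟩

end Crest.Agent.R264.A
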