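import Crest.Agent.R264.AutA

/-! Row 264, P1: Cartan's uniqueness theorem.

Chart `ch` at `x = ch.c u`; `ℓ = ch.l` is entire, hence bounded on the bounded set `U`.
`F m = (1/(m+1)) Σ_{i ≤ m} ℓ ∘ f^[i]` is `Hol`, uniformly bounded, `D (F m) x v = fderiv ℓ x v` on `T x`.
Along `hyperfilter ℕ` (or `Ultrafilter.of atTop`) the pointwise limit `F` is `Hol` (`M.montel`),
`D F x v = fderiv ℓ x v` (`montel_tendsto`, constant points), and `F ∘ f = F` on `U` (telescoping).
`exists_injOn_of_D` gives `R' ∋ x` with `InjOn F R'`; near `x` both `y` and `f y` are in `R'`, so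
`f y = y` near `x`; identity theorem `eqOn_of_eventuallyEq` with `ROpen.refl`. -/

set_option autoImplicit false
open Set Filter Topology Metric Complex

noncomputable section
namespace Crest.Agent.R264.TM
variable (M : TM)

/-- Cartan's uniqueness theorem. -/
theorem cartan_unique {f : CN M.N → CN M.N} (hf : Hol M.U f) (mf : MapsTo f M.U M.U)
    {x : CN M.N} (hx : x ∈ M.U) (h0 : f x = x) (h1 : ∀ v ∈ M.T x, M.D f x v = v) :
    ∀ y ∈ M.U, f y = y := by
  obtain ⟨ch, u, hu, rfl⟩ := M.chart x hx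
  obtain ⟨B, hB⟩ := M.bdd.isCompact_closure.exists_bound_of_continuousOn
    ch.l_diff.continuous.continuousOn
  have hB' : ∀ y ∈ M.U, ‖ch.l y‖ ≤ B := fun y hy => hB y (subset_closure hy)
  have hB0 : 0 ≤ B := (norm_nonneg _).trans (hB' _ hx)
  have it : ∀ k : ℕ, Hol M.U f^[k] ∧ f^[k] (ch.c u) = ch.c u ∧
      ∀ v ∈ M.T (ch.c u), M.D f^[k] (ch.c u) v = v := by
    intro k
    induction k with
    | zero => exact ⟨Hol.id _, rfl, fun v hv => M.D_id hx hv⟩
    | succ k ih =>
      refine ⟨ih.1.comp hf mf, by rw [Function.iterate_succ_apply, h0, ih.2.1], fun v hv => ?_⟩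
      have := M.D_comp (ROpen.refl _) hf mf ih.1 hx hv
      rw [h0, h1 v hv] at this
      exact this.trans (ih.2.2 v hv)
  have hl : ∀ k : ℕ, Hol M.U fun y => ch.l (f^[k] y) := fun k => (it k).1.post ch.l_diff
  have hS : ∀ m : ℕ, Hol M.U fun y => ∑ k ∈ Finset.range m, ch.l (f^[k] y) := fun m =>
    Hol.sum _ fun k _ => hl k
  have hF : ∀ m : ℕ, Hol M.U (birkhoffAverage ℂ f ch.l m) := fun m => (hS m).fun_const_smul _
  have bF : ∀ m : ℕ, ∀ y ∈ M.U, ‖birkhoffAverage ℂ f ch.l m y‖ ≤ B := by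
    intro m y hy
    have a1 : ‖∑ k ∈ Finset.range m, ch.l (f^[k] y)‖ ≤ m * B := by
      refine (norm_sum_le _ _).trans ((Finset.sum_le_card_nsmul _ _ B fun k _ =>
        hB' _ (mf.iterate k hy)).trans_eq ?_)
      rw [Finset.card_range, nsmul_eq_mul]
    rw [birkhoffAverage, birkhoffSum, norm_smul, norm_inv, Complex.norm_natCast]
    exact inv_mul_le_of_le_mul₀ (Nat.cast_nonneg m) hB0 a1
  have dF : ∀ m : ℕ, m ≠ 0 → ∀ v ∈ M.T (ch.c u),
      M.D (birkhoffAverage ℂ f ch.l m) (ch.c u) v = fderiv ℂ ch.l (ch.c u) v := by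
    intro m hm v hv
    have a1 := tD_const_smul ((m : ℂ)⁻¹) ((hS m).differentiableWithinAt hx) hv
    rw [tD_sum (fun k _ => (hl k).differentiableWithinAt hx) hv] at a1
    have a2 : ∀ k : ℕ, fderivWithin ℂ (fun y => ch.l (f^[k] y)) M.U (ch.c u) v =
        fderiv ℂ ch.l (ch.c u) v := fun k => by
      rw [tD_post ((it k).1.differentiableWithinAt hx) (ch.l_diff _) hv, (it k).2.1]
      exact congrArg _ ((it k).2.2 v hv)
    simp only [a2, Finset.sum_const, Finset.card_range] at a1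
    rw [← Nat.cast_smul_eq_nsmul ℂ, inv_smul_smul₀ (Nat.cast_ne_zero.2 hm)] at a1
    exact a1
  have hex : ∀ y ∈ M.U, ∃ z, Tendsto (fun m : ℕ => birkhoffAverage ℂ f ch.l m y)
      (hyperfilter ℕ) (𝓝 z) := by
    intro y hy
    obtain ⟨z, -, hz⟩ := (isCompact_closedBall (0 : CN M.n) B).ultrafilter_le_nhds
      ((hyperfilter ℕ).map fun m : ℕ => birkhoffAverage ℂ f ch.l m y)
      (le_principal_iff.2 (mem_map.2 (univ_mem' fun m => mem_closedBall_zero_iff.2 (bF m y hy))))
    exact ⟨z, hz⟩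
  choose! G hG using hex
  have hb : M.LocBdd (hyperfilter ℕ) (birkhoffAverage ℂ f ch.l) M.U := fun y _ =>
    ⟨M.U, self_mem_nhdsWithin, B, Eventually.of_forall fun m => ⟨hF m, bF m⟩⟩
  have hGh := (M.montel (ROpen.refl _) hb hG).1
  have dG : ∀ v ∈ M.T (ch.c u), M.D G (ch.c u) v = fderiv ℂ ch.l (ch.c u) v := by
    intro v hv
    have a1 := ((M.montel_tendsto (ROpen.refl _) hb hG hx (a := fun _ => ch.c u)
      (tendsto_const_pure.mono_right (pure_le_nhdsWithin hx))).2 (fun _ => v) v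
      (Eventually.of_forall fun _ => hv) tendsto_const_nhds).2
    refine tendsto_nhds_unique a1 (tendsto_const_nhds.congr' ?_)
    filter_upwards [Nat.hyperfilter_le_atTop (eventually_ne_atTop 0)] with m hm
    exact (dF m hm v hv).symm
  have inv : ∀ y ∈ M.U, G (f y) = G y := by
    intro y hy
    have a1 := (tendsto_birkhoffAverage_apply_sub_birkhoffAverage ℂ (f := f) (g := ch.l) (x := y)
      (isBounded_iff_forall_norm_le.2 ⟨B, by
        rintro _ ⟨k, rfl⟩
        exact hB' _ (mf.iterate k hy)⟩)).mono_left Nat.hyperfilter_le_atTop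
    exact sub_eq_zero.1 (tendsto_nhds_unique ((hG _ (mf hy)).sub (hG y hy)) a1)
  obtain ⟨R, hR, hxR, hRU, hi, -⟩ := M.exists_injOn_of_D (Module.finrank_fin_fun ℂ) (ROpen.refl _)
    hGh hx fun v hv h => by
      rw [dG v hv] at h
      rw [← ch.fderiv_c_l hu hv, h, map_zero]
  have hRn : R ∈ 𝓝[M.U] (ch.c u) := hR.nhdsWithin_eq hxR ▸ self_mem_nhdsWithin
  have ht : Tendsto f (𝓝[M.U] (ch.c u)) (𝓝[M.U] (ch.c u)) := by
    have := (hf.continuousOn _ hx).tendsto_nhdsWithin mf
    rwa [h0] at this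
  refine M.eqOn_of_eventuallyEq (ROpen.refl _) M.conn.isPreconnected hf (Hol.id _) hx ?_
  filter_upwards [hRn, ht hRn] with y hy hy'
  exact hi hy' hy (inv y (hRU hy))

end Crest.Agent.R264.TM
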