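import Crest.Agent.R264.AutB
import Crest.Agent.R264.AutC

/-! Row 264, P1: automorphisms (elementary facts `AutA`, properness `AutB`, Cartan uniqueness `AutC`). -/
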