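import Crest.Agent.R264.SCV1

/-! Row 264, P1: several complex variables (removable singularities). -/

set_option autoImplicit false
open Set Filter Topology Metric Complex

noncomputable section
namespace Crest.Agent.R264
variable {E E' F : Type*} [NormedAddCommGroup E] [NormedSpace ℂ E] [FiniteDimensional ℂ E]
  [NormedAddCommGroup E'] [NormedSpace ℂ E'] [FiniteDimensional ℂ E']
  [NormedAddCommGroup F] [NormedSpace ℂ F] [CompleteSpace F]

omit [FiniteDimensional ℂ E] in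
theorem scv2b_mem_closure {h : E → ℂ} {O : Set E} (hO : IsOpen O) {x : E} (hx : x ∈ O)
    (hne : ¬ h =ᶠ[𝓝 x] 0) : x ∈ closure (O ∩ {y | h y ≠ 0}) :=
  mem_closure_iff_frequently.2
    ((not_eventually.1 hne).and_eventually (hO.mem_nhds hx) |>.mono fun _ hy => ⟨hy.2, hy.1⟩)

/-- Isolated zeros on a disc. -/
theorem scv2b_isolated {φ : ℂ → ℂ} {D : Set ℂ} (hD : IsOpen D) (hc : IsPreconnected D)
    (hφ : DifferentiableOn ℂ φ D) {a t : ℂ} (ha : a ∈ D) (h0 : φ a ≠ 0) (ht : t ∈ D) :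
    ∀ᶠ s in 𝓝[≠] t, φ s ≠ 0 :=
  ((hφ.analyticOnNhd hD t ht).eventually_eq_zero_or_eventually_ne_zero).resolve_left fun h =>
    h0 ((hφ.analyticOnNhd hD).eqOn_zero_of_preconnected_of_eventuallyEq_zero hc ht h ha)

omit [FiniteDimensional ℂ E] in
/-- A family of discs whose boundaries avoid the zero set. -/
theorem scv2b_disc {h : E → ℂ} {O : Set E} (hO : IsOpen O) (hh : DifferentiableOn ℂ h O)
    {x : E} (hx : x ∈ O) (hne : ¬ h =ᶠ[𝓝 x] 0) : ∃ (v : E) (ε : ℝ), 0 < ε ∧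
      (∀ y ∈ closedBall x ε, ∀ t ∈ closedBall (0 : ℂ) 1, y + t • v ∈ O) ∧
      ∀ y ∈ closedBall x ε, ∀ t ∈ sphere (0 : ℂ) 1, h (y + t • v) ≠ 0 := by
  obtain ⟨r, hr, hrO⟩ := Metric.isOpen_iff.1 hO x hx
  obtain ⟨z, hz0, hz⟩ := ((not_eventually.1 hne).and_eventually (ball_mem_nhds x hr)).exists
  set D : Set ℂ := (LinearMap.toSpanSingleton ℂ E (z - x)).restrictScalars ℝ ⁻¹' ball 0 r with hD
  have hmem : ∀ t, t ∈ D ↔ ‖t • (z - x)‖ < r := fun t => by simp [hD]
  have hDO : ∀ t ∈ D, x + t • (z - x) ∈ O := fun t ht =>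
    hrO (by rw [mem_ball_iff_norm, add_sub_cancel_left]; exact (hmem t).1 ht)
  have hDo : IsOpen D := isOpen_ball.preimage (show Continuous fun t : ℂ => t • (z - x) by fun_prop)
  have h0D : (0 : ℂ) ∈ D := (hmem 0).2 (by simpa using hr)
  have h1 := scv2b_isolated (φ := fun t => h (x + t • (z - x))) hDo
    ((convex_ball 0 r).linear_preimage _).isPreconnected (hh.comp (by fun_prop) hDO) (a := 1)
    ((hmem 1).2 (by rw [one_smul]; exact mem_ball_iff_norm.1 hz)) (by simpa using hz0) h0D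
  obtain ⟨ρ, hρ, hρ1⟩ := nhds_basis_closedBall.eventually_iff.1
    ((eventually_nhdsWithin_iff.1 h1).and (hDo.mem_nhds h0D))
  have h2 : ∀ t ∈ closedBall (0 : ℂ) 1, t * ρ ∈ closedBall (0 : ℂ) ρ := fun t ht => by
    rw [mem_closedBall_zero_iff] at ht ⊢
    rw [norm_mul, Complex.norm_real, Real.norm_of_nonneg hρ.le]
    exact mul_le_of_le_one_left hρ.le ht
  have hc : Continuous fun p : E × ℂ => p.1 + p.2 • (ρ : ℂ) • (z - x) := by fun_prop
  have h3 : ∀ t ∈ closedBall (0 : ℂ) 1, x + t • (ρ : ℂ) • (z - x) ∈ O := fun t ht => by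
    rw [smul_smul]; exact hDO _ (hρ1 (h2 t ht)).2
  have h4 := (isCompact_closedBall (0 : ℂ) 1).eventually_forall_of_forall_eventually (x₀ := x)
    (P := fun y t => y + t • (ρ : ℂ) • (z - x) ∈ O) fun t ht =>
      hc.continuousAt.eventually_mem (hO.mem_nhds (h3 t ht))
  have h5 := (isCompact_sphere (0 : ℂ) 1).eventually_forall_of_forall_eventually (x₀ := x)
    (P := fun y t => h (y + t • (ρ : ℂ) • (z - x)) ≠ 0) fun t ht => by
      have ht' := sphere_subset_closedBall ht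
      refine (ContinuousAt.comp (f := fun p : E × ℂ => p.1 + p.2 • (ρ : ℂ) • (z - x))
        (hh.continuousOn.continuousAt (hO.mem_nhds (h3 t ht'))) hc.continuousAt).eventually_ne ?_
      simp only [Function.comp, smul_smul]
      exact (hρ1 (h2 t ht')).1 (mul_ne_zero (ne_of_mem_sphere ht one_ne_zero)
        (Complex.ofReal_ne_zero.2 hρ.ne'))
  obtain ⟨ε, hε, hε1⟩ := nhds_basis_closedBall.eventually_iff.1 (h4.and h5)
  exact ⟨_, ε, hε, fun y hy => (hε1 hy).1, fun y hy => (hε1 hy).2⟩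

/-- The mean value property in spite of removable singularities. -/
theorem scv2b_mean {φ : ℂ → ℂ} {f : ℂ → F} {D : Set ℂ} (hD : IsOpen D)
    (hD1 : closedBall (0 : ℂ) 1 ⊆ D) (hφ : DifferentiableOn ℂ φ D)
    (hf : ∀ t ∈ D, φ t ≠ 0 → DifferentiableAt ℂ f t) {B : ℝ} (hB : ∀ t ∈ D, φ t ≠ 0 → ‖f t‖ ≤ B)
    (h0 : φ 0 ≠ 0) (h1 : ∀ t ∈ sphere (0 : ℂ) 1, φ t ≠ 0) : Real.circleAverage f 0 1 = f 0 := by
  obtain ⟨δ, hδ, hδD⟩ := (isCompact_closedBall (0 : ℂ) 1).exists_thickening_subset_open hD hD1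
  rw [thickening_closedBall hδ zero_le_one] at hδD
  have h2 : ∀ t ∈ D, φ t ≠ 0 → limUnder (𝓝[≠] t) f = f t := fun t ht h =>
    ((hf t ht h).continuousAt.tendsto.mono_left nhdsWithin_le_nhds).limUnder_eq
  have h3 : ∀ t ∈ closedBall (0 : ℂ) 1, DifferentiableAt ℂ (fun t => limUnder (𝓝[≠] t) f) t := by
    intro t ht
    have h4 := scv2b_isolated isOpen_ball (convex_ball _ _).isPreconnected (hφ.mono hδD)
      (mem_ball_self (by linarith)) h0 (closedBall_subset_ball (by linarith) ht)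
    have h5 := (eventually_nhdsWithin_iff.1 h4).and (hD.mem_nhds (hD1 ht))
    have h6 := Complex.differentiableOn_update_limUnder_of_bddAbove (f := f) h5
      (fun s hs => (hf s hs.1.2 (hs.1.1 hs.2)).differentiableWithinAt)
      ⟨B, by rintro _ ⟨s, hs, rfl⟩; exact hB s hs.1.2 (hs.1.1 hs.2)⟩
    refine (h6.differentiableAt h5).congr_of_eventuallyEq ?_
    filter_upwards [h5] with s hs
    by_cases hst : s = t
    · rw [hst, Function.update_self]
    · rw [Function.update_of_ne hst, h2 s hs.2 (hs.1 hst)]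
  have h4 := circleAverage_of_differentiable_on_off_countable (c := 0) (R := 1)
    (f := fun t => limUnder (𝓝[≠] t) f) countable_empty
    (by rw [abs_one]; exact fun t ht => (h3 t ht).continuousAt.continuousWithinAt)
    (by rw [abs_one]; exact fun t ht => h3 t (ball_subset_closedBall ht.1))
  rw [← h2 0 (hD1 (by simp)) h0, ← h4]
  refine Real.circleAverage_congr_sphere fun t ht => ?_
  rw [abs_one] at ht
  exact (h2 t (hD1 (sphere_subset_closedBall ht)) (h1 t ht)).symm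

/-- The local form of the Riemann extension theorem. -/
theorem scv2b_local {h : E → ℂ} {O : Set E} (hO : IsOpen O) (hh : DifferentiableOn ℂ h O)
    {x : E} (hx : x ∈ O) (hne : ¬ h =ᶠ[𝓝 x] 0) {f : E → F}
    (hf : DifferentiableOn ℂ f (O ∩ {y | h y ≠ 0})) {B : ℝ} (hB : ∀ y ∈ O, h y ≠ 0 → ‖f y‖ ≤ B) :
    ∃ ε > 0, ∃ G : E → F, (∀ y ∈ ball x ε, DifferentiableAt ℂ G y) ∧
      ∀ y ∈ ball x ε, h y ≠ 0 → G y = f y := by
  haveI : ProperSpace E := FiniteDimensional.proper ℂ E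
  obtain ⟨v, ε, hε, h1, h2⟩ := scv2b_disc hO hh hx hne
  have hU : IsOpen (O ∩ {y | h y ≠ 0}) :=
    hh.continuousOn.isOpen_inter_preimage hO (t := {0}ᶜ) isOpen_compl_singleton
  have h3 : ∀ y ∈ closedBall x ε, ∀ t ∈ sphere (0 : ℂ) 1, y + t • v ∈ O ∩ {y | h y ≠ 0} :=
    fun y hy t ht => ⟨h1 y hy t (sphere_subset_closedBall ht), h2 y hy t ht⟩
  have h4 : ∀ θ, circleMap 0 1 θ ∈ sphere (0 : ℂ) 1 := fun θ => circleMap_mem_sphere 0 zero_le_one θ
  have hf' := (differentiableOn_fderiv hU hf).continuousOn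
  obtain ⟨M, hM⟩ := (((isCompact_closedBall x ε).prod (isCompact_sphere (0 : ℂ) 1)).image
    (f := fun p : E × ℂ => p.1 + p.2 • v) (by fun_prop)).exists_bound_of_continuousOn
    (hf'.mono (by rintro _ ⟨⟨y, t⟩, ⟨hy, ht⟩, rfl⟩; exact h3 y hy t ht))
  have hc : ∀ y, Continuous fun θ : ℝ => y + circleMap 0 1 θ • v := fun y => by fun_prop
  refine ⟨ε, hε, fun y => Real.circleAverage (fun t => f (y + t • v)) 0 1, fun y hy => ?_,
    fun y hy h0 => ?_⟩
  · have hy' := ball_subset_closedBall hy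
    have hs : closedBall x ε ∈ 𝓝 y := mem_of_superset (isOpen_ball.mem_nhds hy)
      ball_subset_closedBall
    have h5 := intervalIntegral.hasFDerivAt_integral_of_dominated_of_fderiv_le (𝕜 := ℂ)
      (μ := MeasureTheory.volume) (a := 0) (b := 2 * Real.pi) (bound := fun _ => M)
      (F := fun y θ => f (y + circleMap 0 1 θ • v))
      (F' := fun y θ => fderiv ℂ f (y + circleMap 0 1 θ • v)) hs
      (by
        filter_upwards [hs] with z hz
        exact (hf.continuousOn.comp_continuous (hc z)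
          fun θ => h3 z hz _ (h4 θ)).aestronglyMeasurable)
      ((hf.continuousOn.comp_continuous (hc y) fun θ => h3 y hy' _ (h4 θ)).intervalIntegrable _ _)
      (hf'.comp_continuous (hc y) fun θ => h3 y hy' _ (h4 θ)).aestronglyMeasurable
      (Eventually.of_forall fun θ _ z hz => hM _ ⟨(z, _), ⟨hz, h4 θ⟩, rfl⟩)
      intervalIntegrable_const
      (Eventually.of_forall fun θ _ z hz =>
        (hasFDerivAt_comp_add_right _).2
          (hf.differentiableAt (hU.mem_nhds (h3 z hz _ (h4 θ)))).hasFDerivAt)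
    exact h5.differentiableAt.const_smul ((2 * Real.pi)⁻¹ : ℝ)
  · have hy' := ball_subset_closedBall hy
    have hl : Differentiable ℂ fun t : ℂ => y + t • v := by fun_prop
    have h5 := scv2b_mean (φ := fun t => h (y + t • v)) (f := fun t => f (y + t • v))
      (hO.preimage hl.continuous) (h1 y hy') (hh.comp hl.differentiableOn fun _ ht => ht)
      (fun t ht h0 => (hf.differentiableAt (hU.mem_nhds ⟨ht, h0⟩)).comp t (hl t))
      (fun t ht h0 => hB _ ht h0) (by simpa using h0) (h2 y hy')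
    simpa using h5

/-- Near a point of the zero set of `h`, holomorphic functions are bounded by their supremum on a
compact subset of `{h ≠ 0}`. -/
theorem exists_compact_bound {h : E → ℂ} {O : Set E} (hO : IsOpen O) (hh : DifferentiableOn ℂ h O)
    {x : E} (hx : x ∈ O) (hne : ¬ h =ᶠ[𝓝 x] 0) :
    ∃ W ∈ 𝓝 x, W ⊆ O ∧ ∃ C, IsCompact C ∧ C ⊆ O ∩ {y | h y ≠ 0} ∧
      ∀ f : E → F, DifferentiableOn ℂ f O → ∀ B : ℝ, (∀ z ∈ C, ‖f z‖ ≤ B) → ∀ y ∈ W, ‖f y‖ ≤ B := by
  haveI : ProperSpace E := FiniteDimensional.proper ℂ E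
  obtain ⟨v, ε, hε, h1, h2⟩ := scv2b_disc hO hh hx hne
  refine ⟨closedBall x ε, closedBall_mem_nhds x hε, fun y hy => by simpa using h1 y hy 0 (by simp),
    (fun p : E × ℂ => p.1 + p.2 • v) '' (closedBall x ε ×ˢ sphere 0 1),
    ((isCompact_closedBall x ε).prod (isCompact_sphere 0 1)).image (by fun_prop), ?_,
    fun f hf B hB y hy => ?_⟩
  · rintro _ ⟨⟨y, t⟩, ⟨hy, ht⟩, rfl⟩
    exact ⟨h1 y hy t (sphere_subset_closedBall ht), h2 y hy t ht⟩
  · have h3 : DifferentiableOn ℂ (fun t : ℂ => f (y + t • v)) (closure (ball 0 1)) := by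
      rw [closure_ball _ one_ne_zero]
      exact hf.comp (by fun_prop) (h1 y hy)
    have h4 := Complex.norm_le_of_forall_mem_frontier_norm_le isBounded_ball h3.diffContOnCl
      (C := B) (fun t ht => hB _ ⟨(y, t), ⟨hy, by rwa [frontier_ball _ one_ne_zero] at ht⟩, rfl⟩)
      (z := 0) (subset_closure (mem_ball_self one_pos))
    simpa using h4

/-- The complement of a zero set is dense. -/
theorem subset_closure_ne {h : E → ℂ} {O : Set E} (hO : IsOpen O) (hc : IsPreconnected O)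
    (hh : DifferentiableOn ℂ h O) (hne : ∃ x ∈ O, h x ≠ 0) :
    O ⊆ closure (O ∩ {y | h y ≠ 0}) := by
  obtain ⟨a, ha, ha0⟩ := hne
  exact fun x hx => scv2b_mem_closure hO hx fun h0 =>
    ha0 (eqOn_of_eventuallyEq hO hc hh (differentiableOn_const 0) hx h0 ha)

/-- Riemann extension theorem. -/
theorem riemann_ext {h : E → ℂ} {O : Set E} (hO : IsOpen O) (hh : DifferentiableOn ℂ h O)
    (hne : ∀ x ∈ O, ¬ h =ᶠ[𝓝 x] 0) {f : E → F} (hf : DifferentiableOn ℂ f (O ∩ {y | h y ≠ 0}))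
    (hb : ∀ x ∈ O, ∃ W ∈ 𝓝 x, ∃ B : ℝ, ∀ y ∈ W ∩ O, h y ≠ 0 → ‖f y‖ ≤ B) :
    ∃ g : E → F, DifferentiableOn ℂ g O ∧ ∀ y ∈ O, h y ≠ 0 → g y = f y := by
  have key : ∀ x ∈ O, ∀ᶠ y in 𝓝 x, y ∈ O →
      DifferentiableAt ℂ (fun y => limUnder (𝓝[O ∩ {y | h y ≠ 0}] y) f) y ∧
        (h y ≠ 0 → limUnder (𝓝[O ∩ {y | h y ≠ 0}] y) f = f y) := by
    intro x hx
    obtain ⟨W, hW, B, hB⟩ := hb x hx
    obtain ⟨ε, hε, G, hG, hGf⟩ := scv2b_local (hO.inter isOpen_interior) (hh.mono inter_subset_left)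
      (x := x) ⟨hx, mem_interior_iff_mem_nhds.2 hW⟩ (hne x hx)
      (hf.mono (inter_subset_inter_left _ inter_subset_left)) (B := B)
      fun y hy => hB y ⟨interior_subset hy.2, hy.1⟩
    have h1 : ∀ y ∈ ball x ε, y ∈ O → limUnder (𝓝[O ∩ {y | h y ≠ 0}] y) f = G y := by
      intro y hy hyO
      haveI := mem_closure_iff_nhdsWithin_neBot.1 (scv2b_mem_closure hO hyO (hne y hyO))
      refine Tendsto.limUnder_eq (((hG y hy).continuousAt.tendsto.mono_left
        nhdsWithin_le_nhds).congr' ?_)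
      filter_upwards [self_mem_nhdsWithin, mem_nhdsWithin_of_mem_nhds (isOpen_ball.mem_nhds hy)]
        with z hz hz' using hGf z hz' hz.2
    filter_upwards [ball_mem_nhds x hε] with y hy hyO
    refine ⟨(hG y hy).congr_of_eventuallyEq ?_, fun h0 => (h1 y hy hyO).trans (hGf y hy h0)⟩
    filter_upwards [isOpen_ball.mem_nhds hy, hO.mem_nhds hyO] with z hz hz' using h1 z hz hz'
  exact ⟨_, fun x hx => ((key x hx).self_of_nhds hx).1.differentiableWithinAt,
    fun x hx => ((key x hx).self_of_nhds hx).2⟩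

/-- The complement of a zero set is connected. -/
theorem isPreconnected_ne {h : E → ℂ} {O : Set E} (hO : IsOpen O) (hc : IsPreconnected O)
    (hh : DifferentiableOn ℂ h O) : IsPreconnected (O ∩ {y | h y ≠ 0}) := by
  refine isPreconnected_of_forall_constant fun b hb x hx y hy => ?_
  have hU : IsOpen (O ∩ {y | h y ≠ 0}) :=
    hh.continuousOn.isOpen_inter_preimage hO (t := {0}ᶜ) isOpen_compl_singleton
  have hloc : ∀ z ∈ O ∩ {y | h y ≠ 0}, (fun w => if b w then (1 : ℂ) else 0) =ᶠ[𝓝 z]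
      fun _ => if b z then (1 : ℂ) else 0 := fun z hz => by
    have h1 := (hb.continuousAt (hU.mem_nhds hz)).tendsto
    rw [nhds_discrete Bool, tendsto_pure] at h1
    filter_upwards [h1] with w hw
    rw [hw]
  obtain ⟨g, hg, hgf⟩ := riemann_ext (F := ℂ) hO hh
    (fun z hz h0 => hx.2 (eqOn_of_eventuallyEq hO hc hh (differentiableOn_const 0) hz h0 hx.1))
    (f := fun w => if b w then 1 else 0)
    (fun z hz => ((differentiableAt_const _).congr_of_eventuallyEq
      (hloc z hz)).differentiableWithinAt)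
    (fun z _ => ⟨univ, univ_mem, 1, fun w _ _ => by split_ifs <;> simp⟩)
  have h2 : g =ᶠ[𝓝 x] fun _ => if b x then (1 : ℂ) else 0 := by
    filter_upwards [hloc x hx, hU.mem_nhds hx] with w hw hw' using (hgf w hw'.1 hw'.2).trans hw
  have h3 := eqOn_of_eventuallyEq hO hc hg (differentiableOn_const _) hx.1 h2 hy.1
  rw [hgf y hy.1 hy.2] at h3
  revert h3
  cases b x <;> cases b y <;> simp

end Crest.Agent.R264
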