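import Crest.Agent.R264.SCV2a
import Crest.Agent.R264.SCV2b

/-! Row 264, P1: several complex variables (zero boundary values, tautness). -/

set_option autoImplicit false
open Set Filter Topology Metric Complex

noncomputable section
namespace Crest.Agent.R264
variable {E E' F : Type*} [NormedAddCommGroup E] [NormedSpace ℂ E] [FiniteDimensional ℂ E]
  [NormedAddCommGroup E'] [NormedSpace ℂ E'] [FiniteDimensional ℂ E']
  [NormedAddCommGroup F] [NormedSpace ℂ F] [CompleteSpace F]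

private theorem scv2_one {h : ℂ → ℂ} {W : Set ℂ} {R : ℝ} (hR : 1 < R) (hW : IsOpen W)
    (hWR : W ⊆ ball 0 R) (h0 : (0 : ℂ) ∉ closure W) (hc : ContinuousOn h (closedBall 0 R))
    (hd : DifferentiableOn ℂ h W) (hz : ∀ t ∈ ball (0 : ℂ) R, t ∉ W → h t = 0) (h1 : (1 : ℂ) ∈ W) :
    h 1 = 0 := by
  obtain ⟨M, hM⟩ := (isCompact_closedBall (0 : ℂ) R).exists_bound_of_continuousOn hc
  have hcl : closure W ⊆ closedBall 0 R :=
    closure_minimal (hWR.trans ball_subset_closedBall) isClosed_closedBall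
  have hne : ∀ t ∈ closure W, t ≠ 0 := fun t ht e => h0 (e ▸ ht)
  have hM0 : 0 ≤ M := (norm_nonneg _).trans (hM 1 (hcl (subset_closure h1)))
  have key : ∀ m : ℕ, ‖h 1‖ ≤ M * (R⁻¹) ^ m := fun m => by
    have hg : DiffContOnCl ℂ (fun t => h t / t ^ m) W :=
      ⟨hd.div (differentiableOn_pow m) fun t ht => pow_ne_zero _ (hne t (subset_closure ht)),
        (hc.mono hcl).div (continuousOn_pow m) fun t ht => pow_ne_zero _ (hne t ht)⟩
    have := Complex.norm_le_of_forall_mem_frontier_norm_le (isBounded_ball.subset hWR) hg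
      (C := M * (R⁻¹) ^ m) (fun t ht => by
        rw [hW.frontier_eq] at ht
        by_cases hb : t ∈ ball (0 : ℂ) R
        · rw [hz t hb ht.2, zero_div, norm_zero]
          positivity
        · have e : ‖t‖ = R := le_antisymm (mem_closedBall_zero_iff.1 (hcl ht.1))
            (not_lt.1 fun h' => hb (mem_ball_zero_iff.2 h'))
          rw [norm_div, norm_pow, e, div_eq_mul_inv, inv_pow]
          exact mul_le_mul_of_nonneg_right (hM t (hcl ht.1)) (by positivity))
      (subset_closure h1)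
    simpa using this
  have lim : Tendsto (fun m : ℕ => M * (R⁻¹) ^ m) atTop (𝓝 (M * 0)) :=
    (tendsto_pow_atTop_nhds_zero_of_lt_one (by positivity) (inv_lt_one_of_one_lt₀ hR)).const_mul M
  rw [mul_zero] at lim
  exact norm_le_zero_iff.1 (ge_of_tendsto' lim key)

/-- Zero boundary values: if `Ω ⊆ B` is open, not empty and not dense in the ball `B`, there is a
nonempty open part of `Ω` on which every holomorphic function on `Ω` that tends to zero at the
boundary of `Ω` in `B` vanishes. -/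
theorem zero_boundary {Ω : Set E} {b : E} {r : ℝ} (hΩ : IsOpen Ω) (hsub : Ω ⊆ ball b r)
    (hne : Ω.Nonempty) (hnd : ¬ ball b r ⊆ closure Ω) :
    ∃ Ω' : Set E, IsOpen Ω' ∧ Ω'.Nonempty ∧ Ω' ⊆ Ω ∧ ∀ f : E → ℂ, DifferentiableOn ℂ f Ω →
      (∀ x ∈ ball b r, x ∉ Ω → Tendsto f (𝓝[Ω] x) (𝓝 0)) → ∀ x ∈ Ω', f x = 0 := by
  obtain ⟨q, ⟨hq1, hq2⟩, hq3⟩ : ∃ q, q ∈ closure (closure Ω)ᶜ ∩ ball b r ∧ q ∉ (closure Ω)ᶜ := by
    by_contra hcon
    push Not at hcon
    obtain ⟨y, hy1, hy2⟩ := not_subset.1 hnd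
    obtain ⟨z, hz⟩ := hne
    exact (convex_ball b r).isPreconnected.subset_of_closure_inter_subset
      isClosed_closure.isOpen_compl ⟨y, hy1, hy2⟩ (fun q hq => hcon q hq) (hsub hz)
      (subset_closure hz)
  rw [notMem_compl_iff] at hq3
  obtain ⟨η, hη, hηb⟩ := Metric.isOpen_iff.1 isOpen_ball q hq2
  obtain ⟨p, hp, hpq⟩ := Metric.mem_closure_iff.1 hq1 (η / 4) (by positivity)
  obtain ⟨w, hw, hwq⟩ := Metric.mem_closure_iff.1 hq3 (η / 4) (by positivity)
  have hcb : closedBall p (η / 2) ⊆ ball b r := fun z hz => hηb (by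
    rw [mem_ball]
    have a1 := dist_triangle z p q
    rw [mem_closedBall] at hz
    rw [dist_comm] at hpq
    linarith)
  refine ⟨Ω ∩ ball p (η / 2), hΩ.inter isOpen_ball, ⟨w, hw, ?_⟩, inter_subset_left,
    fun f hf hlim x hx => ?_⟩
  · rw [mem_ball]
    have a1 := dist_triangle w q p
    rw [dist_comm] at hwq
    linarith
  have hc0 : ContinuousOn (Ω.indicator f) (ball b r) := fun z hz => by
    refine ContinuousAt.continuousWithinAt ?_
    by_cases hzΩ : z ∈ Ω
    · refine (hf.continuousOn.continuousAt (hΩ.mem_nhds hzΩ)).congr ?_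
      filter_upwards [hΩ.mem_nhds hzΩ] with y hy
      rw [indicator_of_mem hy]
    · rw [ContinuousAt, indicator_of_notMem hzΩ, ← nhdsWithin_univ, ← union_compl_self Ω,
        nhdsWithin_union, tendsto_sup]
      constructor
      · refine (hlim z hz hzΩ).congr' ?_
        filter_upwards [self_mem_nhdsWithin] with y hy
        rw [indicator_of_mem hy]
      · refine tendsto_const_nhds.congr' ?_
        filter_upwards [self_mem_nhdsWithin] with y hy
        rw [indicator_of_notMem hy]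
  have hxp : x - p ≠ 0 := fun e => hp (sub_eq_zero.1 e ▸ subset_closure hx.1)
  have hn : 0 < ‖x - p‖ := norm_pos_iff.2 hxp
  have hx2 : ‖x - p‖ < η / 2 := by rw [← dist_eq_norm]; exact hx.2
  let L : ℂ → E := fun t => p + t • (x - p)
  have hLd : Differentiable ℂ L := (differentiable_id.smul_const _).const_add p
  have hL1 : L 1 = x := by simp [L]
  have hL0 : L 0 = p := by simp [L]
  have hR : 1 < η / 2 / ‖x - p‖ := (one_lt_div hn).2 hx2
  have := scv2_one (h := fun t => Ω.indicator f (L t))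
    (W := ball 0 (η / 2 / ‖x - p‖) ∩ L ⁻¹' Ω) hR
    (isOpen_ball.inter (hΩ.preimage hLd.continuous)) inter_subset_left (fun h0 => ?_) ?_ ?_
    (fun t ht h' => indicator_of_notMem (s := Ω) (a := L t) (fun h'' => h' ⟨ht, h''⟩) f)
    ⟨by simpa using hR, by rw [mem_preimage, hL1]; exact hx.1⟩
  · rwa [hL1, indicator_of_mem hx.1] at this
  · have a1 := hLd.continuous.closure_preimage_subset Ω (closure_mono inter_subset_right h0)
    rw [mem_preimage, hL0] at a1
    exact hp a1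
  · refine hc0.comp hLd.continuous.continuousOn fun t ht => hcb ?_
    rw [mem_closedBall, dist_eq_norm, show L t - p = t • (x - p) by simp [L], norm_smul]
    exact (le_div_iff₀ hn).1 (mem_closedBall_zero_iff.1 ht)
  · refine (hf.comp hLd.differentiableOn fun t ht => ht.2).congr fun t ht => ?_
    exact indicator_of_mem (s := Ω) (a := L t) ht.2 f


/-- Transfer relation between two subsets of the source. -/
private def scv2P {N : ℕ} (U : Set (CN N)) (Ω A B : Set E) : Prop :=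
  ∀ K : Set (CN N), IsCompact K → K ⊆ U → ∃ K' : Set (CN N), IsCompact K' ∧ K' ⊆ U ∧
    ∀ f : E → CN N, DifferentiableOn ℂ f Ω → MapsTo f Ω U → ∀ a ∈ A, f a ∈ K → MapsTo f B K'

omit [FiniteDimensional ℂ E] in
private theorem scv2P.mono {N : ℕ} {U : Set (CN N)} {Ω A B A' B' : Set E} (h : scv2P U Ω A B)
    (hA : A' ⊆ A) (hB : B' ⊆ B) : scv2P U Ω A' B' := fun K hK hKU => by
  obtain ⟨K', h1, h2, h3⟩ := h K hK hKU
  exact ⟨K', h1, h2, fun f hf hm a ha hfa => (h3 f hf hm a (hA ha) hfa).mono_left hB⟩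

omit [FiniteDimensional ℂ E] in
private theorem scv2P.trans {N : ℕ} {U : Set (CN N)} {Ω A B : Set E} {z : E}
    (h : scv2P U Ω A {z}) (h' : scv2P U Ω {z} B) : scv2P U Ω A B := fun K hK hKU => by
  obtain ⟨K', h1, h2, h3⟩ := h K hK hKU
  obtain ⟨K'', h4, h5, h6⟩ := h' K' h1 h2
  exact ⟨K'', h4, h5, fun f hf hm a ha hfa => h6 f hf hm z rfl (h3 f hf hm a ha hfa rfl)⟩

omit [FiniteDimensional ℂ E] in
private theorem scv2P_loc {N : ℕ} {U : Set (CN N)} (hU : TautSet U) {Ω : Set E} (hΩ : IsOpen Ω)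
    {x : E} (hx : x ∈ Ω) : ∃ V ∈ 𝓝 x, scv2P U Ω V V := by
  obtain ⟨r, hr, hb⟩ := Metric.isOpen_iff.1 hΩ x hx
  refine ⟨ball x (r / 4), ball_mem_nhds _ (by positivity), fun K hK hKU => ?_⟩
  obtain ⟨K', h1, h2, h3⟩ := hU K hK hKU (2 / 3) (by norm_num)
  refine ⟨K', h1, h2, fun f hf hm a ha hfa y hy => ?_⟩
  let L : ℂ → E := fun t => a + t • ((3 / 2 : ℂ) • (y - a))
  have hLd : Differentiable ℂ L := (differentiable_id.smul_const _).const_add a
  have hL : MapsTo L (ball 0 1) Ω := fun t ht => hb (by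
    rw [mem_ball] at ha hy ⊢
    have a1 := dist_triangle (L t) a x
    have a2 : dist (L t) a = ‖t‖ * (3 / 2 * dist y a) := by
      rw [dist_eq_norm, dist_eq_norm, show L t - a = t • ((3 / 2 : ℂ) • (y - a)) by simp [L],
        norm_smul, norm_smul]
      norm_num
    have a3 := dist_triangle_right y a x
    have a4 := mul_le_mul_of_nonneg_right (mem_ball_zero_iff.1 ht).le
      (by positivity : 0 ≤ 3 / 2 * dist y a)
    linarith)
  have := h3 (f ∘ L) (hf.comp hLd.differentiableOn hL) (hm.comp hL) (by simpa [L] using hfa)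
    (x := 2 / 3) (by rw [mem_closedBall_zero_iff]; norm_num)
  have e : L (2 / 3) = y := by
    simp only [L, smul_smul]
    norm_num
  rwa [Function.comp_apply, e] at this

omit [FiniteDimensional ℂ E] in
/-- Tautness for maps from a connected open set. -/
theorem TautSet.of_connected {N : ℕ} {U : Set (CN N)} (hU : TautSet U) {Ω C : Set E}
    (hΩ : IsOpen Ω) (hc : IsPreconnected Ω) (hC : IsCompact C) (hCΩ : C ⊆ Ω) {K : Set (CN N)}
    (hK : IsCompact K) (hKU : K ⊆ U) :
    ∃ K' : Set (CN N), IsCompact K' ∧ K' ⊆ U ∧ ∀ f : E → CN N, DifferentiableOn ℂ f Ω →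
      MapsTo f Ω U → (∃ a ∈ C, f a ∈ K) → MapsTo f C K' := by
  rcases C.eq_empty_or_nonempty with rfl | ⟨x₀, hx₀⟩
  · exact ⟨∅, isCompact_empty, empty_subset _, fun f _ _ _ => mapsTo_empty _ _⟩
  have hpt : ∀ x ∈ Ω, ∀ y ∈ Ω, scv2P U Ω {x} {y} := fun x hx y hy => by
    refine hc.induction₂' (fun x y => scv2P U Ω {x} {y}) (fun z hz => ?_)
      (fun _ _ _ _ _ _ h h' => h.trans h') hx hy
    obtain ⟨V, hV, h⟩ := scv2P_loc hU hΩ hz
    have hzV := singleton_subset_iff.2 (mem_of_mem_nhds hV)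
    filter_upwards [mem_nhdsWithin_of_mem_nhds hV] with w hw
    exact ⟨h.mono hzV (singleton_subset_iff.2 hw), h.mono (singleton_subset_iff.2 hw) hzV⟩
  have key : scv2P U Ω C {x₀} ∧ scv2P U Ω {x₀} C := by
    refine hC.induction_on (p := fun A => scv2P U Ω A {x₀} ∧ scv2P U Ω {x₀} A) ?_ ?_ ?_ ?_
    · exact ⟨fun K _ _ => ⟨∅, isCompact_empty, empty_subset _, fun f _ _ a ha => ha.elim⟩,
        fun K _ _ => ⟨∅, isCompact_empty, empty_subset _, fun f _ _ a _ _ => mapsTo_empty _ _⟩⟩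
    · exact fun s t hst h => ⟨h.1.mono hst Subset.rfl, h.2.mono Subset.rfl hst⟩
    · refine fun s t h h' => ⟨fun K hK hKU => ?_, fun K hK hKU => ?_⟩
      · obtain ⟨K₁, a1, a2, a3⟩ := h.1 K hK hKU
        obtain ⟨K₂, b1, b2, b3⟩ := h'.1 K hK hKU
        refine ⟨K₁ ∪ K₂, a1.union b1, union_subset a2 b2, fun f hf hm a ha hfa => ?_⟩
        rcases ha with ha | ha
        · exact (a3 f hf hm a ha hfa).mono_right subset_union_left
        · exact (b3 f hf hm a ha hfa).mono_right subset_union_right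
      · obtain ⟨K₁, a1, a2, a3⟩ := h.2 K hK hKU
        obtain ⟨K₂, b1, b2, b3⟩ := h'.2 K hK hKU
        exact ⟨K₁ ∪ K₂, a1.union b1, union_subset a2 b2, fun f hf hm a ha hfa =>
          (a3 f hf hm a ha hfa).union_union (b3 f hf hm a ha hfa)⟩
    · intro x hx
      obtain ⟨V, hV, h⟩ := scv2P_loc hU hΩ (hCΩ hx)
      have hxV := singleton_subset_iff.2 (mem_of_mem_nhds hV)
      exact ⟨V, mem_nhdsWithin_of_mem_nhds hV,
        (h.mono Subset.rfl hxV).trans (hpt x (hCΩ hx) x₀ (hCΩ hx₀)),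
        (hpt x₀ (hCΩ hx₀) x (hCΩ hx)).trans (h.mono hxV Subset.rfl)⟩
  obtain ⟨K', h1, h2, h3⟩ := (key.1.trans key.2) K hK hKU
  exact ⟨K', h1, h2, fun f hf hm ⟨a, ha, hfa⟩ => h3 f hf hm a ha hfa⟩


end Crest.Agent.R264
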