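import Crest.Agent.R264.Calc
import Crest.Agent.R264.SCV2

/-! Row 264, P1: Montel and tautness on `U`. -/

set_option autoImplicit false
open Set Filter Topology Metric Complex

noncomputable section
namespace Crest.Agent.R264.TM
variable (M : TM) {F : Type*} [NormedAddCommGroup F] [NormedSpace ℂ F] [CompleteSpace F]

/-- The family `f` is, near every point of `R`, eventually holomorphic and uniformly bounded. -/
def LocBdd {ι : Type*} (l : Filter ι) (f : ι → CN M.N → F) (R : Set (CN M.N)) : Prop :=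
  ∀ x ∈ R, ∃ W ∈ 𝓝[M.U] x, ∃ C : ℝ, ∀ᶠ j in l, Hol W (f j) ∧ ∀ y ∈ W, ‖f j y‖ ≤ C

theorem SCVMb_chart {x : CN M.N} (hx : x ∈ M.U) {W : Set (CN M.N)} (hW : W ∈ 𝓝[M.U] x) :
    ∃ (ch : Chart M.n M.U) (u : CN M.n) (ε : ℝ), 0 < ε ∧ ch.s = ball u ε ∧ ch.c u = x ∧
      MapsTo ch.c ch.s W := by
  obtain ⟨O, hO, hxO, h⟩ := mem_nhdsWithin.1 hW
  obtain ⟨ch, u, ε, hε, hs, hc, hsub⟩ := M.exists_ball_chart hx (hO.mem_nhds hxO)
  exact ⟨ch, u, ε, hε, hs, hc, fun w hw => h ⟨hsub ⟨w, hw, rfl⟩, ch.maps hw⟩⟩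

omit [CompleteSpace F] in
theorem SCVMb_flat {ι : Type*} {l : Filter ι} {f : ι → CN M.N → F} {R : Set (CN M.N)}
    (hR : ROpen M.U R) (hf : M.LocBdd l f R) {x : CN M.N} (hx : x ∈ R) :
    ∃ (ch : Chart M.n M.U) (u : CN M.n), u ∈ ch.s ∧ ch.c u = x ∧ MapsTo ch.c ch.s R ∧
      Crest.Agent.R264.LocBdd l (fun j w => f j (ch.c w)) ch.s ∧
      ∀ᶠ j in l, Hol (ch.c '' ch.s) (f j) := by
  obtain ⟨W, hW, C, h⟩ := hf x hx
  obtain ⟨ch, u, ε, hε, hs, hc, hm⟩ := M.SCVMb_chart (hR.1 hx) (inter_mem hW (hR.2 x hx))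
  have hm1 : MapsTo ch.c ch.s W := fun w hw => (hm hw).1
  refine ⟨ch, u, hs ▸ mem_ball_self hε, hc, fun w hw => (hm hw).2, fun w hw => ?_,
    h.mono fun j hj => hj.1.mono hm1.image_subset⟩
  obtain ⟨r, hr, hsub⟩ := Metric.isOpen_iff.1 ch.s_open w hw
  refine ⟨r, hr, C, h.mono fun j hj => ⟨?_, fun y hy => hj.2 _ (hm1 (hsub hy))⟩⟩
  exact (hj.1.comp_differentiableOn ch.c_diff hm1).mono hsub

theorem SCVMb_apply {ι E G : Type*} [NormedAddCommGroup E] [NormedSpace ℂ E]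
    [NormedAddCommGroup G] [NormedSpace ℂ G] {l : Filter ι} {A : ι → E →L[ℂ] G} {B : E →L[ℂ] G}
    {v : ι → E} {w : E} (hA : Tendsto A l (𝓝 B)) (hv : Tendsto v l (𝓝 w)) :
    Tendsto (fun j => A j (v j)) l (𝓝 (B w)) :=
  ((continuous_fst.clm_apply continuous_snd : Continuous fun p : (E →L[ℂ] G) × E => p.1 p.2).tendsto
    (B, w)).comp (hA.prodMk_nhds hv)

theorem SCVMb_cont_l {n N : ℕ} {U : Set (CN N)} (ch : Chart n U) : Continuous (fderiv ℂ ch.l) :=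
  continuousOn_univ.1
    (SCV.differentiableOn_fderiv isOpen_univ ch.l_diff.differentiableOn).continuousOn

/-- Montel's theorem on `U`: the limit is holomorphic. -/
theorem montel {ι : Type*} {l : Filter ι} [l.NeBot] {f : ι → CN M.N → F} {g : CN M.N → F}
    {R : Set (CN M.N)} (hR : ROpen M.U R) (hf : M.LocBdd l f R)
    (hg : ∀ x ∈ R, Tendsto (fun j => f j x) l (𝓝 (g x))) :
    Hol R g ∧ TendstoLocallyUniformlyOn f g l R := by
  refine ⟨Hol.of_local fun x hx => ?_, fun e he x hx => ?_⟩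
  · obtain ⟨ch, u, hu, rfl, hm, hb, -⟩ := M.SCVMb_flat hR hf hx
    exact ⟨_, nhdsWithin_mono _ hR.1 (ch.nhds u hu), ch.hol_of ch.s_open Subset.rfl
      (Crest.Agent.R264.montel (g := fun w => g (ch.c w)) ch.s_open hb
        fun w hw => hg _ (hm hw)).1⟩
  · obtain ⟨ch, u, hu, rfl, hm, hb, -⟩ := M.SCVMb_flat hR hf hx
    obtain ⟨t, ht, h⟩ := (Crest.Agent.R264.montel (g := fun w => g (ch.c w)) ch.s_open hb
      fun w hw => hg _ (hm hw)).2.1 e he u hu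
    rw [ch.s_open.nhdsWithin_eq hu] at ht
    refine ⟨ch.c '' t, nhdsWithin_mono _ hR.1 (ch.image_mem_nhds hu ht), h.mono fun j hj => ?_⟩
    rintro _ ⟨w, hw, rfl⟩
    exact hj w hw

/-- Montel's theorem on `U`: moving points and moving tangent vectors. -/
theorem montel_tendsto {ι : Type*} {l : Filter ι} [l.NeBot] {f : ι → CN M.N → F} {g : CN M.N → F}
    {R : Set (CN M.N)} (hR : ROpen M.U R) (hf : M.LocBdd l f R)
    (hg : ∀ x ∈ R, Tendsto (fun j => f j x) l (𝓝 (g x))) {a : ι → CN M.N} {x : CN M.N}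
    (hx : x ∈ R) (ha : Tendsto a l (𝓝[M.U] x)) :
    Tendsto (fun j => f j (a j)) l (𝓝 (g x)) ∧
      ∀ (v : ι → CN M.N) (w : CN M.N), (∀ᶠ j in l, v j ∈ M.T (a j)) → Tendsto v l (𝓝 w) →
        w ∈ M.T x ∧ Tendsto (fun j => M.D (f j) (a j) (v j)) l (𝓝 (M.D g x w)) := by
  have hgH := (M.montel hR hf hg).1
  obtain ⟨ch, u, hu, rfl, hm, hb, hH⟩ := M.SCVMb_flat hR hf hx
  have ha' : Tendsto a l (𝓝 (ch.c u)) := ha.mono_right nhdsWithin_le_nhds
  have hl : Tendsto (fun j => ch.l (a j)) l (𝓝 u) := (ch.tendsto_l hu).comp ha'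
  have hev : ∀ᶠ j in l, ch.l (a j) ∈ ch.s ∧ ch.c (ch.l (a j)) = a j := ha.eventually (ch.ev_mem hu)
  obtain ⟨h1, h2⟩ := Crest.Agent.R264.montel_tendsto (g := fun w => g (ch.c w)) ch.s_open hb
    (fun w hw => hg _ (hm hw)) hu hl
  refine ⟨h1.congr' (hev.mono fun j hj => by simp only [hj.2]), fun v w hv hw => ?_⟩
  have h3 : Tendsto (fun j => fderiv ℂ ch.l (a j) (v j)) l (𝓝 (fderiv ℂ ch.l (ch.c u) w)) :=
    SCVMb_apply (((SCVMb_cont_l ch).tendsto _).comp ha') hw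
  have h4 : Tendsto (fun j => fderiv ℂ ch.c (ch.l (a j))) l (𝓝 (fderiv ℂ ch.c u)) :=
    (((SCV.differentiableOn_fderiv ch.s_open ch.c_diff).continuousOn.continuousAt
      (ch.s_open.mem_nhds hu)).tendsto).comp hl
  have h5 : Tendsto v l (𝓝 (fderiv ℂ ch.c u (fderiv ℂ ch.l (ch.c u) w))) := by
    refine (SCVMb_apply h4 h3).congr' ?_
    filter_upwards [hev, hv] with j hj hj'
    have := ch.fderiv_c_l hj.1 (v := v j) (by rw [hj.2]; exact hj')
    rwa [hj.2] at this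
  have hwT : w ∈ M.T (ch.c u) := by
    rw [tendsto_nhds_unique hw h5]
    exact ch.dc_mem hu _
  refine ⟨hwT, ?_⟩
  have h6 := ch.D_eq_chart hu (M.hol_differentiableWithinAt hR hgH hx) hwT
  change Tendsto _ l (𝓝 (fderivWithin ℂ g M.U (ch.c u) w))
  rw [h6]
  refine (SCVMb_apply h2 h3).congr' ?_
  filter_upwards [hev, hv, hH] with j hj hj' hj''
  have := ch.D_eq_chart hj.1 (M.hol_differentiableWithinAt ch.ropen hj'' ⟨_, hj.1, rfl⟩)
    (v := v j) (by rw [hj.2]; exact hj')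
  rw [hj.2] at this
  exact this.symm

/-- Every tangent vector extends to a local holomorphic tangent field. -/
theorem exists_local_field {x v : CN M.N} (hx : x ∈ M.U) (hv : v ∈ M.T x) :
    ∃ R, ROpen M.U R ∧ x ∈ R ∧ ∃ X : CN M.N → CN M.N, Hol R X ∧ X x = v ∧ ∀ y ∈ R, X y ∈ M.T y := by
  obtain ⟨ch, u, hu, rfl⟩ := M.chart x hx
  refine ⟨_, ch.ropen, ⟨u, hu, rfl⟩,
    fun y => fderiv ℂ ch.c (ch.l y) (fderiv ℂ ch.l (ch.c u) v), ?_, ?_, ?_⟩
  · exact (Hol.of_differentiable ch.l_diff).post_on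
      (k := fun w => fderiv ℂ ch.c w (fderiv ℂ ch.l (ch.c u) v)) ch.s_open
      ((SCV.differentiableOn_fderiv ch.s_open ch.c_diff).clm_apply (differentiableOn_const _))
      fun y hy => (ch.c_l hy).2
  · simp only [ch.left u hu]
    exact ch.fderiv_c_l hu hv
  · rintro _ ⟨w, hw, rfl⟩
    simp only [ch.left w hw]
    exact ch.dc_mem hw _

/-- Uniform Cauchy estimate on compact sets. -/
theorem exists_D_bound {R : Set (CN M.N)} (hR : ROpen M.U R) {C : Set (CN M.N)} (hC : IsCompact C)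
    (hCR : C ⊆ R) : ∃ A : ℝ, ∀ (f : CN M.N → F) (B : ℝ), Hol R f → (∀ y ∈ R, ‖f y‖ ≤ B) →
      ∀ x ∈ C, ∀ v ∈ M.T x, ‖M.D f x v‖ ≤ A * B * ‖v‖ := by
  suffices h : ∃ A : ℝ, ∀ (f : CN M.N → F) (B : ℝ), Hol R f → (∀ y ∈ R, ‖f y‖ ≤ B) →
      ∀ x ∈ C, x ∈ R → ∀ v ∈ M.T x, ‖M.D f x v‖ ≤ A * B * ‖v‖ by
    obtain ⟨A, h⟩ := h
    exact ⟨A, fun f B hf hB x hx => h f B hf hB x hx (hCR hx)⟩
  refine hC.induction_on (p := fun S => ∃ A : ℝ, ∀ (f : CN M.N → F) (B : ℝ), Hol R f →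
    (∀ y ∈ R, ‖f y‖ ≤ B) → ∀ x ∈ S, x ∈ R → ∀ v ∈ M.T x, ‖M.D f x v‖ ≤ A * B * ‖v‖) ?_ ?_ ?_ ?_
  · exact ⟨0, fun _ _ _ _ _ hx => hx.elim⟩
  · rintro S T hST ⟨A, h⟩
    exact ⟨A, fun f B hf hB x hx => h f B hf hB x (hST hx)⟩
  · rintro S T ⟨A, h⟩ ⟨A', h'⟩
    refine ⟨max A A', fun f B hf hB x hx hxR v hv => ?_⟩
    have hB0 : 0 ≤ B := (norm_nonneg _).trans (hB x hxR)
    rcases hx with hx | hx
    · refine (h f B hf hB x hx hxR v hv).trans ?_
      gcongr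
      exact le_max_left _ _
    · refine (h' f B hf hB x hx hxR v hv).trans ?_
      gcongr
      exact le_max_right _ _
  · intro x hx
    obtain ⟨ch, u, ε, hε, hs, rfl, hm⟩ := M.SCVMb_chart (hR.1 (hCR hx)) (hR.2 x (hCR hx))
    have hu : u ∈ ch.s := hs ▸ mem_ball_self hε
    have hsub : closedBall u (ε / 2) ⊆ ch.s := hs ▸ closedBall_subset_ball (half_lt_self hε)
    have hK : IsCompact (ch.c '' closedBall u (ε / 2)) :=
      (isCompact_closedBall _ _).image_of_continuousOn (ch.c_diff.continuousOn.mono hsub)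
    obtain ⟨L, hL⟩ := hK.exists_bound_of_continuousOn (SCVMb_cont_l ch).continuousOn
    refine ⟨ch.c '' closedBall u (ε / 2), nhdsWithin_mono _ (hCR.trans hR.1)
      (ch.image_mem_nhds hu (closedBall_mem_nhds u (half_pos hε))), L / (ε / 2), ?_⟩
    rintro f B hf hB _ ⟨w, hw, rfl⟩ hxR v hv
    have hB0 : 0 ≤ B := (norm_nonneg _).trans (hB _ hxR)
    have hb : ball w (ε / 2) ⊆ ch.s := by
      rw [hs]
      refine ball_subset_ball' ?_
      have := mem_closedBall.1 hw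
      linarith
    have h1 : ‖fderiv ℂ (fun w => f (ch.c w)) w‖ ≤ B / (ε / 2) :=
      norm_fderiv_le_of_ball (half_pos hε) ((hf.comp_differentiableOn ch.c_diff hm).mono hb)
        fun y hy => hB _ (hm (hb hy))
    have h2 := hL _ ⟨w, hw, rfl⟩
    change ‖fderivWithin ℂ f M.U (ch.c w) v‖ ≤ _
    rw [ch.D_eq_chart (hsub hw) (M.hol_differentiableWithinAt hR hf hxR) hv]
    calc _ ≤ ‖fderiv ℂ (fun w => f (ch.c w)) w‖ * (‖fderiv ℂ ch.l (ch.c w)‖ * ‖v‖) :=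
          (ContinuousLinearMap.le_opNorm _ _).trans
            (mul_le_mul_of_nonneg_left (ContinuousLinearMap.le_opNorm _ _) (norm_nonneg _))
      _ ≤ B / (ε / 2) * (L * ‖v‖) := by gcongr
      _ = _ := by ring

/-- control of the values on `S'` by one value on `S` -/
def SCVMb_Good {N' : ℕ} (U' : Set (CN N')) (R S S' : Set (CN M.N)) : Prop :=
  ∀ K : Set (CN N'), IsCompact K → K ⊆ U' → ∃ K' : Set (CN N'), IsCompact K' ∧ K' ⊆ U' ∧
    ∀ f : CN M.N → CN N', Hol R f → MapsTo f R U' → (∃ a ∈ S, f a ∈ K) → MapsTo f S' K'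

theorem SCVMb_Good.mono {M : TM} {N' : ℕ} {U' : Set (CN N')} {R S S' T T' : Set (CN M.N)}
    (h : M.SCVMb_Good U' R S S') (h1 : T ⊆ S) (h2 : T' ⊆ S') : M.SCVMb_Good U' R T T' := by
  intro K hK hKU
  obtain ⟨K', h3, h4, h5⟩ := h K hK hKU
  exact ⟨K', h3, h4, fun f hf hm ⟨a, ha, hfa⟩ => (h5 f hf hm ⟨a, h1 ha, hfa⟩).mono_left h2⟩

theorem SCVMb_Good.trans {M : TM} {N' : ℕ} {U' : Set (CN N')} {R S S' : Set (CN M.N)}
    {y : CN M.N} (h : M.SCVMb_Good U' R S {y}) (h' : M.SCVMb_Good U' R {y} S') :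
    M.SCVMb_Good U' R S S' := by
  intro K hK hKU
  obtain ⟨K', h3, h4, h5⟩ := h K hK hKU
  obtain ⟨K'', h6, h7, h8⟩ := h' K' h3 h4
  exact ⟨K'', h6, h7, fun f hf hm ha => h8 f hf hm ⟨y, rfl, h5 f hf hm ha rfl⟩⟩

theorem SCVMb_Good.union_left {M : TM} {N' : ℕ} {U' : Set (CN N')} {R S T S' : Set (CN M.N)}
    (h : M.SCVMb_Good U' R S S') (h' : M.SCVMb_Good U' R T S') :
    M.SCVMb_Good U' R (S ∪ T) S' := by
  intro K hK hKU
  obtain ⟨K', h3, h4, h5⟩ := h K hK hKU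
  obtain ⟨K'', h6, h7, h8⟩ := h' K hK hKU
  refine ⟨K' ∪ K'', h3.union h6, union_subset h4 h7, ?_⟩
  rintro f hf hm ⟨a, ha | ha, hfa⟩
  · exact (h5 f hf hm ⟨a, ha, hfa⟩).mono_right subset_union_left
  · exact (h8 f hf hm ⟨a, ha, hfa⟩).mono_right subset_union_right

theorem SCVMb_Good.union_right {M : TM} {N' : ℕ} {U' : Set (CN N')} {R S S' T' : Set (CN M.N)}
    (h : M.SCVMb_Good U' R S S') (h' : M.SCVMb_Good U' R S T') :
    M.SCVMb_Good U' R S (S' ∪ T') := by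
  intro K hK hKU
  obtain ⟨K', h3, h4, h5⟩ := h K hK hKU
  obtain ⟨K'', h6, h7, h8⟩ := h' K hK hKU
  exact ⟨K' ∪ K'', h3.union h6, union_subset h4 h7, fun f hf hm ha =>
    (h5 f hf hm ha).union_union (h8 f hf hm ha)⟩

theorem SCVMb_local {N' : ℕ} {U' : Set (CN N')} (hU : TautSet U') {R : Set (CN M.N)}
    (hR : ROpen M.U R) {x : CN M.N} (hx : x ∈ R) :
    ∃ S ∈ 𝓝[M.U] x, M.SCVMb_Good U' R S S := by
  obtain ⟨ch, u, ε, hε, hs, rfl, hm⟩ := M.SCVMb_chart (hR.1 hx) (hR.2 x hx)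
  have hu : u ∈ ch.s := hs ▸ mem_ball_self hε
  refine ⟨ch.c '' closedBall u (ε / 2),
    ch.image_mem_nhds hu (closedBall_mem_nhds u (half_pos hε)), fun K hK hKU => ?_⟩
  obtain ⟨K', h1, h2, h3⟩ := hU.of_connected (Ω := ch.s) (C := closedBall u (ε / 2)) ch.s_open
    (hs ▸ (convex_ball u ε).isPreconnected) (isCompact_closedBall _ _)
    (hs ▸ closedBall_subset_ball (half_lt_self hε)) hK hKU
  refine ⟨K', h1, h2, ?_⟩
  rintro f hf hfm ⟨_, ⟨a, ha, rfl⟩, hfa⟩ _ ⟨w, hw, rfl⟩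
  exact h3 (fun w => f (ch.c w)) (hf.comp_differentiableOn ch.c_diff hm)
    (fun w hw => hfm (hm hw)) ⟨a, ha, hfa⟩ hw

/-- Tautness for maps from a connected open part of `U` to a taut set. -/
theorem taut_of_connected {N' : ℕ} {U' : Set (CN N')} (hU : TautSet U') {R C : Set (CN M.N)}
    (hR : ROpen M.U R) (hc : IsPreconnected R) (hC : IsCompact C) (hCR : C ⊆ R)
    {K : Set (CN N')} (hK : IsCompact K) (hKU : K ⊆ U') :
    ∃ K' : Set (CN N'), IsCompact K' ∧ K' ⊆ U' ∧ ∀ f : CN M.N → CN N', Hol R f →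
      MapsTo f R U' → (∃ a ∈ C, f a ∈ K) → MapsTo f C K' := by
  rcases C.eq_empty_or_nonempty with rfl | ⟨x₀, hx₀⟩
  · exact ⟨∅, isCompact_empty, empty_subset _, fun f _ _ _ => mapsTo_empty _ _⟩
  have hloc : ∀ x ∈ R, ∃ S ∈ 𝓝[R] x, x ∈ S ∧ M.SCVMb_Good U' R S S := fun x hx => by
    obtain ⟨S, hS, h⟩ := M.SCVMb_local hU hR hx
    exact ⟨S, nhdsWithin_mono _ hR.1 hS, mem_of_mem_nhdsWithin (hR.1 hx) hS, h⟩
  have hpt : ∀ x ∈ R, ∀ y ∈ R, M.SCVMb_Good U' R {x} {y} := fun x hx y hy => by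
    refine hc.induction₂' (fun x y => M.SCVMb_Good U' R {x} {y}) (fun x hx => ?_)
      (fun x y z _ _ _ h h' => h.trans h') hx hy
    obtain ⟨S, hS, hxS, h⟩ := hloc x hx
    filter_upwards [hS] with y hy
    exact ⟨h.mono (singleton_subset_iff.2 hxS) (singleton_subset_iff.2 hy),
      h.mono (singleton_subset_iff.2 hy) (singleton_subset_iff.2 hxS)⟩
  have h1 : M.SCVMb_Good U' R C {x₀} := by
    refine hC.induction_on (p := fun S => M.SCVMb_Good U' R S {x₀}) ?_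
      (fun S T hST h => h.mono hST Subset.rfl) (fun S T h h' => h.union_left h') fun x hx => ?_
    · exact fun K _ _ => ⟨∅, isCompact_empty, empty_subset _, fun f _ _ ⟨a, ha, _⟩ => ha.elim⟩
    · obtain ⟨S, hS, hxS, h⟩ := hloc x (hCR hx)
      exact ⟨S, nhdsWithin_mono _ hCR hS, (h.mono Subset.rfl (singleton_subset_iff.2 hxS)).trans
        (hpt x (hCR hx) x₀ (hCR hx₀))⟩
  have h2 : M.SCVMb_Good U' R {x₀} C := by
    refine hC.induction_on (p := fun S => M.SCVMb_Good U' R {x₀} S) ?_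
      (fun S T hST h => h.mono Subset.rfl hST) (fun S T h h' => h.union_right h') fun x hx => ?_
    · exact fun K _ _ => ⟨∅, isCompact_empty, empty_subset _, fun f _ _ _ => mapsTo_empty _ _⟩
    · obtain ⟨S, hS, hxS, h⟩ := hloc x (hCR hx)
      exact ⟨S, nhdsWithin_mono _ hCR hS, (hpt x₀ (hCR hx₀) x (hCR hx)).trans
        (h.mono (singleton_subset_iff.2 hxS) Subset.rfl)⟩
  exact (h1.trans h2) K hK hKU

end Crest.Agent.R264.TM
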