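import Crest.Agent.R264.SCVMa
import Crest.Agent.R264.SCVMb

/-! Row 264, P1: inverse function theorem on `U`. -/

set_option autoImplicit false
open Set Filter Topology Metric Complex

noncomputable section
namespace Crest.Agent.R264.TM
variable (M : TM) {F : Type*} [NormedAddCommGroup F] [NormedSpace ℂ F] [CompleteSpace F]

theorem SCVM_inv {E E' : Type*} [NormedAddCommGroup E] [NormedSpace ℂ E] [NormedAddCommGroup E']
    [NormedSpace ℂ E'] {φ : E → E'} {ψ : E' → E} {a : E} (hφ : DifferentiableAt ℂ φ a)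
    (hψ : DifferentiableAt ℂ ψ (φ a)) (h : ∀ᶠ x in 𝓝 a, ψ (φ x) = x) (w : E) :
    fderiv ℂ ψ (φ a) (fderiv ℂ φ a w) = w := by
  have h1 := hψ.hasFDerivAt.comp a hφ.hasFDerivAt
  have h2 : HasFDerivAt (ψ ∘ φ) (ContinuousLinearMap.id ℂ E) a :=
    (hasFDerivAt_id a).congr_of_eventuallyEq h
  exact congrArg (fun L : E →L[ℂ] E => L w) (h1.unique h2)

theorem SCVM_chart {E : Type*} [NormedAddCommGroup E] [NormedSpace ℂ E] {R : Set (CN M.N)}
    (hR : ROpen M.U R) {f : CN M.N → E} (hf : Hol R f) {x : CN M.N} (hx : x ∈ R) :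
    ∃ (ch : Chart M.n M.U) (u : CN M.n), u ∈ ch.s ∧ ch.c u = x ∧ MapsTo ch.c ch.s R ∧
      DifferentiableOn ℂ (fun w => f (ch.c w)) ch.s := by
  obtain ⟨O, hO, e⟩ := hR.exists_open
  have hxO : x ∈ O := by rw [e] at hx; exact hx.2
  obtain ⟨ch, u, ε, hε, h1, h2, h3⟩ := M.exists_ball_chart (hR.1 hx) (hO.mem_nhds hxO)
  have h4 : MapsTo ch.c ch.s R := fun w hw => by
    rw [e]; exact ⟨ch.maps hw, h3 ⟨w, hw, rfl⟩⟩
  exact ⟨ch, u, by rw [h1]; exact mem_ball_self hε, h2, h4, hf.comp_differentiableOn ch.c_diff h4⟩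

theorem SCVM_local {E : Type*} [NormedAddCommGroup E] [NormedSpace ℂ E]
    [FiniteDimensional ℂ E] (hdim : Module.finrank ℂ E = M.n) {R : Set (CN M.N)}
    (hR : ROpen M.U R) {f : CN M.N → E} (hf : Hol R f) {x : CN M.N} (hx : x ∈ R)
    (hb : ∀ v ∈ M.T x, M.D f x v = 0 → v = 0) :
    ∃ (ch : Chart M.n M.U) (u : CN M.n) (A : Set (CN M.n)) (B : Set E) (g : E → CN M.n),
      ch.c u = x ∧ MapsTo ch.c ch.s R ∧ DifferentiableOn ℂ (fun w => f (ch.c w)) ch.s ∧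
      IsOpen A ∧ u ∈ A ∧ A ⊆ ch.s ∧ IsOpen B ∧ DifferentiableOn ℂ g B ∧
      MapsTo (fun w => f (ch.c w)) A B ∧ MapsTo g B A ∧ (∀ w ∈ A, g (f (ch.c w)) = w) ∧
      ∀ y ∈ B, f (ch.c (g y)) = y := by
  obtain ⟨ch, u, hu, rfl, h1, h2⟩ := M.SCVM_chart hR hf hx
  have h3 : Function.Injective (fderiv ℂ (fun w => f (ch.c w)) u) := by
    rw [injective_iff_map_eq_zero]
    intro w hw
    rw [M.D_chart ch hu (M.hol_differentiableWithinAt hR hf hx)] at hw
    exact (injective_iff_map_eq_zero _).1 (ch.fderiv_injective hu) w (hb _ (ch.dc_mem hu w) hw)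
  have h4 : Function.Surjective (fderiv ℂ (fun w => f (ch.c w)) u) :=
    (LinearMap.injective_iff_surjective_of_finrank_eq_finrank
      (f := (fderiv ℂ (fun w => f (ch.c w)) u : CN M.n →ₗ[ℂ] E)) (by simp [hdim])).1 h3
  obtain ⟨A, B, g, h5⟩ := exists_local_inverse ch.s_open h2 hu ⟨h3, h4⟩
  exact ⟨ch, u, A, B, g, rfl, h1, h2, h5⟩

theorem SCVM_map {E : Type*} [NormedAddCommGroup E] [NormedSpace ℂ E]
    [FiniteDimensional ℂ E] {R : Set (CN M.N)} (hR : ROpen M.U R) {f : CN M.N → E} (hf : Hol R f)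
    {x : CN M.N} (hx : x ∈ R) (hb : ∀ e, ∃ v ∈ M.T x, M.D f x v = e) :
    map f (𝓝[M.U] x) = 𝓝 (f x) := by
  have : CompleteSpace E := FiniteDimensional.complete ℂ E
  obtain ⟨ch, u, hu, rfl, h1, h2⟩ := M.SCVM_chart hR hf hx
  rw [← ch.map_nhds hu, map_map]
  refine (hasStrictFDerivAt_of_differentiableOn ch.s_open h2 hu).map_nhds_eq_of_surj ?_
  rw [LinearMap.range_eq_top]
  intro e
  obtain ⟨v, hv, rfl⟩ := hb e
  refine ⟨fderiv ℂ ch.l (ch.c u) v, ?_⟩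
  exact (ch.D_eq_chart hu (M.hol_differentiableWithinAt hR hf hx) hv).symm

/-- Inverse function theorem on `U`: an injective holomorphic map with injective derivatives to a
space of the same dimension has an open image and a holomorphic inverse. -/
theorem exists_inverse_of_injOn {E : Type*} [NormedAddCommGroup E] [NormedSpace ℂ E]
    [FiniteDimensional ℂ E] (hdim : Module.finrank ℂ E = M.n) {R : Set (CN M.N)}
    (hR : ROpen M.U R) {f : CN M.N → E} (hf : Hol R f) (hi : InjOn f R)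
    (hb : ∀ x ∈ R, ∀ v ∈ M.T x, M.D f x v = 0 → v = 0) :
    IsOpen (f '' R) ∧ ∃ g : E → CN M.N, DifferentiableOn ℂ g (f '' R) ∧ (∀ x ∈ R, g (f x) = x) ∧
      ∀ x ∈ R, Function.Injective (fderiv ℂ g (f x)) ∧
        LinearMap.range (fderiv ℂ g (f x) : E →ₗ[ℂ] CN M.N) = M.T x ∧
        (∀ e, M.D f x (fderiv ℂ g (f x) e) = e) ∧ map f (𝓝[M.U] x) = 𝓝 (f x) := by
  have : Nonempty (CN M.N) := ⟨0⟩
  have key : ∀ x ∈ R, f '' R ∈ 𝓝 (f x) ∧ DifferentiableAt ℂ (Function.invFunOn f R) (f x) ∧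
      LinearMap.range (fderiv ℂ (Function.invFunOn f R) (f x) : E →ₗ[ℂ] CN M.N) = M.T x ∧
      ∀ e, M.D f x (fderiv ℂ (Function.invFunOn f R) (f x) e) = e := by
    intro x hx
    obtain ⟨ch, u, A, B, g, rfl, h1, h2, hA, huA, hAs, hB, hg, m1, m2, l1, l2⟩ :=
      M.SCVM_local hdim hR hf hx (hb x hx)
    have hu := hAs huA
    have hBn : B ∈ 𝓝 (f (ch.c u)) := hB.mem_nhds (m1 huA)
    have hgu : g (f (ch.c u)) = u := l1 u huA
    have e1 : Function.invFunOn f R =ᶠ[𝓝 (f (ch.c u))] fun y => ch.c (g y) := by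
      filter_upwards [hBn] with y hy
      have := hi.leftInvOn_invFunOn (h1 (hAs (m2 hy)))
      rwa [l2 y hy] at this
    have d1 : DifferentiableAt ℂ g (f (ch.c u)) := hg.differentiableAt hBn
    have d2 : DifferentiableAt ℂ (fun w => f (ch.c w)) u :=
      h2.differentiableAt (ch.s_open.mem_nhds hu)
    have d3 : HasFDerivAt (fun y => ch.c (g y))
        ((fderiv ℂ ch.c u).comp (fderiv ℂ g (f (ch.c u)))) (f (ch.c u)) :=
      HasFDerivAt.comp (f (ch.c u)) (by rw [hgu]; exact (ch.differentiableAt hu).hasFDerivAt)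
        d1.hasFDerivAt
    have d4 := d3.congr_of_eventuallyEq e1
    have i1 : ∀ w, fderiv ℂ g (f (ch.c u)) (fderiv ℂ (fun w => f (ch.c w)) u w) = w :=
      SCVM_inv d2 d1 (by filter_upwards [hA.mem_nhds huA] with w hw using l1 w hw)
    have i2 : ∀ e, fderiv ℂ (fun w => f (ch.c w)) u (fderiv ℂ g (f (ch.c u)) e) = e := by
      intro e
      have := SCVM_inv (ψ := fun w => f (ch.c w)) d1 (by rw [hgu]; exact d2)
        (by filter_upwards [hBn] with y hy using l2 y hy) e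
      rwa [hgu] at this
    refine ⟨mem_of_superset hBn fun y hy => ⟨_, h1 (hAs (m2 hy)), l2 y hy⟩, d4.differentiableAt,
      ?_, fun e => ?_⟩
    · rw [d4.fderiv]
      apply le_antisymm
      · rintro _ ⟨e, rfl⟩
        exact ch.dc_mem hu _
      · intro v hv
        refine ⟨fderiv ℂ (fun w => f (ch.c w)) u (fderiv ℂ ch.l (ch.c u) v), ?_⟩
        change fderiv ℂ ch.c u (fderiv ℂ g (f (ch.c u)) _) = v
        rw [i1, ch.fderiv_c_l hu hv]
    · rw [d4.fderiv, ContinuousLinearMap.comp_apply,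
        ← M.D_chart ch hu (M.hol_differentiableWithinAt hR hf hx), i2]
  refine ⟨isOpen_iff_mem_nhds.2 ?_, Function.invFunOn f R, ?_,
    fun x hx => hi.leftInvOn_invFunOn hx, fun x hx => ?_⟩
  · rintro _ ⟨x, hx, rfl⟩
    exact (key x hx).1
  · rintro _ ⟨x, hx, rfl⟩
    exact (key x hx).2.1.differentiableWithinAt
  · obtain ⟨-, -, h1, h2⟩ := key x hx
    refine ⟨Function.LeftInverse.injective h2, h1, h2, M.SCVM_map hR hf hx fun e => ⟨_, ?_, h2 e⟩⟩
    rw [← h1]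
    exact ⟨e, rfl⟩

/-- Local form of the inverse function theorem on `U`. -/
theorem exists_injOn_of_D {E : Type*} [NormedAddCommGroup E] [NormedSpace ℂ E]
    [FiniteDimensional ℂ E] (hdim : Module.finrank ℂ E = M.n) {R : Set (CN M.N)}
    (hR : ROpen M.U R) {f : CN M.N → E} (hf : Hol R f) {x : CN M.N} (hx : x ∈ R)
    (hb : ∀ v ∈ M.T x, M.D f x v = 0 → v = 0) :
    ∃ R', ROpen M.U R' ∧ x ∈ R' ∧ R' ⊆ R ∧ InjOn f R' ∧
      ∀ y ∈ R', ∀ v ∈ M.T y, M.D f y v = 0 → v = 0 := by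
  obtain ⟨ch, u, A, B, g, rfl, h1, h2, hA, huA, hAs, hB, hg, m1, -, l1, -⟩ :=
    M.SCVM_local hdim hR hf hx hb
  refine ⟨ch.c '' A, ⟨?_, ?_⟩, ⟨u, huA, rfl⟩, ?_, ?_, ?_⟩
  · rintro _ ⟨a, ha, rfl⟩
    exact ch.maps (hAs ha)
  · rintro _ ⟨a, ha, rfl⟩
    exact ch.image_mem_nhds (hAs ha) (hA.mem_nhds ha)
  · rintro _ ⟨a, ha, rfl⟩
    exact h1 (hAs ha)
  · rintro _ ⟨a, ha, rfl⟩ _ ⟨a', ha', rfl⟩ e
    rw [← l1 a ha, e, l1 a' ha']
  · rintro _ ⟨a, ha, rfl⟩ v hv h0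
    have hs := hAs ha
    have i1 := SCVM_inv (h2.differentiableAt (ch.s_open.mem_nhds hs))
      (hg.differentiableAt (hB.mem_nhds (m1 ha)))
      (by filter_upwards [hA.mem_nhds ha] with w hw using l1 w hw) (fderiv ℂ ch.l (ch.c a) v)
    rw [← ch.D_eq_chart hs (M.hol_differentiableWithinAt hR hf (h1 hs)) hv, h0, map_zero] at i1
    rw [← ch.fderiv_c_l hs hv, ← i1, map_zero]

/-- A submersion is open. -/
theorem nhds_le_map_of_D {E : Type*} [NormedAddCommGroup E] [NormedSpace ℂ E]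
    [FiniteDimensional ℂ E] {R : Set (CN M.N)} (hR : ROpen M.U R) {f : CN M.N → E} (hf : Hol R f)
    {x : CN M.N} (hx : x ∈ R) (hb : ∀ e, ∃ v ∈ M.T x, M.D f x v = e) :
    𝓝 (f x) ≤ map f (𝓝[M.U] x) :=
  (M.SCVM_map hR hf hx hb).ge

end Crest.Agent.R264.TM
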