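import Crest.Agent.R264.VFLie
import Crest.Agent.R264.SCVM

/-! Row 264, P1: automorphisms (elementary facts). -/

set_option autoImplicit false
open Set Filter Topology Metric Complex

noncomputable section
namespace Crest.Agent.R264.TM
variable (M : TM)

theorem hol_ap (h : M.Aut) : Hol M.U (M.ap h) := h.2.1

theorem ap_eq (h : M.Aut) {x : CN M.N} (hx : x ∈ M.U) :
    M.ap h x = ((h : Equiv.Perm M.U) ⟨x, hx⟩ : CN M.N) := dif_pos hx

theorem ap_mem (h : M.Aut) {x : CN M.N} (hx : x ∈ M.U) : M.ap h x ∈ M.U := by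
  rw [M.ap_eq h hx]
  exact Subtype.property _

theorem ap_one {x : CN M.N} (hx : x ∈ M.U) : M.ap 1 x = x := by
  rw [M.ap_eq 1 hx]; rfl

theorem ap_mul (g h : M.Aut) {x : CN M.N} (hx : x ∈ M.U) :
    M.ap (g * h) x = M.ap g (M.ap h x) := by
  rw [M.ap_eq g (M.ap_mem h hx), M.ap_eq (g * h) hx]
  have : (⟨M.ap h x, M.ap_mem h hx⟩ : M.U) = (h : Equiv.Perm M.U) ⟨x, hx⟩ :=
    Subtype.ext (M.ap_eq h hx)
  rw [this]; rfl

theorem ap_inv_ap (h : M.Aut) {x : CN M.N} (hx : x ∈ M.U) : M.ap h⁻¹ (M.ap h x) = x := by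
  rw [← M.ap_mul _ _ hx, inv_mul_cancel, M.ap_one hx]

theorem ap_ap_inv (h : M.Aut) {x : CN M.N} (hx : x ∈ M.U) : M.ap h (M.ap h⁻¹ x) = x := by
  rw [← M.ap_mul _ _ hx, mul_inv_cancel, M.ap_one hx]

theorem ap_injOn (h : M.Aut) : InjOn (M.ap h) M.U := fun x hx y hy e => by
  rw [← M.ap_inv_ap h hx, e, M.ap_inv_ap h hy]

theorem aut_ext {g h : M.Aut} (e : ∀ x ∈ M.U, M.ap g x = M.ap h x) : g = h := by
  refine Subtype.ext (Equiv.ext fun x => Subtype.ext ?_)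
  rw [← M.ap_eq g x.2, ← M.ap_eq h x.2, e x x.2]

/-- Automorphisms from a pair of inverse holomorphic maps. -/
theorem exists_aut {f g : CN M.N → CN M.N} (hf : Hol M.U f) (hg : Hol M.U g)
    (mf : MapsTo f M.U M.U) (mg : MapsTo g M.U M.U) (h1 : ∀ x ∈ M.U, g (f x) = x)
    (h2 : ∀ x ∈ M.U, f (g x) = x) :
    ∃ h : M.Aut, (∀ x ∈ M.U, M.ap h x = f x) ∧ ∀ x ∈ M.U, M.ap h⁻¹ x = g x := by
  let e : Equiv.Perm M.U :=
    { toFun := fun x => ⟨f x, mf x.2⟩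
      invFun := fun x => ⟨g x, mg x.2⟩
      left_inv := fun x => Subtype.ext (h1 x x.2)
      right_inv := fun x => Subtype.ext (h2 x x.2) }
  have e1 : ∀ x ∈ M.U, M.act e x = f x := fun x hx => M.act_eq e hx
  have e2 : ∀ x ∈ M.U, M.act e⁻¹ x = g x := fun x hx => M.act_eq e⁻¹ hx
  exact ⟨⟨e, hf.congr e1, hg.congr e2⟩, e1, e2⟩

theorem D_ap_mem (h : M.Aut) {x v : CN M.N} (hx : x ∈ M.U) (hv : v ∈ M.T x) :
    M.D (M.ap h) x v ∈ M.T (M.ap h x) := by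
  exact tD_mem_tan ((M.hol_ap h).differentiableWithinAt hx) (fun y hy => M.ap_mem h hy) hv

theorem D_ap_one {x v : CN M.N} (hx : x ∈ M.U) (hv : v ∈ M.T x) : M.D (M.ap 1) x v = v := by
  rw [M.D_congr (f := M.ap 1) hx (eventually_nhdsWithin_of_forall fun y hy => M.ap_one hy)]
  exact tD_id hv

theorem D_ap_mul (g h : M.Aut) {x v : CN M.N} (hx : x ∈ M.U) (hv : v ∈ M.T x) :
    M.D (M.ap (g * h)) x v = M.D (M.ap g) (M.ap h x) (M.D (M.ap h) x v) := by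
  exact M.D_act_mul (M.hol_ap g) (M.hol_ap h) hx hv

theorem D_ap_inv (h : M.Aut) {x v : CN M.N} (hx : x ∈ M.U) (hv : v ∈ M.T x) :
    M.D (M.ap h⁻¹) (M.ap h x) (M.D (M.ap h) x v) = v := by
  rw [← M.D_ap_mul _ _ hx hv, inv_mul_cancel, M.D_ap_one hx hv]

theorem Ad_apply (h : M.Aut) (X : M.VF) {x : CN M.N} (hx : x ∈ M.U) :
    (M.Ad h X : CN M.N → CN M.N) (M.ap h x) = M.D (M.ap h) x ((X : CN M.N → CN M.N) x) := by
  exact M.push_act h X hx

theorem Ad_apply' (h : M.Aut) (X : M.VF) {x : CN M.N} (hx : x ∈ M.U) :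
    (M.Ad h X : CN M.N → CN M.N) x =
      M.D (M.ap h) (M.ap h⁻¹ x) ((X : CN M.N → CN M.N) (M.ap h⁻¹ x)) := M.push_apply h X hx

theorem vf_ext {X Y : M.VF} (h : ∀ x ∈ M.U, (X : CN M.N → CN M.N) x = (Y : CN M.N → CN M.N) x) :
    X = Y := by
  refine Subtype.ext (funext fun x => ?_)
  by_cases hx : x ∈ M.U
  · exact h x hx
  · rw [X.2.2.2 x hx, Y.2.2.2 x hx]

/-- Automorphisms are uniformly bounded. -/
theorem locBdd_ap {ι : Type*} (l : Filter ι) (h : ι → M.Aut) :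
    M.LocBdd l (fun j => M.ap (h j)) M.U := by
  obtain ⟨C, hC⟩ := M.bdd.exists_norm_le
  exact fun x _ => ⟨M.U, self_mem_nhdsWithin, C,
    Eventually.of_forall fun j => ⟨M.hol_ap _, fun y hy => hC _ (M.ap_mem _ hy)⟩⟩

end Crest.Agent.R264.TM
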