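import Crest.Agent.R264.AutA

/-! Row 264, P1: limits of automorphisms, properness.

`exists_limit`: `φ x` = limit along the ultrafilter (bounded set in a proper space:
`IsCompact.ultrafilter_le_nhds`), `M.montel` with `locBdd_ap`; if `φ x0 ∈ U` then eventually
`h j x0` is in a compact neighbourhood `K` of `φ x0` in `U` (`exists_compact_nhds`), and
`taut_of_connected` with `R = U`, `C = {x0, x}` gives `φ x ∈ K' ⊆ U`.
`proper`: apply `taut_of_connected` (`C = K ∪ {x0}`) to `h j` and to `(h j)⁻¹`; both limits map `U` to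
`U`; they are inverse to each other by `montel_tendsto` (moving points); `exists_aut`. -/

set_option autoImplicit false
open Set Filter Topology Metric Complex

noncomputable section
namespace Crest.Agent.R264.TM
variable (M : TM)

theorem AutB_ropen : ROpen M.U M.U := ⟨Subset.rfl, fun _ _ => self_mem_nhdsWithin⟩

theorem AutB_maps {ι : Type*} {l : Filter ι} [l.NeBot] (h : ι → M.Aut) {φ : CN M.N → CN M.N}
    (hφ : ∀ x ∈ M.U, Tendsto (fun j => M.ap (h j) x) l (𝓝 (φ x))) {K K₁ : Set (CN M.N)}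
    (hK : IsCompact K) (hKU : K ⊆ M.U) (hK₁ : IsCompact K₁) (hKU₁ : K₁ ⊆ M.U)
    (hl : ∀ᶠ j in l, ∃ x ∈ K, M.ap (h j) x ∈ K₁) : MapsTo φ M.U M.U := by
  intro x hx
  obtain ⟨K', hK', hK'U, h'⟩ := M.taut_of_connected M.taut M.AutB_ropen M.conn.isPreconnected
    (hK.insert x) (insert_subset hx hKU) hK₁ hKU₁
  refine hK'U (hK'.isClosed.mem_of_tendsto (hφ x hx) ?_)
  filter_upwards [hl] with j hj
  obtain ⟨a, ha, ha'⟩ := hj
  exact h' _ (M.hol_ap _) (fun y hy => M.ap_mem _ hy) ⟨a, mem_insert_of_mem _ ha, ha'⟩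
    (mem_insert _ _)

/-- Limits of automorphisms along an ultrafilter exist; they are holomorphic with values in the
closure, and map `U` either into `U` or into the boundary. -/
theorem exists_limit {ι : Type*} (l : Ultrafilter ι) (h : ι → M.Aut) :
    ∃ φ : CN M.N → CN M.N, Hol M.U φ ∧ MapsTo φ M.U (closure M.U) ∧
      (∀ x ∈ M.U, Tendsto (fun j => M.ap (h j) x) l (𝓝 (φ x))) ∧
      (MapsTo φ M.U M.U ∨ ∀ x ∈ M.U, φ x ∉ M.U) := by
  have hc : IsCompact (closure M.U) := M.bdd.isCompact_closure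
  have key : ∀ x ∈ M.U, ∃ y ∈ closure M.U, Tendsto (fun j => M.ap (h j) x) l (𝓝 y) := by
    intro x hx
    obtain ⟨y, hy, h1⟩ := hc.ultrafilter_le_nhds (l.map fun j => M.ap (h j) x) (by
      rw [Ultrafilter.coe_map, le_principal_iff, mem_map]
      exact Eventually.of_forall fun j => subset_closure (M.ap_mem _ hx))
    exact ⟨y, hy, h1⟩
  choose! φ h1 h2 using key
  refine ⟨φ, (M.montel M.AutB_ropen (M.locBdd_ap l h) h2).1, h1, h2, ?_⟩
  by_cases h0 : ∃ x ∈ M.U, φ x ∈ M.U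
  · left
    obtain ⟨x0, hx0, hφ0⟩ := h0
    obtain ⟨C, hC, hCc, hCU⟩ := M.exists_compact_nhds hφ0 univ_mem
    refine M.AutB_maps h h2 (isCompact_singleton (x := x0)) (singleton_subset_iff.2 hx0) hCc
      (hCU.trans inter_subset_left) ?_
    have : Tendsto (fun j => M.ap (h j) x0) l (𝓝[M.U] (φ x0)) :=
      tendsto_nhdsWithin_iff.2 ⟨h2 x0 hx0, Eventually.of_forall fun j => M.ap_mem _ hx0⟩
    filter_upwards [this hC] with j hj
    exact ⟨x0, rfl, hj⟩
  · right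
    exact fun x hx hφ => h0 ⟨x, hx, hφ⟩

/-- Properness of the action of the automorphism group. -/
theorem proper {ι : Type*} (l : Ultrafilter ι) (h : ι → M.Aut) {K : Set (CN M.N)}
    (hK : IsCompact K) (hKU : K ⊆ M.U) (hl : ∀ᶠ j in (l : Filter ι), ∃ x ∈ K, M.ap (h j) x ∈ K) :
    ∃ g : M.Aut, (∀ x ∈ M.U, Tendsto (fun j => M.ap (h j) x) l (𝓝 (M.ap g x))) ∧
      ∀ x ∈ M.U, Tendsto (fun j => M.ap (h j)⁻¹ x) l (𝓝 (M.ap g⁻¹ x)) := by
  obtain ⟨φ, hφ, -, tφ, -⟩ := M.exists_limit l h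
  obtain ⟨ψ, hψ, -, tψ, -⟩ := M.exists_limit l fun j => (h j)⁻¹
  have mφ : MapsTo φ M.U M.U := M.AutB_maps h tφ hK hKU hK hKU hl
  have mψ : MapsTo ψ M.U M.U := by
    refine M.AutB_maps (fun j => (h j)⁻¹) tψ hK hKU hK hKU ?_
    filter_upwards [hl] with j hj
    obtain ⟨x, hx, hx'⟩ := hj
    exact ⟨_, hx', by rwa [M.ap_inv_ap _ (hKU hx)]⟩
  have h1 : ∀ x ∈ M.U, ψ (φ x) = x := by
    intro x hx
    have ha : Tendsto (fun j => M.ap (h j) x) l (𝓝[M.U] (φ x)) :=
      tendsto_nhdsWithin_iff.2 ⟨tφ x hx, Eventually.of_forall fun j => M.ap_mem _ hx⟩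
    have := (M.montel_tendsto M.AutB_ropen (M.locBdd_ap l fun j => (h j)⁻¹) tψ (mφ hx) ha).1
    simp only [M.ap_inv_ap _ hx] at this
    exact tendsto_nhds_unique this tendsto_const_nhds
  have h2 : ∀ x ∈ M.U, φ (ψ x) = x := by
    intro x hx
    have ha : Tendsto (fun j => M.ap (h j)⁻¹ x) l (𝓝[M.U] (ψ x)) :=
      tendsto_nhdsWithin_iff.2 ⟨tψ x hx, Eventually.of_forall fun j => M.ap_mem _ hx⟩
    have := (M.montel_tendsto M.AutB_ropen (M.locBdd_ap l h) tφ (mψ hx) ha).1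
    simp only [M.ap_ap_inv _ hx] at this
    exact tendsto_nhds_unique this tendsto_const_nhds
  obtain ⟨g, hg, hg'⟩ := M.exists_aut hφ hψ mφ mψ h1 h2
  refine ⟨g, fun x hx => ?_, fun x hx => ?_⟩
  · rw [hg x hx]; exact tφ x hx
  · rw [hg' x hx]; exact tψ x hx

end Crest.Agent.R264.TM
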