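import Crest.Agent.R264.SCVMa

/-! Row 264, P1: the bracket of holomorphic vector fields, automorphisms (closure lemmas). -/

set_option autoImplicit false
open Set Filter Topology Metric Complex

noncomputable section
namespace Crest.Agent.R264.TM
variable (M : TM)

theorem act_eq (h : Equiv.Perm M.U) {x : CN M.N} (hx : x ∈ M.U) :
    M.act h x = (h ⟨x, hx⟩ : CN M.N) := dif_pos hx

theorem act_mem (h : Equiv.Perm M.U) {x : CN M.N} (hx : x ∈ M.U) : M.act h x ∈ M.U := by
  rw [M.act_eq h hx]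
  exact Subtype.property _

theorem act_one {x : CN M.N} (hx : x ∈ M.U) : M.act 1 x = x := by
  rw [M.act_eq 1 hx]; rfl

theorem act_mul (g h : Equiv.Perm M.U) {x : CN M.N} (hx : x ∈ M.U) :
    M.act (g * h) x = M.act g (M.act h x) := by
  rw [M.act_eq g (M.act_mem h hx), M.act_eq (g * h) hx]
  have : (⟨M.act h x, M.act_mem h hx⟩ : M.U) = h ⟨x, hx⟩ := Subtype.ext (M.act_eq h hx)
  rw [this]; rfl

theorem push_apply (h : Equiv.Perm M.U) (X : CN M.N → CN M.N) {x : CN M.N} (hx : x ∈ M.U) :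
    M.push h X x = M.D (M.act h) (M.act h⁻¹ x) (X (M.act h⁻¹ x)) := indicator_of_mem hx _

theorem push_of_notMem (h : Equiv.Perm M.U) (X : CN M.N → CN M.N) {x : CN M.N} (hx : x ∉ M.U) :
    M.push h X x = 0 := indicator_of_notMem hx _

theorem push_act (h : Equiv.Perm M.U) (X : CN M.N → CN M.N) {x : CN M.N} (hx : x ∈ M.U) :
    M.push h X (M.act h x) = M.D (M.act h) x (X x) := by
  rw [M.push_apply h X (M.act_mem h hx), ← M.act_mul _ _ hx, inv_mul_cancel, M.act_one hx]

theorem D_act_mul {g h : Equiv.Perm M.U} (g1 : Hol M.U (M.act g)) (h1 : Hol M.U (M.act h))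
    {x v : CN M.N} (hx : x ∈ M.U) (hv : v ∈ M.T x) :
    M.D (M.act (g * h)) x v = M.D (M.act g) (M.act h x) (M.D (M.act h) x v) := by
  rw [M.D_congr (f := M.act (g * h)) hx (eventually_nhdsWithin_of_forall fun y hy => M.act_mul g h hy)]
  exact tD_comp (g1.differentiableWithinAt (M.act_mem h hx)) (h1.differentiableWithinAt hx)
    (fun y hy => M.act_mem h hy) hv

theorem hol_act_one : Hol M.U (M.act 1) := by
  exact (Hol.id M.U).congr fun x hx => M.act_one hx

theorem hol_act_mul {g h : Equiv.Perm M.U} (hg : Hol M.U (M.act g)) (hh : Hol M.U (M.act h)) :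
    Hol M.U (M.act (g * h)) := by
  exact (hg.comp hh fun x hx => M.act_mem h hx).congr fun x hx => M.act_mul g h hx

theorem push_mem {h : Equiv.Perm M.U} (h1 : Hol M.U (M.act h)) (h2 : Hol M.U (M.act h⁻¹))
    {X : CN M.N → CN M.N} (hX : X ∈ M.VF) : M.push h X ∈ M.VF := by
  refine ⟨((M.isSub.hol_D h1 hX.1 hX.2.1).comp h2 fun x hx => M.act_mem _ hx).indicator,
    fun x hx => ?_, fun x hx => M.push_of_notMem h X hx⟩
  have hx' := M.act_mem h⁻¹ hx
  have := tD_mem_tan (h1.differentiableWithinAt hx') (fun y hy => M.act_mem h hy) (hX.2.1 _ hx')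
  rw [← M.act_mul _ _ hx, mul_inv_cancel, M.act_one hx] at this
  rwa [M.push_apply h X hx]

theorem push_add (h : Equiv.Perm M.U) (X Y : CN M.N → CN M.N) :
    M.push h (X + Y) = M.push h X + M.push h Y := by
  funext x
  by_cases hx : x ∈ M.U
  · simp [M.push_apply _ _ hx]
  · simp [M.push_of_notMem _ _ hx]

theorem push_smul (h : Equiv.Perm M.U) (a : ℂ) (X : CN M.N → CN M.N) :
    M.push h (a • X) = a • M.push h X := by
  funext x
  by_cases hx : x ∈ M.U
  · simp [M.push_apply _ _ hx]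
  · simp [M.push_of_notMem _ _ hx]

theorem push_one {X : CN M.N → CN M.N} (hX : X ∈ M.VF) : M.push 1 X = X := by
  funext x
  by_cases hx : x ∈ M.U
  · rw [M.push_apply _ _ hx, inv_one, M.act_one hx,
      M.D_congr (f := M.act 1) hx (eventually_nhdsWithin_of_forall fun y hy => M.act_one hy)]
    exact tD_id (hX.2.1 x hx)
  · rw [M.push_of_notMem _ _ hx, hX.2.2 x hx]

theorem push_mul {g h : Equiv.Perm M.U} (g1 : Hol M.U (M.act g)) (h1 : Hol M.U (M.act h))
    {X : CN M.N → CN M.N} (hX : X ∈ M.VF) : M.push (g * h) X = M.push g (M.push h X) := by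
  funext x
  by_cases hx : x ∈ M.U
  · have hx' := M.act_mem (g * h)⁻¹ hx
    have e : M.act h (M.act (g * h)⁻¹ x) = M.act g⁻¹ x := by
      rw [← M.act_mul _ _ hx, mul_inv_rev, mul_inv_cancel_left]
    rw [M.push_apply _ _ hx, M.D_act_mul g1 h1 hx' (hX.2.1 _ hx'), M.push_apply _ _ hx, ← e,
      M.push_act h X hx']
  · simp [M.push_of_notMem _ _ hx]

end Crest.Agent.R264.TM
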