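import Crest.Agent.R264.BrA
import Crest.Agent.R264.BrB

/-! Row 264, P1: the bracket of holomorphic vector fields, automorphisms (closure lemmas). -/

set_option autoImplicit false
open Set Filter Topology Metric Complex

noncomputable section
namespace Crest.Agent.R264.TM
variable (M : TM)

theorem push_br {h : Equiv.Perm M.U} (h1 : Hol M.U (M.act h)) (h2 : Hol M.U (M.act h⁻¹))
    {X Y : CN M.N → CN M.N} (hX : X ∈ M.VF) (hY : Y ∈ M.VF) :
    M.push h (M.br X Y) = M.br (M.push h X) (M.push h Y) := by
  funext z
  by_cases hz : z ∈ M.U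
  · have hx := M.act_mem h⁻¹ hz
    have e : M.act h (M.act h⁻¹ z) = z := by
      rw [← M.act_mul _ _ hz, mul_inv_cancel, M.act_one hz]
    set x := M.act h⁻¹ z
    have key : ∀ {A B : CN M.N → CN M.N}, A ∈ M.VF → B ∈ M.VF →
        M.D (M.push h B) (M.act h x) (M.push h A (M.act h x)) =
          M.D (fun y => M.D (M.act h) y (B y)) x (A x) := by
      intro A B hA hB
      rw [M.push_act h A hx, ← M.D_congr hx (eventually_nhdsWithin_of_forall fun y hy => M.push_act h B hy)]
      exact (tD_comp ((M.push_mem h1 h2 hB).1.differentiableWithinAt (M.act_mem h hx))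
        (h1.differentiableWithinAt hx) (fun y hy => M.act_mem h hy) (hA.2.1 x hx)).symm
    rw [← e, M.push_act h _ hx, M.br_apply (M.act_mem h hx), key hX hY, key hY hX]
    exact M.D_br h1 hX hY (M.br_mem hX hY).2.1 hx
  · rw [M.push_of_notMem _ _ hz, M.br_of_notMem hz]

end Crest.Agent.R264.TM
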