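import Crest.Agent.R264.SCVMa

/-! Row 264, P1: the bracket of holomorphic vector fields, automorphisms (closure lemmas). -/

set_option autoImplicit false
open Set Filter Topology Metric Complex

noncomputable section
namespace Crest.Agent.R264.TM
variable (M : TM)

theorem br_apply {X Y : CN M.N → CN M.N} {x : CN M.N} (hx : x ∈ M.U) :
    M.br X Y x = M.D Y x (X x) - M.D X x (Y x) := indicator_of_mem hx _

theorem br_of_notMem {X Y : CN M.N → CN M.N} {x : CN M.N} (hx : x ∉ M.U) : M.br X Y x = 0 :=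
  indicator_of_notMem hx _

/-- The bracket is computed by any local extensions. -/
theorem br_eventuallyEq {X Y Ξ Η : CN M.N → CN M.N} (hX : X ∈ M.VF) (hY : Y ∈ M.VF) {x : CN M.N}
    (h1 : AnalyticAt ℂ Ξ x) (h2 : X =ᶠ[𝓝[M.U] x] Ξ) (h3 : AnalyticAt ℂ Η x) (h4 : Y =ᶠ[𝓝[M.U] x] Η) :
    M.br X Y =ᶠ[𝓝[M.U] x] VectorField.lieBracket ℂ Ξ Η := by
  filter_upwards [self_mem_nhdsWithin, eventually_eventually_nhdsWithin.2 h2,
    eventually_eventually_nhdsWithin.2 h4, mem_nhdsWithin_of_mem_nhds h1.eventually_analyticAt,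
    mem_nhdsWithin_of_mem_nhds h3.eventually_analyticAt] with y hy a b c d
  rw [M.br_apply hy, tD_ext hy d.differentiableAt b (hX.2.1 y hy),
    tD_ext hy c.differentiableAt a (hY.2.1 y hy), a.self_of_nhdsWithin hy, b.self_of_nhdsWithin hy]
  rfl

/-- Derivative of a holomorphic map along a bracket. -/
theorem D_br {F : Type*} [NormedAddCommGroup F] [NormedSpace ℂ F] [CompleteSpace F]
    {f : CN M.N → F} (hf : Hol M.U f) {X Y : CN M.N → CN M.N} (hX : X ∈ M.VF) (hY : Y ∈ M.VF)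
    (hT : ∀ x ∈ M.U, M.br X Y x ∈ M.T x) {x : CN M.N} (hx : x ∈ M.U) :
    M.D f x (M.br X Y x) =
      M.D (fun y => M.D f y (Y y)) x (X x) - M.D (fun y => M.D f y (X y)) x (Y x) := by
  obtain ⟨Φ, h1, h2⟩ := hf.exists_analytic hx
  obtain ⟨Ξ, h3, h4⟩ := hX.1.exists_analytic hx
  obtain ⟨Η, h5, h6⟩ := hY.1.exists_analytic hx
  have e : ∀ {Z Θ : CN M.N → CN M.N}, Z ∈ M.VF → Z =ᶠ[𝓝[M.U] x] Θ →
      (fun y => M.D f y (Z y)) =ᶠ[𝓝[M.U] x] fun y => fderiv ℂ Φ y (Θ y) := by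
    intro Z Θ hZ hZΘ
    filter_upwards [self_mem_nhdsWithin, eventually_eventually_nhdsWithin.2 h2, hZΘ,
      mem_nhdsWithin_of_mem_nhds h1.eventually_analyticAt] with y hy a b c
    rw [tD_ext hy c.differentiableAt a (hZ.2.1 y hy), b]
  have d : ∀ {Θ : CN M.N → CN M.N}, AnalyticAt ℂ Θ x →
      DifferentiableAt ℂ (fun y => fderiv ℂ Φ y (Θ y)) x := fun hΘ =>
    h1.fderiv.differentiableAt.clm_apply hΘ.differentiableAt
  rw [tD_ext hx h1.differentiableAt h2 (hT x hx), tD_ext hx (d h5) (e hY h6) (hX.2.1 x hx),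
    tD_ext hx (d h3) (e hX h4) (hY.2.1 x hx),
    (M.br_eventuallyEq hX hY h3 h4 h5 h6).self_of_nhdsWithin hx, h4.self_of_nhdsWithin hx,
    h6.self_of_nhdsWithin hx]
  exact VectorField.fderiv_apply_lieBracket (n := 2) h1.contDiffAt (by simp) h5.differentiableAt
    h3.differentiableAt

theorem br_mem_T {X Y : CN M.N → CN M.N} (hX : X ∈ M.VF) (hY : Y ∈ M.VF) {x : CN M.N}
    (hx : x ∈ M.U) : M.br X Y x ∈ M.T x := by
  obtain ⟨ch, u, hu, rfl⟩ := M.chart x hx
  have an : ∀ {Z : CN M.N → CN M.N}, Z ∈ M.VF →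
      AnalyticAt ℂ (fun w => fderiv ℂ ch.l (ch.c w) (Z (ch.c w))) u := fun hZ =>
    SCV.analyticAt_of_eventually (by
      filter_upwards [ch.s_open.mem_nhds hu] with w hw
      exact (((ch.analyticAt_l _).fderiv.comp (ch.analyticAt_c hw)).differentiableAt).clm_apply
        (ch.analyticAt_comp hZ.1 hw).differentiableAt)
  have e : ∀ {Z : CN M.N → CN M.N}, Z ∈ M.VF → (fun w => Z (ch.c w)) =ᶠ[𝓝 u]
      fun w => fderiv ℂ ch.c w (fderiv ℂ ch.l (ch.c w) (Z (ch.c w))) := fun hZ => by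
    filter_upwards [ch.s_open.mem_nhds hu] with w hw
    exact (ch.fderiv_c_l hw (hZ.2.1 _ (ch.maps hw))).symm
  have := VectorField.fderiv_apply_lieBracket (n := 2) (ch.analyticAt_c hu).contDiffAt (by simp)
    (an hY).differentiableAt (an hX).differentiableAt
  rw [← (e hX).fderiv_eq, ← (e hY).fderiv_eq,
    ← ch.D_eq_chart hu (hY.1.differentiableWithinAt hx) (hX.2.1 _ hx),
    ← ch.D_eq_chart hu (hX.1.differentiableWithinAt hx) (hY.2.1 _ hx)] at this
  rw [M.br_apply hx, ← this]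
  exact ch.dc_mem hu _

theorem br_mem {X Y : CN M.N → CN M.N} (hX : X ∈ M.VF) (hY : Y ∈ M.VF) : M.br X Y ∈ M.VF := by
  exact ⟨((M.isSub.hol_D hY.1 hX.1 hX.2.1).sub (M.isSub.hol_D hX.1 hY.1 hY.2.1)).indicator,
    fun x hx => M.br_mem_T hX hY hx, fun x hx => M.br_of_notMem hx⟩

theorem br_add_left {X Y Z : CN M.N → CN M.N} (hX : X ∈ M.VF) (hY : Y ∈ M.VF) (hZ : Z ∈ M.VF) :
    M.br (X + Y) Z = M.br X Z + M.br Y Z := by
  funext x
  by_cases hx : x ∈ M.U
  · have := tD_add (hX.1.differentiableWithinAt hx) (hY.1.differentiableWithinAt hx) (hZ.2.1 x hx)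
    simp only [Pi.add_apply, M.br_apply hx, map_add]
    rw [show M.D (X + Y) x (Z x) = _ from this]
    abel
  · simp [M.br_of_notMem hx]

theorem br_add_right {X Y Z : CN M.N → CN M.N} (hX : X ∈ M.VF) (hY : Y ∈ M.VF) (hZ : Z ∈ M.VF) :
    M.br X (Y + Z) = M.br X Y + M.br X Z := by
  funext x
  by_cases hx : x ∈ M.U
  · have := tD_add (hY.1.differentiableWithinAt hx) (hZ.1.differentiableWithinAt hx) (hX.2.1 x hx)
    simp only [Pi.add_apply, M.br_apply hx, map_add]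
    rw [show M.D (Y + Z) x (X x) = _ from this]
    abel
  · simp [M.br_of_notMem hx]

theorem br_self (X : CN M.N → CN M.N) : M.br X X = 0 := by
  funext x
  by_cases hx : x ∈ M.U
  · simp [M.br_apply hx]
  · simp [M.br_of_notMem hx]

theorem br_smul_right (a : ℂ) {X Y : CN M.N → CN M.N} (hX : X ∈ M.VF) (hY : Y ∈ M.VF) :
    M.br X (a • Y) = a • M.br X Y := by
  funext x
  by_cases hx : x ∈ M.U
  · have := tD_const_smul a (hY.1.differentiableWithinAt hx) (hX.2.1 x hx)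
    simp only [Pi.smul_apply, M.br_apply hx, map_smul]
    rw [show M.D (a • Y) x (X x) = _ from this, smul_sub]
  · simp [M.br_of_notMem hx]

theorem br_leibniz {X Y Z : CN M.N → CN M.N} (hX : X ∈ M.VF) (hY : Y ∈ M.VF) (hZ : Z ∈ M.VF) :
    M.br X (M.br Y Z) = M.br (M.br X Y) Z + M.br Y (M.br X Z) := by
  funext x
  by_cases hx : x ∈ M.U
  · obtain ⟨Ξ, a1, a2⟩ := hX.1.exists_analytic hx
    obtain ⟨Η, b1, b2⟩ := hY.1.exists_analytic hx
    obtain ⟨Θ, c1, c2⟩ := hZ.1.exists_analytic hx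
    have an : ∀ {A B : CN M.N → CN M.N}, AnalyticAt ℂ A x → AnalyticAt ℂ B x →
        AnalyticAt ℂ (VectorField.lieBracket ℂ A B) x := fun {A B} hA hB =>
      SCV.analyticAt_of_eventually (by
        filter_upwards [hA.eventually_analyticAt, hB.eventually_analyticAt] with y p q
        exact (q.fderiv.differentiableAt.clm_apply p.differentiableAt).sub
          (p.fderiv.differentiableAt.clm_apply q.differentiableAt))
    rw [Pi.add_apply,
      (M.br_eventuallyEq hX (M.br_mem hY hZ) a1 a2 (an b1 c1)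
        (M.br_eventuallyEq hY hZ b1 b2 c1 c2)).self_of_nhdsWithin hx,
      (M.br_eventuallyEq (M.br_mem hX hY) hZ (an a1 b1)
        (M.br_eventuallyEq hX hY a1 a2 b1 b2) c1 c2).self_of_nhdsWithin hx,
      (M.br_eventuallyEq hY (M.br_mem hX hZ) b1 b2 (an a1 c1)
        (M.br_eventuallyEq hX hZ a1 a2 c1 c2)).self_of_nhdsWithin hx]
    exact VectorField.leibniz_identity_lieBracket (n := 2) (by simp) a1.contDiffAt b1.contDiffAt
      c1.contDiffAt
  · simp [M.br_of_notMem hx]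

end Crest.Agent.R264.TM
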