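import Crest.Agent.R264.CalcB

/-! Row 264, P1: calculus on the manifold `U`. -/

set_option autoImplicit false
open Set Filter Topology Metric Complex

noncomputable section
namespace Crest.Agent.R264

namespace TM
variable (M : TM) {F : Type*} [NormedAddCommGroup F] [NormedSpace ℂ F]

theorem isSub_ropen {R : Set (CN M.N)} (hR : ROpen M.U R) : IsSub M.n R := M.isSub.rel hR.1 hR.2

theorem T_ropen {R : Set (CN M.N)} (hR : ROpen M.U R) {x : CN M.N} (hx : x ∈ R) :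
    Tan R x = M.T x := tan_rel hR.1 (hR.2 x hx)

theorem finrank_T {x : CN M.N} (hx : x ∈ M.U) : Module.finrank ℂ (M.T x) = M.n :=
  M.isSub.finrank_tan hx

/-- Charts on small balls. -/
theorem exists_ball_chart {x : CN M.N} (hx : x ∈ M.U) {W : Set (CN M.N)} (hW : W ∈ 𝓝 x) :
    ∃ (ch : Chart M.n M.U) (u : CN M.n) (ε : ℝ), 0 < ε ∧ ch.s = ball u ε ∧ ch.c u = x ∧
      ch.c '' ch.s ⊆ W := by
  obtain ⟨ch, u, hu, rfl⟩ := M.chart x hx
  obtain ⟨ε, hε, h⟩ := nhds_basis_ball.mem_iff.1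
    (inter_mem (ch.s_open.mem_nhds hu) ((ch.differentiableAt hu).continuousAt hW))
  refine ⟨ch.restrict (ball u ε) isOpen_ball fun w hw => (h hw).1, u, ε, hε, rfl, rfl, ?_⟩
  rintro _ ⟨w, hw, rfl⟩
  exact (h hw).2

/-- `U` is locally compact. -/
theorem exists_compact_nhds {x : CN M.N} (hx : x ∈ M.U) {W : Set (CN M.N)} (hW : W ∈ 𝓝 x) :
    ∃ C ∈ 𝓝[M.U] x, IsCompact C ∧ C ⊆ M.U ∩ W := by
  obtain ⟨K, h1, h2, h3, h4⟩ := M.isSub.exists_compact_nhds hx (mem_nhdsWithin_of_mem_nhds hW)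
  exact ⟨K, h4, h1, subset_inter h2 h3⟩

theorem D_eq_of_ropen {R : Set (CN M.N)} (hR : ROpen M.U R) (f : CN M.N → F) {x : CN M.N}
    (hx : x ∈ R) : fderivWithin ℂ f R x = M.D f x := tD_rel hR.1 (hR.2 x hx)

theorem D_congr {f g : CN M.N → F} {x : CN M.N} (hx : x ∈ M.U) (h : f =ᶠ[𝓝[M.U] x] g) :
    M.D f x = M.D g x := tD_congr hx h

theorem hol_differentiableWithinAt {R : Set (CN M.N)} (hR : ROpen M.U R) {f : CN M.N → F}
    (hf : Hol R f) {x : CN M.N} (hx : x ∈ R) : DifferentiableWithinAt ℂ f M.U x :=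
  (hf.differentiableWithinAt hx).mono_of_mem_nhdsWithin (hR.2 x hx)

/-- The derivative of a holomorphic map into `U'` is tangent to `U'`. -/
theorem D_mem_Tan {N' : ℕ} {U' : Set (CN N')} {R : Set (CN M.N)} (hR : ROpen M.U R)
    {f : CN M.N → CN N'} (hf : Hol R f) (hm : MapsTo f R U') {x v : CN M.N} (hx : x ∈ R)
    (hv : v ∈ M.T x) : M.D f x v ∈ Tan U' (f x) := by
  rw [← M.D_eq_of_ropen hR f hx]
  exact tD_mem_tan (hf.differentiableWithinAt hx) hm (by rwa [M.T_ropen hR hx])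

/-- Chain rule on tangent vectors. -/
theorem D_comp {N' : ℕ} {U' : Set (CN N')} {R : Set (CN M.N)} (hR : ROpen M.U R)
    {f : CN M.N → CN N'} (hf : Hol R f) (hm : MapsTo f R U') {g : CN N' → F} (hg : Hol U' g)
    {x v : CN M.N} (hx : x ∈ R) (hv : v ∈ M.T x) :
    M.D (fun y => g (f y)) x v = fderivWithin ℂ g U' (f x) (M.D f x v) := by
  rw [← M.D_eq_of_ropen hR f hx, ← M.D_eq_of_ropen hR _ hx]
  exact tD_comp (hg.differentiableWithinAt (hm hx)) (hf.differentiableWithinAt hx) hm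
    (by rwa [M.T_ropen hR hx])

/-- Chain rule with an ambient outer function. -/
theorem D_comp_fderiv {G : Type*} [NormedAddCommGroup G] [NormedSpace ℂ G] {f : CN M.N → G}
    {g : G → F} {x v : CN M.N} (hf : DifferentiableWithinAt ℂ f M.U x)
    (hg : DifferentiableAt ℂ g (f x)) (hv : v ∈ M.T x) :
    M.D (fun y => g (f y)) x v = fderiv ℂ g (f x) (M.D f x v) := tD_post hf hg hv

theorem D_chart {f : CN M.N → F} (ch : Chart M.n M.U) {u : CN M.n} (hu : u ∈ ch.s)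
    (hf : DifferentiableWithinAt ℂ f M.U (ch.c u)) (v : CN M.n) :
    fderiv ℂ (fun u' => f (ch.c u')) u v = M.D f (ch.c u) (fderiv ℂ ch.c u v) :=
  ch.fderiv_comp_c hu hf v

theorem D_id {x v : CN M.N} (_hx : x ∈ M.U) (hv : v ∈ M.T x) : M.D (fun y => y) x v = v :=
  tD_id hv

/-- Velocity vectors of real curves in `U` are tangent. -/
theorem mem_T_of_hasDerivAt {c : ℝ → CN M.N} {t : ℝ} {v : CN M.N} (hc : HasDerivAt c v t)
    (h : ∀ᶠ s in 𝓝 t, c s ∈ M.U) : v ∈ M.T (c t) := M.isSub.mem_tan_of_hasDerivAt hc h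

/-- Chain rule along real curves. -/
theorem hasDerivAt_comp {R : Set (CN M.N)} (hR : ROpen M.U R) {f : CN M.N → F} (hf : Hol R f)
    {c : ℝ → CN M.N} {t : ℝ} {v : CN M.N} (hc : HasDerivAt c v t) (h : ∀ᶠ s in 𝓝 t, c s ∈ R) :
    HasDerivAt (fun s => f (c s)) (M.D f (c t) v) t :=
  hasDerivAt_comp_curve (M.hol_differentiableWithinAt hR hf h.self_of_nhds) hc
    (h.mono fun _ hs => hR.1 hs)

end TM

end Crest.Agent.R264
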