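import Crest.Agent.R264.Defs
import Crest.Agent.R264.Osgood

/-! Row 264, P1: closure properties of `Hol`. -/

set_option autoImplicit false
open Set Filter Topology Metric Complex

noncomputable section
namespace Crest.Agent.R264

/-- `R` is a relatively open subset of `U`. -/
def ROpen {E : Type*} [TopologicalSpace E] (U R : Set E) : Prop := R ⊆ U ∧ ∀ x ∈ R, R ∈ 𝓝[U] x

theorem ROpen.exists_open {E : Type*} [TopologicalSpace E] {U R : Set E} (h : ROpen U R) :
    ∃ O, IsOpen O ∧ R = U ∩ O := by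
  refine ⟨interior {y | y ∈ U → y ∈ R}, isOpen_interior, Subset.antisymm (fun x hx => ⟨h.1 hx,
    mem_interior_iff_mem_nhds.2 (mem_nhdsWithin_iff_eventually.1 (h.2 x hx))⟩)
    fun x hx => interior_subset hx.2 hx.1⟩

theorem ROpen.inter_open {E : Type*} [TopologicalSpace E] (U : Set E) {O : Set E} (hO : IsOpen O) :
    ROpen U (U ∩ O) :=
  ⟨inter_subset_left, fun _ hx => inter_mem_nhdsWithin _ (hO.mem_nhds hx.2)⟩

theorem ROpen.nhdsWithin_eq {E : Type*} [TopologicalSpace E] {U R : Set E} (h : ROpen U R) {x : E}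
    (hx : x ∈ R) : 𝓝[R] x = 𝓝[U] x :=
  le_antisymm (nhdsWithin_mono _ h.1) (nhdsWithin_le_iff.2 (h.2 x hx))

theorem ROpen.refl {E : Type*} [TopologicalSpace E] (U : Set E) : ROpen U U :=
  ⟨Subset.rfl, fun _ _ => self_mem_nhdsWithin⟩

/-- Neighbourhoods within `U` contain relatively open neighbourhoods. -/
theorem exists_ropen_subset {E : Type*} [TopologicalSpace E] {U W : Set E} {x : E} (hx : x ∈ U)
    (hW : W ∈ 𝓝[U] x) : ∃ R, ROpen U R ∧ x ∈ R ∧ R ⊆ W := by
  obtain ⟨O, hO, hxO, h⟩ := mem_nhdsWithin.1 hW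
  exact ⟨U ∩ O, ROpen.inter_open U hO, ⟨hx, hxO⟩, fun y hy => h ⟨hy.2, hy.1⟩⟩

section hol
variable {E F G : Type*} [NormedAddCommGroup E] [NormedSpace ℂ E] [NormedAddCommGroup F]
  [NormedSpace ℂ F] [NormedAddCommGroup G] [NormedSpace ℂ G]

namespace Hol
variable {U V : Set E} {f g : E → F} {x : E}

theorem mono (hf : Hol U f) (h : V ⊆ U) : Hol V f := fun x hx => by
  obtain ⟨O, hO, hxO, Φ, hΦ, e⟩ := hf x (h hx)
  exact ⟨O, hO, hxO, Φ, hΦ, fun y hy hyO => e y (h hy) hyO⟩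

theorem congr (hf : Hol U f) (h : EqOn g f U) : Hol U g := fun x hx => by
  obtain ⟨O, hO, hxO, Φ, hΦ, e⟩ := hf x hx
  exact ⟨O, hO, hxO, Φ, hΦ, fun y hy hyO => (h hy).trans (e y hy hyO)⟩

theorem of_differentiableOn {O : Set E} (hO : IsOpen O) (hUO : U ⊆ O)
    (hf : DifferentiableOn ℂ f O) : Hol U f := fun _ hx =>
  ⟨O, hO, hUO hx, f, hf, fun _ _ _ => rfl⟩

theorem of_differentiable (hf : Differentiable ℂ f) : Hol U f :=
  of_differentiableOn isOpen_univ (subset_univ _) hf.differentiableOn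

theorem exists_ext (hf : Hol U f) (hx : x ∈ U) :
    ∃ Φ : E → F, (∀ᶠ y in 𝓝 x, DifferentiableAt ℂ Φ y) ∧ f =ᶠ[𝓝[U] x] Φ := by
  obtain ⟨O, hO, hxO, Φ, hΦ, e⟩ := hf x hx
  refine ⟨Φ, ?_, ?_⟩
  · filter_upwards [hO.mem_nhds hxO] with y hy using hΦ.differentiableAt (hO.mem_nhds hy)
  · filter_upwards [self_mem_nhdsWithin, mem_nhdsWithin_of_mem_nhds (hO.mem_nhds hxO)] with y hy hy'
    exact e y hy hy'

theorem of_ext (h : ∀ x ∈ U, ∃ Φ : E → F, (∀ᶠ y in 𝓝 x, DifferentiableAt ℂ Φ y) ∧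
    f =ᶠ[𝓝[U] x] Φ) : Hol U f := by
  intro x hx
  obtain ⟨Φ, h1, h2⟩ := h x hx
  have h3 : ∀ᶠ y in 𝓝 x, DifferentiableAt ℂ Φ y ∧ (y ∈ U → f y = Φ y) :=
    h1.and (eventually_nhdsWithin_iff.1 h2)
  obtain ⟨O, hO, hO1, hxO⟩ := _root_.eventually_nhds_iff.1 h3
  exact ⟨O, hO1, hxO, Φ, fun y hy => (hO y hy).1.differentiableWithinAt,
    fun y hy hyO => (hO y hyO).2 hy⟩

theorem exists_analytic [FiniteDimensional ℂ E] [CompleteSpace F] (hf : Hol U f) (hx : x ∈ U) :
    ∃ Φ : E → F, AnalyticAt ℂ Φ x ∧ f =ᶠ[𝓝[U] x] Φ := by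
  obtain ⟨Φ, h1, h2⟩ := hf.exists_ext hx
  exact ⟨Φ, SCV.analyticAt_of_eventually h1, h2⟩

theorem of_analytic [CompleteSpace F] (h : ∀ x ∈ U, ∃ Φ : E → F, AnalyticAt ℂ Φ x ∧ f =ᶠ[𝓝[U] x] Φ) : Hol U f :=
  of_ext fun x hx => by
    obtain ⟨Φ, h1, h2⟩ := h x hx
    exact ⟨Φ, h1.eventually_analyticAt.mono fun y hy => hy.differentiableAt, h2⟩

/-- `Hol` is a local property. -/
theorem of_local (h : ∀ x ∈ U, ∃ R ∈ 𝓝[U] x, Hol R f) : Hol U f :=
  of_ext fun x hx => by
    obtain ⟨W, hW, hf⟩ := h x hx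
    obtain ⟨Φ, h1, h2⟩ := hf.exists_ext (mem_of_mem_nhdsWithin hx hW)
    exact ⟨Φ, h1, h2.filter_mono (nhdsWithin_le_iff.2 hW)⟩

theorem differentiableWithinAt (hf : Hol U f) (hx : x ∈ U) : DifferentiableWithinAt ℂ f U x := by
  obtain ⟨Φ, h1, h2⟩ := hf.exists_ext hx
  exact h1.self_of_nhds.differentiableWithinAt.congr_of_eventuallyEq h2 (h2.self_of_nhdsWithin hx)

theorem differentiableOn (hf : Hol U f) : DifferentiableOn ℂ f U := fun _ hx =>
  hf.differentiableWithinAt hx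

theorem continuousOn (hf : Hol U f) : ContinuousOn f U := hf.differentiableOn.continuousOn

theorem comp {W : Set F} {k : F → G} (hk : Hol W k) (hf : Hol U f) (hm : MapsTo f U W) :
    Hol U (fun x => k (f x)) := of_ext fun x hx => by
  obtain ⟨Φ, h1, h2⟩ := hf.exists_ext hx
  obtain ⟨Ψ, h3, h4⟩ := hk.exists_ext (hm hx)
  have hx' : f x = Φ x := h2.self_of_nhdsWithin hx
  have hc : Tendsto Φ (𝓝 x) (𝓝 (f x)) := hx' ▸ h1.self_of_nhds.continuousAt.tendsto
  refine ⟨fun y => Ψ (Φ y), ?_, ?_⟩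
  · filter_upwards [h1, hc.eventually h3] with y hy hy' using hy'.comp y hy
  · have ht : Tendsto f (𝓝[U] x) (𝓝[W] (f x)) := (hf.continuousOn x hx).tendsto_nhdsWithin hm
    filter_upwards [h2, ht.eventually h4] with y hy hy'
    rw [← hy]; exact hy'

theorem comp_differentiableAt (hf : Hol U f) {c : G → E} {u : G}
    (hc : DifferentiableAt ℂ c u) (hU : ∀ᶠ t in 𝓝 u, c t ∈ U) :
    DifferentiableAt ℂ (fun t => f (c t)) u := by
  obtain ⟨Φ, h1, h2⟩ := hf.exists_ext hU.self_of_nhds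
  refine (h1.self_of_nhds.comp u hc).congr_of_eventuallyEq ?_
  exact (tendsto_nhdsWithin_iff.2 ⟨hc.continuousAt, hU⟩).eventually h2

theorem comp_differentiableOn {s : Set E} {U' : Set F} {g : F → G} {f : E → F} (hg : Hol U' g)
    (hf : DifferentiableOn ℂ f s) (hm : MapsTo f s U') :
    DifferentiableOn ℂ (fun x => g (f x)) s :=
  hg.differentiableOn.comp hf hm

theorem post {k : F → G} (hf : Hol U f) (hk : Differentiable ℂ k) : Hol U (fun x => k (f x)) :=
  (of_differentiable (U := univ) hk).comp hf (mapsTo_univ _ _)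

theorem post_on {k : F → G} {O : Set F} (hf : Hol U f) (hO : IsOpen O) (hk : DifferentiableOn ℂ k O)
    (hm : MapsTo f U O) : Hol U (fun x => k (f x)) :=
  (of_differentiableOn hO Subset.rfl hk).comp hf hm

theorem const (U : Set E) (c : F) : Hol U (fun _ => c) := of_differentiable (differentiable_const c)

theorem id (U : Set E) : Hol U (fun x => x) := of_differentiable differentiable_id

theorem prodMk {k : E → G} (hf : Hol U f) (hk : Hol U k) : Hol U (fun x => (f x, k x)) :=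
  of_ext fun x hx => by
    obtain ⟨Φ, h1, h2⟩ := hf.exists_ext hx
    obtain ⟨Ψ, h3, h4⟩ := hk.exists_ext hx
    refine ⟨fun y => (Φ y, Ψ y), ?_, ?_⟩
    · filter_upwards [h1, h3] with y a b using a.prodMk b
    · filter_upwards [h2, h4] with y a b using by rw [a, b]

theorem fun_add (hf : Hol U f) (hg : Hol U g) : Hol U (fun x => f x + g x) := hf.add hg

theorem sub (hf : Hol U f) (hg : Hol U g) : Hol U (fun x => f x - g x) :=
  (hf.prodMk hg).post (k := fun p : F × F => p.1 - p.2) (by fun_prop)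

theorem neg (hf : Hol U f) : Hol U (fun x => -f x) := hf.post (k := fun p : F => -p) (by fun_prop)

theorem smul {a : E → ℂ} (ha : Hol U a) (hf : Hol U f) : Hol U (fun x => a x • f x) :=
  (ha.prodMk hf).post (k := fun p : ℂ × F => p.1 • p.2) (by fun_prop)

theorem fun_const_smul (hf : Hol U f) (a : ℂ) : Hol U (fun x => a • f x) := hf.const_smul a

theorem fun_real_smul (hf : Hol U f) (a : ℝ) : Hol U (fun x => a • f x) :=
  hf.const_smul (a : ℂ)

theorem mul {a b : E → ℂ} (ha : Hol U a) (hb : Hol U b) : Hol U (fun x => a x * b x) :=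
  ha.smul hb

theorem inv {a : E → ℂ} (ha : Hol U a) (h0 : ∀ x ∈ U, a x ≠ 0) : Hol U (fun x => (a x)⁻¹) :=
  ha.post_on (k := fun z : ℂ => z⁻¹) isOpen_ne differentiableOn_inv h0

theorem clm (hf : Hol U f) (L : F →L[ℂ] G) : Hol U (fun x => L (f x)) := hf.post L.differentiable

theorem clm_apply {A : E → F →L[ℂ] G} (hA : Hol U A) (hf : Hol U f) :
    Hol U (fun x => A x (f x)) :=
  (hA.prodMk hf).post (k := fun p : (F →L[ℂ] G) × F => p.1 p.2) (by fun_prop)

theorem pow {a : E → ℂ} (ha : Hol U a) (m : ℕ) : Hol U (fun x => a x ^ m) :=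
  ha.post (k := fun z : ℂ => z ^ m) (by fun_prop)

theorem prod {ι : Type*} {φ : ι → E → ℂ} (s : Finset ι) (h : ∀ i ∈ s, Hol U (φ i)) :
    Hol U (fun x => ∏ i ∈ s, φ i x) := by
  classical
  induction s using Finset.induction_on with
  | empty => simpa using const U (1 : ℂ)
  | insert a s ha ih =>
    simp only [Finset.prod_insert ha]
    exact (h a (Finset.mem_insert_self _ _)).mul
      (ih fun i hi => h i (Finset.mem_insert_of_mem hi))

theorem sum {ι : Type*} {φ : ι → E → F} (s : Finset ι) (h : ∀ i ∈ s, Hol U (φ i)) :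
    Hol U (fun x => ∑ i ∈ s, φ i x) := by
  classical
  induction s using Finset.induction_on with
  | empty => simpa using const U (0 : F)
  | insert a s ha ih =>
    simp only [Finset.sum_insert ha]
    exact (h a (Finset.mem_insert_self _ _)).fun_add
      (ih fun i hi => h i (Finset.mem_insert_of_mem hi))

theorem apply {ι : Type*} [Fintype ι] {φ : E → ι → F} (h : Hol U φ) (i : ι) :
    Hol U (fun x => φ x i) := h.post (k := fun p : ι → F => p i) (by fun_prop)

theorem pi {ι : Type*} [Fintype ι] {φ : E → ι → F} (h : ∀ i, Hol U (fun x => φ x i)) :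
    Hol U φ := of_ext fun x hx => by
  choose Φ h1 h2 using fun i => (h i).exists_ext hx
  refine ⟨fun y i => Φ i y, ?_, ?_⟩
  · filter_upwards [eventually_all.2 h1] with y hy using differentiableAt_pi.2 hy
  · filter_upwards [eventually_all.2 h2] with y hy using funext hy

theorem indicator (hf : Hol U f) : Hol U (U.indicator f) :=
  hf.congr fun _ hx => indicator_of_mem hx f

end Hol

theorem hol_iff_differentiableOn {O : Set E} {f : E → F} (hO : IsOpen O) :
    Hol O f ↔ DifferentiableOn ℂ f O :=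
  ⟨Hol.differentiableOn, Hol.of_differentiableOn hO Subset.rfl⟩

theorem hol_pi {ι : Type*} [Fintype ι] {U : Set E} {f : E → ι → F} :
    Hol U f ↔ ∀ i, Hol U (fun x => f x i) := ⟨Hol.apply, Hol.pi⟩

theorem Hol.det {ι : Type*} [Fintype ι] [DecidableEq ι] {U : Set E} {A : E → Matrix ι ι ℂ}
    (hA : ∀ i j, Hol U (fun x => A x i j)) : Hol U (fun x => (A x).det) := by
  simp only [Matrix.det_apply']
  exact Hol.sum _ fun σ _ => (Hol.const U _).mul (Hol.prod _ fun i _ => hA _ _)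

end hol

end Crest.Agent.R264
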