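import Crest.Agent.R264.CalcA

/-! Row 264, P1: tangent spaces, derivatives on tangent vectors (`tD_*`), charts, submanifolds
(`IsSub`, with the identity theorem). -/

set_option autoImplicit false
open Set Filter Topology Metric Complex

noncomputable section
namespace Crest.Agent.R264

/-! ### Derivatives on tangent vectors -/

section tan
variable {N : ℕ} {U W : Set (CN N)} {x v : CN N} {F G : Type*} [NormedAddCommGroup F]
  [NormedSpace ℂ F] [NormedAddCommGroup G] [NormedSpace ℂ G] {f g : CN N → F}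

theorem eq_on_tan {A B : CN N →L[ℂ] F} (h1 : HasFDerivWithinAt f A U x)
    (h2 : HasFDerivWithinAt f B U x) (hv : v ∈ Tan U x) : A v = B v := by
  have := h1.unique_on h2
  exact LinearMap.eqOn_span' (f := (A : CN N →ₗ[ℂ] F)) (g := (B : CN N →ₗ[ℂ] F)) this hv

/-- The derivative within `U` on a tangent vector. -/
theorem tD_eq {A : CN N →L[ℂ] F} (h : HasFDerivWithinAt f A U x) (hv : v ∈ Tan U x) :
    fderivWithin ℂ f U x v = A v :=
  eq_on_tan h.differentiableWithinAt.hasFDerivWithinAt h hv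

theorem tD_ext {Φ : CN N → F} (hx : x ∈ U) (hΦ : DifferentiableAt ℂ Φ x) (h : f =ᶠ[𝓝[U] x] Φ)
    (hv : v ∈ Tan U x) : fderivWithin ℂ f U x v = fderiv ℂ Φ x v :=
  tD_eq (hΦ.hasFDerivAt.hasFDerivWithinAt.congr_of_eventuallyEq h (h.self_of_nhdsWithin hx)) hv

theorem tD_of_differentiableAt (hf : DifferentiableAt ℂ f x) (hv : v ∈ Tan U x) :
    fderivWithin ℂ f U x v = fderiv ℂ f x v :=
  tD_eq hf.hasFDerivAt.hasFDerivWithinAt hv

theorem tD_congr (hx : x ∈ U) (h : f =ᶠ[𝓝[U] x] g) :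
    fderivWithin ℂ f U x = fderivWithin ℂ g U x :=
  h.fderivWithin_eq (h.self_of_nhdsWithin hx)

theorem tD_congr' (hx : x ∈ U) (h : ∀ y ∈ U, f y = g y) :
    fderivWithin ℂ f U x = fderivWithin ℂ g U x :=
  tD_congr hx (eventually_nhdsWithin_of_forall h)

theorem tD_id (hv : v ∈ Tan U x) : fderivWithin ℂ (fun y : CN N => y) U x v = v :=
  tD_eq (hasFDerivWithinAt_id x U) hv

theorem tD_const (c : F) : fderivWithin ℂ (fun _ : CN N => c) U x = 0 := by simp

theorem tD_add (hf : DifferentiableWithinAt ℂ f U x) (hg : DifferentiableWithinAt ℂ g U x)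
    (hv : v ∈ Tan U x) : fderivWithin ℂ (fun y => f y + g y) U x v =
      fderivWithin ℂ f U x v + fderivWithin ℂ g U x v :=
  tD_eq (hf.hasFDerivWithinAt.fun_add hg.hasFDerivWithinAt) hv

theorem tD_sub (hf : DifferentiableWithinAt ℂ f U x) (hg : DifferentiableWithinAt ℂ g U x)
    (hv : v ∈ Tan U x) : fderivWithin ℂ (fun y => f y - g y) U x v =
      fderivWithin ℂ f U x v - fderivWithin ℂ g U x v :=
  tD_eq (hf.hasFDerivWithinAt.fun_sub hg.hasFDerivWithinAt) hv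

theorem tD_neg (hf : DifferentiableWithinAt ℂ f U x) (hv : v ∈ Tan U x) :
    fderivWithin ℂ (fun y => -f y) U x v = -fderivWithin ℂ f U x v :=
  tD_eq hf.hasFDerivWithinAt.fun_neg hv

theorem tD_const_smul (a : ℂ) (hf : DifferentiableWithinAt ℂ f U x) (hv : v ∈ Tan U x) :
    fderivWithin ℂ (fun y => a • f y) U x v = a • fderivWithin ℂ f U x v :=
  tD_eq (hf.hasFDerivWithinAt.fun_const_smul a) hv

theorem tD_real_smul (a : ℝ) (hf : DifferentiableWithinAt ℂ f U x) (hv : v ∈ Tan U x) :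
    fderivWithin ℂ (fun y => a • f y) U x v = a • fderivWithin ℂ f U x v :=
  tD_const_smul (a : ℂ) hf hv

theorem tD_smul {a : CN N → ℂ} (ha : DifferentiableWithinAt ℂ a U x)
    (hf : DifferentiableWithinAt ℂ f U x) (hv : v ∈ Tan U x) :
    fderivWithin ℂ (fun y => a y • f y) U x v =
      a x • fderivWithin ℂ f U x v + fderivWithin ℂ a U x v • f x :=
  tD_eq (ha.hasFDerivWithinAt.fun_smul hf.hasFDerivWithinAt) hv

theorem tD_sum {ι : Type*} {s : Finset ι} {φ : ι → CN N → F}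
    (h : ∀ i ∈ s, DifferentiableWithinAt ℂ (φ i) U x) (hv : v ∈ Tan U x) :
    fderivWithin ℂ (fun y => ∑ i ∈ s, φ i y) U x v = ∑ i ∈ s, fderivWithin ℂ (φ i) U x v := by
  rw [tD_eq (HasFDerivWithinAt.fun_sum fun i hi => (h i hi).hasFDerivWithinAt) hv]
  simp

theorem tD_post {k : F → G} (hf : DifferentiableWithinAt ℂ f U x) (hk : DifferentiableAt ℂ k (f x))
    (hv : v ∈ Tan U x) :
    fderivWithin ℂ (fun y => k (f y)) U x v = fderiv ℂ k (f x) (fderivWithin ℂ f U x v) :=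
  tD_eq (hk.hasFDerivAt.comp_hasFDerivWithinAt x hf.hasFDerivWithinAt) hv

theorem tD_clm (L : F →L[ℂ] G) (hf : DifferentiableWithinAt ℂ f U x) (hv : v ∈ Tan U x) :
    fderivWithin ℂ (fun y => L (f y)) U x v = L (fderivWithin ℂ f U x v) := by
  rw [tD_post hf L.differentiableAt hv, L.fderiv]

theorem mem_tan_of_hasFDerivWithinAt {N' : ℕ} {V : Set (CN N')} {φ : CN N → CN N'}
    {A : CN N →L[ℂ] CN N'} (h : HasFDerivWithinAt φ A U x) (hm : MapsTo φ U V)
    (hv : v ∈ Tan U x) : A v ∈ Tan V (φ x) := by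
  have h1 : MapsTo A (tangentConeAt ℂ U x) (tangentConeAt ℂ V (φ x)) := fun w hw =>
    tangentConeAt_mono hm.image_subset (h.mapsTo_tangent_cone hw)
  have h2 : Tan U x ≤ (Tan V (φ x)).comap (A : CN N →ₗ[ℂ] CN N') :=
    Submodule.span_le.2 fun w hw => Submodule.subset_span (h1 hw)
  exact h2 hv

theorem tD_mem_tan {N' : ℕ} {V : Set (CN N')} {φ : CN N → CN N'}
    (h : DifferentiableWithinAt ℂ φ U x) (hm : MapsTo φ U V) (hv : v ∈ Tan U x) :
    fderivWithin ℂ φ U x v ∈ Tan V (φ x) :=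
  mem_tan_of_hasFDerivWithinAt h.hasFDerivWithinAt hm hv

/-- Chain rule on tangent vectors. -/
theorem tD_comp {N' : ℕ} {V : Set (CN N')} {φ : CN N → CN N'} {k : CN N' → F}
    (hk : DifferentiableWithinAt ℂ k V (φ x)) (h : DifferentiableWithinAt ℂ φ U x)
    (hm : MapsTo φ U V) (hv : v ∈ Tan U x) :
    fderivWithin ℂ (fun y => k (φ y)) U x v =
      fderivWithin ℂ k V (φ x) (fderivWithin ℂ φ U x v) :=
  tD_eq (hk.hasFDerivWithinAt.comp x h.hasFDerivWithinAt hm) hv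

theorem tan_congr (h : U =ᶠ[𝓝 x] W) : Tan U x = Tan W x := by
  unfold Tan
  rw [tangentConeAt_congr (nhdsWithin_eq_iff_eventuallyEq.2 h)]

theorem tan_mono (h : U ⊆ W) : Tan U x ≤ Tan W x :=
  Submodule.span_mono (tangentConeAt_mono h)

theorem eventuallyEq_of_rel (hW : W ⊆ U) (h : W ∈ 𝓝[U] x) : W =ᶠ[𝓝 x] U := by
  filter_upwards [mem_nhdsWithin_iff_eventually.1 h] with y hy
  exact propext ⟨fun a => hW a, hy⟩

theorem tan_rel (hW : W ⊆ U) (h : W ∈ 𝓝[U] x) : Tan W x = Tan U x :=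
  tan_congr (eventuallyEq_of_rel hW h)

theorem tD_rel (hW : W ⊆ U) (h : W ∈ 𝓝[U] x) : fderivWithin ℂ f W x = fderivWithin ℂ f U x :=
  fderivWithin_congr_set (eventuallyEq_of_rel hW h)

/-- The derivative of a map into `U` is tangent. -/
theorem mem_tan_of_hasFDerivAt {c : G → CN N} {u : G} {A : G →L[ℂ] CN N} (h : HasFDerivAt c A u)
    (hU : ∀ᶠ t in 𝓝 u, c t ∈ U) (w : G) : A w ∈ Tan U (c u) := by
  have h0 : w ∈ tangentConeAt ℂ {t | c t ∈ U} u := by
    rw [tangentConeAt_of_mem_nhds hU]; trivial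
  have := (h.hasFDerivWithinAt (s := {t | c t ∈ U})).mapsTo_tangent_cone h0
  exact Submodule.subset_span (tangentConeAt_mono (by rintro _ ⟨t, ht, rfl⟩; exact ht) this)

/-- Chain rule for a map from an open set into `U`. -/
theorem hasFDerivAt_comp_of_mem {c : G → CN N} {u : G} {A : G →L[ℂ] CN N}
    (hf : DifferentiableWithinAt ℂ f U (c u)) (h : HasFDerivAt c A u)
    (hU : ∀ᶠ t in 𝓝 u, c t ∈ U) :
    HasFDerivAt (fun t => f (c t)) ((fderivWithin ℂ f U (c u)).comp A) u :=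
  hf.hasFDerivWithinAt.comp_hasFDerivAt u h hU

/-- Chain rule along a real curve in `U`. -/
theorem hasDerivAt_comp_curve {γ : ℝ → CN N} {t : ℝ}
    (hf : DifferentiableWithinAt ℂ f U (γ t)) (h : HasDerivAt γ v t)
    (hU : ∀ᶠ s in 𝓝 t, γ s ∈ U) :
    HasDerivAt (fun s => f (γ s)) (fderivWithin ℂ f U (γ t) v) t :=
  ((hf.hasFDerivWithinAt.restrictScalars ℝ).comp_hasFDerivAt t h.hasFDerivAt hU).hasDerivAt.congr_deriv
    (by simp)

theorem Tan_congr {U R : Set (CN N)} {x : CN N} (h : 𝓝[R] x = 𝓝[U] x) : Tan R x = Tan U x := by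
  unfold Tan
  rw [tangentConeAt_congr h]

/-- On tangent vectors the derivative within `U` is the derivative of any local extension. -/
theorem fderivWithin_eq_of_mem_Tan {U : Set (CN N)} {f Φ : CN N → F} {x v : CN N} (hx : x ∈ U)
    (hΦ : DifferentiableAt ℂ Φ x) (h : f =ᶠ[𝓝[U] x] Φ) (hv : v ∈ Tan U x) :
    fderivWithin ℂ f U x v = fderiv ℂ Φ x v := tD_ext hx hΦ h hv

/-- A map vanishing on `U` near `x` has zero derivative on tangent vectors. -/
theorem fderiv_eq_zero_of_mem_Tan {U : Set (CN N)} {Φ : CN N → F} {x v : CN N} {c : F} (hx : x ∈ U)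
    (hΦ : DifferentiableAt ℂ Φ x) (h : ∀ᶠ y in 𝓝[U] x, Φ y = c) (hv : v ∈ Tan U x) :
    fderiv ℂ Φ x v = 0 := by
  rw [← tD_ext (f := fun _ => c) hx hΦ (h.mono fun y hy => hy.symm) hv, tD_const]
  rfl

/-- Derivatives of maps into `U` are tangent. -/
theorem fderiv_mem_Tan {E : Type*} [NormedAddCommGroup E] [NormedSpace ℂ E] {U : Set (CN N)}
    {f : E → CN N} {a : E} (hf : DifferentiableAt ℂ f a) (h : ∀ᶠ b in 𝓝 a, f b ∈ U) (v : E) :
    fderiv ℂ f a v ∈ Tan U (f a) := mem_tan_of_hasFDerivAt hf.hasFDerivAt h v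

/-- Chain rule for a holomorphic function after a map into `U`. -/
theorem Hol.fderiv_comp {E : Type*} [NormedAddCommGroup E] [NormedSpace ℂ E] {U : Set (CN N)}
    {g : CN N → F} (hg : Hol U g) {f : E → CN N} {a : E} (hf : DifferentiableAt ℂ f a)
    (h : ∀ᶠ b in 𝓝 a, f b ∈ U) (v : E) :
    fderiv ℂ (fun b => g (f b)) a v = fderivWithin ℂ g U (f a) (fderiv ℂ f a v) := by
  rw [(hasFDerivAt_comp_of_mem (hg.differentiableWithinAt h.self_of_nhds) hf.hasFDerivAt h).fderiv]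
  rfl

end tan

/-! ### Charts -/

namespace Chart
variable {n N : ℕ} {U : Set (CN N)} (ch : Chart n U) {u : CN n} {F : Type*} [NormedAddCommGroup F]
  [NormedSpace ℂ F] {f : CN N → F}

theorem ev_mem (hu : u ∈ ch.s) :
    ∀ᶠ y in 𝓝[U] (ch.c u), ch.l y ∈ ch.s ∧ ch.c (ch.l y) = y := by
  filter_upwards [ch.nhds u hu] with y hy
  obtain ⟨w, hw, rfl⟩ := hy
  rw [ch.left w hw]
  exact ⟨hw, rfl⟩

theorem analyticAt_c (hu : u ∈ ch.s) : AnalyticAt ℂ ch.c u :=
  SCV.analyticAt ch.c_diff (ch.s_open.mem_nhds hu)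

theorem analyticAt_l (y : CN N) : AnalyticAt ℂ ch.l y :=
  SCV.analyticAt ch.l_diff.differentiableOn univ_mem

theorem differentiableAt (hu : u ∈ ch.s) : DifferentiableAt ℂ ch.c u :=
  ch.c_diff.differentiableAt (ch.s_open.mem_nhds hu)

theorem ev_c_mem (hu : u ∈ ch.s) : ∀ᶠ w in 𝓝 u, ch.c w ∈ U := by
  filter_upwards [ch.s_open.mem_nhds hu] with w hw using ch.maps hw

theorem tendsto_c (hu : u ∈ ch.s) : Tendsto ch.c (𝓝 u) (𝓝[U] (ch.c u)) :=
  tendsto_nhdsWithin_iff.2 ⟨(ch.differentiableAt hu).continuousAt, ch.ev_c_mem hu⟩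

theorem tendsto_l (hu : u ∈ ch.s) : Tendsto ch.l (𝓝 (ch.c u)) (𝓝 u) := by
  have := ch.l_diff.continuous.tendsto (ch.c u)
  rwa [ch.left u hu] at this

theorem map_nhds (hu : u ∈ ch.s) : map ch.c (𝓝 u) = 𝓝[U] (ch.c u) := by
  refine le_antisymm (ch.tendsto_c hu) fun t ht => ?_
  filter_upwards [ch.ev_mem hu, mem_nhdsWithin_of_mem_nhds (ch.tendsto_l hu ht)] with y hy hy'
  rw [← hy.2]; exact hy'

theorem image_mem_nhds (hu : u ∈ ch.s) {t : Set (CN n)} (ht : t ∈ 𝓝 u) :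
    ch.c '' t ∈ 𝓝[U] (ch.c u) := by
  rw [← ch.map_nhds hu]; exact image_mem_map ht

theorem ev_iff (hu : u ∈ ch.s) {p : CN N → Prop} :
    (∀ᶠ y in 𝓝[U] (ch.c u), p y) ↔ ∀ᶠ w in 𝓝 u, p (ch.c w) := by
  rw [← ch.map_nhds hu, eventually_map]

theorem injOn : InjOn ch.c ch.s := fun a ha b hb h => by
  rw [← ch.left a ha, h, ch.left b hb]

theorem fderiv_l_c (hu : u ∈ ch.s) (w : CN n) : fderiv ℂ ch.l (ch.c u) (fderiv ℂ ch.c u w) = w := by
  have h1 : (ch.l ∘ ch.c) =ᶠ[𝓝 u] id := by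
    filter_upwards [ch.s_open.mem_nhds hu] with y hy using ch.left y hy
  have h2 := fderiv_comp u (ch.l_diff (ch.c u)) (ch.differentiableAt hu)
  rw [h1.fderiv_eq, fderiv_id] at h2
  exact (congrArg (fun L : CN n →L[ℂ] CN n => L w) h2).symm

theorem dc_mem (hu : u ∈ ch.s) (w : CN n) : fderiv ℂ ch.c u w ∈ Tan U (ch.c u) :=
  mem_tan_of_hasFDerivAt (ch.differentiableAt hu).hasFDerivAt (ch.ev_c_mem hu) w

theorem fderiv_c_l (hu : u ∈ ch.s) {v : CN N} (hv : v ∈ Tan U (ch.c u)) :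
    fderiv ℂ ch.c u (fderiv ℂ ch.l (ch.c u) v) = v := by
  have hc : HasFDerivAt ch.c (fderiv ℂ ch.c u) (ch.l (ch.c u)) := by
    rw [ch.left u hu]; exact (ch.differentiableAt hu).hasFDerivAt
  have h1 := (hc.comp (ch.c u) (ch.l_diff (ch.c u)).hasFDerivAt).hasFDerivWithinAt (s := U)
  have h2 : HasFDerivWithinAt (fun y : CN N => y) _ U (ch.c u) :=
    h1.congr_of_eventuallyEq ((ch.ev_mem hu).mono fun y hy => hy.2.symm)
      (by simp [ch.left u hu])
  exact eq_on_tan h2 (hasFDerivWithinAt_id _ _) hv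

theorem tan_eq (hu : u ∈ ch.s) :
    Tan U (ch.c u) = LinearMap.range (fderiv ℂ ch.c u : CN n →ₗ[ℂ] CN N) :=
  le_antisymm (fun v hv => ⟨_, ch.fderiv_c_l hu hv⟩) (by rintro _ ⟨w, rfl⟩; exact ch.dc_mem hu w)

theorem fderiv_injective (hu : u ∈ ch.s) : Function.Injective (fderiv ℂ ch.c u) :=
  Function.LeftInverse.injective (g := fderiv ℂ ch.l (ch.c u)) (ch.fderiv_l_c hu)

theorem finrank_tan (hu : u ∈ ch.s) : Module.finrank ℂ (Tan U (ch.c u)) = n := by
  rw [ch.tan_eq hu, LinearMap.finrank_range_of_inj (ch.fderiv_injective hu)]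
  simp

theorem hol_comp (hf : Hol U f) : DifferentiableOn ℂ (fun w => f (ch.c w)) ch.s :=
  hf.comp_differentiableOn ch.c_diff ch.maps

theorem analyticAt_comp [CompleteSpace F] (hf : Hol U f) (hu : u ∈ ch.s) :
    AnalyticAt ℂ (fun w => f (ch.c w)) u :=
  SCV.analyticAt (ch.hol_comp hf) (ch.s_open.mem_nhds hu)

theorem hasFDerivAt_comp (hu : u ∈ ch.s) (hf : DifferentiableWithinAt ℂ f U (ch.c u)) :
    HasFDerivAt (fun w => f (ch.c w)) ((fderivWithin ℂ f U (ch.c u)).comp (fderiv ℂ ch.c u)) u :=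
  hasFDerivAt_comp_of_mem hf (ch.differentiableAt hu).hasFDerivAt (ch.ev_c_mem hu)

theorem fderiv_comp_c (hu : u ∈ ch.s) (hf : DifferentiableWithinAt ℂ f U (ch.c u)) (w : CN n) :
    fderiv ℂ (fun w => f (ch.c w)) u w = fderivWithin ℂ f U (ch.c u) (fderiv ℂ ch.c u w) := by
  rw [(ch.hasFDerivAt_comp hu hf).fderiv]; rfl

/-- The derivative within `U` read in a chart. -/
theorem D_eq_chart (hu : u ∈ ch.s) (hf : DifferentiableWithinAt ℂ f U (ch.c u)) {v : CN N}
    (hv : v ∈ Tan U (ch.c u)) : fderivWithin ℂ f U (ch.c u) v =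
      fderiv ℂ (fun w => f (ch.c w)) u (fderiv ℂ ch.l (ch.c u) v) := by
  rw [ch.fderiv_comp_c hu hf, ch.fderiv_c_l hu hv]

/-- The canonical local extension `f ∘ c ∘ l`. -/
theorem ext_eventuallyEq {α : Type*} (hu : u ∈ ch.s) (f : CN N → α) :
    f =ᶠ[𝓝[U] (ch.c u)] fun y => f (ch.c (ch.l y)) :=
  (ch.ev_mem hu).mono fun y hy => by simp only [hy.2]

theorem exists_ext_of_eventually (hu : u ∈ ch.s)
    (h : ∀ᶠ w in 𝓝 u, DifferentiableAt ℂ (fun w => f (ch.c w)) w) :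
    ∃ Φ : CN N → F, (∀ᶠ y in 𝓝 (ch.c u), DifferentiableAt ℂ Φ y) ∧ f =ᶠ[𝓝[U] (ch.c u)] Φ := by
  refine ⟨fun y => f (ch.c (ch.l y)), ?_, ch.ext_eventuallyEq hu f⟩
  filter_upwards [(ch.tendsto_l hu).eventually h] with y hy
  exact hy.comp y (ch.l_diff y)

/-- A real curve in `U` has a tangent velocity. -/
theorem mem_tan_of_hasDerivAt (hu : u ∈ ch.s) {γ : ℝ → CN N} {t : ℝ} {v : CN N}
    (h : HasDerivAt γ v t) (ht : γ t = ch.c u) (hU : ∀ᶠ s in 𝓝 t, γ s ∈ U) :
    v ∈ Tan U (ch.c u) := by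
  have hc : HasFDerivAt ch.c (fderiv ℂ ch.c u) (ch.l (γ t)) := by
    rw [ht, ch.left u hu]; exact (ch.differentiableAt hu).hasFDerivAt
  have h1 := ((hc.comp (γ t) (ch.l_diff (γ t)).hasFDerivAt).restrictScalars ℝ).comp_hasDerivAt t h
  have ht' : Tendsto γ (𝓝 t) (𝓝[U] (ch.c u)) :=
    tendsto_nhdsWithin_iff.2 ⟨ht ▸ h.continuousAt.tendsto, hU⟩
  have h2 : HasDerivAt γ _ t := h1.congr_of_eventuallyEq
    ((ht'.eventually (ch.ev_mem hu)).mono fun s hs => hs.2.symm)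
  rw [h.unique h2]
  exact ch.dc_mem hu _

/-- Restriction of a chart to a relatively open subset. -/
def toRel {R : Set (CN N)} (hRU : R ⊆ U) (hR : ∀ x ∈ R, R ∈ 𝓝[U] x) : Chart n R where
  c := ch.c
  l := ch.l
  s := ch.s ∩ ch.c ⁻¹' R
  s_open := isOpen_iff_mem_nhds.2 fun u hu =>
    inter_mem (ch.s_open.mem_nhds hu.1) (ch.tendsto_c hu.1 (hR _ hu.2))
  c_diff := ch.c_diff.mono inter_subset_left
  l_diff := ch.l_diff
  left := fun u hu => ch.left u hu.1
  maps := fun _ hu => hu.2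
  nhds := fun u hu => nhdsWithin_mono _ hRU (ch.image_mem_nhds hu.1
    (inter_mem (ch.s_open.mem_nhds hu.1) (ch.tendsto_c hu.1 (hR _ hu.2))))

/-- Restriction of a chart to an open subset of its domain. -/
def restrict (s' : Set (CN n)) (hs : IsOpen s') (hs' : s' ⊆ ch.s) : Chart n U where
  c := ch.c
  l := ch.l
  s := s'
  s_open := hs
  c_diff := ch.c_diff.mono hs'
  l_diff := ch.l_diff
  left u hu := ch.left u (hs' hu)
  maps := ch.maps.mono_left hs'
  nhds u hu := by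
    rw [← ch.map_nhds (hs' hu)]
    exact image_mem_map (hs.mem_nhds hu)

theorem ropen : ROpen U (ch.c '' ch.s) :=
  ⟨ch.maps.image_subset, by rintro _ ⟨u, hu, rfl⟩; exact ch.nhds u hu⟩

theorem c_l {x : CN N} (hx : x ∈ ch.c '' ch.s) : ch.c (ch.l x) = x ∧ ch.l x ∈ ch.s := by
  obtain ⟨u, hu, rfl⟩ := hx
  rw [ch.left u hu]
  exact ⟨rfl, hu⟩

/-- A function is holomorphic on the image of an open part of a chart as soon as it is so in the
coordinates. -/
theorem hol_of {f : CN N → F} {s' : Set (CN n)} (hs : IsOpen s') (hs' : s' ⊆ ch.s)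
    (hf : DifferentiableOn ℂ (fun u => f (ch.c u)) s') : Hol (ch.c '' s') f := by
  have h1 : Hol (ch.c '' s') (fun y => (fun u => f (ch.c u)) (ch.l y)) :=
    (Hol.of_differentiable ch.l_diff).post_on hs hf (by
      rintro _ ⟨u, hu, rfl⟩; rw [ch.left u (hs' hu)]; exact hu)
  refine h1.congr ?_
  rintro _ ⟨u, hu, rfl⟩
  simp only [ch.left u (hs' hu)]

end Chart

/-- The identity chart of an open set. -/
def Chart.ofOpen {n : ℕ} {U : Set (CN n)} (hU : IsOpen U) : Chart n U where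
  c := fun u => u
  l := fun u => u
  s := U
  s_open := hU
  c_diff := differentiableOn_id
  l_diff := differentiable_id
  left := fun _ _ => rfl
  maps := fun _ hu => hu
  nhds := fun _ _ => by simpa using self_mem_nhdsWithin

/-! ### Submanifolds -/

/-- `U` is a complex submanifold of dimension `n` (`M.chart : IsSub M.n M.U`). -/
def IsSub (n : ℕ) {N : ℕ} (U : Set (CN N)) : Prop := ∀ x ∈ U, ∃ ch : Chart n U, x ∈ ch.c '' ch.s

theorem TM.isSub (M : TM) : IsSub M.n M.U := M.chart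

theorem isSub_of_isOpen {n : ℕ} {U : Set (CN n)} (hU : IsOpen U) : IsSub n U := fun x hx =>
  ⟨Chart.ofOpen hU, x, hx, rfl⟩

namespace IsSub
variable {n N : ℕ} {U : Set (CN N)} (hU : IsSub n U) {F : Type*} [NormedAddCommGroup F]
  [NormedSpace ℂ F] {f g : CN N → F} {x : CN N}
include hU

theorem rel {R : Set (CN N)} (hRU : R ⊆ U) (hR : ∀ x ∈ R, R ∈ 𝓝[U] x) : IsSub n R := by
  intro x hx
  obtain ⟨ch, u, hu, rfl⟩ := hU x (hRU hx)
  exact ⟨ch.toRel hRU hR, u, ⟨hu, hx⟩, rfl⟩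

theorem inter_open {O : Set (CN N)} (hO : IsOpen O) : IsSub n (U ∩ O) :=
  hU.rel inter_subset_left fun _ hx => inter_mem_nhdsWithin _ (hO.mem_nhds hx.2)

/-- A chart whose domain contains a closed ball around the given point. -/
theorem exists_ball (hx : x ∈ U) : ∃ (ch : Chart n U) (u : CN n) (r : ℝ), 0 < r ∧
    closedBall u r ⊆ ch.s ∧ ch.c u = x := by
  obtain ⟨ch, u, hu, rfl⟩ := hU x hx
  obtain ⟨r, hr, h⟩ := nhds_basis_closedBall.mem_iff.1 (ch.s_open.mem_nhds hu)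
  exact ⟨ch, u, r, hr, h, rfl⟩

theorem hol_of_local (h : ∀ (ch : Chart n U), ∀ u ∈ ch.s,
    ∀ᶠ w in 𝓝 u, DifferentiableAt ℂ (fun w => f (ch.c w)) w) : Hol U f :=
  Hol.of_ext fun x hx => by
    obtain ⟨ch, u, hu, rfl⟩ := hU x hx
    exact ch.exists_ext_of_eventually hu (h ch u hu)

theorem hol_of_chart (h : ∀ (ch : Chart n U), DifferentiableOn ℂ (fun w => f (ch.c w)) ch.s) :
    Hol U f := hU.hol_of_local fun ch u hu => by
  filter_upwards [ch.s_open.mem_nhds hu] with w hw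
  exact (h ch).differentiableAt (ch.s_open.mem_nhds hw)

theorem finrank_tan (hx : x ∈ U) : Module.finrank ℂ (Tan U x) = n := by
  obtain ⟨ch, u, hu, rfl⟩ := hU x hx
  exact ch.finrank_tan hu

theorem mem_tan_of_hasDerivAt {γ : ℝ → CN N} {t : ℝ} {v : CN N}
    (h : HasDerivAt γ v t) (hγ : ∀ᶠ s in 𝓝 t, γ s ∈ U) : v ∈ Tan U (γ t) := by
  obtain ⟨ch, u, hu, e⟩ := hU _ hγ.self_of_nhds
  rw [← e]
  exact ch.mem_tan_of_hasDerivAt hu h e.symm hγ

theorem exists_compact_nhds (hx : x ∈ U) {W : Set (CN N)} (hW : W ∈ 𝓝[U] x) :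
    ∃ K, IsCompact K ∧ K ⊆ U ∧ K ⊆ W ∧ K ∈ 𝓝[U] x := by
  obtain ⟨ch, u, hu, rfl⟩ := hU x hx
  obtain ⟨r, hr, h⟩ := nhds_basis_closedBall.mem_iff.1
    (inter_mem (ch.s_open.mem_nhds hu) (ch.tendsto_c hu hW))
  refine ⟨ch.c '' closedBall u r, (isCompact_closedBall u r).image_of_continuousOn
    (ch.c_diff.continuousOn.mono fun w hw => (h hw).1), ?_, ?_,
    ch.image_mem_nhds hu (closedBall_mem_nhds u hr)⟩
  · rintro _ ⟨w, hw, rfl⟩; exact ch.maps (h hw).1
  · rintro _ ⟨w, hw, rfl⟩; exact (h hw).2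

/-- A submanifold is locally closed. -/
theorem eventually_mem_of_closure (hx : x ∈ U) : ∀ᶠ y in 𝓝 x, y ∈ closure U → y ∈ U := by
  obtain ⟨K, hK, hKU, -, hKn⟩ := hU.exists_compact_nhds hx self_mem_nhdsWithin
  obtain ⟨O, hO, hxO, h⟩ := mem_nhdsWithin.1 hKn
  filter_upwards [hO.mem_nhds hxO] with y hy hy'
  exact hKU (hK.isClosed.closure_subset_iff.2 h (hO.inter_closure ⟨hy, hy'⟩))

/-- Small closed balls meet `U` in compact sets. -/
theorem exists_compact_ball (hx : x ∈ U) : ∃ r > 0, IsCompact (closedBall x r ∩ U) := by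
  obtain ⟨r, hr, h⟩ := nhds_basis_closedBall.mem_iff.1 (hU.eventually_mem_of_closure hx)
  refine ⟨r, hr, ?_⟩
  have : closedBall x r ∩ U = closedBall x r ∩ closure U :=
    Subset.antisymm (inter_subset_inter_right _ subset_closure) fun y hy => ⟨hy.1, h hy.1 hy.2⟩
  rw [this]
  exact (isCompact_closedBall x r).inter_right isClosed_closure

theorem locallyCompactSpace : LocallyCompactSpace U := by
  have : IsLocallyClosed U := by
    refine ⟨interior {y | y ∈ closure U → y ∈ U}, closure U, isOpen_interior, isClosed_closure, ?_⟩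
    refine Subset.antisymm (fun x hx => ⟨mem_interior_iff_mem_nhds.2
      (hU.eventually_mem_of_closure hx), subset_closure hx⟩) fun x hx => interior_subset hx.1 hx.2
  exact this.locallyCompactSpace

/-- A compact subset has a compact neighbourhood in `U`. -/
theorem exists_compact_superset {K : Set (CN N)} (hK : IsCompact K) (hKU : K ⊆ U) :
    ∃ L, IsCompact L ∧ L ⊆ U ∧ ∀ x ∈ K, L ∈ 𝓝[U] x := by
  have key : ∀ x ∈ K, ∃ L, IsCompact L ∧ L ⊆ U ∧ L ∈ 𝓝[U] x := fun x hx => by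
    obtain ⟨L, h1, h2, -, h3⟩ := hU.exists_compact_nhds (hKU hx) self_mem_nhdsWithin
    exact ⟨L, h1, h2, h3⟩
  choose! L h1 h2 h3 using key
  have h4 : ∀ x ∈ K, {y | L x ∈ 𝓝[U] y} ∈ 𝓝[K] x := fun x hx =>
    nhdsWithin_mono _ hKU (eventually_eventually_nhdsWithin.2 (h3 x hx))
  obtain ⟨t, ht, hc⟩ := hK.elim_nhdsWithin_subcover _ h4
  refine ⟨⋃ x ∈ t, L x, t.isCompact_biUnion fun x hx => h1 x (ht x hx),
    iUnion₂_subset fun x hx => h2 x (ht x hx), fun y hy => ?_⟩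
  obtain ⟨x, hx, hy'⟩ := mem_iUnion₂.1 (hc hy)
  exact mem_of_superset hy' (subset_biUnion_of_mem (u := L) hx)

/-- The derivative of a holomorphic map along a holomorphic tangent field is holomorphic. -/
theorem hol_D [CompleteSpace F] (hf : Hol U f) {X : CN N → CN N} (hX : Hol U X)
    (hT : ∀ x ∈ U, X x ∈ Tan U x) : Hol U (fun x => fderivWithin ℂ f U x (X x)) :=
  Hol.of_analytic fun x hx => by
    obtain ⟨Φ, h1, h2⟩ := hf.exists_analytic hx
    obtain ⟨Ξ, h3, h4⟩ := hX.exists_analytic hx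
    refine ⟨fun y => fderiv ℂ Φ y (Ξ y), ?_, ?_⟩
    · exact (ContinuousLinearMap.analyticAt_bilinear (ContinuousLinearMap.id ℂ (CN N →L[ℂ] F))
        (fderiv ℂ Φ x, Ξ x)).comp₂ h1.fderiv h3
    · filter_upwards [self_mem_nhdsWithin, eventually_eventually_nhdsWithin.2 h2, h4,
        mem_nhdsWithin_of_mem_nhds h1.eventually_analyticAt] with y hy a b c
      rw [tD_ext hy c.differentiableAt a (hT y hy), b]

/-- Identity theorem on a connected submanifold. -/
theorem eqOn_of_eventuallyEq [CompleteSpace F] (hc : IsPreconnected U) (hf : Hol U f)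
    (hg : Hol U g) (hx : x ∈ U) (h : f =ᶠ[𝓝[U] x] g) : EqOn f g U := by
  have key : ∀ y ∈ U, (∃ᶠ z in 𝓝[U] y, f =ᶠ[𝓝[U] z] g) → f =ᶠ[𝓝[U] y] g := by
    intro y hy hfr
    obtain ⟨ch, u, r, hr, hrs, rfl⟩ := hU.exists_ball hy
    have hu : u ∈ ch.s := hrs (mem_closedBall_self hr.le)
    rw [← ch.map_nhds hu, frequently_map] at hfr
    obtain ⟨w, hw, hwb⟩ := (hfr.and_eventually (ball_mem_nhds u hr)).exists
    have hsub : ball u r ⊆ ch.s := ball_subset_closedBall.trans hrs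
    have := SCV.eqOn_of_eventuallyEq isOpen_ball (convex_ball u r).isPreconnected
      ((ch.hol_comp hf).mono hsub) ((ch.hol_comp hg).mono hsub) hwb
      ((ch.ev_iff (hsub hwb)).1 hw)
    exact (ch.ev_iff hu).2 (by filter_upwards [ball_mem_nhds u hr] with z hz using this hz)
  have hA : ∀ y ∈ U, f =ᶠ[𝓝[U] y] g := by
    intro y hy
    refine (hc.induction₂' (fun a b => (f =ᶠ[𝓝[U] a] g ↔ f =ᶠ[𝓝[U] b] g)) (fun a ha => ?_)
      (fun a b c _ _ _ h1 h2 => h1.trans h2) hx hy).1 h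
    by_cases h1 : f =ᶠ[𝓝[U] a] g
    · filter_upwards [eventually_eventually_nhdsWithin.2 h1] with b hb
      exact ⟨iff_of_true h1 hb, iff_of_true hb h1⟩
    · have h2 : ∀ᶠ z in 𝓝[U] a, ¬ f =ᶠ[𝓝[U] z] g := not_frequently.1 fun h' => h1 (key a ha h')
      filter_upwards [h2] with b hb
      exact ⟨iff_of_false h1 hb, iff_of_false hb h1⟩
  exact fun y hy => (hA y hy).self_of_nhdsWithin hy

/-- The complement of the zero set of a nonzero holomorphic map is dense. -/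
theorem frequently_ne [CompleteSpace F] (hc : IsPreconnected U) (hf : Hol U f)
    (h0 : ∃ y ∈ U, f y ≠ 0) (hx : x ∈ U) : ∃ᶠ y in 𝓝[U] x, f y ≠ 0 := by
  intro h
  obtain ⟨y, hy, hne⟩ := h0
  exact hne (hU.eqOn_of_eventuallyEq hc hf (Hol.const U 0) hx (h.mono fun z hz => not_not.1 hz) hy)

/-- A map with zero derivative on a connected submanifold is constant. -/
theorem eq_of_D_eq_zero [CompleteSpace F] (hc : IsPreconnected U) (hf : Hol U f)
    (h0 : ∀ y ∈ U, ∀ v ∈ Tan U y, fderivWithin ℂ f U y v = 0) (hx : x ∈ U) :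
    ∀ y ∈ U, f y = f x := by
  refine hU.eqOn_of_eventuallyEq hc hf (Hol.const U (f x)) hx ?_
  obtain ⟨ch, u, r, hr, hrs, rfl⟩ := hU.exists_ball hx
  have hsub : ball u r ⊆ ch.s := ball_subset_closedBall.trans hrs
  refine (ch.ev_iff (hsub (mem_ball_self hr))).2 ?_
  filter_upwards [ball_mem_nhds u hr] with w hw
  refine isOpen_ball.is_const_of_fderiv_eq_zero (𝕜 := ℂ) (convex_ball u r).isPreconnected
    ((ch.hol_comp hf).mono hsub) (fun z hz => ?_) hw (mem_ball_self hr)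
  ext1 a
  rw [ch.fderiv_comp_c (hsub hz) (hf.differentiableWithinAt (ch.maps (hsub hz)))]
  exact h0 _ (ch.maps (hsub hz)) _ (ch.dc_mem (hsub hz) a)

end IsSub

end Crest.Agent.R264
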