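import Crest.Agent.R264.SCVM
import Crest.Agent.R264.A1

/-! Row 264: elementary facts about an algebraic frame. -/

set_option autoImplicit false
open Set Filter Topology Metric Complex

noncomputable section
namespace Crest.Agent.R264

theorem frame_analyticAt {N : ℕ} (P : P2 N) (z : CN N × CN N) :
    AnalyticAt ℂ (fun z : CN N × CN N => pe P z.1 z.2) z := by
  have h1 : AnalyticAt ℂ (fun z : CN N × CN N => (Sum.elim z.1 z.2 : Fin N ⊕ Fin N → ℂ)) z := by
    refine AnalyticAt.pi fun i => ?_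
    rcases i with i | i
    · exact ((ContinuousLinearMap.proj (R := ℂ) (φ := fun _ : Fin N => ℂ) i).comp
        (ContinuousLinearMap.fst ℂ (CN N) (CN N))).analyticAt z
    · exact ((ContinuousLinearMap.proj (R := ℂ) (φ := fun _ : Fin N => ℂ) i).comp
        (ContinuousLinearMap.snd ℂ (CN N) (CN N))).analyticAt z
  exact (AnalyticOnNhd.eval_mvPolynomial P _ (mem_univ _)).comp h1

theorem differentiable_pe {N : ℕ} (P : P2 N) :
    Differentiable ℂ (fun z : CN N × CN N => pe P z.1 z.2) := by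
  exact fun z => (frame_analyticAt P z).differentiableAt

theorem analyticAt_pe {N : ℕ} (P : P2 N) (z : CN N × CN N) :
    AnalyticAt ℂ (fun z : CN N × CN N => pe P z.1 z.2) z := by
  exact frame_analyticAt P z

theorem contDiff_rv {N : ℕ} (P : P2 N) : ContDiff ℝ ⊤ (rv P) := by
  have h1 : ContDiff ℂ ⊤ (fun z : CN N × CN N => pe P z.1 z.2) :=
    contDiff_iff_contDiffAt.2 fun z => (analyticAt_pe P z).contDiffAt
  have h2 : ContDiff ℝ ⊤ (fun x : CN N => (x, star x)) :=
    contDiff_id.prodMk (starL' ℝ : CN N ≃L[ℝ] CN N).contDiff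
  have h3 : ContDiff ℝ ⊤ (fun z : CN N × CN N => pe P z.1 z.2) := h1.restrict_scalars ℝ
  have h4 := Complex.reCLM.contDiff.comp (h3.comp h2)
  have e : rv P = Complex.reCLM ∘ (fun z : CN N × CN N => pe P z.1 z.2) ∘
      fun x : CN N => (x, star x) := by
    funext x
    simp only [rv, Function.comp, Complex.reCLM_apply]
  rw [e]
  exact h4

theorem IsHerm.pe_eq_rv {N : ℕ} {P : P2 N} (h : IsHerm P) (x : CN N) :
    pe P x (star x) = (rv P x : ℂ) := by
  have h1 := h x (star x)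
  rw [star_star] at h1
  exact (Complex.conj_eq_iff_re.1 h1.symm).symm

theorem frame_dx {N : ℕ} (P : P2 N) (x y v : CN N) :
    dx P x y v = fderiv ℂ (fun z : CN N × CN N => pe P z.1 z.2) (x, y) (v, 0) := by
  have h := (differentiable_pe P (x, y)).hasFDerivAt.comp x (f := fun x' : CN N => (x', y))
    (hasFDerivAt_prodMk_left x y)
  unfold dx
  exact congrArg (fun L : CN N →L[ℂ] ℂ => L v) h.fderiv

/-- `dx` is continuous in all arguments. -/
theorem continuous_dx {N : ℕ} (P : P2 N) :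
    Continuous (fun z : CN N × CN N × CN N => dx P z.1 z.2.1 z.2.2) := by
  simp only [frame_dx]
  have h1 : Continuous (fderiv ℂ (fun z : CN N × CN N => pe P z.1 z.2)) :=
    continuous_iff_continuousAt.2 fun z => (analyticAt_pe P z).fderiv.continuousAt
  exact (h1.comp (continuous_fst.prodMk continuous_snd.fst)).clm_apply
    (continuous_snd.snd.prodMk continuous_const)

/-- The real derivative of `rv` for a Hermitian polynomial. -/
theorem IsHerm.fderiv_rv {N : ℕ} {P : P2 N} (h : IsHerm P) (x v : CN N) :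
    fderiv ℝ (rv P) x v = 2 * (dx P x (star x) v).re := by
  rw [frame_dx]
  have hG := (differentiable_pe P (x, star x)).hasFDerivAt.restrictScalars ℝ
  set A := fderiv ℂ (fun z : CN N × CN N => pe P z.1 z.2) (x, star x)
  have hs : HasFDerivAt (fun y : CN N => star y)
      (starL' ℝ : CN N ≃L[ℝ] CN N).toContinuousLinearMap x :=
    (starL' ℝ : CN N ≃L[ℝ] CN N).toContinuousLinearMap.hasFDerivAt
  have h0 := Complex.reCLM.hasFDerivAt.comp x
    (hG.comp x (f := fun y : CN N => (y, star y)) ((hasFDerivAt_id x).prodMk hs))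
  have h1 := hG.comp x (f := fun y : CN N => (x, star y)) ((hasFDerivAt_const x x).prodMk hs)
  have h2 := (hG.comp x (f := fun y : CN N => (y, star x)) (hasFDerivAt_prodMk_left x (star x))).star
  have e : ((fun z : CN N × CN N => pe P z.1 z.2) ∘ fun y : CN N => (x, star y)) =
      fun y => star (((fun z : CN N × CN N => pe P z.1 z.2) ∘ fun y : CN N => (y, star x)) y) := by
    funext y
    simp only [Function.comp]
    rw [h x (star y), star_star]
  rw [e] at h1
  have h3 : A (0, star v) = star (A (v, 0)) := congrArg (fun L : CN N →L[ℝ] ℂ => L v) (h1.unique h2)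
  have h4 : fderiv ℝ (rv P) x v = (A (v, star v)).re :=
    congrArg (fun L : CN N →L[ℝ] ℝ => L v) h0.fderiv
  have h5 : ((v, star v) : CN N × CN N) = (v, 0) + (0, star v) := by simp
  rw [h4, h5, map_add, h3]
  simp [two_mul]

theorem IsHerm.neg {N : ℕ} {P : P2 N} (h : IsHerm P) : IsHerm (-P) := by
  intro x y
  have := h x y
  unfold pe at this ⊢
  rw [map_neg, map_neg, star_neg, this]

theorem rv_neg {N : ℕ} (P : P2 N) (x : CN N) : rv (-P) x = -rv P x := by
  simp [rv, pe]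

namespace AlgFrame
variable {N n : ℕ} {U : Set (CN N)} (F : AlgFrame n U)

theorem isClosed_V : IsClosed F.V := by
  exact A.isClosed_zeroLocus F.I

theorem ropen : ROpen F.V U := by
  obtain ⟨O, hO, e⟩ := F.isOpen
  have e' : O ∩ F.V = U := e.symm
  have := ROpen.inter_open F.V hO
  rwa [inter_comm, e'] at this

theorem closure_subset : closure U ⊆ F.V := by
  exact closure_minimal F.ropen.1 F.isClosed_V

theorem differentiable_pr : Differentiable ℂ F.pr := by
  exact differentiable_pi.2 fun i => A.differentiable_eval _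

theorem differentiable_dv : Differentiable ℂ F.dv := by
  exact (A.differentiable_eval F.D).comp F.differentiable_pr

theorem differentiable_xi (i : Fin n) : Differentiable ℂ (F.xi i) := by
  exact differentiable_pi.2 fun a => A.differentiable_eval _

theorem exists_dv_ne : ∃ x ∈ U, F.dv x ≠ 0 := F.exists_ne

theorem Tan_eq {x : CN N} (hx : x ∈ U) : Tan U x = Tan F.V x := by
  exact tan_rel F.ropen.1 (F.ropen.2 x hx)

/-- Sections on small balls. -/
theorem exists_sect {x : CN N} (hx : x ∈ F.V) (hd : F.dv x ≠ 0) {W : Set (CN N)} (hW : W ∈ 𝓝 x) :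
    ∃ (ch : Chart n F.V) (ε : ℝ), F.IsSect ch ∧ 0 < ε ∧ ch.s = ball (F.pr x) ε ∧
      ch.c (F.pr x) = x ∧ ch.c '' ch.s ⊆ W := by
  obtain ⟨ch, ⟨u, hu, rfl⟩, hl, h⟩ := F.sect x hx hd
  have e : F.pr (ch.c u) = u := by
    have := ch.left u hu
    rwa [hl] at this
  obtain ⟨ε, hε, hb⟩ := nhds_basis_ball.mem_iff.1
    (inter_mem (ch.s_open.mem_nhds hu) ((ch.differentiableAt hu).continuousAt hW))
  rw [e]
  refine ⟨ch.restrict (ball u ε) isOpen_ball fun w hw => (hb hw).1, ε,
    ⟨hl, fun w hw => h w (hb hw).1⟩, hε, rfl, rfl, ?_⟩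
  rintro _ ⟨w, hw, rfl⟩
  exact (hb hw).2

theorem IsSect.pr_c {F : AlgFrame n U} {ch : Chart n F.V} (h : F.IsSect ch) {u : CN n}
    (hu : u ∈ ch.s) : F.pr (ch.c u) = u ∧ F.dv (ch.c u) ≠ 0 := by
  have e : F.pr (ch.c u) = u := by
    have := ch.left u hu
    rwa [h.1] at this
  refine ⟨e, ?_⟩
  unfold AlgFrame.dv
  rw [e]
  exact (h.2 u hu).1

theorem IsSect.fderiv_c {F : AlgFrame n U} {ch : Chart n F.V} (h : F.IsSect ch) {u : CN n}
    (hu : u ∈ ch.s) (c : CN n) :
    F.dv (ch.c u) • fderiv ℂ ch.c u c = ∑ i, c i • F.xi i (ch.c u) := by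
  unfold AlgFrame.dv
  rw [(h.pr_c hu).1]
  conv_lhs => rw [pi_eq_sum_univ' c, map_sum, Finset.smul_sum]
  refine Finset.sum_congr rfl fun i _ => ?_
  rw [map_smul, smul_comm, (h.2 u hu).2 i]

theorem frame_sect {x : CN N} (hx : x ∈ F.V) (hd : F.dv x ≠ 0) :
    ∃ (ch : Chart n F.V) (u : CN n), F.IsSect ch ∧ u ∈ ch.s ∧ ch.c u = x := by
  obtain ⟨ch, ε, h, hε, hs, hc, -⟩ := F.exists_sect hx hd univ_mem
  exact ⟨ch, _, h, hs ▸ mem_ball_self hε, hc⟩

theorem fderiv_pr_xi {x : CN N} (hx : x ∈ F.V) (hd : F.dv x ≠ 0) (c : CN n) :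
    fderiv ℂ F.pr x (∑ i, c i • F.xi i x) = F.dv x • c := by
  obtain ⟨ch, u, h, hu, rfl⟩ := F.frame_sect hx hd
  rw [← h.fderiv_c hu, map_smul, ← h.1, ch.fderiv_l_c hu]

theorem mem_Tan_iff {x : CN N} (hx : x ∈ F.V) (hd : F.dv x ≠ 0) {v : CN N} :
    v ∈ Tan F.V x ↔ ∃ c : CN n, v = ∑ i, c i • F.xi i x := by
  obtain ⟨ch, u, h, hu, rfl⟩ := F.frame_sect hx hd
  constructor
  · intro hv
    refine ⟨(F.dv (ch.c u))⁻¹ • fderiv ℂ ch.l (ch.c u) v, ?_⟩
    rw [← h.fderiv_c hu, map_smul, smul_inv_smul₀ hd, ch.fderiv_c_l hu hv]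
  · rintro ⟨c, rfl⟩
    rw [← h.fderiv_c hu]
    exact Submodule.smul_mem _ _ (ch.dc_mem hu c)

theorem smul_eq_sum {x : CN N} (hx : x ∈ F.V) (hd : F.dv x ≠ 0) {v : CN N} (hv : v ∈ Tan F.V x) :
    F.dv x • v = ∑ i, fderiv ℂ F.pr x v i • F.xi i x := by
  obtain ⟨ch, u, h, hu, rfl⟩ := F.frame_sect hx hd
  rw [← h.fderiv_c hu, ← h.1, ch.fderiv_c_l hu hv]

/-- Limits of tangent vectors of `V` at points off the discriminant are tangent. -/
theorem mem_Tan_of_tendsto {ι : Type*} {l : Filter ι} [l.NeBot] {a v : ι → CN N} {x w : CN N}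
    (hx : x ∈ F.V) (hd : F.dv x ≠ 0) (ha : Tendsto a l (𝓝[F.V] x)) (hv : Tendsto v l (𝓝 w))
    (hT : ∀ᶠ j in l, v j ∈ Tan F.V (a j)) : w ∈ Tan F.V x := by
  obtain ⟨ha1, ha2⟩ := tendsto_nhdsWithin_iff.1 ha
  have h1 : Tendsto (fun j => F.dv (a j)) l (𝓝 (F.dv x)) :=
    (F.differentiable_dv.continuous.tendsto x).comp ha1
  have h2 : Tendsto (fun j => fderiv ℂ F.pr (a j) (v j)) l (𝓝 (fderiv ℂ F.pr x w)) := by
    have h3 : ContinuousAt (fderiv ℂ F.pr) x := (A.analyticAt_pmap F.π x).fderiv.continuousAt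
    exact (isBoundedBilinearMap_apply.continuous.tendsto (fderiv ℂ F.pr x, w)).comp
      ((h3.tendsto.comp ha1).prodMk_nhds hv)
  have h4 : Tendsto (fun j => ∑ i, fderiv ℂ F.pr (a j) (v j) i • F.xi i (a j)) l
      (𝓝 (∑ i, fderiv ℂ F.pr x w i • F.xi i x)) :=
    tendsto_finsetSum _ fun i _ => (tendsto_pi_nhds.1 h2 i).smul
      (((F.differentiable_xi i).continuous.tendsto x).comp ha1)
  have h5 : F.dv x • w = ∑ i, fderiv ℂ F.pr x w i • F.xi i x := by
    refine tendsto_nhds_unique_of_eventuallyEq (h1.smul hv) h4 ?_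
    filter_upwards [ha2, hT, h1.eventually_ne hd] with j b1 b2 b3
    exact F.smul_eq_sum b1 b3 b2
  exact (Submodule.smul_mem_iff _ hd).1 ((F.mem_Tan_iff hx hd).2 ⟨_, h5⟩)

end AlgFrame

/-- The frame fields are tangent to `U` everywhere. -/
theorem TM.xi_mem_T (M : TM) (F : AlgFrame M.n M.U) (i : Fin M.n) {x : CN M.N} (hx : x ∈ M.U) :
    F.xi i x ∈ M.T x := by
  have h1 := M.subset_closure_ne (ROpen.refl M.U) M.conn.isPreconnected
    (Hol.of_differentiable F.differentiable_dv) F.exists_dv_ne hx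
  have := mem_closure_iff_nhdsWithin_neBot.1 h1
  refine ((M.montel_tendsto (l := 𝓝[M.U ∩ {y | F.dv y ≠ 0}] x) (f := fun _ _ => (0 : ℂ))
    (g := fun _ => 0) (ROpen.refl M.U) (fun y _ => ⟨univ, univ_mem, 0, Eventually.of_forall fun _ =>
      ⟨Hol.const _ _, fun _ _ => norm_zero.le⟩⟩) (fun _ _ => tendsto_const_nhds) (a := id) hx
    (nhdsWithin_mono _ inter_subset_left)).2 (F.xi i) _ ?_
    ((F.differentiable_xi i).continuous.continuousAt.continuousWithinAt)).1
  filter_upwards [self_mem_nhdsWithin] with y hy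
  change F.xi i y ∈ Tan M.U y
  rw [F.Tan_eq hy.1, F.mem_Tan_iff (F.ropen.1 hy.1) hy.2]
  exact ⟨Pi.single i 1, by simp [Pi.single_apply]⟩

end Crest.Agent.R264
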