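import Crest.Agent.R264.GClos

/-! Row 264: the Lie algebra `g`, good ideals, the distributions, setups, Segre data, model charts
(definitions only). -/

set_option autoImplicit false
open Set Filter Topology Metric Complex
open scoped Matrix

noncomputable section
namespace Crest.Agent.R264

namespace TM
variable (M : TM)

/-- The real Lie algebra of generators of one-parameter groups of automorphisms. -/
def g : LieSubalgebra ℝ M.VF where
  carrier := {X | ∃ θ, M.IsFlow X θ}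
  add_mem' := M.flow_add
  zero_mem' := M.flow_zero
  smul_mem' := fun a _ hX => M.flow_smul a hX
  lie_mem' := M.flow_lie

/-- An element of `g` as a map. -/
abbrev fn (X : M.g) : CN M.N → CN M.N := ((X : M.VF) : CN M.N → CN M.N)

/-- The adjoint action on `g`. -/
def Adg (h : M.Aut) : M.g ≃ₗ⁅ℝ⁆ M.g where
  toFun X := ⟨M.Ad h X, by obtain ⟨θ, hθ⟩ := X.2; exact ⟨_, M.flow_Ad h hθ⟩⟩
  invFun X := ⟨M.Ad h⁻¹ X, by obtain ⟨θ, hθ⟩ := X.2; exact ⟨_, M.flow_Ad h⁻¹ hθ⟩⟩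
  map_add' X Y := Subtype.ext (map_add (M.Ad h) _ _)
  map_smul' a X := Subtype.ext ((M.Ad h).map_smul (a : ℂ) _)
  map_lie' := fun {X Y} => Subtype.ext (M.Ad_lie h X Y)
  left_inv X := Subtype.ext (by
    change M.Ad h⁻¹ (M.Ad h X) = X
    rw [← M.Ad_mul, inv_mul_cancel, M.Ad_one])
  right_inv X := Subtype.ext (by
    change M.Ad h (M.Ad h⁻¹ X) = X
    rw [← M.Ad_mul, mul_inv_cancel, M.Ad_one])

/-- Good ideals: simple, of non compact type, and with hermitian symmetric orbits: at every point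
there is an element `Z1` of the isotropy algebra which is central in it and acts as the complex
structure on the values. -/
structure Good (s : LieIdeal ℝ M.g) : Prop where
  simple : ∀ i : Submodule ℝ M.g, (∀ X ∈ i, X ∈ s) → (∀ U ∈ s, ∀ X ∈ i, ⁅U, X⁆ ∈ i) →
    (∀ X ∈ s, X ∈ i) ∨ i = ⊥
  pos : ∃ X ∈ s, 0 < killingForm ℝ M.g X X
  hs : ∀ y ∈ M.U, ∃ Z1 ∈ s, M.fn Z1 y = 0 ∧ (∀ X ∈ s, M.fn ⁅X, Z1⁆ y = I • M.fn X y) ∧
    ∀ K ∈ s, M.fn K y = 0 → ⁅K, Z1⁆ = 0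

/-- Values of an ideal at a point (complex span). -/
def val (s : LieIdeal ℝ M.g) (y : CN M.N) : Submodule ℂ (CN M.N) :=
  Submodule.span ℂ {v | ∃ X ∈ s, v = M.fn X y}

/-- The distribution complementary to the orbits of a good ideal. -/
def Dist (s : LieIdeal ℝ M.g) (y : CN M.N) : Submodule ℂ (CN M.N) where
  carrier := {v | v ∈ M.T y ∧ ∀ a ∈ s, ∀ b ∈ s, M.fn a y + I • M.fn b y = 0 →
    M.D (M.fn a) y v + I • M.D (M.fn b) y v = 0}
  add_mem' := by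
    rintro v w ⟨h1, h2⟩ ⟨h1', h2'⟩
    refine ⟨add_mem h1 h1', fun a ha b hb hab => ?_⟩
    have e1 := h2 a ha b hb hab
    have e2 := h2' a ha b hb hab
    rw [map_add, map_add, smul_add]
    linear_combination (exp := 1) e1 + e2
  zero_mem' := ⟨zero_mem _, fun a _ b _ _ => by simp⟩
  smul_mem' := by
    rintro c v ⟨h1, h2⟩
    refine ⟨Submodule.smul_mem _ c h1, fun a ha b hb hab => ?_⟩
    have e1 := h2 a ha b hb hab
    rw [map_smul, map_smul, smul_comm I c, ← smul_add, e1, smul_zero]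

/-- The common complementary distribution. -/
def DistAll (y : CN M.N) : Submodule ℂ (CN M.N) :=
  M.T y ⊓ ⨅ s : {s : LieIdeal ℝ M.g // M.Good s}, M.Dist s.1 y

/-- A model chart: an open embedding of a model domain, proper over the base, in which three
families of elements of `g` are the standard fields. -/
structure MChart (r k : ℕ) extends MBase r k where
  ψ : PM r k → CN M.N
  diff : DifferentiableOn ℂ ψ toMBase.W
  maps : MapsTo ψ toMBase.W M.U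
  inj : InjOn ψ toMBase.W
  nhds : ∀ ω ∈ toMBase.W, ψ '' toMBase.W ∈ 𝓝[M.U] (ψ ω)
  dinj : ∀ ω ∈ toMBase.W, Function.Injective (fderiv ℂ ψ ω)
  drange : ∀ ω ∈ toMBase.W, LinearMap.range (fderiv ℂ ψ ω : PM r k →ₗ[ℂ] CN M.N) = M.T (ψ ω)
  proper : ∀ ω : PM r k, ω.2.2 ∈ ball t0 R → ∀ y ∈ M.U,
    (ω, y) ∈ closure ((fun ω' => (ω', ψ ω')) '' toMBase.W) → ω ∈ toMBase.W
  A : M.g
  Z : M.g
  Xn : CN r →ₗ[ℝ] M.g
  fnA : ∀ ω ∈ toMBase.W, M.fn A (ψ ω) = fderiv ℂ ψ ω (fA ω)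
  fnZ : ∀ ω ∈ toMBase.W, M.fn Z (ψ ω) = fderiv ℂ ψ ω (fZ ω)
  fnX : ∀ ζ, ∀ ω ∈ toMBase.W, M.fn (Xn ζ) (ψ ω) = fderiv ℂ ψ ω (fX κ ζ ω)

end TM

/-- A taut manifold with a cocompact properly discontinuous group. -/
structure TMG extends TM where
  Γ : Subgroup toTM.Aut
  pd : ∀ K L : Set (CN N), IsCompact K → K ⊆ U → IsCompact L → L ⊆ U →
    {γ : toTM.Aut | γ ∈ Γ ∧ (toTM.ap γ '' K ∩ L).Nonempty}.Finite
  K : Set (CN N)
  K_compact : IsCompact K
  K_sub : K ⊆ U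
  cover : ∀ x ∈ U, ∃ γ ∈ Γ, ∃ y ∈ K, toTM.ap γ y = x

/-- The full setup: algebraic frame, and the bad boundary points are thin. -/
structure Setup extends TMG where
  F : AlgFrame n U
  thin : Thin2 (F.pr '' F.Bad)

/-- Segre data at a boundary point `a 0`: a good side `ρ`, a holomorphic slice `a`, leaf
coordinates `t`. -/
structure SegRaw (N r k : ℕ) where
  ρ : P2 N
  a : ℂ × CN r → CN N
  t : CN N → CN k
  δ : ℝ

namespace SegRaw
variable {N r k : ℕ} (σ : SegRaw N r k)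

/-- The polarised defining function, holomorphic in `x` and in the conjugate slice coordinate. -/
def ϱ (x : CN N) (η : ℂ × CN r) : ℂ := pe σ.ρ x (star (σ.a (star η)))
/-- Derivative in `η.1`. -/
def r0 (x : CN N) (η : ℂ × CN r) : ℂ := fderiv ℂ (σ.ϱ x) η (1, 0)
/-- Derivative in `η.2`. -/
def r1 (x : CN N) (η : ℂ × CN r) : CN r := fun i => fderiv ℂ (σ.ϱ x) η (0, Pi.single i 1)
/-- Second derivative in `η.2`. -/
def r2 (x : CN N) (η : ℂ × CN r) : Matrix (Fin r) (Fin r) ℂ :=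
  fun i j => fderiv ℂ (fun η' => σ.r1 x η' j) η (0, Pi.single i 1)
/-- Real points of the slice: conjugate coordinates of points of the hypersurface. -/
def S : Set (ℂ × CN r) := {η | η ∈ ball (0 : ℂ × CN r) σ.δ ∧ σ.ϱ (σ.a (star η)) η = 0}
/-- The slope of the Segre variety at the real point. -/
def p (η : ℂ × CN r) : CN r := (σ.r0 (σ.a (star η)) η)⁻¹ • σ.r1 (σ.a (star η)) η
/-- The leaf through the real point with conjugate coordinate `η`. -/
def L (V : Set (CN N)) (η : ℂ × CN r) : Set (CN N) :=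
  {x | x ∈ V ∧ σ.ϱ x η = 0 ∧ σ.r1 x η = σ.r0 x η • σ.p η}
/-- The normal coordinate with free parameters. -/
def wc (η : ℂ × CN r) (x : CN N) : ℂ := -(σ.ϱ x η / σ.r0 x η)
/-- The tangential coordinates with free parameters. -/
def zc (η : ℂ × CN r) (q : CN r) (x : CN N) : CN r :=
  (2 * I * σ.r0 x η)⁻¹ • (σ.r1 x η - σ.r0 x η • q)
/-- The period matrix along the base leaf. -/
def κ (x : CN N) : Matrix (Fin r) (Fin r) ℂ := (I / 2 * (σ.r0 x 0)⁻¹) • σ.r2 x 0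
/-- The coordinates adapted to the leaf `η`. -/
def co (η : ℂ × CN r) (x : CN N) : PM r k := (σ.wc η x, σ.zc η (σ.p η) x, σ.t x)

end SegRaw

/-- Normalised Segre data at a generic boundary point. -/
structure Segre {N n : ℕ} {U : Set (CN N)} (F : AlgFrame n U) (r k : ℕ) extends SegRaw N r k where
  dim : n = 1 + r + k
  δ_pos : 0 < δ
  good : F.GoodSide (a 0) ρ
  a_diff : DifferentiableOn ℂ a (ball 0 δ)
  a_mem : MapsTo a (ball 0 δ) F.V
  t_diff : Differentiable ℂ t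
  t_a : ∀ ω ∈ ball (0 : ℂ × CN r) δ, t (a ω) = t (a 0)
  n0 : toSegRaw.r0 (a 0) 0 = I / 2
  n1 : toSegRaw.r1 (a 0) 0 = 0
  n2 : toSegRaw.r2 (a 0) 0 = 0
  n3 : ∀ i j, fderiv ℂ (fun ω => toSegRaw.r1 (a ω) 0 j) 0 (0, Pi.single i 1) =
    if i = j then -1 else 0
  coord : ∀ c : Fin n → ℂ, fderiv ℂ (toSegRaw.co 0) (a 0) (∑ i, c i • F.xi i (a 0)) = 0 → c = 0
  leaf : ∃ O : Set (CN N), IsOpen O ∧ a 0 ∈ O ∧ ∀ᶠ η in 𝓝[toSegRaw.S] 0,
    ∀ x ∈ toSegRaw.L F.V η ∩ O, rv ρ x = 0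
  genA : ∀ q : CN N, ∀ W ∈ 𝓝 q, ∃ O : Set (CN N), IsOpen O ∧ q ∈ O ∧ O ⊆ W ∧
    (toSegRaw.L F.V 0 ∩ O ⊆ closure U \ U → ∀ᶠ η in 𝓝[toSegRaw.S] 0,
      η ∈ closure {η' | η' ∈ toSegRaw.S ∧ toSegRaw.L F.V η' ∩ O ⊆ closure U \ U})
  genB : ∀ q : CN N, ∀ W ∈ 𝓝 q, ∃ O : Set (CN N), IsOpen O ∧ q ∈ O ∧ O ⊆ W ∧
    (toSegRaw.L F.V 0 ∩ O ∩ F.Gd = ∅ → ∀ᶠ η in 𝓝[toSegRaw.S] 0,
      η ∈ closure {η' | η' ∈ toSegRaw.S ∧ toSegRaw.L F.V η' ∩ O ∩ F.Gd = ∅})

end Crest.Agent.R264
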