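import Crest.Agent.R264.P1.Crit
import Crest.Agent.R264.P1.Fin

/-! Row 264, P1: complete fields are closed under the Lie algebra operations. -/

set_option autoImplicit false
open Set Filter Topology Metric Complex

noncomputable section
namespace Crest.Agent.R264.TM
variable (M : TM)

theorem flow_zero : ∃ θ, M.IsFlow ((0 : M.VF) : CN M.N → CN M.N) θ := by
  refine ⟨fun _ => 1, rfl, fun _ _ => (mul_one _).symm, fun x _ t => ?_⟩
  exact hasDerivAt_const t _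

theorem flow_smul (a : ℝ) {X : M.VF} (hX : ∃ θ, M.IsFlow X θ) :
    ∃ θ, M.IsFlow ((a • X : M.VF) : CN M.N → CN M.N) θ := by
  obtain ⟨θ, hθ⟩ := hX
  refine ⟨fun t => θ (a * t), by simp [hθ.zero], fun s t => by rw [mul_add, hθ.add],
    fun x hx t => ?_⟩
  have := (hθ.deriv x hx (a * t)).scomp t ((hasDerivAt_id t).const_mul a)
  rw [mul_one] at this
  exact this

theorem flow_add {X Y : M.VF} (hX : ∃ θ, M.IsFlow X θ) (hY : ∃ θ, M.IsFlow Y θ) :
    ∃ θ, M.IsFlow ((X + Y : M.VF) : CN M.N → CN M.N) θ := by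
  obtain ⟨θ, hθ⟩ := hX
  obtain ⟨η, hη⟩ := hY
  have cX := X.2.1.continuousOn
  have cY := Y.2.1.continuousOn
  have hle : 𝓝[>] (0 : ℝ) ≤ 𝓝[≠] 0 := nhdsWithin_mono _ fun t ht => ne_of_gt ht
  have split : ∀ (τ : ℝ), ∀ y ∈ M.U, τ⁻¹ • (M.ap (θ τ * η τ) y - y) =
      τ⁻¹ • (M.ap (θ τ) (M.ap (η τ) y) - M.ap (η τ) y) + τ⁻¹ • (M.ap (η τ) y - y) := by
    intro τ y hy
    rw [M.ap_mul _ _ hy, ← smul_add, sub_add_sub_cancel]
  have hη0 : Tendsto η (𝓝[≠] 0) (𝓝 1) := by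
    have := hη.continuous.tendsto 0
    rw [hη.zero] at this
    exact this.mono_left nhdsWithin_le_nhds
  refine M.crit (l := 𝓝[>] (0 : ℝ)) (h := fun τ => θ τ * η τ) (τ := fun τ => τ) tendsto_id
    (fun x hx => ?_) fun y hy => ?_
  · obtain ⟨W1, hW1, C1, h1⟩ := hθ.locBdd_slope cX x hx
    obtain ⟨W2, hW2, C2, h2⟩ := hη.locBdd_slope cY x hx
    have hc : Tendsto (fun p : ℝ × CN M.N => M.ap (η p.1) p.2) (𝓝[≠] 0 ×ˢ 𝓝[M.U] x) (𝓝[M.U] x) := by
      refine tendsto_nhdsWithin_iff.2 ⟨?_, ?_⟩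
      · have := M.tendsto_ap (hη0.comp tendsto_fst) hx
          (tendsto_snd (f := 𝓝[≠] (0 : ℝ)) (g := 𝓝[M.U] x))
        rwa [M.ap_one hx] at this
      · exact (tendsto_snd.eventually self_mem_nhdsWithin).mono fun p hp => M.ap_mem _ hp
    obtain ⟨pa, hpa, pb, hpb, hab⟩ := eventually_prod_iff.1 (hc.eventually hW1)
    refine ⟨{y | pb y} ∩ W2 ∩ M.U, inter_mem (inter_mem hpb hW2) self_mem_nhdsWithin, C1 + C2, ?_⟩
    filter_upwards [hle h1, hle h2, hle hpa] with τ a1 a2 a3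
    refine ⟨(((M.hol_ap _).sub (Hol.id _)).fun_real_smul _).mono inter_subset_right, fun y hy => ?_⟩
    rw [split τ y hy.2]
    exact (norm_add_le _ _).trans (add_le_add (a1.2 _ (hab a3 hy.1.1)) (a2.2 _ hy.1.2))
  · have ha : Tendsto (fun τ => M.ap (η τ) y) (𝓝[≠] 0) (𝓝[M.U] y) := by
      refine tendsto_nhdsWithin_iff.2 ⟨?_, Eventually.of_forall fun τ => M.ap_mem _ hy⟩
      have := ((M.continuous_ap hy).tendsto 1).comp hη0
      rwa [M.ap_one hy] at this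
    have h1 := (M.montel_tendsto (ROpen.refl _) (hθ.locBdd_slope cX)
      (fun x hx => hθ.tendsto_slope hx) hy ha).1
    simp only [split _ y hy]
    exact (h1.add (hη.tendsto_slope hy)).mono_left hle

theorem flow_Ad (h : M.Aut) {X : M.VF} {θ : ℝ → M.Aut} (hX : M.IsFlow X θ) :
    M.IsFlow ((M.Ad h X : M.VF) : CN M.N → CN M.N) (fun t => h * θ t * h⁻¹) := by
  refine ⟨by simp [hX.zero], fun s t => by rw [hX.add]; group, fun x hx t => ?_⟩
  have hx' := M.ap_mem h⁻¹ hx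
  have e : ∀ s, M.ap (h * θ s * h⁻¹) x = M.ap h (M.ap (θ s) (M.ap h⁻¹ x)) := fun s => by
    rw [M.ap_mul _ _ hx, M.ap_mul _ _ hx']
  simp only [e]
  rw [M.Ad_apply h X (M.ap_mem _ hx')]
  exact M.hasDerivAt_comp (ROpen.refl _) (M.hol_ap h) (hX.deriv _ hx' t)
    (Eventually.of_forall fun s => M.ap_mem _ hx')

/-- The complete fields as a real subspace. -/
def gsub : Submodule ℝ M.VF where
  carrier := {X | ∃ θ, M.IsFlow X θ}
  add_mem' := M.flow_add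
  zero_mem' := M.flow_zero
  smul_mem' := fun a _ hX => M.flow_smul a hX

instance finiteDimensional_gsub : FiniteDimensional ℝ M.gsub :=
  M.finiteDimensional_of_flow _ fun _ hX => hX

theorem flow_lie {X Y : M.VF} (hX : ∃ θ, M.IsFlow X θ) (hY : ∃ θ, M.IsFlow Y θ) :
    ∃ θ, M.IsFlow ((⁅X, Y⁆ : M.VF) : CN M.N → CN M.N) θ := by
  obtain ⟨θ, hθ⟩ := hX
  have hY' : Y ∈ M.gsub := hY
  have hAd : ∀ t, M.Ad (θ t) Y ∈ M.gsub := fun t => by
    obtain ⟨η, hη⟩ := hY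
    exact ⟨_, M.flow_Ad (θ t) hη⟩
  have : -⁅X, Y⁆ ∈ M.gsub := by
    refine M.mem_of_tendsto M.gsub (l := 𝓝[≠] (0 : ℝ)) (W := fun t => t⁻¹ • (M.Ad (θ t) Y - Y))
      (Eventually.of_forall fun t => M.gsub.smul_mem _ (M.gsub.sub_mem (hAd t) hY')) fun y hy => ?_
    have := (hθ.hasDerivAt_Ad Y hy 0).tendsto_slope_zero
    simp only [zero_add, hθ.zero, M.Ad_one] at this
    exact this
  exact M.gsub.neg_mem_iff.1 this

end Crest.Agent.R264.TM
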