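import Crest.Agent.R264.SCV2

/-! Row 264, P1: local flows of holomorphic vector fields (complex time). -/

set_option autoImplicit false
open Set Filter Topology Metric Complex

noncomputable section
namespace Crest.Agent.R264
variable {E : Type*} [NormedAddCommGroup E] [NormedSpace ℂ E] [FiniteDimensional ℂ E]

/-- Dilation of the time variable. -/
def SCV3_A (E : Type*) [NormedAddCommGroup E] [NormedSpace ℂ E] (s : ℝ) : ℂ × E →L[ℂ] ℂ × E :=
  ((s : ℂ) • ContinuousLinearMap.fst ℂ ℂ E).prod (ContinuousLinearMap.snd ℂ ℂ E)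

omit [FiniteDimensional ℂ E] in
theorem SCV3_A_apply (s : ℝ) (p : ℂ × E) : SCV3_A E s p = (s * p.1, p.2) := rfl

omit [FiniteDimensional ℂ E] in
theorem SCV3_A_dist {s : ℝ} (hs : s ∈ uIcc (0 : ℝ) 1) (a : E) (p : ℂ × E) :
    dist (SCV3_A E s p) (0, a) ≤ dist p (0, a) := by
  rw [uIcc_of_le zero_le_one] at hs
  rw [SCV3_A_apply, Prod.dist_eq, Prod.dist_eq]
  refine max_le_max ?_ le_rfl
  simp only [dist_zero_right, norm_mul, norm_real, Real.norm_of_nonneg hs.1]
  exact mul_le_of_le_one_left (norm_nonneg _) hs.2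

omit [FiniteDimensional ℂ E] in
theorem SCV3_A_norm {s : ℝ} (hs : s ∈ uIcc (0 : ℝ) 1) : ‖SCV3_A E s‖ ≤ 1 :=
  ContinuousLinearMap.opNorm_le_bound _ zero_le_one fun p => by
    simpa [Prod.mk_zero_zero] using SCV3_A_dist hs (0 : E) p

omit [FiniteDimensional ℂ E] in
theorem SCV3_A_cont : Continuous (SCV3_A E) := by
  have : SCV3_A E = fun s : ℝ => (s : ℂ) • (ContinuousLinearMap.fst ℂ ℂ E).prod 0 +
      (0 : ℂ × E →L[ℂ] ℂ).prod (ContinuousLinearMap.snd ℂ ℂ E) := by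
    funext s
    ext <;> simp [SCV3_A]
  rw [this]
  fun_prop

omit [FiniteDimensional ℂ E] in
theorem SCV3_cont {F : Type*} [TopologicalSpace F] {G : ℂ × E → F} {a : E} {ε : ℝ}
    (hG : ContinuousOn G (ball (0, a) ε)) {p : ℂ × E} (hp : p ∈ ball ((0 : ℂ), a) ε) :
    ContinuousOn (fun s : ℝ => G (SCV3_A E s p)) (uIcc 0 1) :=
  hG.comp (SCV3_A_cont.clm_apply continuous_const).continuousOn fun _ hs =>
    (SCV3_A_dist hs a p).trans_lt hp

theorem SCV3_int {G : ℂ × E → E} {a : E} {ε : ℝ} (hG : DifferentiableOn ℂ G (ball (0, a) ε)) :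
    DifferentiableOn ℂ (fun p => ∫ s in (0 : ℝ)..1, G (SCV3_A E s p)) (ball (0, a) ε) := by
  have := FiniteDimensional.complete ℂ E
  have := FiniteDimensional.proper ℂ (ℂ × E)
  intro p hp
  obtain ⟨ρ, hρ1, hρ2⟩ := exists_between (mem_ball.1 hp)
  have hG' := (differentiableOn_fderiv isOpen_ball hG).continuousOn
  obtain ⟨M, hM⟩ := (isCompact_closedBall ((0 : ℂ), a) ρ).exists_bound_of_continuousOn
    (hG'.mono (closedBall_subset_ball hρ2))
  have hM0 : 0 ≤ M := (norm_nonneg _).trans (hM p hρ1.le)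
  refine (intervalIntegral.hasFDerivAt_integral_of_dominated_of_fderiv_le (𝕜 := ℂ)
    (F := fun p s => G (SCV3_A E s p)) (F' := fun p s => (fderiv ℂ G (SCV3_A E s p)).comp (SCV3_A E s))
    (bound := fun _ => M) (s := ball (0, a) ρ) (isOpen_ball.mem_nhds hρ1) ?_
    (SCV3_cont hG.continuousOn hp).intervalIntegrable ?_ ?_ intervalIntegrable_const
    ?_).differentiableAt.differentiableWithinAt
  · filter_upwards [isOpen_ball.mem_nhds hp] with q hq
    exact ((SCV3_cont hG.continuousOn hq).mono uIoc_subset_uIcc).aestronglyMeasurable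
      measurableSet_uIoc
  · exact (((SCV3_cont hG' hp).clm_comp SCV3_A_cont.continuousOn).mono
      uIoc_subset_uIcc).aestronglyMeasurable measurableSet_uIoc
  · refine .of_forall fun s hs q hq => ?_
    have hs' := uIoc_subset_uIcc hs
    refine (ContinuousLinearMap.opNorm_comp_le _ _).trans ?_
    have h1 := hM (SCV3_A E s q) ((SCV3_A_dist hs' a q).trans (le_of_lt hq))
    calc _ ≤ M * 1 := mul_le_mul h1 (SCV3_A_norm hs') (norm_nonneg _) hM0
      _ = M := mul_one M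
  · refine .of_forall fun s hs q hq => ?_
    have hs' := uIoc_subset_uIcc hs
    have h1 : SCV3_A E s q ∈ ball ((0 : ℂ), a) ε :=
      (SCV3_A_dist hs' a q).trans_lt (lt_trans hq hρ2)
    exact (hG.differentiableAt (isOpen_ball.mem_nhds h1)).hasFDerivAt.comp q
      (SCV3_A E s).hasFDerivAt

theorem SCV3_deriv {G : ℂ → E} {ε : ℝ} (hG : DifferentiableOn ℂ G (ball 0 ε)) {ζ : ℂ}
    (hζ : ζ ∈ ball (0 : ℂ) ε) :
    HasDerivAt (fun z : ℂ => z • ∫ s in (0 : ℝ)..1, G (s * z)) (G ζ) ζ := by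
  have := FiniteDimensional.complete ℂ E
  obtain ⟨P, hP⟩ := hG.isExactOn_ball
  refine ((hP ζ hζ).sub_const (P 0)).congr_of_eventuallyEq ?_
  filter_upwards [isOpen_ball.mem_nhds hζ] with z hz
  have hm : ∀ s ∈ uIcc (0 : ℝ) 1, (s : ℂ) * z ∈ ball (0 : ℂ) ε := fun s hs => by
    rw [uIcc_of_le zero_le_one] at hs
    rw [mem_ball_zero_iff] at hz ⊢
    rw [norm_mul, norm_real, Real.norm_of_nonneg hs.1]
    exact (mul_le_of_le_one_left (norm_nonneg _) hs.2).trans_lt hz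
  have hd : ∀ s ∈ uIcc (0 : ℝ) 1, HasDerivAt (fun s : ℝ => P (s * z)) (z • G (s * z)) s := by
    intro s hs
    have h0 : HasDerivAt (fun s : ℝ => (s : ℂ) * z) z s := by
      simpa using ((hasDerivAt_id (s : ℂ)).mul_const z).comp_ofReal
    have h1 := ((hP _ (hm s hs)).hasFDerivAt.restrictScalars ℝ).comp_hasDerivAt s h0
    simpa [Function.comp_def] using h1
  have hc : ContinuousOn (fun s : ℝ => z • G (s * z)) (uIcc 0 1) :=
    (hG.continuousOn.comp (by fun_prop) hm).const_smul z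
  rw [← intervalIntegral.integral_smul,
    intervalIntegral.integral_eq_sub_of_hasDerivAt hd hc.intervalIntegrable]
  simp

/-- Existence of a holomorphic local flow. -/
theorem exists_local_flow {X : E → E} {O : Set E} (hO : IsOpen O) (hX : DifferentiableOn ℂ X O)
    {a : E} (ha : a ∈ O) :
    ∃ ε > 0, ∃ Φ : ℂ × E → E, DifferentiableOn ℂ Φ (ball 0 ε ×ˢ ball a ε) ∧
      MapsTo Φ (ball 0 ε ×ˢ ball a ε) O ∧ ∀ x ∈ ball a ε, Φ (0, x) = x ∧
        ∀ ζ ∈ ball (0 : ℂ) ε, HasDerivAt (fun s => Φ (s, x)) (X (Φ (ζ, x))) ζ := by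
  have := FiniteDimensional.complete ℂ E
  obtain ⟨r, hr, C, hsub, hC⟩ := SCV.exists_ball_bound hO hX ha
  have hC0 : 0 ≤ C := (norm_nonneg _).trans (hC a (mem_ball_self hr))
  obtain ⟨ε, hεd⟩ : ∃ ε : ℝ, ε = r / (4 * (1 + C)) := ⟨_, rfl⟩
  have hε : 0 < ε := by rw [hεd]; positivity
  have hε1 : ε + ε * C = r / 4 := by rw [hεd]; field_simp
  have hε2 : ε * (2 * C / r) ≤ 1 / 2 := by
    rw [← mul_div_assoc, div_le_iff₀ hr]; nlinarith
  set D : Set (ℂ × E) := ball (0, a) ε with hD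
  have hD1 : ∀ p ∈ D, ‖p.1‖ ≤ ε ∧ ‖p.2 - a‖ ≤ ε := fun p hp => by
    have := mem_ball.1 hp
    rw [Prod.dist_eq, max_lt_iff, dist_zero_right, dist_eq_norm] at this
    exact ⟨this.1.le, this.2.le⟩
  have hA : ∀ p ∈ D, ∀ s ∈ uIcc (0 : ℝ) 1, SCV3_A E s p ∈ D := fun p hp s hs =>
    (SCV3_A_dist hs a p).trans_lt hp
  let T : (ℂ × E → E) → ℂ × E → E := fun Φ p =>
    p.2 + p.1 • ∫ s in (0 : ℝ)..1, X (Φ (SCV3_A E s p))
  let P : (ℂ × E → E) → Prop := fun Φ =>
    DifferentiableOn ℂ Φ D ∧ ∀ p ∈ D, Φ p ∈ closedBall a (r / 4)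
  have hb2 : closedBall a (r / 4) ⊆ ball a (r / 2) := closedBall_subset_ball (by linarith)
  have hb : closedBall a (r / 4) ⊆ ball a r := closedBall_subset_ball (by linarith)
  have hXΦ : ∀ Φ, P Φ → DifferentiableOn ℂ (fun p => X (Φ p)) D := fun Φ h =>
    hX.comp h.1 fun p hp => hsub (hb (h.2 p hp))
  have hT : ∀ Φ, P Φ → P (T Φ) := fun Φ h => by
    refine ⟨differentiableOn_snd.add (differentiableOn_fst.smul (SCV3_int (hXΦ Φ h))),
      fun p hp => ?_⟩
    have h1 : ‖∫ s in (0 : ℝ)..1, X (Φ (SCV3_A E s p))‖ ≤ C := by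
      simpa using intervalIntegral.norm_integral_le_of_norm_le_const (a := 0) (b := 1) (C := C)
        (f := fun s => X (Φ (SCV3_A E s p))) fun s hs =>
          hC _ (hb (h.2 _ (hA p hp s (uIoc_subset_uIcc hs))))
    rw [mem_closedBall_iff_norm]
    simp only [T]
    rw [add_sub_right_comm]
    refine (norm_add_le _ _).trans ?_
    rw [norm_smul, ← hε1]
    exact add_le_add (hD1 p hp).2 (mul_le_mul (hD1 p hp).1 h1 (norm_nonneg _) hε.le)
  have hcon : ∀ Φ Ψ δ, P Φ → P Ψ → (∀ p ∈ D, dist (Φ p) (Ψ p) ≤ δ) →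
      ∀ p ∈ D, dist (T Φ p) (T Ψ p) ≤ δ / 2 := fun Φ Ψ δ h h' hδ p hp => by
    have hδ0 : 0 ≤ δ := dist_nonneg.trans (hδ p hp)
    have h1 : ‖∫ s in (0 : ℝ)..1, (X (Φ (SCV3_A E s p)) - X (Ψ (SCV3_A E s p)))‖ ≤
        2 * C / r * δ := by
      simpa using intervalIntegral.norm_integral_le_of_norm_le_const (a := 0) (b := 1)
        (C := 2 * C / r * δ) (f := fun s => X (Φ (SCV3_A E s p)) - X (Ψ (SCV3_A E s p)))
        fun s hs => by
          have hq := hA p hp s (uIoc_subset_uIcc hs)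
          refine (norm_sub_le_of_ball hr (hX.mono hsub) hC (hb2 (h.2 _ hq)) (hb2 (h'.2 _ hq))).trans ?_
          rw [← dist_eq_norm]
          exact mul_le_mul_of_nonneg_left (hδ _ hq) (by positivity)
    rw [intervalIntegral.integral_sub (SCV3_cont (hXΦ Φ h).continuousOn hp).intervalIntegrable
      (SCV3_cont (hXΦ Ψ h').continuousOn hp).intervalIntegrable] at h1
    simp only [T]
    rw [dist_add_left, dist_eq_norm, ← smul_sub, norm_smul]
    refine (mul_le_mul (hD1 p hp).1 h1 (norm_nonneg _) hε.le).trans ?_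
    rw [← mul_assoc]
    linarith [mul_le_mul_of_nonneg_right hε2 hδ0]
  let Φ : ℕ → ℂ × E → E := fun m => T^[m] Prod.snd
  have hΦs : ∀ m, Φ (m + 1) = T (Φ m) := fun m => Function.iterate_succ_apply' T m _
  have hP : ∀ m, P (Φ m) := fun m => by
    induction m with
    | zero =>
      refine ⟨differentiableOn_snd, fun p hp => mem_closedBall_iff_norm.2 ((hD1 p hp).2.trans ?_)⟩
      nlinarith
    | succ m ih => rw [hΦs]; exact hT _ ih
  have hgeo : ∀ m, ∀ p ∈ D, dist (Φ m p) (Φ (m + 1) p) ≤ r / 2 / 2 ^ m := fun m => by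
    induction m with
    | zero =>
      intro p hp
      have h1 := mem_closedBall.1 ((hP 0).2 p hp)
      have h2 := mem_closedBall.1 ((hP 1).2 p hp)
      have h3 := dist_triangle_right (Φ 0 p) (Φ 1 p) a
      simp only [pow_zero, div_one, zero_add]
      linarith
    | succ m ih =>
      intro p hp
      have := hcon _ _ _ (hP m) (hP (m + 1)) ih p hp
      rw [← hΦs, ← hΦs] at this
      rwa [pow_succ, ← div_div]
  let Ψ : ℂ × E → E := fun p => limUnder atTop fun m => Φ m p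
  have hlim : ∀ p ∈ D, Tendsto (fun m => Φ m p) atTop (𝓝 (Ψ p)) := fun p hp =>
    (cauchySeq_of_le_geometric_two fun m => hgeo m p hp).tendsto_limUnder
  have hd : ∀ m, ∀ p ∈ D, dist (Φ m p) (Ψ p) ≤ r / 2 ^ m := fun m p hp =>
    dist_le_of_le_geometric_two_of_tendsto (fun m => hgeo m p hp) (hlim p hp) m
  have hΨ : P Ψ := by
    refine ⟨(montel (l := atTop) (f := Φ) isOpen_ball (fun p hp => ?_) hlim).1, fun p hp =>
      isClosed_closedBall.mem_of_tendsto (hlim p hp) (.of_forall fun m => (hP m).2 p hp)⟩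
    obtain ⟨ρ, hρ, hs⟩ := Metric.isOpen_iff.1 isOpen_ball p hp
    refine ⟨ρ, hρ, ‖a‖ + r / 4, .of_forall fun m => ⟨(hP m).1.mono hs, fun y hy => ?_⟩⟩
    exact norm_le_of_mem_closedBall ((hP m).2 y (hs hy))
  have hfix : ∀ p ∈ D, Ψ p = T Ψ p := fun p hp => by
    refine tendsto_nhds_unique ((tendsto_add_atTop_iff_nat 1).2 (hlim p hp)) ?_
    rw [tendsto_iff_dist_tendsto_zero]
    refine squeeze_zero (fun _ => dist_nonneg) (g := fun m => r / 2 ^ m / 2) (fun m => ?_) ?_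
    · rw [hΦs]; exact hcon _ _ _ (hP m) hΨ (hd m) p hp
    · simpa using ((tendsto_const_nhds (x := r)).div_atTop
        (tendsto_pow_atTop_atTop_of_one_lt (one_lt_two (α := ℝ)))).div_const 2
  have hDp : ball (0 : ℂ) ε ×ˢ ball a ε = D := ball_prod_same _ _ _
  refine ⟨ε, hε, Ψ, hDp ▸ hΨ.1, fun p hp => hsub (hb (hΨ.2 p (hDp ▸ hp))), fun x hx => ⟨?_, ?_⟩⟩
  · rw [hfix _ (hDp ▸ ⟨mem_ball_self hε, hx⟩)]
    simp [T]
  · intro ζ hζ
    have hG : DifferentiableOn ℂ (fun z : ℂ => X (Ψ (z, x))) (ball 0 ε) :=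
      (hXΦ Ψ hΨ).comp (f := fun z : ℂ => (z, x)) (by fun_prop) fun z hz => hDp ▸ ⟨hz, hx⟩
    refine ((SCV3_deriv hG hζ).const_add x).congr_of_eventuallyEq ?_
    filter_upwards [isOpen_ball.mem_nhds hζ] with z hz
    exact hfix _ (hDp ▸ ⟨hz, hx⟩)

/-- Uniqueness of real integral curves. -/
theorem curve_unique {X : E → E} {O : Set E} (hO : IsOpen O) (hX : DifferentiableOn ℂ X O)
    {c c' : ℝ → E} {a b : ℝ} (hc : ∀ s ∈ Ioo a b, c s ∈ O ∧ HasDerivAt c (X (c s)) s)
    (hc' : ∀ s ∈ Ioo a b, c' s ∈ O ∧ HasDerivAt c' (X (c' s)) s) {s : ℝ} (hs : s ∈ Ioo a b)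
    (h : c s = c' s) : EqOn c c' (Ioo a b) := by
  have := FiniteDimensional.complete ℂ E
  have key : ∀ t ∈ Ioo a b, c t = c' t → c =ᶠ[𝓝 t] c' := fun t ht h => by
    obtain ⟨r, hr, C, hsub, hC⟩ := SCV.exists_ball_bound hO hX (hc t ht).1
    have hC0 : 0 ≤ C := (norm_nonneg _).trans (hC _ (mem_ball_self hr))
    have hL : LipschitzOnWith ⟨2 * C / r, by positivity⟩ X (ball (c t) (r / 2)) :=
      LipschitzOnWith.of_dist_le_mul fun y hy z hz => by
        rw [dist_eq_norm, dist_eq_norm]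
        exact norm_sub_le_of_ball hr (hX.mono hsub) hC hy hz
    refine ODE_solution_unique_of_eventually (v := fun _ => X) (s := fun _ => ball (c t) (r / 2))
      (.of_forall fun _ => hL) ?_ ?_ h
    · filter_upwards [isOpen_Ioo.mem_nhds ht,
        (hc t ht).2.continuousAt (ball_mem_nhds _ (half_pos hr))] with u h1 h2
      exact ⟨(hc u h1).2, h2⟩
    · filter_upwards [isOpen_Ioo.mem_nhds ht,
        (hc' t ht).2.continuousAt (show ball (c t) (r / 2) ∈ 𝓝 (c' t) from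
          h ▸ ball_mem_nhds (c t) (half_pos hr))] with u h1 h2
      exact ⟨(hc' u h1).2, h2⟩
  have := isPreconnected_Ioo.subset_of_closure_inter_subset (u := {t | c =ᶠ[𝓝 t] c'})
    isOpen_setOfPred_eventually_nhds ⟨s, hs, key s hs h⟩ fun t ht => key t ht.2
      (tendsto_nhds_unique_of_frequently_eq (hc t ht.2).2.continuousAt (hc' t ht.2).2.continuousAt
        ((mem_closure_iff_frequently.1 ht.1).mono fun u hu => hu.self_of_nhds))
  exact fun t ht => (this ht).self_of_nhds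

end Crest.Agent.R264
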