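import Crest.Agent.R264.G

/-! Row 264, P7: bounded tangent frames (definition). -/

set_option autoImplicit false
open Set Filter Topology Metric Complex

noncomputable section
namespace Crest.Agent.R264

/-- Near `a0`, on the positive side of `ρ`, the subspaces `E x` lie in the span of a bounded
holomorphic family of tangent fields that become complex tangent to the hypersurface. -/
def TanFrame {N n : ℕ} {U : Set (CN N)} (F : AlgFrame n U) (ρ : P2 N) (a0 : CN N)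
    (E : CN N → Submodule ℂ (CN N)) : Prop :=
  ∃ O : Set (CN N), IsOpen O ∧ a0 ∈ O ∧ {x | x ∈ O ∩ F.V ∧ 0 < rv ρ x} ⊆ U ∧
    ∃ (d : ℕ) (Ξ : Fin d → CN N → CN N) (C : ℝ),
      (∀ l, Hol {x | x ∈ O ∩ F.V ∧ 0 < rv ρ x} (Ξ l)) ∧
      (∀ x ∈ O ∩ F.V, 0 < rv ρ x → (∀ l, ‖Ξ l x‖ ≤ C ∧ Ξ l x ∈ Tan F.V x) ∧
        E x ≤ Submodule.span ℂ (range fun l => Ξ l x)) ∧
      ∀ l, ∀ a ∈ O ∩ F.V, rv ρ a = 0 → Tendsto (fun x => dx ρ a (star a) (Ξ l x))
        (𝓝[{x | x ∈ O ∩ F.V ∧ 0 < rv ρ x}] a) (𝓝 0)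

end Crest.Agent.R264
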