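import Crest.Agent.R264.Frame

/-! Row 264, P3 (interface): elementary facts about good sides and thin sets. -/

set_option autoImplicit false
open Set Filter Topology Metric Complex

noncomputable section
namespace Crest.Agent.R264
/-- Straightening: preimages of convex sets are connected in small neighbourhoods. -/
theorem Side_straight {E : Type*} [NormedAddCommGroup E] [NormedSpace ℝ E] [CompleteSpace E]
    {f : E → ℝ} {f' : E →L[ℝ] ℝ} {u : E} (hf : HasStrictFDerivAt f f' u) (hf' : f'.range = ⊤)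
    {W : Set E} (hW : W ∈ 𝓝 u) : ∃ B, IsOpen B ∧ u ∈ B ∧ B ⊆ W ∧
      ∀ C : Set ℝ, Convex ℝ C → IsPreconnected {w | w ∈ B ∧ f w ∈ C} := by
  set φ := hf.implicitToOpenPartialHomeomorph f f' hf' with hφ
  have hu : u ∈ φ.source := hf.mem_implicitToOpenPartialHomeomorph_source hf'
  have h1 : ∀ x, (φ x).1 = f x := hf.implicitToOpenPartialHomeomorph_fst hf'
  have h2 : φ.target ∩ φ.symm ⁻¹' W ∈ 𝓝 (φ u) :=
    inter_mem (φ.open_target.mem_nhds (φ.map_source hu)) (φ.tendsto_symm hu hW)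
  obtain ⟨r, hr, hb⟩ := Metric.mem_nhds_iff.1 h2
  refine ⟨φ.source ∩ φ ⁻¹' ball (φ u) r, φ.isOpen_inter_preimage isOpen_ball,
    ⟨hu, mem_ball_self hr⟩, fun x hx => ?_, fun C hC => ?_⟩
  · have := (hb hx.2).2
    rwa [mem_preimage, φ.left_inv hx.1] at this
  · have e : {w | w ∈ φ.source ∩ φ ⁻¹' ball (φ u) r ∧ f w ∈ C} =
        φ.symm '' (ball (φ u) r ∩ Prod.fst ⁻¹' C) := by
      ext w
      constructor
      · rintro ⟨⟨h3, h4⟩, h5⟩
        exact ⟨φ w, ⟨h4, by rw [mem_preimage, h1]; exact h5⟩, φ.left_inv h3⟩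
      · rintro ⟨y, ⟨h3, h4⟩, rfl⟩
        have h5 := (hb h3).1
        refine ⟨⟨φ.map_target h5, ?_⟩, ?_⟩
        · rw [mem_preimage, φ.right_inv h5]; exact h3
        · rw [← h1, φ.right_inv h5]; exact h4
    rw [e]
    refine IsPreconnected.image ?_ _ (φ.continuousOn_symm.mono fun y hy => (hb hy.1).1)
    exact ((convex_ball _ _).inter (hC.linear_preimage (LinearMap.fst ℝ ℝ f'.ker))).isPreconnected

namespace AlgFrame
variable {N n : ℕ} {U : Set (CN N)} {F : AlgFrame n U} {p : CN N} {ρ : P2 N}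

theorem GoodSide.Side_chart (h : F.GoodSide p ρ) {W : Set (CN N)} (hW : W ∈ 𝓝 p) :
    ∃ ch : Chart n F.V, ∃ u ∈ ch.s, ch.c u = p ∧ ch.c '' ch.s ⊆ W ∧ ∃ f' : CN n →L[ℝ] ℝ,
      HasStrictFDerivAt (fun w => rv ρ (ch.c w)) f' u ∧ f'.range = ⊤ := by
  obtain ⟨ch, ε, hs, hε, hb, hc, hW'⟩ := F.exists_sect h.mem h.dv_ne hW
  have hu : F.pr p ∈ ch.s := by rw [hb]; exact mem_ball_self hε
  have h1 : HasStrictFDerivAt (rv ρ) (fderiv ℝ (rv ρ) (ch.c (F.pr p))) (ch.c (F.pr p)) :=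
    (contDiff_rv ρ).contDiffAt.hasStrictFDerivAt (by simp)
  have h2 := h1.comp (F.pr p) ((ch.analyticAt_c hu).hasStrictFDerivAt.restrictScalars ℝ)
  refine ⟨ch, F.pr p, hu, hc, hW', _, h2, ?_⟩
  obtain ⟨i, hi⟩ := h.grad
  have h3 := (hs.2 _ hu).2 i
  rw [hc] at h3
  set v := fderiv ℂ ch.c (F.pr p) (Pi.single i 1) with hv
  have ha : dx ρ p (star p) v ≠ 0 := by
    intro h0
    apply hi
    rw [← h3]
    unfold dx at h0 ⊢
    rw [map_smul, h0, smul_zero]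
  set w : CN n := (starRingEnd ℂ (dx ρ p (star p) v)) • Pi.single i 1 with hw
  have h4 : ((fderiv ℝ (rv ρ) (ch.c (F.pr p))).comp
      ((fderiv ℂ ch.c (F.pr p)).restrictScalars ℝ)) w ≠ 0 := by
    change fderiv ℝ (rv ρ) (ch.c (F.pr p)) (fderiv ℂ ch.c (F.pr p) w) ≠ 0
    rw [hc, h.herm.fderiv_rv, hw, map_smul, ← hv]
    have e : dx ρ p (star p) ((starRingEnd ℂ (dx ρ p (star p) v)) • v) =
        (Complex.normSq (dx ρ p (star p) v) : ℂ) := by
      rw [Complex.normSq_eq_conj_mul_self]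
      exact map_smul (fderiv ℂ (fun x' => pe ρ x' (star p)) p) _ v
    rw [e, Complex.ofReal_re]
    exact mul_ne_zero two_ne_zero (Complex.normSq_pos.2 ha).ne'
  generalize (fderiv ℝ (rv ρ) (ch.c (F.pr p))).comp
      ((fderiv ℂ ch.c (F.pr p)).restrictScalars ℝ) = L at h4 ⊢
  refine LinearMap.range_eq_top.2 fun t => ⟨(t / L w) • w, ?_⟩
  rw [map_smul]
  exact div_mul_cancel₀ t h4

theorem GoodSide.Side_map (h : F.GoodSide p ρ) : map (rv ρ) (𝓝[F.V] p) = 𝓝 0 := by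
  obtain ⟨ch, u, hu, hc, -, f', hf, hf'⟩ := h.Side_chart univ_mem
  have h1 := hf.map_nhds_eq_of_surj hf'
  rw [hc, h.zero] at h1
  rw [← hc, ← ch.map_nhds hu, map_map]
  exact h1

theorem GoodSide.Side_pos (h : F.GoodSide p ρ) : ∃ᶠ x in 𝓝[F.V] p, 0 < rv ρ x := by
  have h1 : ∃ᶠ y in 𝓝 (0 : ℝ), 0 < y := frequently_gt_nhds 0
  rwa [← h.Side_map, frequently_map] at h1

theorem GoodSide.Side_neg (h : F.GoodSide p ρ) : ∃ᶠ x in 𝓝[F.V] p, rv ρ x < 0 := by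
  have h1 : ∃ᶠ y in 𝓝 (0 : ℝ), y < 0 := frequently_lt_nhds 0
  rwa [← h.Side_map, frequently_map] at h1

theorem GoodSide.near (h : F.GoodSide p ρ) :
    ∀ᶠ x in 𝓝 p, x ∈ F.V → rv ρ x = 0 → F.GoodSide x ρ := by
  obtain ⟨i, hi⟩ := h.grad
  obtain ⟨O, hO, hpO, hn⟩ := h.nbhd
  have c0 : Continuous fun x : CN N => (x, star x, F.xi i x) :=
    continuous_id.prodMk (continuous_star.prodMk (F.differentiable_xi i).continuous)
  have c1 : Continuous fun x : CN N => dx ρ x (star x) (F.xi i x) := by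
    have := (continuous_dx ρ).comp c0
    simpa only [Function.comp_def] using this
  filter_upwards [c1.continuousAt.eventually_ne hi,
    F.differentiable_dv.continuous.continuousAt.eventually_ne h.dv_ne, hO.mem_nhds hpO]
    with x h1 h2 h3 h4 h5
  exact ⟨h.herm, h4, h2, h5, ⟨i, h1⟩, O, hO, h3, hn⟩

theorem GoodSide.mem_closure_pos (h : F.GoodSide p ρ) :
    p ∈ closure {x | x ∈ F.V ∧ 0 < rv ρ x} := by
  exact mem_closure_iff_frequently.2
    ((frequently_nhdsWithin_iff.1 h.Side_pos).mono fun x hx => ⟨hx.2, hx.1⟩)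

theorem GoodSide.mem_closure_neg (h : F.GoodSide p ρ) :
    p ∈ closure {x | x ∈ F.V ∧ rv ρ x < 0} := by
  exact mem_closure_iff_frequently.2
    ((frequently_nhdsWithin_iff.1 h.Side_neg).mono fun x hx => ⟨hx.2, hx.1⟩)

theorem GoodSide.mem_frontier (h : F.GoodSide p ρ) : p ∈ closure U ∧ p ∉ U := by
  obtain ⟨O, hO, hpO, h1, h2, -⟩ := h.nbhd
  refine ⟨mem_closure_iff_frequently.2 ?_, h2 p ⟨hpO, h.mem⟩ h.zero⟩
  exact ((frequently_nhdsWithin_iff.1 h.Side_pos).and_eventually (hO.mem_nhds hpO)).mono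
    fun x hx => h1 x ⟨hx.2, hx.1.2⟩ hx.1.1

/-- Both sides are connected in suitable small neighbourhoods. -/
theorem GoodSide.conn (h : F.GoodSide p ρ) {W : Set (CN N)} (hW : W ∈ 𝓝 p) :
    ∃ O, IsOpen O ∧ p ∈ O ∧ O ⊆ W ∧ IsPreconnected {x | x ∈ O ∩ F.V ∧ 0 < rv ρ x} ∧
      IsPreconnected {x | x ∈ O ∩ F.V ∧ rv ρ x < 0} := by
  obtain ⟨ch, u, hu, hc, hW', f', hf, hf'⟩ := h.Side_chart (interior_mem_nhds.2 hW)
  obtain ⟨B, hB, huB, hBs, hC⟩ := Side_straight hf hf' (ch.s_open.mem_nhds hu)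
  obtain ⟨O, hO, e⟩ := (ch.restrict B hB hBs).ropen.exists_open
  change ch.c '' B = _ at e
  have e2 : (O ∩ interior W) ∩ F.V = ch.c '' B := by
    ext x
    constructor
    · intro hx
      rw [e]
      exact ⟨hx.2, hx.1.1⟩
    · intro hx
      have h1 := hW' (image_mono hBs hx)
      rw [e] at hx
      exact ⟨⟨hx.2, h1⟩, hx.1⟩
  have key : ∀ C : Set ℝ, Convex ℝ C →
      IsPreconnected {x | x ∈ (O ∩ interior W) ∩ F.V ∧ rv ρ x ∈ C} := by
    intro C hC'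
    have e3 : {x | x ∈ (O ∩ interior W) ∩ F.V ∧ rv ρ x ∈ C} =
        ch.c '' {w | w ∈ B ∧ rv ρ (ch.c w) ∈ C} := by
      rw [e2]
      ext x
      constructor
      · rintro ⟨⟨w, hw, rfl⟩, h1⟩
        exact ⟨w, ⟨hw, h1⟩, rfl⟩
      · rintro ⟨w, ⟨hw, h1⟩, rfl⟩
        exact ⟨⟨w, hw, rfl⟩, h1⟩
    rw [e3]
    exact (hC C hC').image _ (ch.c_diff.continuousOn.mono fun w hw => hBs hw.1)
  have hp : p ∈ (O ∩ interior W) ∩ F.V := by
    rw [e2]
    exact ⟨u, huB, hc⟩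
  exact ⟨O ∩ interior W, hO.inter isOpen_interior, hp.1, fun x hx => interior_subset hx.2,
    key _ (convex_Ioi 0), key _ (convex_Iio 0)⟩

theorem GoodSide.neg (h : F.GoodSide p ρ) (hc : p ∈ closure {x | x ∈ U ∧ rv ρ x < 0}) :
    F.GoodSide p (-ρ) := by
  obtain ⟨i, hi⟩ := h.grad
  obtain ⟨O, hO, hpO, h1, h2, h3⟩ := h.nbhd
  refine ⟨h.herm.neg, h.mem, h.dv_ne, by rw [rv_neg, h.zero, neg_zero], ⟨i, ?_⟩, O, hO, hpO,
    fun x hx h4 => ?_, fun x hx h4 => ?_, Or.inl fun x hx h4 => ?_⟩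
  · have e : (fun x' => pe (-ρ) x' (star p)) = fun x' => -pe ρ x' (star p) :=
      funext fun x' => map_neg _ _
    unfold dx at hi ⊢
    rw [e, fderiv_fun_neg]
    exact neg_ne_zero.2 hi
  · rw [rv_neg] at h4
    rcases h3 with h3 | h3
    · exact h3 x hx (by linarith)
    · obtain ⟨y, hy, hy'⟩ := _root_.mem_closure_iff.1 hc O hO hpO
      exact (h3 y ⟨hy, F.ropen.1 hy'.1⟩ hy'.2 hy'.1).elim
  · rw [rv_neg] at h4
    exact h2 x hx (by linarith)
  · rw [rv_neg] at h4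
    exact h1 x hx (by linarith)

/-- Near a good point, boundary points lie on the hypersurface. -/
theorem GoodSide.boundary (h : F.GoodSide p ρ) :
    ∀ᶠ x in 𝓝 p, x ∈ closure U → x ∉ U → rv ρ x = 0 := by
  obtain ⟨O, hO, hpO, h1, -, h3⟩ := h.nbhd
  filter_upwards [hO.mem_nhds hpO] with x hx hc hn
  have hV := F.closure_subset hc
  rcases lt_trichotomy (rv ρ x) 0 with h4 | h4 | h4
  · rcases h3 with h3 | h3
    · exact (hn (h3 x ⟨hx, hV⟩ h4)).elim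
    · obtain ⟨y, hy, hy'⟩ := _root_.mem_closure_iff.1 hc (O ∩ {y | rv ρ y < 0})
        (hO.inter (isOpen_lt (contDiff_rv ρ).continuous continuous_const)) ⟨hx, h4⟩
      exact (h3 y ⟨hy.1, F.ropen.1 hy'⟩ hy.2 hy').elim
  · exact h4
  · exact (hn (h1 x ⟨hx, hV⟩ h4)).elim

/-- Good points are open in the boundary. -/
theorem gd_open (hp : p ∈ F.Gd) : ∀ᶠ x in 𝓝 p, x ∈ closure U → x ∉ U → x ∈ F.Gd := by
  obtain ⟨ρ, h⟩ := hp
  filter_upwards [h.near, h.boundary] with x h1 h2 hc hn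
  exact ⟨ρ, h1 (F.closure_subset hc) (h2 hc hn)⟩

/-- A continuous function on `V` near a good point whose zero set lies in the boundary and which
takes both signs near the point has the hypersurface as zero set and the sides as sign sets. -/
theorem GoodSide.sign (h : F.GoodSide p ρ) {g : CN N → ℝ} {O : Set (CN N)} (hO : IsOpen O)
    (hp : p ∈ O) (hg : ContinuousOn g (O ∩ F.V))
    (h0 : ∀ x ∈ O ∩ F.V, g x = 0 → x ∈ closure U ∧ x ∉ U)
    (hpos : p ∈ closure {x | x ∈ O ∩ F.V ∧ 0 < g x})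
    (hneg : p ∈ closure {x | x ∈ O ∩ F.V ∧ g x < 0}) :
    ∃ ε : ℝ, (ε = 1 ∨ ε = -1) ∧ ∀ᶠ x in 𝓝[F.V] p,
      (0 < g x ↔ 0 < ε * rv ρ x) ∧ (g x = 0 ↔ rv ρ x = 0) := by
  obtain ⟨O', hO', hp', hsub, c1, c2⟩ :=
    h.conn (inter_mem (hO.mem_nhds hp) (inter_mem h.near h.boundary))
  have hm : ∀ x ∈ O' ∩ F.V, x ∈ O ∩ F.V := fun x hx => ⟨(hsub hx.1).1, hx.2⟩
  have hne : ∀ x ∈ O' ∩ F.V, rv ρ x ≠ 0 → g x ≠ 0 := fun x hx h1 h2 =>
    h1 ((hsub hx.1).2.2 (h0 x (hm x hx) h2).1 (h0 x (hm x hx) h2).2)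
  have d1 := c1.mapsTo_Ioi_or_Iio (hg.mono fun x hx => hm x hx.1)
    fun x hx => hne x hx.1 hx.2.ne'
  have d2 := c2.mapsTo_Ioi_or_Iio (hg.mono fun x hx => hm x hx.1)
    fun x hx => hne x hx.1 hx.2.ne
  have hlim : ∀ x ∈ O' ∩ F.V, ∀ (q : CN N → Prop) (C : Set ℝ), IsClosed C →
      (∃ᶠ y in 𝓝[F.V] x, q y) → (∀ y ∈ O' ∩ F.V, q y → g y ∈ C) → g x ∈ C := by
    intro x hx q C hC hq hqC
    have t1 : Tendsto g (𝓝[F.V] x) (𝓝 (g x)) := by
      have := (hg x (hm x hx)).tendsto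
      rwa [nhdsWithin_inter_of_mem (mem_nhdsWithin_of_mem_nhds (hO.mem_nhds (hm x hx).1))] at this
    refine hC.mem_of_frequently_of_tendsto ?_ t1
    exact (hq.and_eventually (inter_mem (mem_nhdsWithin_of_mem_nhds (hO'.mem_nhds hx.1))
      self_mem_nhdsWithin)).mono fun y hy => hqC y hy.2 hy.1
  have hgood : ∀ x ∈ O' ∩ F.V, rv ρ x = 0 → F.GoodSide x ρ := fun x hx => (hsub hx.1).2.1 hx.2
  have hev : ∀ᶠ x in 𝓝[F.V] p, x ∈ O' ∩ F.V :=
    inter_mem (mem_nhdsWithin_of_mem_nhds (hO'.mem_nhds hp')) self_mem_nhdsWithin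
  rcases d1 with d1 | d1 <;> rcases d2 with d2 | d2
  · obtain ⟨x, hx, hx'⟩ := _root_.mem_closure_iff.1 hneg O' hO' hp'
    have hx1 : x ∈ O' ∩ F.V := ⟨hx, hx'.1.2⟩
    have hx2 : g x < 0 := hx'.2
    rcases lt_trichotomy (rv ρ x) 0 with h4 | h4 | h4
    · exact (lt_asymm hx2 (d2 ⟨hx1, h4⟩)).elim
    · exact (hx2.not_ge (hlim x hx1 _ (Ici 0) isClosed_Ici (hgood x hx1 h4).Side_pos
        fun y hy h5 => Ioi_subset_Ici_self (d1 ⟨hy, h5⟩))).elim
    · exact (lt_asymm hx2 (d1 ⟨hx1, h4⟩)).elim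
  · refine ⟨1, Or.inl rfl, hev.mono fun x hx => ?_⟩
    rw [one_mul]
    rcases lt_trichotomy (rv ρ x) 0 with h4 | h4 | h4
    · have h5 : g x < 0 := d2 ⟨hx, h4⟩
      exact ⟨iff_of_false h5.not_gt h4.not_gt, iff_of_false h5.ne h4.ne⟩
    · have h5 : g x = 0 := le_antisymm
        (hlim x hx _ (Iic 0) isClosed_Iic (hgood x hx h4).Side_neg
          fun y hy h5 => Iio_subset_Iic_self (d2 ⟨hy, h5⟩))
        (hlim x hx _ (Ici 0) isClosed_Ici (hgood x hx h4).Side_pos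
          fun y hy h5 => Ioi_subset_Ici_self (d1 ⟨hy, h5⟩))
      exact ⟨iff_of_false h5.not_gt h4.not_gt, iff_of_true h5 h4⟩
    · have h5 : 0 < g x := d1 ⟨hx, h4⟩
      exact ⟨iff_of_true h5 h4, iff_of_false h5.ne' h4.ne'⟩
  · refine ⟨-1, Or.inr rfl, hev.mono fun x hx => ?_⟩
    rw [neg_one_mul, neg_pos]
    rcases lt_trichotomy (rv ρ x) 0 with h4 | h4 | h4
    · have h5 : 0 < g x := d2 ⟨hx, h4⟩
      exact ⟨iff_of_true h5 h4, iff_of_false h5.ne' h4.ne⟩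
    · have h5 : g x = 0 := le_antisymm
        (hlim x hx _ (Iic 0) isClosed_Iic (hgood x hx h4).Side_pos
          fun y hy h5 => Iio_subset_Iic_self (d1 ⟨hy, h5⟩))
        (hlim x hx _ (Ici 0) isClosed_Ici (hgood x hx h4).Side_neg
          fun y hy h5 => Ioi_subset_Ici_self (d2 ⟨hy, h5⟩))
      exact ⟨iff_of_false h5.not_gt h4.not_lt, iff_of_true h5 h4⟩
    · have h5 : g x < 0 := d1 ⟨hx, h4⟩
      exact ⟨iff_of_false h5.not_gt h4.not_gt, iff_of_false h5.ne h4.ne'⟩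
  · obtain ⟨x, hx, hx'⟩ := _root_.mem_closure_iff.1 hpos O' hO' hp'
    have hx1 : x ∈ O' ∩ F.V := ⟨hx, hx'.1.2⟩
    have hx2 : 0 < g x := hx'.2
    rcases lt_trichotomy (rv ρ x) 0 with h4 | h4 | h4
    · exact (lt_asymm hx2 (d2 ⟨hx1, h4⟩)).elim
    · exact (hx2.not_ge (hlim x hx1 _ (Iic 0) isClosed_Iic (hgood x hx1 h4).Side_pos
        fun y hy h5 => Iio_subset_Iic_self (d1 ⟨hy, h5⟩))).elim
    · exact (lt_asymm hx2 (d1 ⟨hx1, h4⟩)).elim

end AlgFrame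

/-- A thin set does not contain a separating hypersurface: if `g` is continuous near `u` and takes
both signs near `u`, its zero set is not thin. -/
theorem Thin2.not_zero_set {n : ℕ} {A : Set (CN n)} (hA : Thin2 A) {B : Set (CN n)} (hB : IsOpen B)
    (hc : Convex ℝ B) {g : CN n → ℝ} (hg : ContinuousOn g B) (hpos : ∃ u ∈ B, 0 < g u)
    (hneg : ∃ u ∈ B, g u < 0) : ∃ u ∈ B, g u = 0 ∧ u ∉ A := by
  by_contra hcon
  push Not at hcon
  obtain ⟨f, S, hf, hAS⟩ := hA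
  obtain ⟨a, ha, hga⟩ := hpos
  obtain ⟨b, hb, hgb⟩ := hneg
  have hn : 1 ≤ n := by
    rcases Nat.eq_zero_or_pos n with rfl | h
    · rw [Subsingleton.elim a b] at hga
      exact (lt_asymm hga hgb).elim
    · exact h
  set Ψ : ℕ → ℝ × (Fin (2 * n - 2) → ℝ) → CN n := fun i z => f i z.2 - z.1 • (a - b) with hΨ
  have hdim : ∀ i, dimH (Ψ i '' (Prod.snd ⁻¹' S i)) ≤ ((2 * n - 1 : ℕ) : ENNReal) := by
    intro i
    obtain ⟨C, hC⟩ := hf i
    have l1 := hC.comp (LipschitzWith.prod_snd (α := ℝ)).lipschitzOnWith (mapsTo_preimage _ _)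
    have l2 := ((ContinuousLinearMap.fst ℝ ℝ (Fin (2 * n - 2) → ℝ)).smulRight
      (a - b)).lipschitz.lipschitzOnWith (s := Prod.snd ⁻¹' S i)
    refine (l1.sub l2).dimH_image_le.trans ((dimH_mono (subset_univ _)).trans ?_)
    rw [Real.dimH_univ_eq_finrank, Module.finrank_prod, Module.finrank_self,
      Module.finrank_fin_fun]
    exact_mod_cast (by omega : 1 + (2 * n - 2) ≤ 2 * n - 1)
  have hd : Dense (⋃ i, Ψ i '' (Prod.snd ⁻¹' S i))ᶜ := by
    refine dense_compl_of_dimH_lt_finrank ?_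
    rw [dimH_iUnion]
    refine (iSup_le hdim).trans_lt ?_
    have e : Module.finrank ℝ (CN n) = 2 * n := by
      simp [Module.finrank_pi_fintype, mul_comm]
    rw [e]
    exact_mod_cast (by omega : 2 * n - 1 < 2 * n)
  have t1 : Tendsto (fun w => w + (a - b)) (𝓝 b) (𝓝 a) :=
    (continuous_add_const (a - b)).tendsto' b a (by abel)
  have hev : ∀ᶠ w in 𝓝 b, (w ∈ B ∧ g w < 0) ∧ w + (a - b) ∈ B ∧ 0 < g (w + (a - b)) :=
    ((hB.eventually_mem hb).and ((hg.continuousAt (hB.mem_nhds hb)).eventually_lt_const hgb)).and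
      (t1.eventually ((hB.eventually_mem ha).and
        ((hg.continuousAt (hB.mem_nhds ha)).eventually_const_lt hga)))
  obtain ⟨w, hw, ⟨w1, w2⟩, w3, w4⟩ :=
    ((mem_closure_iff_frequently.1 (hd b)).and_eventually hev).exists
  have hseg := hc.segment_subset w1 w3
  obtain ⟨z, hz, hgz⟩ := (convex_segment w (w + (a - b))).isPreconnected.intermediate_value
    (left_mem_segment ℝ _ _) (right_mem_segment ℝ _ _) (hg.mono hseg) ⟨w2.le, w4.le⟩
  obtain ⟨i, y, hy, hyz⟩ := mem_iUnion.1 (hAS (hcon z (hseg hz) hgz))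
  rw [segment_eq_image'] at hz
  obtain ⟨t, -, ht⟩ := hz
  refine hw (mem_iUnion.2 ⟨i, (t, y), hy, ?_⟩)
  simp only [hΨ, hyz, ← ht, add_sub_cancel_left, add_sub_cancel_right]

end Crest.Agent.R264
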