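import Crest.Agent.R264.P1
import Crest.Agent.R264.Side
import Crest.Agent.R264.P7Def
import Crest.Agent.R264.P7.Eta
import Crest.Agent.R264.P7.Core

/-! Row 264, P7b/c (interface): a field tangent to all good sides does not exist. -/

set_option autoImplicit false
open Set Filter Topology Metric Complex

noncomputable section
namespace Crest.Agent.R264

theorem Setup.p7_false (S : Setup) (c : Fin S.n → CN S.N → ℂ) (hc : ∀ i, Hol S.U (c i))
    (hne : ∃ x ∈ S.U, ∃ i, c i x ≠ 0)
    (hfr : ∀ p ρ, S.F.GoodSide p ρ → ∀ W ∈ 𝓝 p, ∃ a0 ∈ W, S.F.GoodSide a0 ρ ∧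
      TanFrame S.F ρ a0 (fun x => Submodule.span ℂ {∑ i, c i x • S.F.xi i x})) : False := by
  obtain ⟨e⟩ := P7.exists_eta S.toTM S.F c hc hne hfr
  exact P7.eta_false S e

end Crest.Agent.R264
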