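import Crest.Agent.R264.G
import Crest.Agent.R264.Side
import Crest.Agent.R264.P3.Bad
import Crest.Agent.R264.P3.Pre
import Crest.Agent.R264.P3.Seg

/-! Row 264, P3 (interface): thin bad set, Segre data. -/

set_option autoImplicit false
open Set Filter Topology Metric Complex

noncomputable section
namespace Crest.Agent.R264

theorem thin_bad {N n : ℕ} {U : Set (CN N)} (F : AlgFrame n U)
    (hsa : Crest.AlgGeometry.Semialg.IsSemialgebraic U) : Thin2 (F.pr '' F.Bad) :=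
  F.thin_bad hsa

theorem exists_segre {N n : ℕ} {U : Set (CN N)} (F : AlgFrame n U) (hU : TautSet U) {p : CN N}
    {ρ : P2 N} (hp : F.GoodSide p ρ) {W : Set (CN N)} (hW : W ∈ 𝓝 p) :
    ∃ (r k : ℕ) (σ : Segre F r k), σ.ρ = ρ ∧ σ.a 0 ∈ W := by
  obtain ⟨r, k, σ, h1, h2⟩ := P3.exists_preSegre hU hp hW
  obtain ⟨σ', h3, ω, hω, h4⟩ := σ.exists_segre
  exact ⟨r, k, σ', h3.trans h1, h4 ▸ h2 hω⟩

end Crest.Agent.R264
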