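import Crest.Agent.R264.T7One
import Crest.Agent.R264.P3
import Crest.Agent.R264.P7Def

/-! Row 264, P7a (interface): bounded tangent frames at a generic boundary point. -/

set_option autoImplicit false
open Set Filter Topology Metric Complex

noncomputable section
namespace Crest.Agent.R264

/-- Linear coordinates on a subspace, extended to the ambient space. -/
theorem P7a_coords {k : ℕ} (E : Submodule ℂ (CN k)) :
    ∃ (A : CN k →L[ℂ] CN (Module.finrank ℂ E)) (B : CN (Module.finrank ℂ E) →L[ℂ] CN k),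
      ∀ e ∈ E, B (A e) = e := by
  obtain ⟨f, hf⟩ := E.subtype.exists_leftInverse_of_injective E.ker_subtype
  let b := (Module.finBasis ℂ E).equivFun
  refine ⟨LinearMap.toContinuousLinearMap (b.toLinearMap ∘ₗ f),
    LinearMap.toContinuousLinearMap (E.subtype ∘ₗ b.symm.toLinearMap), fun e he => ?_⟩
  have h1 : f e = ⟨e, he⟩ := LinearMap.congr_fun hf ⟨e, he⟩
  simp [h1]

theorem P7a_bound {r k : ℕ} {ω : PM r k} {u : CN k}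
    (h : ‖ω - (0, 0, u)‖ ≤ 1 / 2 * ‖ω‖) : ‖ω‖ ≤ 2 * ‖u‖ := by
  have h1 : ‖((0, 0, u) : PM r k)‖ = ‖u‖ := by simp [Prod.norm_def]
  have h2 := norm_sub_norm_le ω (0, 0, u)
  linarith

theorem Setup.tangent_frame (S : Setup) {r k : ℕ} (σ : Segre S.F r k) :
    TanFrame S.F σ.ρ (σ.a 0) S.toTM.DistAll := by
  obtain ⟨ld, hb⟩ := σ.exists_base
  obtain ⟨A, B, hAB⟩ := P7a_coords (E0 ld)
  obtain ⟨O, hO, haO, hOW, s, hs, hQ⟩ := exists_one hb (P := B.comp A) hAB hb.conormal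
  have hRU : {x | x ∈ O ∩ S.F.V ∧ 0 < rv σ.ρ x} ⊆ S.U := fun x hx =>
    hb.sub x ⟨(hOW hx.1.1).2, hx.1.2⟩ hx.2
  refine ⟨O, hO, haO, hRU, ?_⟩
  obtain ⟨d, hd⟩ := isSub_dist hs
  by_cases hne : d = Module.finrank ℂ (E0 ld)
  swap
  · have hem : ∀ x ∈ O ∩ S.F.V, ¬ 0 < rv σ.ρ x := fun x hx h0 =>
      hne ((hd.finrank (hRU ⟨hx, h0⟩)).symm.trans (hQ x hx h0).1)
    exact ⟨0, fun l => l.elim0, 0, fun l => l.elim0, fun x hx h0 => (hem x hx h0).elim,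
      fun l => l.elim0⟩
  subst hne
  have hR : ROpen S.U {x | x ∈ O ∩ S.F.V ∧ 0 < rv σ.ρ x} := by
    refine ⟨hRU, fun x hx => ?_⟩
    have h1 : {y | 0 < rv σ.ρ y} ∈ 𝓝 x :=
      (isOpen_lt continuous_const (contDiff_rv σ.ρ).continuous).mem_nhds hx.2
    filter_upwards [self_mem_nhdsWithin, mem_nhdsWithin_of_mem_nhds (hO.mem_nhds hx.1.1),
      mem_nhdsWithin_of_mem_nhds h1] with y b1 b2 b3
    exact ⟨⟨b2, S.F.ropen.1 b1⟩, b3⟩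
  have hL : Hol {x | x ∈ O ∩ S.F.V ∧ 0 < rv σ.ρ x} (fun x => A.comp (fderiv ℂ σ.t x)) := by
    refine Hol.of_differentiable ?_
    have h1 : Differentiable ℂ (fderiv ℂ σ.t) := differentiableOn_univ.1
      (SCV.differentiableOn_fderiv isOpen_univ σ.t_diff.differentiableOn)
    exact (differentiable_const A).clm_comp h1
  obtain ⟨c, hc, hlow⟩ := ld.low
  have key : ∀ x ∈ O ∩ S.F.V, 0 < rv σ.ρ x → ∀ v ∈ S.toTM.Dist s x, v ∈ Tan S.F.V x ∧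
      ‖ld.sD x v‖ ≤ 2 * (‖B‖ * ‖A (fderiv ℂ σ.t x v)‖) ∧ c * ‖v‖ ≤ ‖ld.sD x v‖ := by
    intro x hx h0 v hv
    have hxO : x ∈ ld.O := (hOW hx.1).2
    have hT : v ∈ Tan S.F.V x := S.F.Tan_eq (hRU ⟨hx, h0⟩) ▸ hv.1
    have he := (ld.e_mem x hxO).2
    refine ⟨hT, ?_, (hlow _ he x ⟨hxO, hx.2⟩ v hT).trans
      (norm_le_norm_sc ((hb.pos x ⟨hxO, hx.2⟩).2 h0) (hb.le_one x hxO) _)⟩
    have h1 := P7a_bound ((hQ x hx h0).2 v hv)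
    have h2 : (ld.sD x v).2.2 = fderiv ℂ σ.t x v :=
      σ.fderiv_co_t (ld.ok _ he).1 (ld.r0_ne x hxO _ he) v
    rw [h2] at h1
    exact h1.trans (mul_le_mul_of_nonneg_left (B.le_opNorm _) zero_le_two)
  obtain ⟨Ξ, hΞ, hfr⟩ := hd.exists_frame hR hL (fun x hx v hv h0 => by
    obtain ⟨-, h1, h2⟩ := key x hx.1 hx.2 v hv
    have h3 : A (fderiv ℂ σ.t x v) = 0 := h0
    rw [h3, norm_zero, mul_zero, mul_zero] at h1
    exact norm_le_zero_iff.1 (le_of_mul_le_mul_left (by linarith) hc))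
  have hB : 0 ≤ 2 * ‖B‖ := by positivity
  have hB' : 0 ≤ 2 * ‖B‖ / c := by positivity
  have key2 : ∀ l, ∀ x ∈ {x | x ∈ O ∩ S.F.V ∧ 0 < rv σ.ρ x}, Ξ l x ∈ Tan S.F.V x ∧
      ‖Ξ l x‖ ≤ 2 * ‖B‖ + 2 * ‖B‖ / c ∧ ‖ld.sD x (Ξ l x)‖ ≤ 2 * ‖B‖ + 2 * ‖B‖ / c := by
    intro l x hx
    obtain ⟨h1, h2⟩ := (hfr x hx).1 l
    obtain ⟨h3, h4, h5⟩ := key x hx.1 hx.2 _ h1
    have h6 : A (fderiv ℂ σ.t x (Ξ l x)) = Pi.single l 1 := h2
    rw [h6, Pi.norm_single, norm_one, mul_one] at h4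
    have h7 : ‖Ξ l x‖ ≤ 2 * ‖B‖ / c := by
      rw [le_div_iff₀ hc]
      linarith
    exact ⟨h3, by linarith, by linarith⟩
  refine ⟨_, Ξ, 2 * ‖B‖ + 2 * ‖B‖ / c, hΞ, fun x hx h0 => ⟨fun l =>
    ⟨(key2 l x ⟨hx, h0⟩).2.1, (key2 l x ⟨hx, h0⟩).1⟩, le_trans ?_ (hfr x ⟨hx, h0⟩).2⟩,
    fun l a ha h0 => ?_⟩
  · exact inf_le_right.trans (iInf_le _ (⟨s, hs⟩ : {s // S.toTM.Good s}))
  · exact tendsto_dx hb ⟨(hOW ha.1).2, ha.2⟩ h0 ((hOW ha.1).1 ha.2 h0)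
      (fun x hx => ⟨⟨(hOW hx.1.1).2, hx.1.2⟩, hx.2⟩) (key2 l)

end Crest.Agent.R264
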