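import Crest.Agent.R264.P8.Trans
import Crest.Agent.R264.P8.Inj

/-! Row 264, P8 (interface): the bounded symmetric realisation. -/

set_option autoImplicit false
open Set Filter Topology Metric Complex

noncomputable section
namespace Crest.Agent.R264.TM
variable (M : TM)

theorem p8_main {y0 : CN M.N} (hy0 : y0 ∈ M.U)
    (hval : ∀ v ∈ M.T y0, ∃ X : M.g, M.fn X y0 = v) (Z1 : M.g) (h0 : M.fn Z1 y0 = 0)
    (h1 : ∀ v ∈ M.T y0, M.D (M.fn Z1) y0 v = -I • v) :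
    ∃ (m : ℕ) (D : Set (CN m)), Crest.AlgGeometry.Semialg.IsBoundedSymmetricDomain D ∧
      ∃ (Ψ : CN M.N → CN m) (Θ : CN m → CN M.N), Hol M.U Ψ ∧ DifferentiableOn ℂ Θ D ∧
        (∀ y ∈ M.U, Ψ y ∈ D ∧ Θ (Ψ y) = y) ∧ ∀ z ∈ D, Θ z ∈ M.U ∧ Ψ (Θ z) = z := by
  obtain ⟨η, hη⟩ := Z1.2
  obtain ⟨θ, hθ⟩ := M.exists_circ hη hy0 h0 h1
  obtain ⟨Ψ, hΨ, hB, hΨ0, heq, hD⟩ := hθ.exists_lin
  obtain ⟨hinj, himm⟩ := hθ.inj hΨ hB hΨ0 heq hD
  obtain ⟨hopen, Θ, hΘ, hΘΨ, -⟩ := M.exists_inverse_of_injOn (E := CN M.n) (by simp)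
    (ROpen.refl _) hΨ hinj himm
  have hΘU : MapsTo Θ (Ψ '' M.U) M.U := by
    rintro _ ⟨y, hy, rfl⟩
    rw [hΘΨ y hy]; exact hy
  refine ⟨M.n, Ψ '' M.U, ⟨hopen, M.conn.image Ψ hΨ.continuousOn, ?_, ?_⟩, Ψ, Θ, hΨ, hΘ,
    fun y hy => ⟨mem_image_of_mem Ψ hy, hΘΨ y hy⟩, ?_⟩
  · obtain ⟨B, hB⟩ := hB
    refine isBounded_iff_forall_norm_le.2 ⟨B, ?_⟩
    rintro _ ⟨y, hy, rfl⟩
    exact hB y hy
  · rintro _ ⟨y, hy, rfl⟩
    obtain ⟨h, rfl⟩ := M.transitive hy0 hval y hy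
    let σ : M.Aut := h * θ Real.pi * h⁻¹
    have hσ : σ * σ = 1 := by
      have : θ Real.pi * θ Real.pi = 1 := by
        rw [← hθ.add, ← two_mul, ← hθ.zero, ← hθ.periodic 0, zero_add]
      calc σ * σ = h * (θ Real.pi * θ Real.pi) * h⁻¹ := by simp only [σ]; group
        _ = 1 := by rw [this]; group
    have hσap : ∀ x ∈ M.U, M.ap σ (M.ap h x) = M.ap h (M.ap (θ Real.pi) x) := fun x hx => by
      rw [← M.ap_mul _ _ hx, ← M.ap_mul _ _ hx]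
      simp only [σ, inv_mul_cancel_right]
    refine ⟨fun z => Ψ (M.ap σ (Θ z)), ?_, ?_, ?_, ?_, ?_⟩
    · exact (hΨ.comp (M.hol_ap σ) fun x hx => M.ap_mem σ hx).comp_differentiableOn hΘ hΘU
    · exact fun z hz => mem_image_of_mem Ψ (M.ap_mem σ (hΘU hz))
    · rintro _ ⟨x, hx, rfl⟩
      simp only [hΘΨ x hx, hΘΨ _ (M.ap_mem σ hx)]
      rw [← M.ap_mul _ _ hx, hσ, M.ap_one hx]
    · simp only [hΘΨ _ hy]
      rw [hσap y0 hy0, hθ.fix]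
    · filter_upwards [self_mem_nhdsWithin,
        mem_nhdsWithin_of_mem_nhds (hopen.mem_nhds (mem_image_of_mem Ψ hy))] with z hz hzD
      obtain ⟨x, hx, rfl⟩ := hzD
      simp only [hΘΨ x hx]
      intro e
      have hx' := M.ap_mem h⁻¹ hx
      have e1 : M.ap σ x = x := hinj (M.ap_mem σ hx) hx e
      rw [← M.ap_ap_inv h hx, hσap _ hx'] at e1
      have e2 := M.ap_injOn h (M.ap_mem _ hx') hx' e1
      have e3 := heq Real.pi _ hx'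
      rw [e2, exp_pi_mul_I, neg_one_smul, eq_neg_iff_add_eq_zero, ← two_smul ℂ,
        smul_eq_zero_iff_right two_ne_zero, ← hΨ0] at e3
      have e4 := hinj hx' hy0 e3
      exact hz (by rw [← e4, M.ap_ap_inv h hx]; rfl)
  · rintro _ ⟨x, hx, rfl⟩
    rw [hΘΨ x hx]
    exact ⟨hx, rfl⟩

end Crest.Agent.R264.TM
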