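import Crest.Agent.R264.P0
import Crest.Agent.R264.P7
import Crest.Agent.R264.P7a
import Crest.Agent.R264.P8

/-! Row 264: assembling the parts. -/

set_option autoImplicit false
open Set Filter Topology Metric Complex

noncomputable section
namespace Crest.Agent.R264

theorem TanFrame.mono {N n : ℕ} {U : Set (CN N)} {F : AlgFrame n U} {ρ : P2 N} {a0 : CN N}
    {E E' : CN N → Submodule ℂ (CN N)} (h : TanFrame F ρ a0 E) (hE : ∀ x ∈ U, E' x ≤ E x) :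
    TanFrame F ρ a0 E' := by
  obtain ⟨O, hO, ha, hU, d, Ξ, C, h1, h2, h3⟩ := h
  exact ⟨O, hO, ha, hU, d, Ξ, C, h1,
    fun x hx hp => ⟨(h2 x hx hp).1, (hE x (hU ⟨hx, hp⟩)).trans (h2 x hx hp).2⟩, h3⟩

theorem Setup.exists_distAll_eq_bot (S : Setup) : ∃ y ∈ S.U, S.toTM.DistAll y = ⊥ := by
  by_contra! h
  obtain ⟨c, hc, hne, hmem⟩ := S.dist_field h
  refine S.p7_false c hc hne fun p ρ hp W hW => ?_
  obtain ⟨r, k, σ, rfl, ha⟩ := exists_segre S.F S.taut hp hW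
  refine ⟨σ.a 0, ha, σ.good, (S.tangent_frame σ).mono fun x hx => ?_⟩
  rw [Submodule.span_le, singleton_subset_iff]
  exact hmem x hx

theorem Setup.main (S : Setup) :
    ∃ (m : ℕ) (D : Set (CN m)), Crest.AlgGeometry.Semialg.IsBoundedSymmetricDomain D ∧
      ∃ (Ψ : CN S.N → CN m) (Θ : CN m → CN S.N), Hol S.U Ψ ∧ DifferentiableOn ℂ Θ D ∧
        (∀ y ∈ S.U, Ψ y ∈ D ∧ Θ (Ψ y) = y) ∧ ∀ z ∈ D, Θ z ∈ S.U ∧ Ψ (Θ z) = z := by
  obtain ⟨y, hy, h⟩ := S.exists_distAll_eq_bot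
  obtain ⟨hval, Z1, h0, h1⟩ := S.toTMG.of_distAll_eq_bot hy h
  exact S.toTM.p8_main hy hval Z1 h0 h1

theorem exists_setup (N : ℕ) (V U : Set (Fin N → ℂ))
    (hV : Crest.AlgGeometry.Semialg.IsAlgebraicSet V)
    (hUV : ∃ O : Set (Fin N → ℂ), IsOpen O ∧ U = O ∩ V)
    (hconn : IsConnected U) (hsa : Crest.AlgGeometry.Semialg.IsSemialgebraic U)
    (hbd : Bornology.IsBounded U) (Γ : Subgroup (Equiv.Perm U))
    (hΓ : ∀ γ ∈ Γ,
      Crest.AlgGeometry.Semialg.IsHolomorphicMap U (fun y : U => ((γ y : U) : Fin N → ℂ)))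
    (hpd : ProperlyDiscontinuousSMul Γ U)
    (hcpt : CompactSpace (Quotient (MulAction.orbitRel Γ U))) :
    ∃ S : Setup, ∃ h : S.N = N, S.U = h ▸ U := by
  obtain ⟨n, hch, htaut, ⟨F⟩, K, hK, hKU, hcov⟩ := p0_main N V U hV hUV hconn hbd Γ hΓ hpd hcpt
  let M : TM := ⟨N, n, U, hch, hconn, hbd, htaut⟩
  have hhol : ∀ γ ∈ Γ, Hol M.U (M.act γ) := by
    intro γ hγ x hx
    obtain ⟨O, hO, hxO, Φ, hΦ, he⟩ := hΓ γ hγ ⟨x, hx⟩
    refine ⟨O, hO, hxO, Φ, hΦ, fun y hy hyO => ?_⟩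
    have : M.act γ y = ((γ ⟨y, hy⟩ : U) : CN N) := dif_pos hy
    rw [this]
    exact he ⟨y, hy⟩ hyO
  have hle : Γ ≤ M.Aut := fun γ hγ => ⟨hhol γ hγ, hhol γ⁻¹ (Γ.inv_mem hγ)⟩
  let G : TMG :=
    { toTM := M
      Γ := Γ.subgroupOf M.Aut
      pd := by
        intro A B hA hAU hB hBU
        have hA' : IsCompact (Subtype.val ⁻¹' A : Set U) :=
          Topology.IsEmbedding.subtypeVal.isCompact_preimage' hA (by simpa using hAU)
        have hB' : IsCompact (Subtype.val ⁻¹' B : Set U) :=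
          Topology.IsEmbedding.subtypeVal.isCompact_preimage' hB (by simpa using hBU)
        have hfin := hpd.finite_disjoint_inter_image hA' hB'
        let ι : Γ → M.Aut := fun γ => ⟨γ, hle γ.2⟩
        refine (hfin.image ι).subset ?_
        rintro γ ⟨hγ, _, ⟨x, hx, rfl⟩, hB⟩
        refine ⟨⟨γ, hγ⟩, ?_, rfl⟩
        have e := M.ap_eq γ (hAU hx)
        refine ⟨(γ : Equiv.Perm M.U) ⟨x, hAU hx⟩, ⟨⟨x, hAU hx⟩, hx, rfl⟩, ?_⟩
        change (((γ : Equiv.Perm M.U) ⟨x, hAU hx⟩ : M.U) : CN N) ∈ B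
        rw [← e]; exact hB
      K := K
      K_compact := hK
      K_sub := hKU
      cover := by
        intro x hx
        obtain ⟨γ, hγ, y, hy, e⟩ := hcov ⟨x, hx⟩
        refine ⟨⟨γ, hle hγ⟩, hγ, y, hy, ?_⟩
        rw [M.ap_eq _ y.2]
        exact congrArg Subtype.val e }
  exact ⟨⟨G, F, thin_bad F hsa⟩, rfl, rfl⟩

end Crest.Agent.R264
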