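import Crest.Agent.R264.A7

/-! Row 264, P0 (interface): smoothness, tautness, algebraic frame. -/

set_option autoImplicit false
open Set Filter Topology Metric Complex

noncomputable section
namespace Crest.Agent.R264

theorem p0_main (N : ℕ) (V U : Set (Fin N → ℂ)) (hV : Crest.AlgGeometry.Semialg.IsAlgebraicSet V)
    (hUV : ∃ O : Set (Fin N → ℂ), IsOpen O ∧ U = O ∩ V) (hconn : IsConnected U)
    (hbd : Bornology.IsBounded U) (Γ : Subgroup (Equiv.Perm U))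
    (hΓ : ∀ γ ∈ Γ,
      Crest.AlgGeometry.Semialg.IsHolomorphicMap U (fun y : U => ((γ y : U) : Fin N → ℂ)))
    (hpd : ProperlyDiscontinuousSMul Γ U)
    (hcpt : CompactSpace (Quotient (MulAction.orbitRel Γ U))) :
    ∃ n : ℕ, (∀ x ∈ U, ∃ ch : Chart n U, x ∈ ch.c '' ch.s) ∧ TautSet U ∧
      Nonempty (AlgFrame n U) ∧ ∃ K : Set (CN N), IsCompact K ∧ K ⊆ U ∧
        ∀ x : U, ∃ γ ∈ Γ, ∃ y : U, (y : CN N) ∈ K ∧ γ y = x := by
  obtain ⟨I, rfl⟩ := hV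
  obtain ⟨O, hO, hU⟩ := hUV
  have hΓ' : ∀ γ ∈ Γ, Hol U (A.act U γ) := fun γ hγ => A.hol_act (hΓ γ hγ)
  obtain ⟨K, hK, hKU, hcov⟩ := A.exists_cover hO (A.isClosed_zeroLocus I) hU Γ hΓ' hcpt
  have hC : A.Cocpt U := ⟨K, hK, hKU, fun x hx => by
    obtain ⟨γ, hγ, y, hy, rfl⟩ := hcov x hx
    have := A.bih_act (hΓ' γ hγ) (hΓ' _ (Γ.inv_mem hγ))
    exact ⟨_, _, this, by rw [this.left y (hKU hy)]; exact hy⟩⟩
  obtain ⟨p, n, π, h, hUp, hch, hne⟩ := A.smooth I hO hU hconn hbd hC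
  refine ⟨n, hch, A.taut hO (A.isClosed_zeroLocus I) hU hbd hC, A.exists_frame h hO hUp hne,
    K, hK, hKU, fun x => ?_⟩
  obtain ⟨γ, hγ, y, hy, hyx⟩ := hcov x x.2
  exact ⟨γ, hγ, ⟨y, hKU hy⟩, hy, Subtype.ext (by rw [← hyx, A.act_apply _ (hKU hy)])⟩

end Crest.Agent.R264
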