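import Crest.Agent.R264.G
import Crest.Agent.R264.P1.NoC
import Crest.Agent.R264.P1.Skew
import Crest.Agent.R264.P1.Ext
import Crest.Agent.R264.P1.Complete

/-! Row 264, P1 (interface): the Lie algebra `g`. -/

set_option autoImplicit false
open Set Filter Topology Metric Complex

noncomputable section
namespace Crest.Agent.R264.TM
variable (M : TM)

theorem hol_fn (X : M.g) : Hol M.U (M.fn X) := (X : M.VF).2.1

theorem fn_mem_T (X : M.g) {x : CN M.N} (hx : x ∈ M.U) : M.fn X x ∈ M.T x := (X : M.VF).2.2.1 x hx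

@[simp] theorem fn_add (X Y : M.g) : M.fn (X + Y) = M.fn X + M.fn Y := rfl
@[simp] theorem fn_zero : M.fn 0 = 0 := rfl
@[simp] theorem fn_smul (a : ℝ) (X : M.g) : M.fn (a • X) = a • M.fn X := rfl

theorem fn_lie (X Y : M.g) {x : CN M.N} (hx : x ∈ M.U) :
    M.fn ⁅X, Y⁆ x = M.D (M.fn Y) x (M.fn X x) - M.D (M.fn X) x (M.fn Y x) := by
  change M.br (M.fn X) (M.fn Y) x = _
  simp [br, indicator_of_mem hx]

theorem fn_Adg (h : M.Aut) (X : M.g) {x : CN M.N} (hx : x ∈ M.U) :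
    M.fn (M.Adg h X) (M.ap h x) = M.D (M.ap h) x (M.fn X x) := M.Ad_apply h X hx

theorem Adg_mul (g h : M.Aut) (X : M.g) : M.Adg (g * h) X = M.Adg g (M.Adg h X) :=
  Subtype.ext (M.Ad_mul g h X)

theorem Adg_one (X : M.g) : M.Adg 1 X = X := Subtype.ext (M.Ad_one X)

/-- Elements of `g` that agree on a nonempty open set are equal. -/
theorem g_ext {R : Set (CN M.N)} (hR : ROpen M.U R) (hne : R.Nonempty) {X Y : M.g}
    (h : EqOn (M.fn X) (M.fn Y) R) : X = Y := by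
  exact Subtype.ext (M.vf_ext (M.eqOn_of_ropen hR hne (M.hol_fn X) (M.hol_fn Y) h))

/-- An element of `g` is determined by its 1-jet at any point. -/
theorem g_jet (X : M.g) {y : CN M.N} (hy : y ∈ M.U) (h0 : M.fn X y = 0)
    (h1 : ∀ v ∈ M.T y, M.D (M.fn X) y v = 0) : X = 0 := by
  obtain ⟨θ, hθ⟩ := X.2
  exact Subtype.ext (hθ.eq_zero_of_jet hy h0 h1)

instance finiteDimensional_g : FiniteDimensional ℝ M.g := by
  exact M.finiteDimensional_gsub

/-- Uniqueness of integral curves. -/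
theorem IsFlow.eq_of_curve {M : TM} {X : M.VF} {θ : ℝ → M.Aut} (hθ : M.IsFlow X θ)
    {c : ℝ → CN M.N} {a b : ℝ}
    (hc : ∀ s ∈ Ioo a b, c s ∈ M.U ∧ HasDerivAt c ((X : CN M.N → CN M.N) (c s)) s) {s t : ℝ}
    (hs : s ∈ Ioo a b) (ht : t ∈ Ioo a b) : c t = M.ap (θ (t - s)) (c s) := by
  exact hθ.eq_of_curve' X.2.1.continuousOn hc hs ht

/-- Joint continuity of flows. -/
theorem IsFlow.continuousOn {M : TM} {X : M.VF} {θ : ℝ → M.Aut} (hθ : M.IsFlow X θ) :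
    ContinuousOn (fun z : ℝ × CN M.N => M.ap (θ z.1) z.2) (univ ×ˢ M.U) := by
  exact hθ.continuousOn'

/-- Pointwise convergence in `g` implies convergence of all linear functionals. -/
theorem tendsto_lin_g {V : Type*} [NormedAddCommGroup V] [NormedSpace ℝ V] (φ : M.g →ₗ[ℝ] V)
    {ι : Type*} {l : Filter ι} {W : ι → M.g} {W0 : M.g}
    (h : ∀ y ∈ M.U, Tendsto (fun i => M.fn (W i) y) l (𝓝 (M.fn W0 y))) :
    Tendsto (fun i => φ (W i)) l (𝓝 (φ W0)) :=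
  M.tendsto_lin (S := M.g) M.g.toSubmodule.subtype Subtype.val_injective φ h

/-- `g` is closed under pointwise limits. -/
theorem mem_g_of_tendsto {ι : Type*} {l : Filter ι} [l.NeBot] {W : ι → M.g} {W0 : M.VF}
    (h : ∀ y ∈ M.U, Tendsto (fun i => M.fn (W i) y) l (𝓝 ((W0 : CN M.N → CN M.N) y))) :
    W0 ∈ M.g :=
  M.mem_of_tendsto M.gsub (W := fun i => (W i : M.VF)) (Eventually.of_forall fun i => (W i).2) h

/-- The adjoint action is continuous. -/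
theorem continuous_lin_Adg {V : Type*} [NormedAddCommGroup V] [NormedSpace ℝ V] (φ : M.g →ₗ[ℝ] V)
    (Y : M.g) : Continuous fun h : M.Aut => φ (M.Adg h Y) :=
  continuous_iff_continuousAt.2 fun h => M.tendsto_lin_g φ fun _ hy =>
    (M.continuous_Ad_apply Y hy).tendsto h

theorem Adg_flow_self {X : M.g} {θ : ℝ → M.Aut} (hθ : M.IsFlow (M.fn X) θ) (t : ℝ) :
    M.Adg (θ t) X = X := Subtype.ext (hθ.Ad_self t)

/-- A holomorphic map generating a flow is an element of `g`. -/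
theorem exists_g_of_isFlow {X : CN M.N → CN M.N} {θ : ℝ → M.Aut} (hθ : M.IsFlow X θ)
    (hX : Hol M.U X) : ∃ Y : M.g, M.IsFlow (M.fn Y) θ ∧ ∀ x ∈ M.U, M.fn Y x = X x := by
  have h1 : M.IsFlow (M.U.indicator X) θ := hθ.congr fun x hx => indicator_of_mem hx X
  exact ⟨⟨⟨M.U.indicator X, hX.indicator, fun x hx => h1.mem_T hx,
    fun x hx => indicator_of_notMem hx X⟩, θ, h1⟩, h1, fun x hx => indicator_of_mem hx X⟩

/-- Criterion (C) with values in `g`. -/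
theorem crit_g {ι : Type*} {l : Filter ι} [l.NeBot] {h : ι → M.Aut} {τ : ι → ℝ}
    {X : CN M.N → CN M.N} (hτ : Tendsto τ l (𝓝[>] 0))
    (hb : M.LocBdd l (fun i y => (τ i)⁻¹ • (M.ap (h i) y - y)) M.U)
    (hp : ∀ y ∈ M.U, Tendsto (fun i => (τ i)⁻¹ • (M.ap (h i) y - y)) l (𝓝 (X y))) :
    ∃ Y : M.g, ∀ x ∈ M.U, M.fn Y x = X x := by
  obtain ⟨θ, hθ⟩ := M.crit hτ hb hp
  obtain ⟨Y, -, hY⟩ := M.exists_g_of_isFlow hθ (M.montel (ROpen.refl _) hb hp).1
  exact ⟨Y, hY⟩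

/-- The derivative of the adjoint action along a flow. -/
theorem hasDerivAt_Adg {X : M.g} {θ : ℝ → M.Aut} (hθ : M.IsFlow (M.fn X) θ) (Y : M.g)
    (f : M.g →ₗ[ℝ] ℝ) (t : ℝ) :
    HasDerivAt (fun s => f (M.Adg (θ s) Y)) (-f (M.Adg (θ t) ⁅X, Y⁆)) t := by
  rw [hasDerivAt_iff_tendsto_slope_zero]
  have := M.tendsto_lin_g f (l := 𝓝[≠] (0 : ℝ))
    (W := fun s => s⁻¹ • (M.Adg (θ (t + s)) Y - M.Adg (θ t) Y)) (W0 := -M.Adg (θ t) ⁅X, Y⁆)
    fun y hy => (IsFlow.hasDerivAt_Ad (X := (X : M.VF)) hθ Y hy t).tendsto_slope_zero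
  simpa only [map_smul, map_sub, map_neg] using this

/-- Ideals are invariant under flows. -/
theorem Adg_flow_mem {X : M.g} {θ : ℝ → M.Aut} (hθ : M.IsFlow (M.fn X) θ) (s : LieIdeal ℝ M.g)
    {Y : M.g} (hY : Y ∈ s) (t : ℝ) : M.Adg (θ t) Y ∈ s := by
  refine mem_of_ode s.toSubmodule (-LieAlgebra.ad ℝ M.g X) (fun v hv => ?_)
    (c := fun t => M.Adg (θ t) Y) (fun f t => ?_) ?_ t
  · exact s.toSubmodule.neg_mem (lie_mem_right ℝ M.g s X v hv)
  · have := M.hasDerivAt_Adg hθ Y f t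
    rw [LieEquiv.map_lie, M.Adg_flow_self hθ, ← map_neg] at this
    exact this
  · simpa [hθ.zero, M.Adg_one] using hY

/-- Fields with a zero act by skew endomorphisms. -/
theorem isSkew_of_zero (X : M.g) {y : CN M.N} (hy : y ∈ M.U) (h0 : M.fn X y = 0) :
    IsSkew (LieAlgebra.ad ℝ M.g X) := by
  obtain ⟨θ, hθ⟩ := X.2
  have hθ' : M.IsFlow (M.fn X) θ := hθ
  have := (isSkew_of_bounded (-LieAlgebra.ad ℝ M.g X)
    (fun t => (M.Adg (θ t)).toLinearEquiv.toLinearMap) (fun v => ?_) (fun s t v => ?_)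
    (fun f v t => ?_) (fun f v => ?_)).neg
  · rwa [neg_neg] at this
  · change M.Adg (θ 0) v = v
    rw [hθ.zero, M.Adg_one]
  · change M.Adg (θ (s + t)) v = M.Adg (θ s) (M.Adg (θ t) v)
    rw [hθ.add, M.Adg_mul]
  · have := M.hasDerivAt_Adg hθ' v f t
    change HasDerivAt (fun s => f (M.Adg (θ s) v)) (f (M.Adg (θ t) (-⁅X, v⁆))) t
    rwa [map_neg, map_neg]
  · obtain ⟨C, hC⟩ := (M.isCompact_fib isCompact_singleton (singleton_subset_iff.2 hy)
      hy).exists_bound_of_continuousOn (M.continuous_lin_Adg f v).continuousOn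
    exact ⟨C, fun t => hC (θ t) (hθ'.fix hy h0 t)⟩

/-- Lemma (E): no complex lines. -/
theorem noC (X Y : M.g) (hXY : ⁅X, Y⁆ = 0) {y : CN M.N} (hy : y ∈ M.U) {c : ℂ} (hc : c.im ≠ 0)
    (h : M.fn Y y = c • M.fn X y) : M.fn X y = 0 := by
  let Y' : M.g := c.im⁻¹ • (Y - c.re • X)
  obtain ⟨θ, hθ⟩ := X.2
  obtain ⟨η, hη⟩ := Y'.2
  have h1 : ⁅X, Y'⁆ = 0 := by simp [Y', hXY]
  refine M.noC_flow hθ hη (congrArg Subtype.val h1) hy ?_
  change c.im⁻¹ • (M.fn Y y - c.re • M.fn X y) = I • M.fn X y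
  rw [h, ← Complex.coe_smul, ← Complex.coe_smul, ← sub_smul, smul_smul]
  congr 1
  have : (c.im : ℂ) ≠ 0 := ofReal_ne_zero.2 hc
  rw [ofReal_inv, inv_mul_eq_iff_eq_mul₀ this]
  linear_combination (Complex.re_add_im c).symm

/-- EXT: a flow on an open set whose complement lies in a hypersurface extends. -/
theorem ext_flow {R : Set (CN M.N)} (hR : ROpen M.U R) {h : CN M.N → ℂ} (hh : Hol M.U h)
    (hne : ∃ x ∈ M.U, h x ≠ 0) (hRh : ∀ x ∈ M.U, h x ≠ 0 → x ∈ R) {X : CN M.N → CN M.N}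
    (hX : ContinuousOn X R) {θ : ℝ → CN M.N → CN M.N} (hol : ∀ t, Hol R (θ t))
    (maps : ∀ t, MapsTo (θ t) R R) (zero : ∀ x ∈ R, θ 0 x = x)
    (add : ∀ s t, ∀ x ∈ R, θ (s + t) x = θ s (θ t x))
    (deriv : ∀ x ∈ R, ∀ t, HasDerivAt (fun s => θ s x) (X (θ t x)) t) :
    ∃ Y : M.g, ∀ x ∈ R, M.fn Y x = X x := by
  obtain ⟨Y, ϑ, h1, h2, h3⟩ := M.ext_flow' hR hh hne hRh hX hol maps zero add deriv
  obtain ⟨Z, -, hZ⟩ := M.exists_g_of_isFlow h2 h1
  exact ⟨Z, fun x hx => (hZ x (hR.1 hx)).trans (h3 x hx)⟩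

/-- A holomorphic vector field all of whose integral curves are complete lies in `g`. -/
theorem mem_g_of_complete (X : M.VF) (h : ∀ x ∈ M.U, ∃ c : ℝ → CN M.N, c 0 = x ∧
    ∀ t, c t ∈ M.U ∧ HasDerivAt c ((X : CN M.N → CN M.N) (c t)) t) : X ∈ M.g := by
  exact M.flow_of_complete X h

end Crest.Agent.R264.TM
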