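import Crest.Agent.R264.P1
import Crest.Agent.R264.P2.Unimod
import Crest.Agent.R264.P2.Parts

/-! Row 264, P2 (interface): unimodularity. -/

set_option autoImplicit false
open Set Filter Topology Metric Complex MeasureTheory

noncomputable section
namespace Crest.Agent.R264

theorem TM.trace_ad_eq_zero (M : TM) [MeasurableSpace M.Aut] [BorelSpace M.Aut]
    (μ : Measure M.Aut) [μ.IsHaarMeasure] [μ.IsMulRightInvariant] (X : M.g) :
    LinearMap.trace ℝ M.g (LieAlgebra.ad ℝ M.g X) = 0 := by
  obtain ⟨x0, hx0⟩ := M.conn.nonempty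
  -- the test function
  obtain ⟨r, hr, hrc⟩ := M.isSub.exists_compact_ball hx0
  obtain ⟨β, hβs, -, hβ, hβr, hβ1⟩ := exists_contDiff_tsupport_subset (n := 1)
    (closedBall_mem_nhds x0 hr)
  have hβd : Differentiable ℝ β := hβ.differentiable (by simp)
  let F : M.Aut → ℝ := fun h => β (M.ap h x0)
  have hF : Continuous F := hβ.continuous.comp (M.continuous_ap hx0)
  have hFc : HasCompactSupport F := by
    refine HasCompactSupport.intro (M.isCompact_fib hrc inter_subset_right hx0) fun h hh => ?_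
    by_contra h0
    exact hh ⟨hβs (subset_tsupport _ h0), M.ap_mem h hx0⟩
  have hFpos : 0 < ∫ h, F h ∂μ := by
    refine hF.integral_pos_of_hasCompactSupport_nonneg_nonzero hFc
      (fun h => (hβr (mem_range_self _)).1) (x := 1) ?_
    simp only [F, M.ap_one hx0, hβ1]
    exact one_ne_zero
  let L : M.g → M.Aut → ℝ := fun E h => fderiv ℝ β (M.ap h x0) (M.fn E (M.ap h x0))
  have hL : ∀ E, Continuous (L E) := fun E =>
    ((hβ.continuous_fderiv (by simp)).comp (M.continuous_ap hx0)).clm_apply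
      ((M.hol_fn E).continuousOn.comp_continuous (M.continuous_ap hx0) fun h => M.ap_mem h hx0)
  have hLc : ∀ E, HasCompactSupport (L E) := fun E => by
    refine HasCompactSupport.intro (M.isCompact_fib hrc inter_subset_right hx0) fun h hh => ?_
    have : fderiv ℝ β (M.ap h x0) = 0 := by
      by_contra h0
      exact hh ⟨hβs (support_fderiv_subset ℝ h0), M.ap_mem h hx0⟩
    simp only [L, this, ContinuousLinearMap.zero_apply]
  have dleft : ∀ (E : M.g) (θ : ℝ → M.Aut), M.IsFlow (M.fn E) θ → ∀ h,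
      HasDerivAt (fun t => F (θ t * h)) (L E h) 0 := by
    intro E θ hθ h
    have h1 := hθ.deriv _ (M.ap_mem h hx0) 0
    have h2 := (hβd _).hasFDerivAt.comp_hasDerivAt (0 : ℝ) h1
    simp only [hθ.zero, M.ap_one (M.ap_mem h hx0)] at h2
    simp only [F, M.ap_mul _ _ hx0]
    exact h2
  let b := Module.finBasis ℝ M.g
  let c : Fin (Module.finrank ℝ M.g) → M.Aut → ℝ := fun i h => b.coord i (M.Adg h X)
  have hc : ∀ i, Continuous (c i) := fun i => M.continuous_lin_Adg (b.coord i) X
  have hsum : ∀ h, L (M.Adg h X) h = ∑ i, c i h * L (b i) h := fun h => by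
    conv_lhs => rw [← b.sum_repr (M.Adg h X)]
    let ℓ : M.g →ₗ[ℝ] ℝ :=
      { toFun := fun E => L E h
        map_add' := fun _ _ => map_add (fderiv ℝ β (M.ap h x0)) _ _
        map_smul' := fun _ _ => map_smul (fderiv ℝ β (M.ap h x0)) _ _ }
    change ℓ _ = ∑ i, c i h * ℓ (b i)
    simp only [map_sum, map_smul, smul_eq_mul, c, Module.Basis.coord_apply]
  -- right invariance
  have hR : ∫ h, ∑ i, c i h * L (b i) h ∂μ = 0 := by
    obtain ⟨θ, hθ⟩ := X.2
    have hθ' : M.IsFlow (M.fn X) θ := hθ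
    refine integral_deriv_flow_eq_zero μ (fun t h => h * θ t)
      (continuous_snd.mul (hθ'.continuous.comp continuous_fst)) (fun h => by rw [hθ.zero, mul_one])
      (fun s t h => by rw [add_comm, hθ.add, mul_assoc])
      (fun t => measurePreserving_mul_right μ (θ t)) hF hFc
      (continuous_finset_sum _ fun i _ => (hc i).mul (hL _)) fun h => ?_
    rw [← hsum]
    have h1 := M.hasDerivAt_comp (ROpen.refl _) (M.hol_ap h) (hθ'.deriv _ hx0 0)
      (Eventually.of_forall fun s => M.ap_mem _ hx0)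
    have h2 := (hβd _).hasFDerivAt.comp_hasDerivAt (0 : ℝ) h1
    simp only [hθ.zero, M.ap_one hx0, ← M.fn_Adg h X hx0] at h2
    simp only [F, M.ap_mul _ _ hx0]
    exact h2
  -- left invariance
  let d : Fin (Module.finrank ℝ M.g) → M.Aut → ℝ := fun i h => b.coord i ⁅M.Adg h X, b i⁆
  have hd : ∀ i, Continuous (d i) := fun i => by
    have := M.continuous_lin_Adg (-(b.coord i).comp (LieAlgebra.ad ℝ M.g (b i))) X
    refine this.congr fun h => ?_
    simp only [d, LinearMap.neg_apply, LinearMap.comp_apply, LieAlgebra.ad_apply, ← map_neg,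
      lie_skew]
  have hLft : ∀ i, ∫ h, (d i h * F h + c i h * L (b i) h) ∂μ = 0 := by
    intro i
    obtain ⟨θ, hθ⟩ := (b i).2
    have hθ' : M.IsFlow (M.fn (b i)) θ := hθ
    refine integral_deriv_flow_eq_zero μ (fun t h => θ t * h)
      ((hθ'.continuous.comp continuous_fst).mul continuous_snd) (fun h => by rw [hθ.zero, one_mul])
      (fun s t h => by rw [hθ.add, mul_assoc]) (fun t => measurePreserving_mul_left μ (θ t))
      (F := fun h => c i h * F h) ((hc i).mul hF) hFc.mul_left
      (((hd i).mul hF).add ((hc i).mul (hL _))) fun h => ?_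
    have h1 := M.hasDerivAt_Adg hθ' (M.Adg h X) (b.coord i) 0
    rw [hθ.zero, M.Adg_one, ← map_neg, lie_skew] at h1
    have h2 := h1.fun_mul (dleft _ θ hθ' h)
    simp only [hθ.zero, M.Adg_one, one_mul] at h2
    simp only [c, M.Adg_mul]
    exact h2
  have htr : ∀ h, ∑ i, d i h = LinearMap.trace ℝ M.g (LieAlgebra.ad ℝ M.g X) := fun h => by
    have h1 : LieAlgebra.ad ℝ M.g (M.Adg h X) =
        (M.Adg h).toLinearEquiv.conj (LieAlgebra.ad ℝ M.g X) := by
      ext1 v
      have : v = M.Adg h ((M.Adg h).symm v) := ((M.Adg h).apply_symm_apply v).symm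
      rw [LinearEquiv.conj_apply_apply, LieAlgebra.ad_apply, LieAlgebra.ad_apply]
      conv_lhs => rw [this, ← LieEquiv.map_lie]
      rfl
    rw [← LinearMap.trace_conj' (LieAlgebra.ad ℝ M.g X) (M.Adg h).toLinearEquiv, ← h1,
      LinearMap.trace_eq_matrix_trace ℝ b, Matrix.trace]
    simp only [d, Matrix.diag_apply, LinearMap.toMatrix_apply, LieAlgebra.ad_apply,
      Module.Basis.coord_apply]
  have i1 : ∀ i, Integrable (fun h => d i h * F h) μ := fun i =>
    ((hd i).mul hF).integrable_of_hasCompactSupport hFc.mul_left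
  have i2 : ∀ i, Integrable (fun h => c i h * L (b i) h) μ := fun i =>
    ((hc i).mul (hL _)).integrable_of_hasCompactSupport (hLc _).mul_left
  have hfin : ∑ i, ∫ h, (d i h * F h + c i h * L (b i) h) ∂μ = 0 := Finset.sum_eq_zero fun i _ => hLft i
  rw [← integral_finset_sum (f := fun i h => d i h * F h + c i h * L (b i) h) _
    fun i _ => (i1 i).add (i2 i)] at hfin
  simp only [Finset.sum_add_distrib, ← Finset.sum_mul, htr] at hfin
  rw [integral_add (hF.integrable_of_hasCompactSupport hFc |>.const_mul _)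
    (integrable_finset_sum _ fun i _ => i2 i), hR, add_zero, integral_const_mul] at hfin
  exact (mul_eq_zero.1 hfin).resolve_right hFpos.ne'

theorem TMG.unimod (S : TMG) (X : S.toTM.g) :
    LinearMap.trace ℝ S.toTM.g (LieAlgebra.ad ℝ S.toTM.g X) = 0 := by
  obtain ⟨x0, hx0⟩ := S.conn.nonempty
  borelize (S.toTM.Aut : Type)
  let μ : Measure S.toTM.Aut := Measure.haar
  haveI : μ.IsMulRightInvariant := by
    refine isMulRightInvariant_of_lattice μ S.Γ (fun C' hC' => ?_)
      (S.toTM.isCompact_fib S.K_compact S.K_sub hx0) fun h => ?_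
    · refine (S.pd {x0} ((fun h => S.toTM.ap h x0) '' C') isCompact_singleton
        (singleton_subset_iff.2 hx0) (hC'.image (S.toTM.continuous_ap hx0)) ?_).subset ?_
      · rintro _ ⟨h, -, rfl⟩; exact S.toTM.ap_mem h hx0
      · rintro γ ⟨h1, h2⟩
        exact ⟨h1, S.toTM.ap γ x0, mem_image_of_mem _ rfl, mem_image_of_mem _ h2⟩
    · obtain ⟨γ, hγ, y, hy, e⟩ := S.cover _ (S.toTM.ap_mem h hx0)
      refine ⟨γ⁻¹, S.Γ.inv_mem hγ, ?_⟩
      change S.toTM.ap (γ⁻¹ * h) x0 ∈ S.K
      rwa [S.toTM.ap_mul _ _ hx0, ← e, S.toTM.ap_inv_ap γ (S.K_sub hy)]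
  exact S.toTM.trace_ad_eq_zero μ X

end Crest.Agent.R264
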