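import Crest.Agent.R264.P2
import Crest.Agent.R264.P5.MG1

/-! Row 264, P5 (interface): a model chart gives a good ideal. -/

set_option autoImplicit false
open Set Filter Topology Metric Complex

noncomputable section
namespace Crest.Agent.R264

/-- The ideal generated by the dilation field is good. -/
theorem TMG.good_of_chart (S : TMG) {r k : ℕ} (m : S.toTM.MChart r k) :
    S.toTM.Good (LieSubmodule.lieSpan ℝ S.toTM.g {m.A}) ∧
      m.Z ∈ LieSubmodule.lieSpan ℝ S.toTM.g {m.A} ∧
      ∀ ζ, m.Xn ζ ∈ LieSubmodule.lieSpan ℝ S.toTM.g {m.A} :=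
  S.good_of_chart' m

end Crest.Agent.R264
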