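import Crest.Agent.R264.P5
import Crest.Agent.R264.P5.MG2
import Crest.Agent.R264.Frame

/-! Row 264, P6 (interface): good ideals and their distributions. -/

set_option autoImplicit false
open Set Filter Topology Metric Complex

noncomputable section
namespace Crest.Agent.R264

namespace TM
variable (M : TM)

/-- Transport of ideals by automorphisms. -/
def AdI (h : M.Aut) (s : LieIdeal ℝ M.g) : LieIdeal ℝ M.g :=
  s.comap (M.Adg h⁻¹ : M.g →ₗ⁅ℝ⁆ M.g)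

theorem mem_AdI {h : M.Aut} {s : LieIdeal ℝ M.g} {X : M.g} :
    X ∈ M.AdI h s ↔ M.Adg h⁻¹ X ∈ s := Iff.rfl

theorem AdI_inv_AdI (h : M.Aut) (s : LieIdeal ℝ M.g) : M.AdI h⁻¹ (M.AdI h s) = s := by
  ext X
  rw [mem_AdI, mem_AdI, inv_inv, ← M.Adg_mul, inv_mul_cancel, M.Adg_one]

theorem AdI_AdI_inv (h : M.Aut) (s : LieIdeal ℝ M.g) : M.AdI h (M.AdI h⁻¹ s) = s := by
  simpa using M.AdI_inv_AdI h⁻¹ s

theorem h97_Adg_inv (h : M.Aut) (X : M.g) : M.Adg h (M.Adg h⁻¹ X) = X := by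
  rw [← M.Adg_mul, mul_inv_cancel, M.Adg_one]

theorem h97_inv_Adg (h : M.Aut) (X : M.g) : M.Adg h⁻¹ (M.Adg h X) = X := by
  rw [← M.Adg_mul, inv_mul_cancel, M.Adg_one]

theorem h97_D_ap_inj (h : M.Aut) {x v : CN M.N} (hx : x ∈ M.U) (hv : v ∈ M.T x)
    (h0 : M.D (M.ap h) x v = 0) : v = 0 := by
  rw [← M.D_ap_inv h hx hv, h0, map_zero]

/-- Transport along the Lie automorphism `Adg h` (`LieAlgebra.killingForm_of_equiv_apply`, `fn_Adg`,
`D_ap_inv`; every point of `U` is `ap h y`). -/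
theorem good_AdI (h : M.Aut) {s : LieIdeal ℝ M.g} (hs : M.Good s) : M.Good (M.AdI h s) := by
  have hmem : ∀ X ∈ s, M.Adg h X ∈ M.AdI h s := fun X hX => by
    rwa [mem_AdI, M.h97_inv_Adg]
  refine ⟨fun i h1 h2 => ?_, ?_, fun y hy => ?_⟩
  · have := hs.simple (i.comap ((M.Adg h).toLinearEquiv : M.g →ₗ[ℝ] M.g)) (fun X hX => by
      have := h1 _ hX
      change M.Adg h⁻¹ (M.Adg h X) ∈ s at this
      rwa [M.h97_inv_Adg] at this) (fun U hU X hX => by
      change M.Adg h ⁅U, X⁆ ∈ i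
      rw [LieEquiv.map_lie]
      exact h2 _ (hmem U hU) _ hX)
    rcases this with h3 | h3
    · refine Or.inl fun X hX => ?_
      have h4 : M.Adg h (M.Adg h⁻¹ X) ∈ i := h3 _ hX
      rwa [M.h97_Adg_inv] at h4
    · refine Or.inr (eq_bot_iff.2 fun X hX => ?_)
      have h4 : M.Adg h⁻¹ X ∈ i.comap ((M.Adg h).toLinearEquiv : M.g →ₗ[ℝ] M.g) := by
        change M.Adg h (M.Adg h⁻¹ X) ∈ i
        rwa [M.h97_Adg_inv]
      rw [h3, Submodule.mem_bot] at h4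
      rw [Submodule.mem_bot, ← M.h97_Adg_inv h X, h4, map_zero]
  · obtain ⟨X, hX, h0⟩ := hs.pos
    exact ⟨M.Adg h X, hmem X hX, by rwa [LieAlgebra.killingForm_of_equiv_apply]⟩
  · obtain ⟨x, hx, rfl⟩ : ∃ x ∈ M.U, M.ap h x = y := ⟨_, M.ap_mem h⁻¹ hy, M.ap_ap_inv h hy⟩
    obtain ⟨Z1, hZ, h1, h2, h3⟩ := hs.hs x hx
    refine ⟨M.Adg h Z1, hmem _ hZ, by rw [M.fn_Adg h _ hx, h1, map_zero], fun X hX => ?_,
      fun K hK h0 => ?_⟩
    · rw [← M.h97_Adg_inv h X, ← LieEquiv.map_lie, M.fn_Adg h _ hx, M.fn_Adg h _ hx,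
        h2 _ (M.mem_AdI.1 hX), map_smul]
    · rw [← M.h97_Adg_inv h K] at h0 ⊢
      rw [M.fn_Adg h _ hx] at h0
      rw [← LieEquiv.map_lie,
        h3 _ (M.mem_AdI.1 hK) (M.h97_D_ap_inj h hx (M.fn_mem_T _ hx) h0), map_zero]

/-- `D_Ad_zero` for the field `a₀ + I • b₀ ∈ M.VF`, `D_add_T`, `D_smul_T` (file `P5/MD`). -/
theorem dist_AdI (h : M.Aut) (s : LieIdeal ℝ M.g) {y v : CN M.N} (hy : y ∈ M.U)
    (hv : v ∈ M.Dist s y) : M.D (M.ap h) y v ∈ M.Dist (M.AdI h s) (M.ap h y) := by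
  have hw := M.D_ap_mem h hy hv.1
  refine ⟨hw, fun a ha b hb hab => ?_⟩
  obtain ⟨a, rfl⟩ : ∃ a₀, M.Adg h a₀ = a := ⟨_, M.h97_Adg_inv h a⟩
  obtain ⟨b, rfl⟩ : ∃ b₀, M.Adg h b₀ = b := ⟨_, M.h97_Adg_inv h b⟩
  rw [mem_AdI, M.h97_inv_Adg] at ha hb
  rw [M.fn_Adg h _ hy, M.fn_Adg h _ hy, ← map_smul, ← map_add] at hab
  have h0 := M.h97_D_ap_inj h hy
    (add_mem (M.fn_mem_T a hy) (Submodule.smul_mem _ I (M.fn_mem_T b hy))) hab
  have h1 := hv.2 a ha b hb h0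
  have h2 := M.D_Ad_zero h ((a : M.VF) + I • (b : M.VF)) hy hv.1 h0
  have e1 : (((a : M.VF) + I • (b : M.VF) : M.VF) : CN M.N → CN M.N) = M.fn a + I • M.fn b := rfl
  have e2 : ((M.Ad h ((a : M.VF) + I • (b : M.VF)) : M.VF) : CN M.N → CN M.N) =
      M.fn (M.Adg h a) + I • M.fn (M.Adg h b) := by
    rw [map_add, map_smul]
    rfl
  rw [e1, e2, M.D_add_T (M.hol_fn _) ((M.hol_fn _).const_smul I) (M.ap_mem h hy) hw,
    M.D_smul_T (M.hol_fn _) I (M.ap_mem h hy) hw,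
    M.D_add_T (M.hol_fn _) ((M.hol_fn _).const_smul I) hy hv.1,
    M.D_smul_T (M.hol_fn _) I hy hv.1, h1, map_zero] at h2
  exact h2

end TM

namespace TMG
variable (S : TMG)

/-- Good ideals are independent submodules (`Good.lie_eq_zero`, `Good.center`), all `≠ ⊥`
(`iSupIndep.finite_ne_bot_of_isNoetherian` / `WellFoundedGT.finite_ne_bot_of_iSupIndep`). -/
theorem good_finite : {s | S.toTM.Good s}.Finite := by
  have hind : iSupIndep fun s : {s : LieIdeal ℝ S.toTM.g // S.toTM.Good s} =>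
      s.1.toSubmodule := by
    intro s
    rw [Submodule.disjoint_def]
    intro X hX hX'
    refine s.2.center hX fun Y hY => ?_
    have hle : (⨆ t, ⨆ (_ : t ≠ s), t.1.toSubmodule) ≤
        LinearMap.ker (LieAlgebra.ad ℝ S.toTM.g Y) := by
      refine iSup₂_le fun t ht Z hZ => ?_
      exact s.2.lie_eq_zero t.2 (fun h => ht (Subtype.ext h.symm)) hY hZ
    have h1 : ⁅Y, X⁆ = 0 := hle hX'
    rw [← lie_skew, h1, neg_zero]
  have hfin := WellFoundedGT.finite_ne_bot_of_iSupIndep hind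
  refine (hfin.image Subtype.val).subset fun s hs => ⟨⟨s, hs⟩, fun h => ?_, rfl⟩
  obtain ⟨X, hX, h0⟩ := TM.Good.pos hs
  have h1 : X ∈ s.toSubmodule := hX
  change s.toSubmodule = ⊥ at h
  rw [h, Submodule.mem_bot] at h1
  simp [h1] at h0

/-- The values of a good ideal lie in the distribution of every other good ideal
(`fn_lie`, `Good.lie_eq_zero`). -/
theorem fn_mem_dist {s s' : LieIdeal ℝ S.toTM.g} (hs : S.toTM.Good s) (hs' : S.toTM.Good s')
    (hne : s ≠ s') {X : S.toTM.g} (hX : X ∈ s') {y : CN S.N} (hy : y ∈ S.U) :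
    S.toTM.fn X y ∈ S.toTM.Dist s y := by
  refine ⟨S.toTM.fn_mem_T X hy, fun a ha b hb hab => ?_⟩
  have key : ∀ c ∈ s, S.toTM.D (S.toTM.fn c) y (S.toTM.fn X y) =
      S.toTM.D (S.toTM.fn X) y (S.toTM.fn c y) := fun c hc => by
    have h1 := S.toTM.fn_lie c X hy
    rw [hs.lie_eq_zero hs' hne hc hX] at h1
    exact (sub_eq_zero.1 h1.symm).symm
  rw [key a ha, key b hb, ← map_smul, ← map_add, hab, map_zero]

/-- The distribution of a good ideal is a holomorphic subbundle (`Good.local_frame`; the rank is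
locally constant on the connected set `U`). -/
theorem dist_frame {s : LieIdeal ℝ S.toTM.g} (hs : S.toTM.Good s) :
    ∃ d : ℕ, ∀ y0 ∈ S.U, ∃ R, ROpen S.U R ∧ y0 ∈ R ∧ ∃ Ξ : Fin d → CN S.N → CN S.N,
      (∀ l, Hol R (Ξ l)) ∧ ∀ y ∈ R, LinearIndependent ℂ (fun l => Ξ l y) ∧
        Submodule.span ℂ (range fun l => Ξ l y) = S.toTM.Dist s y := by
  have hc : ContinuousOn (fun y => Module.finrank ℂ (S.toTM.Dist s y)) S.U := by
    intro y0 hy0
    obtain ⟨R, hR, h0, Ξ, -, h⟩ := hs.local_frame hy0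
    refine (continuousWithinAt_const (b := Module.finrank ℂ (S.toTM.Dist s y0))).congr_of_eventuallyEq
      ?_ rfl
    filter_upwards [hR.2 y0 h0] with y hy
    rw [← (h y hy).2, finrank_span_eq_card (h y hy).1, Fintype.card_fin]
  obtain ⟨x, hx⟩ := S.conn.nonempty
  refine ⟨Module.finrank ℂ (S.toTM.Dist s x), fun y0 hy0 => ?_⟩
  rw [S.conn.isPreconnected.constant hc hx hy0]
  exact hs.local_frame hy0

/-- The distribution in a model chart. -/
theorem dist_model {r k : ℕ} (m : S.toTM.MChart r k) {t : CN k} (ht : t ∈ ball m.t0 m.R)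
    (v : CN S.N) :
    v ∈ S.toTM.Dist (LieSubmodule.lieSpan ℝ S.toTM.g {m.A}) (m.ψ (I, 0, t)) ↔
      ∃ e : CN k, (∀ i j, fderiv ℂ (fun t' => m.κ t' i j) t e = 0) ∧
        v = fderiv ℂ m.ψ (I, 0, t) (0, 0, e) :=
  S.dist_model' m ht v

theorem p6_val_le_dist {s s' : LieIdeal ℝ S.toTM.g} (hs : S.toTM.Good s) (hs' : S.toTM.Good s')
    (hne : s ≠ s') {y : CN S.N} (hy : y ∈ S.U) : S.toTM.val s' y ≤ S.toTM.Dist s y := by
  refine Submodule.span_le.2 ?_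
  rintro _ ⟨X, hX, rfl⟩
  exact S.fn_mem_dist hs hs' hne hX hy

theorem p6_sum_erase_mem [Fintype {s // S.toTM.Good s}] [DecidableEq {s // S.toTM.Good s}]
    {y : CN S.N} (hy : y ∈ S.U)
    (a : {s // S.toTM.Good s} → CN S.N) (ha : ∀ s, a s ∈ S.toTM.val s.1 y)
    (s : {s // S.toTM.Good s}) : ∑ s' ∈ Finset.univ.erase s, a s' ∈ S.toTM.Dist s.1 y :=
  Submodule.sum_mem _ fun s' hs' => S.p6_val_le_dist s.2 s'.2
    (fun e => (Finset.ne_of_mem_erase hs').symm (Subtype.ext e)) hy (ha s')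

theorem p6_sub_sum_mem [Fintype {s // S.toTM.Good s}] {y v : CN S.N} (hy : y ∈ S.U)
    (hv : v ∈ S.toTM.T y) (a : {s // S.toTM.Good s} → CN S.N) (ha : ∀ s, a s ∈ S.toTM.val s.1 y)
    (hd : ∀ s, v - a s ∈ S.toTM.Dist s.1 y) : v - ∑ s, a s ∈ S.toTM.DistAll y := by
  classical
  refine Submodule.mem_inf.2 ⟨sub_mem hv (Submodule.sum_mem _ fun s _ =>
    S.toTM.val_le_T s.1 hy (ha s)), (Submodule.mem_iInf _).2 fun s => ?_⟩
  rw [← Finset.add_sum_erase _ _ (Finset.mem_univ s), ← sub_sub]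
  exact sub_mem (hd s) (S.p6_sum_erase_mem hy a ha s)

theorem p6_sum_eq_zero [Fintype {s // S.toTM.Good s}] {y : CN S.N} (hy : y ∈ S.U)
    (a : {s // S.toTM.Good s} → CN S.N) (ha : ∀ s, a s ∈ S.toTM.val s.1 y)
    (hd : ∑ s, a s ∈ S.toTM.DistAll y) : ∑ s, a s = 0 := by
  classical
  refine Finset.sum_eq_zero fun s _ => s.2.disjoint hy (ha s) ?_
  have h1 : ∑ s, a s ∈ S.toTM.Dist s.1 y := (Submodule.mem_iInf _).1 (Submodule.mem_inf.1 hd).2 s
  rw [← Finset.add_sum_erase _ _ (Finset.mem_univ s)] at h1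
  simpa using sub_mem h1 (S.p6_sum_erase_mem hy a ha s)

/-- If the common distribution vanishes at a point, there is a complex structure element.
Choose `Z_s` by `Good.split` for the finitely many good `s`; `a_s = -I • D Z_s v ∈ val s`,
`val s ≤ Dist s'` for `s ≠ s'` (`fn_mem_dist`), so `v - ∑ a_s ∈ DistAll = ⊥`; `Z1 = -∑ Z_s`
(`fn_sum`, `D_fn_sum`, `D_fn_neg`), `Good.mem_val`. -/
theorem of_distAll_eq_bot {y0 : CN S.N} (hy0 : y0 ∈ S.U) (h : S.toTM.DistAll y0 = ⊥) :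
    (∀ v ∈ S.toTM.T y0, ∃ X : S.toTM.g, S.toTM.fn X y0 = v) ∧ ∃ Z1 : S.toTM.g,
      S.toTM.fn Z1 y0 = 0 ∧ ∀ v ∈ S.toTM.T y0, S.toTM.D (S.toTM.fn Z1) y0 v = -I • v := by
  have : Fintype {s // S.toTM.Good s} := S.good_finite.fintype
  choose Z _ hZ0 hZv hZI hZd using fun s : {s // S.toTM.Good s} => s.2.split hy0
  have hval : ∀ v ∈ S.toTM.T y0, ∀ s : {s // S.toTM.Good s},
      -I • S.toTM.D (S.toTM.fn (Z s)) y0 v ∈ S.toTM.val s.1 y0 := fun v hv s =>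
    Submodule.smul_mem _ _ (hZv s v hv)
  have key : ∀ v ∈ S.toTM.T y0, v = ∑ s, -I • S.toTM.D (S.toTM.fn (Z s)) y0 v := by
    intro v hv
    have h1 := S.p6_sub_sum_mem hy0 hv _ (hval v hv) fun s => by
      rw [hZd s _ (sub_mem hv (S.toTM.val_le_T s.1 hy0 (hval v hv s))), map_sub,
        hZI s _ (hval v hv s), smul_smul]
      simp
    rw [h, Submodule.mem_bot, sub_eq_zero] at h1
    exact h1
  refine ⟨fun v hv => ?_, -∑ s, Z s, ?_, fun v hv => ?_⟩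
  · choose X _ hX using fun s : {s // S.toTM.Good s} => (s.2.mem_val hy0 _).1 (hval v hv s)
    refine ⟨∑ s, X s, ?_⟩
    rw [S.toTM.fn_sum]
    simp only [hX]
    exact (key v hv).symm
  · have h1 : S.toTM.fn (∑ s, Z s) y0 = 0 := by
      rw [S.toTM.fn_sum]
      exact Finset.sum_eq_zero fun s _ => hZ0 s
    change -(S.toTM.fn (∑ s, Z s) y0) = 0
    rw [h1, neg_zero]
  · rw [S.toTM.D_fn_neg _ hy0 hv, S.toTM.D_fn_sum _ _ hy0 hv]
    conv_rhs => rw [key v hv, ← Finset.smul_sum, smul_smul]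
    simp

end TMG

/-- If the common distribution is nowhere zero it contains a nonzero global field.
With `Good.exists_proj`, `η_j x = ξ_j x - ∑_s Pr_s x (ξ_j x) ∈ DistAll x` is holomorphic on `U`
(`xi_mem_T`).  At a point `x` with `dv x ≠ 0` not all `η_j x` vanish: otherwise
`T x ≤ ⨆ val s x` (`mem_Tan_iff`) and `DistAll x = ⊥` (`Good.disjoint`, `fn_mem_dist`).
Put `c i x = fderiv pr x (η_j x) i`; `∑ c i x • ξ_i x = dv x • η_j x` where `dv ≠ 0` (`smul_eq_sum`), so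
everywhere on `U` (`eqOn_of_ropen`). -/
theorem Setup.dist_field (S : Setup) (h : ∀ y ∈ S.U, S.toTM.DistAll y ≠ ⊥) :
    ∃ c : Fin S.n → CN S.N → ℂ, (∀ i, Hol S.U (c i)) ∧ (∃ x ∈ S.U, ∃ i, c i x ≠ 0) ∧
      ∀ x ∈ S.U, ∑ i, c i x • S.F.xi i x ∈ S.toTM.DistAll x := by
  have : Fintype {s // S.toTM.Good s} := S.toTMG.good_finite.fintype
  choose Pr hPr hPrH using fun s : {s // S.toTM.Good s} => s.2.exists_proj
  have hξT : ∀ j, ∀ x ∈ S.U, S.F.xi j x ∈ S.toTM.T x := fun j x hx => S.toTM.xi_mem_T S.F j hx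
  have hξH : ∀ j, Hol S.U (S.F.xi j) := fun j => Hol.of_differentiable (S.F.differentiable_xi j)
  set η : Fin S.n → CN S.N → CN S.N := fun j x => S.F.xi j x - ∑ s, Pr s x (S.F.xi j x) with hη
  have hηD : ∀ j, ∀ x ∈ S.U, η j x ∈ S.toTM.DistAll x := fun j x hx =>
    S.toTMG.p6_sub_sum_mem hx (hξT j x hx) _ (fun s => (hPr s x hx _ (hξT j x hx)).1)
      fun s => (hPr s x hx _ (hξT j x hx)).2
  have hηH : ∀ j, Hol S.U (η j) := fun j =>
    (hξH j).sub (Hol.sum _ fun s _ => hPrH s _ (ROpen.refl _) _ (hξH j) (hξT j))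
  have hηT : ∀ j, ∀ x ∈ S.U, η j x ∈ Tan S.F.V x := fun j x hx => by
    rw [← S.F.Tan_eq hx]
    exact (Submodule.mem_inf.1 (hηD j x hx)).1
  obtain ⟨x0, hx0, hd0⟩ := S.F.exists_dv_ne
  obtain ⟨j, hj⟩ : ∃ j, η j x0 ≠ 0 := by
    by_contra hcon
    push Not at hcon
    refine h x0 hx0 ((Submodule.eq_bot_iff _).2 fun v hv => ?_)
    have hvT : v ∈ Tan S.F.V x0 := by
      rw [← S.F.Tan_eq hx0]
      exact (Submodule.mem_inf.1 hv).1
    obtain ⟨c, hc⟩ := (S.F.mem_Tan_iff (S.F.ropen.1 hx0) hd0).1 hvT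
    have e : v = ∑ s, ∑ j, c j • Pr s x0 (S.F.xi j x0) := by
      rw [hc, Finset.sum_comm]
      refine Finset.sum_congr rfl fun j _ => ?_
      rw [← Finset.smul_sum]
      exact congrArg _ (sub_eq_zero.1 (hcon j))
    rw [e] at hv ⊢
    exact S.toTMG.p6_sum_eq_zero hx0 _ (fun s => Submodule.sum_mem _ fun j _ =>
      Submodule.smul_mem _ _ (hPr s x0 hx0 _ (hξT j x0 hx0)).1) hv
  have hcH : ∀ i, Hol S.U (fun x => fderiv ℂ S.F.pr x (η j x) i) := fun i =>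
    ((Hol.of_differentiable (f := fun x => fderiv ℂ S.F.pr x) fun x =>
      (A.analyticAt_pmap S.F.π x).fderiv.differentiableAt).clm_apply (hηH j)).apply i
  refine ⟨fun i x => fderiv ℂ S.F.pr x (η j x) i, hcH, ⟨x0, hx0, ?_⟩, fun x hx => ?_⟩
  · by_contra hcon
    push Not at hcon
    have h1 := S.F.smul_eq_sum (S.F.ropen.1 hx0) hd0 (hηT j x0 hx0)
    simp only [hcon, zero_smul, Finset.sum_const_zero] at h1
    exact hj ((smul_eq_zero.1 h1).resolve_left hd0)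
  · have h1 : EqOn (fun x => ∑ i, fderiv ℂ S.F.pr x (η j x) i • S.F.xi i x)
        (fun x => S.F.dv x • η j x) S.U :=
      S.toTM.eqOn_of_ropen
        (ROpen.inter_open S.U (isOpen_ne_fun S.F.differentiable_dv.continuous continuous_const))
        ⟨x0, hx0, hd0⟩ (Hol.sum _ fun i _ => (hcH i).smul (hξH i))
        ((Hol.of_differentiable S.F.differentiable_dv).smul (hηH j))
        fun y hy => (S.F.smul_eq_sum (S.F.ropen.1 hy.1) hy.2 (hηT j y hy.1)).symm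
    have h2 := h1 hx
    simp only at h2
    rw [h2]
    exact Submodule.smul_mem _ _ (hηD j x hx)

end Crest.Agent.R264
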