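/-!
# Row 264 (S0402): plan of the proof (helper76)

E = Fin N → ℂ, U ⊆ E.  "Hol U f" = locally restriction of an ambient holomorphic map.  D_v f = derivative
within U.  H = Aut(U), g = generators of one-parameter subgroups of H.  bracket [X,Y] = DY(X) - DX(Y).

## P0 (smoothness)
I = ideal of polys vanishing on U, minimal primes p_i, Noether projection π_i, discriminant D_i.
(EQ) for x ∈ U there is a nbhd N with pseudo-hyperbolic dist(f x, f y) ≤ 1/2 for y ∈ N and ALL Hol f, |f|<1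
 (elementary symmetric functions of g = Möbius∘f over the π-fibre inside N are bounded holomorphic on
 (line through π x) minus finite set, vanish at π x; Schwarz; roots small; density of unramified points by
 lying over).  (UP) a nonempty Γ-invariant set Z is a uniqueness set for polynomials (sup|P| ≤ m(1+η) sup|P|, m<1).
Z = non-manifold points ⊆ {D_1 Π P_i = 0}, so Z = ∅.  U is a connected n-manifold, open in V1 = V(p),
with algebraic frame (π, D, ξ_i): D·dx = Σ ξ_i dπ_i.  (T) tautness from cocompactness + Cauchy estimates.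
## P1  Montel along ultrafilters, identity theorem, Riemann extension, properness of H, Cartan uniqueness
(average F_m = (1/m)Σ ℓ∘h^i), criterion (C): h_j ∈ H, (h_j - id)/τ_j → X ⇒ X ∈ g (θ_t = ulim h_j^[t/τ_j]);
g is a finite-dim real Lie algebra (1-jets); X(y)=0 ⇒ ad X skew for a positive form; lemma (E): [X,Y]=0,
Y(y) = cX(y), c ∉ ℝ ⇒ X(y)=0; EXT: a flow on R, U \ R ⊆ {h=0}, extends to an element of g.
## P2  tr ad X = 0: Haar μ on H, cutoff ρ with Σ_γ ρ(γ h)=1 gives right invariance; F(h)=β(h x0),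
0 = ∫ R_E F = Σ ∫ c^b L_b F = τ(E) ∫ F, c(h) = Ad(h)E.
## P3  boundary.  Good side (p,ρ): ρ real poly, dρ≠0, ∂U∩O ⊆ {ρ=0}, {ρ>0}∩O ⊆ U, M∩U=∅.  Non-good boundary points
off {D=0} lie in countably many real codim-2 submanifolds.  Levi form semidefinite (T).  At points of maximal
Levi rank r: slice {t = t_p}, leaves L_a = {ϱ(x,η_a)=0, ϱ_{η'}(x,η_a) = π(a) ϱ_{η0}(x,η_a)}, and L_a ⊆ M near p
(Hamilton-Jacobi: Ψ_{t'} = Ξ(Ψ,Ψ_{z'},z',t'), characteristics, Gronwall).  Baire-generic a0: not in the frontier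
of the closure of {a | L_a∩O ⊆ ∂U}, {a | L_a∩O∩Good = ∅}, O rational balls.
## P4  scaling.  w_a = -ϱ/ϱ_0, z_a = ϱ'/(2iϱ_0), κ = second η'-derivative: rational in x.  On L_{a⊕(σ,ζ)}:
z = ζ+κ ζbar+.., w = σ+i|ζ|²+iκ(ζbar,ζbar)+..  Model W = {Im w > Q_κ(z)}, Q_κ(ζ+κ ζbar) = Re(ζbar·z).
x_j → a0 (any approach), x_j = γ_j k_j, φ = ulim γ_j, Φ_j = (w/ε_j, z/√ε_j, t)∘γ_j.  R = {y : φ y ∈ L♯, Φ_j y → W}.
Normality by Harnack for -ε/w; Hurwitz: Φ local biholo; (φ,Φ) injective; SURJ on fibres by (T) on good fibres +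
density; R closed in U* = U \ {h=0}: degenerate wall excluded because f = (Jac Φ)²(Z^i)^{r+2} is holomorphic on R
with |f| ≤ C det(1-κ*κ) → 0 (zero-boundary lemma f/ζ^m) or, if R dense, max modulus for κ u0.  EXT gives
A = (w,z/2,0), Z = (1,0,0), X_ζ = (2i ζbar·z, ζ+κ ζbar, 0) ∈ g and a chart ψ : W_T → U, proper over T.
## P5  graded Lie algebra: ad Z nilpotent, polynomial in w, Euler equation ⇒ g = ⊕ g_μ, μ ∈ ½ℤ≥-1; tangency ⇒
slice coefficient α0 real; (E) ⇒ g_μ=0 for μ>1, dim g_1 ≤ 1; tr ad A = 0 ⇒ Z⁺, [Z,Z⁺]=2A.  s = ideal generated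
by A is GOOD: proper ideals central, Killing ≠ 0, s(y) complex for all y.
## P6  Koszul from Carathéodory extremals at ONE point x, for every subalgebra h with h(x) complex:
ψ(W) = Im tr N(W), df∘N(P) = d(Pf), ψ([X,X']) ≥ 4|Xf|² if X'(x)=iX(x).  ⇒ centre 0, Killing nondegenerate,
Z0 with centraliser ⊆ k, Cartan t ⊆ k, roots Δk ⊔ Δ±, Δ+ noncompact (ψ for su(2)), sign rule ⇒ [m+,m+]=0,
Z1 ∈ k with ev[Z1,X] = i ev X, [Z1,k]=0, B>0 on p.  Dist_s(y) = {v : D_v Y = 0 for Y ∈ s^ℂ, Y(y)=0}, T = s(y) ⊕ Dist.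
## P7  if ∩ Dist ≠ 0 everywhere: in a model chart Dist_s(i,0,t) = 0⊕0⊕ker dκ; compactness + connectedness give,
near a generic a0, one s with bounded frames ξ_l of Dist_s on O⁺ and ξ·∂ϱ → 0 on M; wedge in M^ℂ + half-disc
uniqueness: ξ(u)·ϱ_u(u,v) = 0 on an open part of M^ℂ; linear disjointness over F = algebraic elements of
Frac O(U_D) gives ONE algebraic field η ≠ 0 complex tangent to all good sides; real flows of η, iη avoid the
codim-2 set generically, (T) makes them complete, EXT + (E) give η = 0.  So Σ s(y0) = T at one point.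
## P8  orbit closed + distance minimisation ⇒ transitive; circle action of Σ Z1, averaging Ψ, Fourier/Poisson
discs + (T) ⇒ Ψ injective immersion; D = Ψ(U), involutions conjugate to -id.
-/
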