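import Crest.Agent.R264.QAlgAux
import Crest.Agent.R264.Defs

/-! Row 264, P4: algebra of the model quadratic forms. -/

set_option autoImplicit false
open Set Filter Topology Metric Complex
open scoped Matrix

noncomputable section
namespace Crest.Agent.R264
variable {r : ℕ} {κ : Matrix (Fin r) (Fin r) ℂ}

/-- The dual quadratic form `|u|² + Re κ(ubar, ubar)`. -/
def qf (κ : Matrix (Fin r) (Fin r) ℂ) (u : CN r) : ℝ := (star u ⬝ᵥ bz κ u).re

/-- The normal coordinate attached to the boundary point with parameter `u`. -/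
def wu (κ : Matrix (Fin r) (Fin r) ℂ) (u : CN r) (w : ℂ) (z : CN r) : ℂ :=
  w - 2 * I * (star u ⬝ᵥ z) + I * (star u ⬝ᵥ bz κ u)

theorem bz_add (κ : Matrix (Fin r) (Fin r) ℂ) (u v : CN r) : bz κ (u + v) = bz κ u + bz κ v := by
  exact (QAlg.bzL κ).map_add u v

theorem bz_smul (κ : Matrix (Fin r) (Fin r) ℂ) (s : ℝ) (u : CN r) : bz κ (s • u) = s • bz κ u := by
  exact (QAlg.bzL κ).map_smul s u

theorem qf_smul (κ : Matrix (Fin r) (Fin r) ℂ) (s : ℝ) (u : CN r) :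
    qf κ (s • u) = s ^ 2 * qf κ u := by
  change QAlg.H _ _ = _ * QAlg.H _ _
  rw [bz_smul, QAlg.H_smul_left, QAlg.H_smul_right]
  ring

theorem Qk_zero (κ : Matrix (Fin r) (Fin r) ℂ) : Qk κ 0 = 0 := by
  simp [Qk]

theorem Qk_smul (κ : Matrix (Fin r) (Fin r) ℂ) (s : ℝ) (z : CN r) :
    Qk κ (s • z) = s ^ 2 * Qk κ z := by
  have : bzInv κ (s • z) = s • bzInv κ z := by
    rw [bzInv, bzInv, star_smul, star_trivial, Matrix.mulVec_smul, ← smul_sub, Matrix.mulVec_smul]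
  change QAlg.H _ _ = _ * QAlg.H _ _
  rw [this, QAlg.H_smul_left, QAlg.H_smul_right]
  ring

theorem small_zero : Small (0 : Matrix (Fin r) (Fin r) ℂ) := by
  refine QAlg.small_iff_T.2 ⟨Matrix.isSymm_zero, fun u hu => ?_⟩
  simpa [QAlg.T, QAlg.H] using QAlg.H_pos hu

theorem Small.bz_bzInv (h : Small κ) (z : CN r) : bz κ (bzInv κ z) = z := by
  obtain ⟨u, rfl⟩ := QAlg.bz_surj h z
  rw [QAlg.inv_bz h]

theorem Small.bzInv_bz (h : Small κ) (u : CN r) : bzInv κ (bz κ u) = u := by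
  exact QAlg.inv_bz h u

theorem Small.Qk_bz (h : Small κ) (u : CN r) : Qk κ (bz κ u) = qf κ u := by
  rw [Qk, h.bzInv_bz, qf]

theorem small_iff : Small κ ↔ κ.IsSymm ∧ ∀ u, u ≠ 0 → 0 < qf κ u := by
  exact QAlg.small_iff_H

theorem Small.qf_single_le (h : Small κ) (i : Fin r) : qf κ (Pi.single i 1) ≤ 2 := by
  have h1 := (QAlg.small_iff_H.1 h).2 (I • Pi.single i 1) (smul_ne_zero I_ne_zero (by simp))
  have h2 : QAlg.H (Pi.single i 1 : CN r) (Pi.single i 1) = 1 := by simp [QAlg.H]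
  change QAlg.H _ _ ≤ _
  rw [QAlg.H_bz_I] at h1
  rw [QAlg.H_bz]
  linarith

theorem Small.Qk_add_bz (h : Small κ) (z u : CN r) :
    Qk κ (z + bz κ u) = Qk κ z + 2 * (star u ⬝ᵥ z).re + qf κ u := by
  obtain ⟨v, rfl⟩ := QAlg.bz_surj h z
  rw [← bz_add, h.Qk_bz, h.Qk_bz]
  change QAlg.H _ _ = QAlg.H _ _ + 2 * QAlg.H _ _ + QAlg.H _ _
  simp only [QAlg.H_bz, QAlg.T_add, QAlg.H_add_left, QAlg.H_add_right, QAlg.H_comm v u,
    QAlg.H_T_comm h.1 v u]
  ring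

theorem Small.im_wu (h : Small κ) (u : CN r) (w : ℂ) (z : CN r) :
    (wu κ u w z).im = w.im - Qk κ z + Qk κ (z - bz κ u) := by
  have := h.Qk_add_bz z ((-1 : ℝ) • u)
  rw [bz_smul, qf_smul, neg_one_smul, neg_one_smul, ← sub_eq_add_neg] at this
  rw [this]
  simp [wu, qf]
  ring

theorem Small.exists_bounds (h : Small κ) :
    ∃ c > 0, ∃ C : ℝ, ∀ z, c * ‖z‖ ^ 2 ≤ Qk κ z ∧ Qk κ z ≤ C * ‖z‖ ^ 2 := by
  have hc : ContinuousOn (Qk κ) (sphere 0 1) := fun z _ =>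
    (ContinuousAt.comp (f := fun z => (κ, z)) (QAlg.continuousAt_Qk h z)
      (by fun_prop)).continuousWithinAt
  obtain ⟨c, hc0, h1⟩ := (isCompact_sphere (0 : CN r) 1).exists_forall_le' hc (a := 0)
    fun z hz => by
      obtain ⟨u, rfl⟩ := QAlg.bz_surj h z
      rw [h.Qk_bz]
      refine (small_iff.1 h).2 u ?_
      rintro rfl
      simp [bz] at hz
  obtain ⟨C, h2⟩ := (isCompact_sphere (0 : CN r) 1).exists_bound_of_continuousOn hc
  refine ⟨c, hc0, C, fun z => ?_⟩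
  rcases eq_or_ne z 0 with rfl | hz
  · simp [Qk_zero]
  obtain ⟨u, hu, e⟩ := QAlg.exists_sphere z hz
  have : Qk κ z = ‖z‖ ^ 2 * Qk κ u := by rw [← Qk_smul, ← e]
  rw [this, mul_comm c, mul_comm C]
  exact ⟨mul_le_mul_of_nonneg_left (h1 u hu) (sq_nonneg _),
    mul_le_mul_of_nonneg_left ((le_abs_self _).trans (h2 u hu)) (sq_nonneg _)⟩

theorem Small.Qk_nonneg (h : Small κ) (z : CN r) : 0 ≤ Qk κ z := by
  obtain ⟨c, hc, C, h1⟩ := h.exists_bounds
  exact le_trans (by positivity) (h1 z).1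

theorem Small.exists_bz_lower (h : Small κ) : ∃ c > 0, ∀ u, c * ‖u‖ ≤ ‖bz κ u‖ := by
  obtain ⟨K, hK, h1⟩ := (QAlg.bzL κ).exists_antilipschitzWith
    (LinearMap.ker_eq_bot.2 (QAlg.bzL_inj h))
  exact ⟨(K : ℝ)⁻¹, inv_pos.2 hK, fun u =>
    (inv_mul_le_iff₀ (NNReal.coe_pos.2 hK)).2 (ZeroHomClass.bound_of_antilipschitz _ h1 u)⟩

theorem Small.convex_fibre (h : Small κ) : Convex ℝ {p : ℂ × CN r | Qk κ p.2 < p.1.im} := by
  rintro ⟨w, z⟩ h1 ⟨w', z'⟩ h2 a b ha hb hab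
  obtain ⟨u, rfl⟩ := QAlg.bz_surj h z'
  have e1 := h.Qk_add_bz (a • z) (b • u)
  have e2 := h.Qk_add_bz z ((-1 : ℝ) • u)
  have e3 := h.Qk_nonneg (z + bz κ ((-1 : ℝ) • u))
  change _ = _ + 2 * QAlg.H _ _ + _ at e1 e2
  rw [QAlg.H_smul_left, qf_smul] at e1 e2
  rw [QAlg.H_smul_right, Qk_smul, bz_smul] at e1
  change Qk κ z < w.im at h1
  change Qk κ (bz κ u) < w'.im at h2
  change Qk κ (a • z + b • bz κ u) < (a • w + b • w').im
  rw [h.Qk_bz] at h2
  have e5 : 0 < a • (w.im - Qk κ z) + b • (w'.im - qf κ u) :=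
    convex_Ioi (𝕜 := ℝ) (0 : ℝ) (sub_pos.2 h1) (sub_pos.2 h2) ha hb hab
  rw [smul_eq_mul, smul_eq_mul] at e5
  obtain rfl : b = 1 - a := by linarith
  rw [e1, add_im, smul_im, smul_im, smul_eq_mul, smul_eq_mul]
  nlinarith [mul_nonneg (mul_nonneg ha hb) e3]

theorem Small.eventually {α : Type*} {l : Filter α} {K : α → Matrix (Fin r) (Fin r) ℂ}
    (h : Small κ) (hK : ∀ i j, Tendsto (fun a => K a i j) l (𝓝 (κ i j)))
    (hs : ∀ᶠ a in l, (K a).IsSymm) : ∀ᶠ a in l, Small (K a) := by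
  have ht : Tendsto K l (𝓝 κ) := tendsto_pi_nhds.2 fun i => tendsto_pi_nhds.2 (hK i)
  have hc : Continuous fun p : Matrix (Fin r) (Fin r) ℂ × CN r => qf p.1 p.2 :=
    continuous_re.comp (continuous_snd.star.dotProduct (continuous_snd.add
      (continuous_fst.matrix_mulVec continuous_snd.star)))
  have := (isCompact_sphere (0 : CN r) 1).eventually_forall_of_forall_eventually (x₀ := κ)
    (P := fun K u => 0 < qf K u) fun u hu => continuousAt_const.eventually_lt hc.continuousAt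
      ((small_iff.1 h).2 u (by rintro rfl; simp at hu))
  filter_upwards [hs, ht.eventually this] with a h1 h2
  refine small_iff.2 ⟨h1, fun z hz => ?_⟩
  obtain ⟨u, hu, e⟩ := QAlg.exists_sphere z hz
  rw [e, qf_smul]
  exact mul_pos (pow_pos (norm_pos_iff.2 hz) 2) (h2 u hu)

theorem Small.tendsto_Qk {α : Type*} {l : Filter α} {K : α → Matrix (Fin r) (Fin r) ℂ}
    (h : Small κ) (hK : ∀ i j, Tendsto (fun a => K a i j) l (𝓝 (κ i j))) {z : α → CN r} {z0 : CN r}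
    (hz : Tendsto z l (𝓝 z0)) : Tendsto (fun a => Qk (K a) (z a)) l (𝓝 (Qk κ z0)) := by
  have ht : Tendsto K l (𝓝 κ) := tendsto_pi_nhds.2 fun i => tendsto_pi_nhds.2 (hK i)
  exact Tendsto.comp (f := fun a => (K a, z a)) (QAlg.continuousAt_Qk h z0) (ht.prodMk_nhds hz)

end Crest.Agent.R264
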