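import Crest.Agent.R264.Defs

/-! Row 264, P4: auxiliary real bilinear algebra for `QAlg.lean`. -/

set_option autoImplicit false
open Set Filter Topology Metric Complex
open scoped Matrix ComplexOrder

noncomputable section
namespace Crest.Agent.R264.QAlg
variable {r : ℕ} {κ : Matrix (Fin r) (Fin r) ℂ}

/-- the real inner product -/
def H (u v : CN r) : ℝ := (star u ⬝ᵥ v).re

/-- the antilinear map attached to `κ` -/
def T (κ : Matrix (Fin r) (Fin r) ℂ) (u : CN r) : CN r := κ *ᵥ star u

theorem H_comm (u v : CN r) : H u v = H v u := by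
  rw [H, H, Matrix.star_dotProduct]
  exact conj_re _

theorem H_add_left (u v w : CN r) : H (u + v) w = H u w + H v w := by
  simp [H]

theorem H_add_right (u v w : CN r) : H u (v + w) = H u v + H u w := by
  simp [H]

theorem H_sub_left (u v w : CN r) : H (u - v) w = H u w - H v w := by
  simp [H]

theorem H_sub_right (u v w : CN r) : H u (v - w) = H u v - H u w := by
  simp [H]

theorem H_smul_left (s : ℝ) (u v : CN r) : H (s • u) v = s * H u v := by
  simp [H]

theorem H_smul_right (s : ℝ) (u v : CN r) : H u (s • v) = s * H u v := by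
  simp [H]

theorem H_self (u : CN r) : star u ⬝ᵥ u = H u u :=
  Complex.ext rfl (Complex.nonneg_iff.1 (dotProduct_star_self_nonneg u)).2.symm

theorem H_nonneg (u : CN r) : 0 ≤ H u u := (Complex.nonneg_iff.1 (dotProduct_star_self_nonneg u)).1

theorem H_pos {u : CN r} (hu : u ≠ 0) : 0 < H u u :=
  (Complex.pos_iff.1 (Matrix.dotProduct_star_self_pos_iff.2 hu)).1

theorem T_add (u v : CN r) : T κ (u + v) = T κ u + T κ v := by
  simp [T, Matrix.mulVec_add]

theorem T_sub (u v : CN r) : T κ (u - v) = T κ u - T κ v := by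
  simp [T, Matrix.mulVec_sub]

theorem H_T_comm (h : κ.IsSymm) (u v : CN r) : H u (T κ v) = H v (T κ u) := by
  rw [H, H, T, T, Matrix.dotProduct_mulVec, ← Matrix.mulVec_transpose, h.eq, dotProduct_comm]

theorem H_bz (u v : CN r) : H u (bz κ v) = H u v + H u (T κ v) := H_add_right _ _ _

theorem H_bz_I (u : CN r) : H (I • u) (bz κ (I • u)) = H u u - H u (T κ u) := by
  simp [H, T, bz, Matrix.mulVec_smul, Matrix.mulVec_neg, sub_eq_add_neg]

theorem small_iff_T : Small κ ↔ κ.IsSymm ∧ ∀ u, u ≠ 0 → H (T κ u) (T κ u) < H u u := by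
  have e : ∀ u : CN r, star (star u) ⬝ᵥ (1 - κᴴ * κ) *ᵥ star u =
      ((H u u - H (T κ u) (T κ u) : ℝ) : ℂ) := fun u => by
    rw [Matrix.sub_mulVec, Matrix.one_mulVec, ← Matrix.mulVec_mulVec, dotProduct_sub,
      Matrix.dotProduct_mulVec, ← Matrix.star_mulVec, star_star, dotProduct_comm, H_self, H_self,
      ofReal_sub, T]
  refine and_congr_right fun _ => ⟨fun h u hu => ?_, fun h => .of_dotProduct_mulVec_pos
    (Matrix.isHermitian_one.sub (Matrix.isHermitian_conjTranspose_mul_self κ)) fun x hx => ?_⟩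
  · have := h.dotProduct_mulVec_pos (x := star u) (by simpa using hu)
    rwa [e, zero_lt_real, sub_pos] at this
  · rw [← star_star x, e, zero_lt_real, sub_pos]
    exact h _ (by simpa using hx)

theorem small_iff_H : Small κ ↔ κ.IsSymm ∧ ∀ u, u ≠ 0 → 0 < H u (bz κ u) := by
  rw [small_iff_T]
  refine and_congr_right fun hs => ⟨fun h u hu => ?_, fun h u hu => ?_⟩
  · have h1 := H_nonneg (u + T κ u)
    simp only [H_add_left, H_add_right, H_comm (T κ u) u] at h1
    rw [H_bz]
    linarith [h u hu]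
  have a1 : ∀ w, w ≠ 0 → -H w w < H w (T κ w) ∧ H w (T κ w) < H w w := fun w hw => by
    have b1 := h w hw
    have b2 := h (I • w) (smul_ne_zero I_ne_zero hw)
    rw [H_bz] at b1
    rw [H_bz_I] at b2
    constructor <;> linarith
  have a2 : ∀ w, -H w w ≤ H w (T κ w) ∧ H w (T κ w) ≤ H w w := fun w => by
    rcases eq_or_ne w 0 with rfl | hw
    · simp [H]
    · exact ⟨(a1 w hw).1.le, (a1 w hw).2.le⟩
  have a3 : H (u + T κ u) (T κ (u + T κ u)) - H (u - T κ u) (T κ (u - T κ u)) <
      H (u + T κ u) (u + T κ u) + H (u - T κ u) (u - T κ u) := by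
    rcases eq_or_ne (u + T κ u) 0 with h0 | h0
    · have : u - T κ u ≠ 0 := fun h1 => hu (by
        have : (2 : ℂ) • u = 0 := by rw [two_smul]; linear_combination (exp := 1) h0 + h1
        simpa using this)
      linarith [(a1 _ this).1, (a2 (u + T κ u)).2]
    · linarith [(a1 _ h0).2, (a2 (u - T κ u)).1]
  simp only [T_add, T_sub, H_add_left, H_add_right, H_sub_left, H_sub_right,
    H_T_comm hs u (T κ u)] at a3
  linarith

theorem det_ne (h : Small κ) : (1 - κ * κ.map star).det ≠ 0 := by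
  have e : κ.map star = κᴴ := by rw [Matrix.conjTranspose, h.1.eq]
  rw [e, Matrix.det_one_sub_mul_comm]
  exact h.2.det_pos.ne'

theorem inv_bz (h : Small κ) (u : CN r) : bzInv κ (bz κ u) = u := by
  have e : star (κ *ᵥ star u) = κ.map star *ᵥ u := by
    funext i
    simp [Matrix.mulVec, dotProduct]
  have : bz κ u - κ *ᵥ star (bz κ u) = (1 - κ * κ.map star) *ᵥ u := by
    rw [bz, star_add, e, Matrix.mulVec_add, Matrix.mulVec_mulVec, Matrix.sub_mulVec,
      Matrix.one_mulVec]
    abel
  rw [bzInv, this, Matrix.mulVec_mulVec, Matrix.nonsing_inv_mul _ (det_ne h).isUnit,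
    Matrix.one_mulVec]

/-- `bz` as a real linear map. -/
def bzL (κ : Matrix (Fin r) (Fin r) ℂ) : CN r →ₗ[ℝ] CN r where
  toFun := bz κ
  map_add' u v := by simp only [bz, star_add, Matrix.mulVec_add]; abel
  map_smul' s u := by simp [bz, Matrix.mulVec_smul]

theorem bzL_inj (h : Small κ) : Function.Injective (bzL κ) :=
  Function.LeftInverse.injective (g := bzInv κ) (inv_bz h)

theorem bz_surj (h : Small κ) (z : CN r) : ∃ u, bz κ u = z :=
  LinearMap.injective_iff_surjective.1 (bzL_inj h) z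

theorem continuousAt_Qk (h : Small κ) (z : CN r) :
    ContinuousAt (fun p : Matrix (Fin r) (Fin r) ℂ × CN r => Qk p.1 p.2) (κ, z) := by
  have h2 : Continuous fun p : Matrix (Fin r) (Fin r) ℂ × CN r => 1 - p.1 * p.1.map star :=
    continuous_const.sub (continuous_fst.matrix_mul (continuous_fst.matrix_map continuous_star))
  have h3 : ContinuousAt (fun p : Matrix (Fin r) (Fin r) ℂ × CN r => (1 - p.1 * p.1.map star)⁻¹)
      (κ, z) := by
    refine ContinuousAt.comp (f := fun p : Matrix (Fin r) (Fin r) ℂ × CN r =>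
      1 - p.1 * p.1.map star) (continuousAt_matrix_inv _ ?_) h2.continuousAt
    rw [Ring.inverse_eq_inv']
    exact continuousAt_inv₀ (det_ne h)
  have h4 : Continuous fun p : Matrix (Fin r) (Fin r) ℂ × Matrix (Fin r) (Fin r) ℂ × CN r =>
      (star (p.1 *ᵥ (p.2.2 - p.2.1 *ᵥ star p.2.2)) ⬝ᵥ p.2.2).re := by
    refine continuous_re.comp (Continuous.dotProduct (Continuous.star ?_) (by fun_prop))
    exact continuous_fst.matrix_mulVec (continuous_snd.snd.sub
      (continuous_snd.fst.matrix_mulVec continuous_snd.snd.star))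
  exact ContinuousAt.comp (f := fun p : Matrix (Fin r) (Fin r) ℂ × CN r =>
    ((1 - p.1 * p.1.map star)⁻¹, p)) h4.continuousAt (h3.prodMk continuousAt_id)

theorem exists_sphere (z : CN r) (hz : z ≠ 0) : ∃ u ∈ sphere (0 : CN r) 1, z = ‖z‖ • u :=
  ⟨‖z‖⁻¹ • z, by simp [norm_smul, hz], (smul_inv_smul₀ (norm_ne_zero_iff.2 hz) z).symm⟩

end Crest.Agent.R264.QAlg
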