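import Crest.Agent.R264.QAlg

/-! Row 264, P4: the algebraic core of the normal form estimate. -/

set_option autoImplicit false
open Set Filter Topology Metric Complex
open scoped Matrix

noncomputable section
namespace Crest.Agent.R264

theorem s4_dot_le {r : ℕ} (a b : CN r) : ‖a ⬝ᵥ b‖ ≤ r * ‖a‖ * ‖b‖ := by
  unfold dotProduct
  refine (norm_sum_le _ _).trans ?_
  have : ∀ i ∈ (Finset.univ : Finset (Fin r)), ‖a i * b i‖ ≤ ‖a‖ * ‖b‖ := fun i _ => by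
    rw [norm_mul]
    exact mul_le_mul (norm_le_pi_norm a i) (norm_le_pi_norm b i) (norm_nonneg _) (norm_nonneg _)
  refine (Finset.sum_le_sum this).trans ?_
  simp [mul_assoc]

theorem s4_quad_bound {r : ℕ} (κ : Matrix (Fin r) (Fin r) ℂ) :
    ∃ k : ℝ, 0 ≤ k ∧ ∀ d : CN r, ‖d ⬝ᵥ κ *ᵥ d‖ ≤ k * ‖d‖ ^ 2 := by
  let L : CN r →L[ℂ] CN r := LinearMap.toContinuousLinearMap (Matrix.mulVecLin κ)
  refine ⟨r * ‖L‖, by positivity, fun d => (s4_dot_le _ _).trans ?_⟩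
  have h : ‖κ *ᵥ d‖ ≤ ‖L‖ * ‖d‖ := L.le_opNorm d
  calc (r : ℝ) * ‖d‖ * ‖κ *ᵥ d‖ ≤ r * ‖d‖ * (‖L‖ * ‖d‖) := by gcongr
    _ = r * ‖L‖ * ‖d‖ ^ 2 := by ring

private theorem s4_b1 {c C ε D S Z : ℝ} (hc : 0 < c) (hD : 0 ≤ D) (hS : 0 ≤ S) (e2 : ε ≤ c / 2)
    (hSε : S ≤ ε) (a1 : c * D ≤ Z + ε * D + C * S) :
    D ^ 2 ≤ 8 / c ^ 2 * (Z ^ 2 + C ^ 2 * (ε * S)) := by
  have hSS : S ^ 2 ≤ ε * S := by rw [sq]; exact mul_le_mul_of_nonneg_right hSε hS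
  have h0 : ε * D ≤ c / 2 * D := mul_le_mul_of_nonneg_right e2 hD
  have h1 : c * D ≤ 2 * (Z + C * S) := by linarith
  have h2 : (c * D) ^ 2 ≤ (2 * (Z + C * S)) ^ 2 := pow_le_pow_left₀ (by positivity) h1 2
  have h3 : (2 * (Z + C * S)) ^ 2 ≤ 8 * (Z ^ 2 + C ^ 2 * S ^ 2) := by
    nlinarith [sq_nonneg (Z - C * S)]
  have h4 : C ^ 2 * S ^ 2 ≤ C ^ 2 * (ε * S) := by gcongr
  rw [div_mul_eq_mul_div, le_div_iff₀ (by positivity)]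
  have h5 : D ^ 2 * c ^ 2 = (c * D) ^ 2 := by ring
  rw [h5]; linarith

private theorem s4_b34 {k R ε D S Z W H : ℝ} (hk : 0 ≤ k) (hR : 0 ≤ R) (hS : 0 ≤ S) (hW : 0 ≤ W)
    (hH : 0 ≤ H) (e1 : ε ≤ 1 / 8)
    (a2 : S ≤ W + 2 * (R * Z * D) + k * D ^ 2 + ε * (D ^ 2 + S + H) + R * D * D + ε * (D ^ 2 + S))
    (a3 : H ≤ W + S + 2 * (R * Z * D) + k * D ^ 2 + ε * (D ^ 2 + S + H)) :
    H ≤ 2 * (W + S + R * Z ^ 2 + (2 * R + k + 1) * D ^ 2) ∧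
      S ≤ 4 * (W + R * Z ^ 2) + 4 * ((2 * R + k + 1) * D ^ 2) := by
  have hD2 := sq_nonneg D
  have b2 : 2 * (R * Z * D) ≤ R * Z ^ 2 + R * D ^ 2 := by
    have := mul_nonneg hR (sq_nonneg (Z - D))
    have e : R * (Z - D) ^ 2 = R * Z ^ 2 + R * D ^ 2 - 2 * (R * Z * D) := by ring
    linarith
  have hεD : ε * D ^ 2 ≤ 1 / 8 * D ^ 2 := by gcongr
  have hεS : ε * S ≤ 1 / 8 * S := by gcongr
  have hεH : ε * H ≤ 1 / 8 * H := by gcongr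
  have hRZ : 0 ≤ R * Z ^ 2 := by positivity
  have hRD : 0 ≤ R * D ^ 2 := by positivity
  have hkD : 0 ≤ k * D ^ 2 := by positivity
  have hAD : (2 * R + k + 1) * D ^ 2 = 2 * (R * D ^ 2) + k * D ^ 2 + D ^ 2 := by ring
  have x1 : R * D * D = R * D ^ 2 := by ring
  have x2 : ε * (D ^ 2 + S + H) = ε * D ^ 2 + ε * S + ε * H := by ring
  have x3 : ε * (D ^ 2 + S) = ε * D ^ 2 + ε * S := by ring
  rw [hAD]
  rw [x2] at a3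
  rw [x1, x2, x3] at a2
  constructor <;> linarith

theorem s4_core {c k R C C' δ : ℝ} (hc : 0 < c) (hk : 0 ≤ k) (hR : 0 ≤ R) (hC : 0 ≤ C) (hC' : 0 ≤ C')
    (hδ : 0 < δ) : ∃ ε > 0, ∀ D S Z W H : ℝ, 0 ≤ D → 0 ≤ S → 0 ≤ Z → 0 ≤ W → 0 ≤ H → S ≤ ε →
      c * D ≤ Z + ε * D + C * S →
      S ≤ W + 2 * (R * Z * D) + k * D ^ 2 + ε * (D ^ 2 + S + H) + R * D * D + ε * (D ^ 2 + S) →
      H ≤ W + S + 2 * (R * Z * D) + k * D ^ 2 + ε * (D ^ 2 + S + H) →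
      C' * (ε * D + C * S) ^ 2 + ε * (D ^ 2 + S) + ε * (D ^ 2 + S + H) ≤ δ * (Z ^ 2 + W) := by
  obtain ⟨A, hA⟩ : ∃ A : ℝ, A = 2 * R + k + 1 := ⟨_, rfl⟩
  obtain ⟨m, hm⟩ : ∃ m : ℝ, m = 8 / c ^ 2 := ⟨_, rfl⟩
  have hA0 : 0 < A := by rw [hA]; positivity
  have hm0 : 0 < m := by rw [hm]; positivity
  obtain ⟨K1, hK1⟩ : ∃ K1 : ℝ, K1 = 8 + 8 * R + 8 * A * m := ⟨_, rfl⟩
  obtain ⟨K2, hK2⟩ : ∃ K2 : ℝ, K2 = m * (1 + C ^ 2 * K1) := ⟨_, rfl⟩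
  obtain ⟨K3, hK3⟩ : ∃ K3 : ℝ, K3 = 2 * (1 + K1 + R + A * K2) := ⟨_, rfl⟩
  have hK10 : 0 < K1 := by rw [hK1]; positivity
  have hK20 : 0 < K2 := by rw [hK2]; positivity
  have hK30 : 0 < K3 := by rw [hK3]; positivity
  obtain ⟨K, hK⟩ : ∃ K : ℝ, K = 2 * C' * (K2 + C ^ 2 * K1) + 2 * K2 + 2 * K1 + K3 := ⟨_, rfl⟩
  have hK0 : 0 < K := by rw [hK]; positivity
  have hp : 0 < 8 * A * m * C ^ 2 + 1 := by positivity
  obtain ⟨ε, hε⟩ : ∃ ε : ℝ,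
    ε = min (min (1 / 8) (c / 2)) (min (1 / (8 * A * m * C ^ 2 + 1)) (δ / K)) := ⟨_, rfl⟩
  have hε0 : 0 < ε := by rw [hε]; positivity
  have e1 : ε ≤ 1 / 8 := hε ▸ (min_le_left _ _).trans (min_le_left _ _)
  have e2 : ε ≤ c / 2 := hε ▸ (min_le_left _ _).trans (min_le_right _ _)
  have e3 : ε * (8 * A * m * C ^ 2 + 1) ≤ 1 :=
    (le_div_iff₀ hp).1 (hε ▸ (min_le_right _ _).trans (min_le_left _ _))
  have e4 : ε * K ≤ δ := (le_div_iff₀ hK0).1 (hε ▸ (min_le_right _ _).trans (min_le_right _ _))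
  refine ⟨ε, hε0, fun D S Z W H hD hS hZ hW hH hSε a1 a2 a3 => ?_⟩
  have b1 := s4_b1 hc hD hS e2 hSε a1
  obtain ⟨b3, b4⟩ := s4_b34 hk hR hS hW hH e1 a2 a3
  rw [← hm] at b1
  rw [← hA] at b3 b4
  clear a1 a2 a3 hε hA hm
  obtain ⟨T, hT⟩ : ∃ T : ℝ, T = Z ^ 2 + W := ⟨_, rfl⟩
  rw [← hT]
  have hZ2 : Z ^ 2 ≤ T := by rw [hT]; linarith
  have hWT : W ≤ T := by rw [hT]; linarith [sq_nonneg Z]
  have hT0 : 0 ≤ T := hW.trans hWT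
  have hD2 := sq_nonneg D
  have hSS : S ^ 2 ≤ ε * S := by rw [sq]; exact mul_le_mul_of_nonneg_right hSε hS
  have hεD : ε * D ^ 2 ≤ 1 / 8 * D ^ 2 := by gcongr
  have hεS : ε * S ≤ 1 / 8 * S := by gcongr
  have b5 : S ≤ K1 * T := by
    have h1 : A * D ^ 2 ≤ A * (m * (Z ^ 2 + C ^ 2 * (ε * S))) := by gcongr
    have h2 : ε * (8 * A * m * C ^ 2 + 1) * S ≤ 1 * S := by gcongr
    have h3 : R * Z ^ 2 ≤ R * T := by gcongr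
    have h4 : A * m * Z ^ 2 ≤ A * m * T := by gcongr
    have h5 : 0 ≤ ε * S := by positivity
    have x1 : A * (m * (Z ^ 2 + C ^ 2 * (ε * S))) = A * m * Z ^ 2 + A * m * C ^ 2 * (ε * S) := by ring
    have x2 : ε * (8 * A * m * C ^ 2 + 1) * S = 8 * (A * m * C ^ 2 * (ε * S)) + ε * S := by ring
    have x3 : K1 * T = 8 * T + 8 * (R * T) + 8 * (A * m * T) := by rw [hK1]; ring
    rw [x1] at h1; rw [x2] at h2; rw [x3]; linarith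
  have b6 : D ^ 2 ≤ K2 * T := by
    refine b1.trans ?_
    have h1 : ε * S ≤ K1 * T := by linarith
    calc m * (Z ^ 2 + C ^ 2 * (ε * S)) ≤ m * (T + C ^ 2 * (K1 * T)) := by gcongr
      _ = K2 * T := by rw [hK2]; ring
  have b7 : H ≤ K3 * T := by
    refine b3.trans ?_
    calc 2 * (W + S + R * Z ^ 2 + A * D ^ 2) ≤ 2 * (T + K1 * T + R * T + A * (K2 * T)) := by gcongr
      _ = K3 * T := by rw [hK3]; ring
  have b8 : (ε * D + C * S) ^ 2 ≤ 2 * ε * ((K2 + C ^ 2 * K1) * T) := by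
    have h1 : (ε * D + C * S) ^ 2 ≤ 2 * (ε * (ε * D ^ 2)) + 2 * (C ^ 2 * S ^ 2) := by
      have := sq_nonneg (ε * D - C * S)
      have e : (ε * D + C * S) ^ 2 =
        2 * (ε * (ε * D ^ 2)) + 2 * (C ^ 2 * S ^ 2) - (ε * D - C * S) ^ 2 := by ring
      linarith
    have h2 : ε * (ε * D ^ 2) ≤ ε * (K2 * T) := mul_le_mul_of_nonneg_left (by linarith) hε0.le
    have h3 : C ^ 2 * S ^ 2 ≤ C ^ 2 * (ε * (K1 * T)) := by
      gcongr; exact hSS.trans (by gcongr)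
    have x : 2 * ε * ((K2 + C ^ 2 * K1) * T) = 2 * (ε * (K2 * T)) + 2 * (C ^ 2 * (ε * (K1 * T))) := by
      ring
    rw [x]; linarith
  calc C' * (ε * D + C * S) ^ 2 + ε * (D ^ 2 + S) + ε * (D ^ 2 + S + H)
      ≤ C' * (2 * ε * ((K2 + C ^ 2 * K1) * T)) + ε * (K2 * T + K1 * T) +
        ε * (K2 * T + K1 * T + K3 * T) := by gcongr
    _ = ε * K * T := by rw [hK]; ring
    _ ≤ δ * T := by gcongr

theorem nf_alg {r : ℕ} {κ : Matrix (Fin r) (Fin r) ℂ} (hκ : Small κ) (C : ℝ) {δ : ℝ} (hδ : 0 < δ) :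
    ∃ δ' > 0, ∀ (w s : ℂ) (z d : CN r) (h : ℝ), ‖d‖ ≤ δ' → ‖s‖ ≤ δ' →
      ‖z - bz κ (star d)‖ ≤ δ' * ‖d‖ + C * ‖s‖ →
      |s.im + (star d ⬝ᵥ d).re| ≤ δ' * (‖d‖ ^ 2 + ‖s‖) →
      ‖I * h - (w - s - 2 * I * (z ⬝ᵥ d) + I * (d ⬝ᵥ κ *ᵥ d))‖ ≤ δ' * (‖d‖ ^ 2 + ‖s‖ + |h|) →
      |h - (w.im - Qk κ z)| ≤ δ * (‖z‖ ^ 2 + ‖w‖) := by
  obtain ⟨c, hc, hcl⟩ := hκ.exists_bz_lower
  obtain ⟨c', -, C', hC'⟩ := hκ.exists_bounds
  obtain ⟨k, hk0, hk⟩ := s4_quad_bound κ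
  obtain ⟨ε, hε, hcore⟩ := s4_core (R := (r : ℝ)) hc hk0 (Nat.cast_nonneg r) (abs_nonneg C)
    (abs_nonneg C') hδ
  refine ⟨ε, hε, fun w s z d h _ hs h1 h2 h3 => ?_⟩
  have hD := norm_nonneg d
  have hS := norm_nonneg s
  have h1' : ‖z - bz κ (star d)‖ ≤ ε * ‖d‖ + |C| * ‖s‖ :=
    h1.trans (by gcongr; exact le_abs_self C)
  set E : ℂ := w - s - 2 * I * (z ⬝ᵥ d) + I * (d ⬝ᵥ κ *ᵥ d) with hE
  have hzd : ‖z ⬝ᵥ d‖ ≤ r * ‖z‖ * ‖d‖ := s4_dot_le z d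
  have hdd : ‖star d ⬝ᵥ d‖ ≤ r * ‖d‖ * ‖d‖ := by simpa using s4_dot_le (star d) d
  have hkd := hk d
  -- the remainder `E + s`
  have hEs : ‖E + s‖ ≤ ‖w‖ + 2 * (r * ‖z‖ * ‖d‖) + k * ‖d‖ ^ 2 := by
    have e : E + s = w - 2 * I * (z ⬝ᵥ d) + I * (d ⬝ᵥ κ *ᵥ d) := by rw [hE]; ring
    rw [e]
    refine (norm_add_le _ _).trans (add_le_add ((norm_sub_le _ _).trans ?_) ?_)
    · rw [norm_mul, norm_mul, norm_I, Complex.norm_two]; linarith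
    · rw [norm_mul, norm_I]; linarith
  have a1 : c * ‖d‖ ≤ ‖z‖ + ε * ‖d‖ + |C| * ‖s‖ := by
    have := hcl (star d)
    rw [norm_star] at this
    have h4 : ‖bz κ (star d)‖ ≤ ‖z‖ + ‖z - bz κ (star d)‖ := by
      have := norm_sub_le z (z - bz κ (star d))
      rwa [sub_sub_cancel] at this
    linarith
  have hre : |(I * h - E).re| ≤ ε * (‖d‖ ^ 2 + ‖s‖ + |h|) := (abs_re_le_norm _).trans h3
  have him : |(I * h - E).im| ≤ ε * (‖d‖ ^ 2 + ‖s‖ + |h|) := (abs_im_le_norm _).trans h3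
  have a2 : ‖s‖ ≤ ‖w‖ + 2 * (r * ‖z‖ * ‖d‖) + k * ‖d‖ ^ 2 + ε * (‖d‖ ^ 2 + ‖s‖ + |h|) +
      r * ‖d‖ * ‖d‖ + ε * (‖d‖ ^ 2 + ‖s‖) := by
    have b1 := Complex.norm_le_abs_re_add_abs_im s
    have b2 : s.re = (E + s).re + (I * h - E).re := by simp
    have b3 : |s.re| ≤ ‖E + s‖ + |(I * h - E).re| := by
      rw [b2]; exact (abs_add_le _ _).trans (add_le_add (abs_re_le_norm _) le_rfl)
    have b4 : |s.im| ≤ |s.im + (star d ⬝ᵥ d).re| + ‖star d ⬝ᵥ d‖ := by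
      have := abs_sub (s.im + (star d ⬝ᵥ d).re) (star d ⬝ᵥ d).re
      rw [add_sub_cancel_right] at this
      exact this.trans (add_le_add le_rfl (abs_re_le_norm _))
    linarith
  have a3 : |h| ≤ ‖w‖ + ‖s‖ + 2 * (r * ‖z‖ * ‖d‖) + k * ‖d‖ ^ 2 + ε * (‖d‖ ^ 2 + ‖s‖ + |h|) := by
    have b2 : (I * h : ℂ) = (I * h - E) + ((E + s) - s) := by ring
    have b3 : ‖(I * h : ℂ)‖ = |h| := by rw [norm_mul, norm_I, one_mul, norm_real, Real.norm_eq_abs]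
    have b4 : ‖(I * h : ℂ)‖ ≤ ‖I * h - E‖ + (‖E + s‖ + ‖s‖) := by
      conv_lhs => rw [b2]
      exact (norm_add_le _ _).trans (add_le_add le_rfl (norm_sub_le _ _))
    linarith
  have a4 := hcore ‖d‖ ‖s‖ ‖z‖ ‖w‖ |h| hD hS (norm_nonneg z) (norm_nonneg w) (abs_nonneg h) hs a1 a2 a3
  -- the imaginary part
  have e1 : E = wu κ (star d) w z - s - I * (star d ⬝ᵥ d) := by
    simp only [hE, wu, bz, star_star, dotProduct_add, dotProduct_comm d z, dotProduct_comm d (star d)]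
    ring
  have e2 : h - (w.im - Qk κ z) =
      Qk κ (z - bz κ (star d)) - (s.im + (star d ⬝ᵥ d).re) + (I * h - E).im := by
    have := hκ.im_wu (star d) w z
    rw [e1]
    simp only [sub_im, mul_im, I_re, I_im, ofReal_re, ofReal_im, zero_mul, one_mul, zero_add, this]
    ring
  have q0 := hκ.Qk_nonneg (z - bz κ (star d))
  have q1 : Qk κ (z - bz κ (star d)) ≤ |C'| * (ε * ‖d‖ + |C| * ‖s‖) ^ 2 := by
    refine (hC' _).2.trans ?_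
    gcongr
    exact le_abs_self C'
  rw [e2]
  refine (abs_add_le _ _).trans ?_
  have q2 := abs_sub (Qk κ (z - bz κ (star d))) (s.im + (star d ⬝ᵥ d).re)
  rw [abs_of_nonneg q0] at q2
  linarith

end Crest.Agent.R264
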