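import Crest.Agent.R264.G
import Crest.Agent.R264.Frame
import Crest.Agent.R264.P3.Pol

/-! Row 264, P4: regularity of the Segre functions. -/

set_option autoImplicit false
open Set Filter Topology Metric Complex
open scoped Matrix

noncomputable section
namespace Crest.Agent.R264

/-- Slice parameters at which the slope `p` is regular. -/
def SegRaw.Ok {N r k : ℕ} (σ : SegRaw N r k) (η : ℂ × CN r) : Prop :=
  η ∈ ball (0 : ℂ × CN r) σ.δ ∧ σ.r0 (σ.a (star η)) η ≠ 0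

/-- The coordinates with a free slope parameter. -/
def SegRaw.cof {N r k : ℕ} (σ : SegRaw N r k) (η : ℂ × CN r) (q : CN r) (x : CN N) : PM r k :=
  (σ.wc η x, σ.zc η q x, σ.t x)

section S4AnAux
variable {E E' G : Type*} [NormedAddCommGroup E] [NormedSpace ℂ E] [NormedAddCommGroup E']
  [NormedSpace ℂ E'] [NormedAddCommGroup G] [NormedSpace ℂ G]

theorem S4An_partial_snd {H : E × E' → G} {z : E × E'} (h : DifferentiableAt ℂ H z) :
    fderiv ℂ (fun y => H (z.1, y)) z.2 = (fderiv ℂ H z).comp (ContinuousLinearMap.inr ℂ E E') :=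
  (HasFDerivAt.comp (g := H) (f := fun y => (z.1, y)) z.2 h.hasFDerivAt
    (hasFDerivAt_prodMk_right z.1 z.2)).fderiv

theorem S4An_partial_fst {H : E × E' → G} {z : E × E'} (h : DifferentiableAt ℂ H z) :
    fderiv ℂ (fun y => H (y, z.2)) z.1 = (fderiv ℂ H z).comp (ContinuousLinearMap.inl ℂ E E') :=
  (HasFDerivAt.comp (g := H) (f := fun y => (y, z.2)) z.1 h.hasFDerivAt
    (hasFDerivAt_prodMk_left z.1 z.2)).fderiv

theorem S4An_partial_an [CompleteSpace G] {H : E × E' → G} {z : E × E'} (h : AnalyticAt ℂ H z)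
    (β : E') : AnalyticAt ℂ (fun z : E × E' => fderiv ℂ (fun y => H (z.1, y)) z.2 β) z := by
  refine (analyticAt_fderiv_apply h (0, β)).congr ?_
  filter_upwards [h.eventually_analyticAt] with z' hz'
  rw [S4An_partial_snd hz'.differentiableAt]
  rfl

theorem S4An_single {r : ℕ} (d : CN r) :
    ((0, d) : ℂ × CN r) = ∑ i, d i • ((0, Pi.single i 1) : ℂ × CN r) := by
  refine Prod.ext (by simp [Prod.fst_sum]) ?_
  simp only [Prod.snd_sum, Prod.smul_snd]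
  exact pi_eq_sum_univ' d

end S4AnAux

namespace Segre
variable {N n r k : ℕ} {U : Set (CN N)} {F : AlgFrame n U} (σ : Segre F r k)

theorem S4An_an : AnalyticOnNhd ℂ σ.a (ball 0 σ.δ) := SCV.analyticOnNhd isOpen_ball σ.a_diff

theorem S4An_a {η : ℂ × CN r} (hη : η ∈ ball (0 : ℂ × CN r) σ.δ) : AnalyticAt ℂ σ.a (star η) :=
  σ.S4An_an _ (P3.star_mem_ball.2 hη)

theorem S4An_r0 (x : CN N) {η : ℂ × CN r} (hη : η ∈ ball (0 : ℂ × CN r) σ.δ) :
    AnalyticAt ℂ (fun z : CN N × (ℂ × CN r) => σ.r0 z.1 z.2) (x, η) :=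
  P3.fderiv_rho_analyticAt x (σ.S4An_a hη) (1, 0)

theorem S4An_r1 (x : CN N) {η : ℂ × CN r} (hη : η ∈ ball (0 : ℂ × CN r) σ.δ) :
    AnalyticAt ℂ (fun z : CN N × (ℂ × CN r) => σ.r1 z.1 z.2) (x, η) :=
  analyticAt_pi_iff.2 fun i => P3.fderiv_rho_analyticAt x (σ.S4An_a hη) (0, Pi.single i 1)

theorem S4An_r2 (x : CN N) {η : ℂ × CN r} (hη : η ∈ ball (0 : ℂ × CN r) σ.δ) (i j : Fin r) :
    AnalyticAt ℂ (fun z : CN N × (ℂ × CN r) => σ.r2 z.1 z.2 i j) (x, η) :=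
  S4An_partial_an (P3.fderiv_rho_analyticAt x (σ.S4An_a hη) (0, Pi.single j 1)) (0, Pi.single i 1)

theorem S4An_r2_eq (x : CN N) {η : ℂ × CN r} (hη : η ∈ ball (0 : ℂ × CN r) σ.δ) (i j : Fin r) :
    σ.r2 x η i j = d2 (σ.ϱ x) η (0, Pi.single i 1) (0, Pi.single j 1) :=
  fderiv_fderiv_apply (P3.rho_analyticAt x (σ.S4An_a hη)) _ _

theorem S4An_diag {G : Type*} [NormedAddCommGroup G] [NormedSpace ℂ G] [CompleteSpace G]
    {H : CN N × (ℂ × CN r) → G} {η : ℂ × CN r} (hη : η ∈ ball (0 : ℂ × CN r) σ.δ)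
    (hH : AnalyticAt ℂ H (σ.a (star η), η)) :
    ∃ L : (ℂ × CN r) →L[ℝ] G, HasStrictFDerivAt (fun η' => H (σ.a (star η'), η')) L η ∧
      ∀ d, L d = fderiv ℂ (fun ω => H (σ.a ω, η)) (star η) (star d) +
        fderiv ℂ (fun η' => H (σ.a (star η), η')) η d := by
  have h1 : AnalyticAt ℂ (fun z : (ℂ × CN r) × (ℂ × CN r) => H (σ.a z.1, z.2)) (star η, η) :=
    AnalyticAt.comp (g := H) (f := fun z : (ℂ × CN r) × (ℂ × CN r) => (σ.a z.1, z.2)) hH
      ((AnalyticAt.comp (g := σ.a) (f := Prod.fst) (x := (star η, η)) (σ.S4An_a hη)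
        analyticAt_fst).prod analyticAt_snd)
  let J : (ℂ × CN r) →L[ℝ] (ℂ × CN r) × (ℂ × CN r) :=
    (starL' ℝ : (ℂ × CN r) ≃L[ℝ] (ℂ × CN r)).toContinuousLinearMap.prod (ContinuousLinearMap.id ℝ _)
  have h2 := HasStrictFDerivAt.comp (f := J) η (h1.hasStrictFDerivAt.restrictScalars ℝ)
    J.hasStrictFDerivAt
  refine ⟨_, h2, fun d => ?_⟩
  have e1 := S4An_partial_fst h1.differentiableAt
  have e2 := S4An_partial_snd h1.differentiableAt
  simp only at e1 e2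
  rw [e1, e2]
  simp only [ContinuousLinearMap.comp_apply, ContinuousLinearMap.inl_apply,
    ContinuousLinearMap.inr_apply, ← map_add, Prod.mk_add_mk, add_zero, zero_add]
  rfl

theorem ϱ_diff : DifferentiableOn ℂ (fun z : CN N × (ℂ × CN r) => σ.ϱ z.1 z.2)
    (univ ×ˢ ball 0 σ.δ) := by
  exact fun z hz =>
    (P3.amb_analyticAt z.1 (σ.S4An_a hz.2)).differentiableAt.differentiableWithinAt

theorem r0_diff : DifferentiableOn ℂ (fun z : CN N × (ℂ × CN r) => σ.r0 z.1 z.2)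
    (univ ×ˢ ball 0 σ.δ) := by
  exact fun z hz => (σ.S4An_r0 z.1 hz.2).differentiableAt.differentiableWithinAt

theorem r1_diff : DifferentiableOn ℂ (fun z : CN N × (ℂ × CN r) => σ.r1 z.1 z.2)
    (univ ×ˢ ball 0 σ.δ) := by
  exact fun z hz => (σ.S4An_r1 z.1 hz.2).differentiableAt.differentiableWithinAt

theorem r2_diff (i j : Fin r) : DifferentiableOn ℂ (fun z : CN N × (ℂ × CN r) => σ.r2 z.1 z.2 i j)
    (univ ×ˢ ball 0 σ.δ) := by
  exact fun z hz => (σ.S4An_r2 z.1 hz.2 i j).differentiableAt.differentiableWithinAt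

theorem r2_symm (x : CN N) {η : ℂ × CN r} (hη : η ∈ ball (0 : ℂ × CN r) σ.δ) :
    (σ.r2 x η).IsSymm := by
  refine Matrix.IsSymm.ext fun i j => ?_
  rw [σ.S4An_r2_eq x hη, σ.S4An_r2_eq x hη, d2_symm (P3.rho_analyticAt x (σ.S4An_a hη))]

theorem κ_symm (x : CN N) : (σ.κ x).IsSymm := by
  exact (σ.r2_symm x (mem_ball_self σ.δ_pos)).smul _

theorem κ_a0 : σ.κ (σ.a 0) = 0 := by
  simp [SegRaw.κ, σ.n2]

theorem κ_differentiableAt {x : CN N} (h : σ.r0 x 0 ≠ 0) (i j : Fin r) :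
    DifferentiableAt ℂ (fun y => σ.κ y i j) x := by
  have h0 := mem_ball_self (x := (0 : ℂ × CN r)) σ.δ_pos
  have hi : DifferentiableAt ℂ (fun y : CN N => (y, (0 : ℂ × CN r))) x := by fun_prop
  have h1 := DifferentiableAt.comp (f := fun y : CN N => (y, (0 : ℂ × CN r))) x
    (σ.S4An_r0 x h0).differentiableAt hi
  have h2 := DifferentiableAt.comp (f := fun y : CN N => (y, (0 : ℂ × CN r))) x
    (σ.S4An_r2 x h0 i j).differentiableAt hi
  exact ((h1.inv h).const_mul (I / 2)).mul h2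

theorem fderiv_ϱ (x : CN N) (η d : ℂ × CN r) :
    fderiv ℂ (σ.ϱ x) η d = σ.r0 x η * d.1 + σ.r1 x η ⬝ᵥ d.2 := by
  rw [P3.fderiv_rho_apply, mul_comm, dotProduct]
  simp only [mul_comm]

theorem fderiv_r1 (x : CN N) {η : ℂ × CN r} (hη : η ∈ ball (0 : ℂ × CN r) σ.δ) (d : CN r) :
    fderiv ℂ (σ.r1 x) η (0, d) = σ.r2 x η *ᵥ d := by
  have h1 : AnalyticAt ℂ (σ.r1 x) η :=
    AnalyticAt.comp (f := fun y : ℂ × CN r => (x, y)) (σ.S4An_r1 x hη)
      (analyticAt_const.prod analyticAt_id)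
  funext j
  have h2 := fderiv_apply h1.differentiableAt j
  have h3 : fderiv ℂ (σ.r1 x) η (0, d) j = fderiv ℂ (fun η' => σ.r1 x η' j) η (0, d) := by
    rw [h2]; rfl
  rw [h3, S4An_single, map_sum, Matrix.mulVec, dotProduct]
  refine Finset.sum_congr rfl fun i _ => ?_
  rw [map_smul, smul_eq_mul, mul_comm, (σ.r2_symm x hη).apply]
  rfl

/-- On the diagonal the polarised function is real. -/
theorem ϱ_diag (η : ℂ × CN r) : σ.ϱ (σ.a (star η)) η = (rv σ.ρ (σ.a (star η)) : ℂ) := by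
  have := σ.good.herm.pe_real (σ.a (star η))
  exact this

/-- The real derivative of the defining function of `S`. -/
theorem hasFDerivAt_diag {η : ℂ × CN r} (hη : η ∈ ball (0 : ℂ × CN r) σ.δ) :
    ∃ L : (ℂ × CN r) →L[ℝ] ℝ, HasStrictFDerivAt (fun η' => rv σ.ρ (σ.a (star η'))) L η ∧
      ∀ d, L d = 2 * (σ.r0 (σ.a (star η)) η * d.1 + σ.r1 (σ.a (star η)) η ⬝ᵥ d.2).re := by
  have ha := σ.S4An_a hη
  have h1 := (analyticAt_rv_comp σ.ρ ha).hasStrictFDerivAt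
  let J : (ℂ × CN r) →L[ℝ] (ℂ × CN r) :=
    (starL' ℝ : (ℂ × CN r) ≃L[ℝ] (ℂ × CN r)).toContinuousLinearMap
  have h2 := HasStrictFDerivAt.comp (f := J) η h1 J.hasStrictFDerivAt
  refine ⟨_, h2, fun d => ?_⟩
  change fderiv ℝ (fun u => rv σ.ρ (σ.a u)) (star η) (star d) = _
  have ha' : AnalyticAt ℂ σ.a (star (star (star η))) := by rwa [star_star]
  have e1 := fderiv_cpol_fst σ.ρ (c := σ.a) (z := (star η, η)) ha ha (star d)
  have e2 := fderiv_sw (P3.pol_analyticAt (σ := σ.toSegRaw) ha ha)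
    (Eventually.of_forall (cpol_sw σ.good.herm σ.a)) (0, d)
  simp only [sw, star_star, star_zero] at e2
  rw [fderiv_rv_comp σ.good.herm ha, ← e1, ← σ.fderiv_ϱ, P3.fderiv_rho_pol ha ha]
  exact (congrArg (fun c : ℂ => 2 * c.re) e2).trans (by simp)

theorem zero_mem_S : (0 : ℂ × CN r) ∈ σ.S := by
  refine ⟨mem_ball_self σ.δ_pos, ?_⟩
  rw [σ.ϱ_diag, star_zero, σ.good.zero]
  rfl

theorem p_zero : σ.p 0 = 0 := by
  simp [SegRaw.p, σ.n1]

theorem isOpen_ok : IsOpen {η | σ.Ok η} := by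
  refine isOpen_iff_mem_nhds.2 fun η hη => ?_
  filter_upwards [isOpen_ball.mem_nhds hη.1,
    (P3.continuousAt_r0 (σ.S4An_a hη.1)).eventually_ne hη.2] with η' h1 h2 using ⟨h1, h2⟩

theorem ok_zero : σ.Ok 0 := by
  refine ⟨mem_ball_self σ.δ_pos, ?_⟩
  rw [star_zero, σ.n0]
  exact div_ne_zero I_ne_zero two_ne_zero

theorem p_continuousAt {η : ℂ × CN r} (h : σ.Ok η) : ContinuousAt σ.p η := by
  obtain ⟨L, hL, -⟩ := σ.S4An_diag h.1 (σ.S4An_r1 _ h.1)
  exact ((P3.continuousAt_r0 (σ.S4An_a h.1)).inv₀ h.2).smul hL.continuousAt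

/-- The derivative of the diagonal first derivative at the base point. -/
theorem r1_diag_strict : ∃ L : (ℂ × CN r) →L[ℝ] CN r,
    HasStrictFDerivAt (fun η => σ.r1 (σ.a (star η)) η) L 0 ∧ ∀ d : CN r, L (0, d) = -star d := by
  have h0 := mem_ball_self (x := (0 : ℂ × CN r)) σ.δ_pos
  obtain ⟨L, hL, h⟩ := σ.S4An_diag h0 (σ.S4An_r1 _ h0)
  refine ⟨L, hL, fun d => ?_⟩
  have e1 : star ((0, d) : ℂ × CN r) = (0, star d) := Prod.ext (star_zero ℂ) rfl
  rw [h, star_zero, e1]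
  have e2 := σ.fderiv_r1 (σ.a 0) h0 d
  rw [σ.n2, Matrix.zero_mulVec] at e2
  simp only at e2 ⊢
  rw [e2, add_zero]
  have h1 : AnalyticAt ℂ (fun ω => σ.r1 (σ.a ω) 0) 0 :=
    AnalyticAt.comp (f := fun ω => (σ.a ω, (0 : ℂ × CN r))) (σ.S4An_r1 _ h0)
      ((σ.S4An_an 0 h0).prod analyticAt_const)
  funext j
  have h3 : fderiv ℂ (fun ω => σ.r1 (σ.a ω) 0) 0 (0, star d) j =
      fderiv ℂ (fun ω => σ.r1 (σ.a ω) 0 j) 0 (0, star d) := by
    rw [fderiv_apply h1.differentiableAt j]; rfl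
  rw [h3, S4An_single, map_sum]
  simp only [map_smul, σ.n3]
  simp

/-- The derivative of the slope at the base point. -/
theorem p_strict : ∃ L : (ℂ × CN r) →L[ℝ] CN r,
    HasStrictFDerivAt σ.p L 0 ∧ ∀ d : CN r, L (0, d) = (2 * I) • star d := by
  have h0 := mem_ball_self (x := (0 : ℂ × CN r)) σ.δ_pos
  obtain ⟨L, hL, h⟩ := σ.r1_diag_strict
  have hne := σ.ok_zero.2
  obtain ⟨L0, hL0, -⟩ := σ.S4An_diag (H := fun z => (σ.r0 z.1 z.2)⁻¹) h0
    ((σ.S4An_r0 _ h0).inv hne)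
  refine ⟨_, hL0.smul hL, fun d => ?_⟩
  simp only [star_zero, σ.n0, σ.n1, add_apply, smul_apply, h, ContinuousLinearMap.smulRight_apply,
    smul_zero, add_zero, smul_neg, ← neg_smul]
  congr 1
  field_simp
  simp

theorem mem_L_zero {V : Set (CN N)} {x : CN N} :
    x ∈ σ.L V 0 ↔ x ∈ V ∧ σ.ϱ x 0 = 0 ∧ σ.r1 x 0 = 0 := by
  simp only [SegRaw.L, σ.p_zero, smul_zero, mem_ofPred_eq]

theorem mem_L_iff {V : Set (CN N)} {x : CN N} {η : ℂ × CN r} (h : σ.r0 x η ≠ 0) :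
    x ∈ σ.L V η ↔ x ∈ V ∧ σ.co η x = (0, 0, σ.t x) := by
  have h2 : (2 * I * σ.r0 x η)⁻¹ ≠ 0 := inv_ne_zero (mul_ne_zero (mul_ne_zero two_ne_zero I_ne_zero) h)
  simp only [SegRaw.L, SegRaw.co, SegRaw.wc, SegRaw.zc, mem_ofPred_eq, Prod.mk.injEq, neg_eq_zero,
    div_eq_zero_iff, h, or_false, smul_eq_zero, h2, false_or, sub_eq_zero, and_true]

theorem a0_mem_L : σ.a 0 ∈ σ.L F.V 0 := by
  refine σ.mem_L_zero.2 ⟨σ.good.mem, ?_, σ.n1⟩
  have := σ.zero_mem_S.2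
  rwa [star_zero] at this

theorem S4An_cof {z : ((ℂ × CN r) × CN r) × CN N} (h1 : z.1.1 ∈ ball (0 : ℂ × CN r) σ.δ)
    (h2 : σ.r0 z.2 z.1.1 ≠ 0) :
    DifferentiableAt ℂ (fun z : ((ℂ × CN r) × CN r) × CN N => σ.cof z.1.1 z.1.2 z.2) z := by
  have hi : DifferentiableAt ℂ (fun z : ((ℂ × CN r) × CN r) × CN N => (z.2, z.1.1)) z := by
    fun_prop
  have a0 : DifferentiableAt ℂ (fun z : ((ℂ × CN r) × CN r) × CN N => σ.ϱ z.2 z.1.1) z :=
    DifferentiableAt.comp (f := fun z : ((ℂ × CN r) × CN r) × CN N => (z.2, z.1.1)) z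
    (P3.amb_analyticAt z.2 (σ.S4An_a h1)).differentiableAt hi
  have a1 : DifferentiableAt ℂ (fun z : ((ℂ × CN r) × CN r) × CN N => σ.r0 z.2 z.1.1) z :=
    DifferentiableAt.comp (f := fun z : ((ℂ × CN r) × CN r) × CN N => (z.2, z.1.1)) z
    (σ.S4An_r0 z.2 h1).differentiableAt hi
  have a2 : DifferentiableAt ℂ (fun z : ((ℂ × CN r) × CN r) × CN N => σ.r1 z.2 z.1.1) z :=
    DifferentiableAt.comp (f := fun z : ((ℂ × CN r) × CN r) × CN N => (z.2, z.1.1)) z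
    (σ.S4An_r1 z.2 h1).differentiableAt hi
  have a3 : DifferentiableAt ℂ (fun z : ((ℂ × CN r) × CN r) × CN N => z.1.2) z := by fun_prop
  have a4 : DifferentiableAt ℂ (fun z : ((ℂ × CN r) × CN r) × CN N =>
      σ.ϱ z.2 z.1.1 / σ.r0 z.2 z.1.1) z := by
    simp only [div_eq_mul_inv]
    exact a0.mul (a1.inv h2)
  exact a4.neg.prodMk ((((a1.const_mul (2 * I)).inv
    (mul_ne_zero (mul_ne_zero two_ne_zero I_ne_zero) h2)).smul (a2.sub (a1.smul a3))).prodMk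
    ((σ.t_diff z.2).comp z differentiableAt_snd))

/-- The coordinates are jointly holomorphic in the point and the free parameters. -/
theorem cof_diff : DifferentiableOn ℂ
    (fun z : ((ℂ × CN r) × CN r) × CN N => σ.cof z.1.1 z.1.2 z.2)
    {z | z.1.1 ∈ ball (0 : ℂ × CN r) σ.δ ∧ σ.r0 z.2 z.1.1 ≠ 0} ∧
    IsOpen {z : ((ℂ × CN r) × CN r) × CN N |
      z.1.1 ∈ ball (0 : ℂ × CN r) σ.δ ∧ σ.r0 z.2 z.1.1 ≠ 0} := by
  refine ⟨fun z hz => (σ.S4An_cof hz.1 hz.2).differentiableWithinAt,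
    isOpen_iff_mem_nhds.2 fun z hz => ?_⟩
  have hi : ContinuousAt (fun z : ((ℂ × CN r) × CN r) × CN N => (z.2, z.1.1)) z := by fun_prop
  have a1 := ContinuousAt.comp (f := fun z : ((ℂ × CN r) × CN r) × CN N => (z.2, z.1.1))
    (σ.S4An_r0 z.2 hz.1).continuousAt hi
  filter_upwards [(continuous_fst.fst.continuousAt).eventually (isOpen_ball.mem_nhds hz.1),
    a1.eventually_ne hz.2] with z' h1 h2 using ⟨h1, h2⟩

theorem co_differentiableAt {x : CN N} {η : ℂ × CN r} (hη : η ∈ ball (0 : ℂ × CN r) σ.δ)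
    (h : σ.r0 x η ≠ 0) : DifferentiableAt ℂ (σ.co η) x := by
  exact DifferentiableAt.comp (f := fun y : CN N => ((η, σ.p η), y)) x
    (σ.S4An_cof (z := ((η, σ.p η), x)) hη h) (by fun_prop)

theorem co_continuousAt {x : CN N} {η : ℂ × CN r} (hη : σ.Ok η) (h : σ.r0 x η ≠ 0) :
    ContinuousAt (fun z : CN N × (ℂ × CN r) => σ.co z.2 z.1) (x, η) := by
  have hp : ContinuousAt (fun z : CN N × (ℂ × CN r) => σ.p z.2) (x, η) :=
    ContinuousAt.comp (g := σ.p) (σ.p_continuousAt hη) continuousAt_snd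
  exact ContinuousAt.comp (f := fun z : CN N × (ℂ × CN r) => ((z.2, σ.p z.2), z.1))
    (σ.S4An_cof (z := ((η, σ.p η), x)) hη.1 h).continuousAt
    ((continuousAt_snd.prodMk hp).prodMk continuousAt_fst)

theorem fderiv_co_continuousAt {x : CN N} {η : ℂ × CN r} (hη : σ.Ok η) (h : σ.r0 x η ≠ 0) :
    ContinuousAt (fun z : CN N × (ℂ × CN r) => fderiv ℂ (σ.co z.2) z.1) (x, η) := by
  have hp : ContinuousAt (fun z : CN N × (ℂ × CN r) => σ.p z.2) (x, η) :=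
    ContinuousAt.comp (g := σ.p) (σ.p_continuousAt hη) continuousAt_snd
  have hj : ContinuousAt (fun z : CN N × (ℂ × CN r) => ((z.2, σ.p z.2), z.1)) (x, η) :=
    (continuousAt_snd.prodMk hp).prodMk continuousAt_fst
  have hmem : ((η, σ.p η), x) ∈ {z : ((ℂ × CN r) × CN r) × CN N |
      z.1.1 ∈ ball (0 : ℂ × CN r) σ.δ ∧ σ.r0 z.2 z.1.1 ≠ 0} := ⟨hη.1, h⟩
  have han : AnalyticAt ℂ (fun z : ((ℂ × CN r) × CN r) × CN N => σ.cof z.1.1 z.1.2 z.2)
      ((η, σ.p η), x) := SCV.analyticOnNhd σ.cof_diff.2 σ.cof_diff.1 _ hmem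
  generalize hC : (fun z : ((ℂ × CN r) × CN r) × CN N => σ.cof z.1.1 z.1.2 z.2) = C at han
  have h0 : ContinuousAt (fun z : CN N × (ℂ × CN r) => fderiv ℂ C ((z.2, σ.p z.2), z.1)) (x, η) :=
    ContinuousAt.comp (g := fderiv ℂ C) (f := fun z : CN N × (ℂ × CN r) => ((z.2, σ.p z.2), z.1))
      han.fderiv.continuousAt hj
  have h1 := h0.clm_comp
    (continuousAt_const (y := ContinuousLinearMap.inr ℂ ((ℂ × CN r) × CN r) (CN N)))
  refine h1.congr ?_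
  filter_upwards [hj.eventually han.eventually_analyticAt] with z hz
  rw [← S4An_partial_snd hz.differentiableAt, ← hC]
  rfl

theorem fderiv_co_t {x : CN N} {η : ℂ × CN r} (hη : η ∈ ball (0 : ℂ × CN r) σ.δ)
    (h : σ.r0 x η ≠ 0) (v : CN N) : (fderiv ℂ (σ.co η) x v).2.2 = fderiv ℂ σ.t x v := by
  have h1 := (σ.co_differentiableAt hη h).hasFDerivAt.snd.snd
  have h2 : HasFDerivAt σ.t _ x := h1
  rw [h2.fderiv]
  rfl

end Segre
end Crest.Agent.R264
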