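import Crest.Agent.R264.S4Bd

/-! Row 264, P4: local data at the base point. -/

set_option autoImplicit false
open Set Filter Topology Metric Complex
open scoped Matrix

noncomputable section
namespace Crest.Agent.R264.Segre
variable {N n r k : ℕ} {U : Set (CN N)} {F : AlgFrame n U} {σ : Segre F r k}

/-- Local data at the base point compatible with the defining function. -/
structure LD.Base (ld : σ.LD (σ.a 0)) : Prop where
  bd : ld.Bd
  pos : ∀ x ∈ ld.O ∩ F.V, 0 < ld.h x ↔ 0 < rv σ.ρ x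
  zero : ∀ x ∈ ld.O ∩ F.V, ld.h x = 0 ↔ rv σ.ρ x = 0
  sub : ∀ x ∈ ld.O ∩ F.V, 0 < rv σ.ρ x → x ∈ U
  le_one : ∀ x ∈ ld.O, ld.h x ≤ 1

theorem LD.Base.restrict {ld : σ.LD (σ.a 0)} (hb : ld.Base) (O' : Set (CN N)) (hO : IsOpen O')
    (hq : σ.a 0 ∈ O') : (ld.restrict O' hO hq).Base :=
  ⟨fun x hx => hb.bd x ⟨hx.1.1, hx.2⟩, fun x hx => hb.pos x ⟨hx.1.1, hx.2⟩,
    fun x hx => hb.zero x ⟨hx.1.1, hx.2⟩, fun x hx => hb.sub x ⟨hx.1.1, hx.2⟩,
    fun x hx => hb.le_one x hx.1⟩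

/-- The local inverse at a fixed leaf parameter. -/
theorem S4Base_X {q : CN N} (ld : σ.LD0 q) {η : ℂ × CN r} (hη : η ∈ ball (0 : ℂ × CN r) ld.δ1)
    {x : CN N} (hx : x ∈ ld.O ∩ F.V) {W : Set (CN N)} (hW : W ∈ 𝓝 x) :
    ∀ᶠ ω in 𝓝 (σ.co η x), ld.X η ω ∈ W ∩ F.V ∧ σ.co η (ld.X η ω) = ω ∧
      DifferentiableAt ℂ (ld.X η) ω :=
  (tendsto_const_nhds.prodMk_nhds tendsto_id :
    Tendsto (fun ω : PM r k => (η, ω)) (𝓝 (σ.co η x)) (𝓝 (η, σ.co η x))).eventually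
    (ld.X_loc η hη x hx W hW)

/-- Straight lines in the coordinates give curves in `V`. -/
theorem S4Base_curve {q : CN N} (ld : σ.LD0 q) {η : ℂ × CN r}
    (hη : η ∈ ball (0 : ℂ × CN r) ld.δ1) {x : CN N} (hx : x ∈ ld.O ∩ F.V) (d : PM r k) :
    ∃ γ : ℝ → CN N, γ 0 = x ∧ HasDerivAt γ (fderiv ℂ (ld.X η) (σ.co η x) d) 0 ∧
      ∀ᶠ s in 𝓝 (0 : ℝ), γ s ∈ ld.O ∩ F.V ∧ σ.co η (γ s) = σ.co η x + s • d := by
  have h := S4Base_X ld hη hx (ld.O_open.mem_nhds hx.1)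
  have hl : HasDerivAt (fun s : ℝ => σ.co η x + s • d) d 0 := by
    simpa using ((hasDerivAt_id (0 : ℝ)).smul_const d).const_add (σ.co η x)
  have ht : Tendsto (fun s : ℝ => σ.co η x + s • d) (𝓝 0) (𝓝 (σ.co η x)) := by
    simpa using hl.continuousAt.tendsto
  refine ⟨fun s => ld.X η (σ.co η x + s • d), by simp [ld.X_co η hη x hx], ?_, ?_⟩
  · have h1 : HasFDerivAt (ld.X η) ((fderiv ℂ (ld.X η) (σ.co η x)).restrictScalars ℝ)
        (σ.co η x + (0 : ℝ) • d) := by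
      simpa using h.self_of_nhds.2.2.hasFDerivAt.restrictScalars ℝ
    exact h1.comp_hasDerivAt (0 : ℝ) hl
  · filter_upwards [ht.eventually h] with s hs using ⟨hs.1, hs.2.1⟩

theorem S4Base_dX {q : CN N} (ld : σ.LD0 q) {η : ℂ × CN r}
    (hη : η ∈ ball (0 : ℂ × CN r) ld.δ1) {x : CN N} (hx : x ∈ ld.O ∩ F.V) {v : CN N}
    (hv : v ∈ Tan F.V x) : fderiv ℂ (ld.X η) (σ.co η x) (fderiv ℂ (σ.co η) x v) = v := by
  have h1 := (S4Base_X ld hη hx univ_mem).self_of_nhds.2.2.hasFDerivAt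
  have h2 := (σ.co_differentiableAt (ld.ok η hη).1 (ld.r0_ne x hx.1 η hη)).hasFDerivAt
  have h3 := (h1.comp x h2).sub (hasFDerivAt_id x)
  have h4 := fderiv_eq_zero_of_mem_Tan (c := 0) hx.2 h3.differentiableAt (by
    filter_upwards [mem_nhdsWithin_of_mem_nhds (ld.O_open.mem_nhds hx.1), self_mem_nhdsWithin]
      with y h5 h6
    simp [ld.X_co η hη y ⟨h5, h6⟩]) hv
  rw [h3.fderiv] at h4
  simpa [sub_eq_zero] using h4

theorem S4Base_rv {γ : ℝ → CN N} {v : CN N} (h : HasDerivAt γ v 0) :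
    HasDerivAt (fun s => rv σ.ρ (γ s)) (2 * (dx σ.ρ (γ 0) (star (γ 0)) v).re) 0 := by
  rw [← σ.good.herm.fderiv_rv]
  exact (((contDiff_rv σ.ρ).differentiable (by simp)) _).hasFDerivAt.comp_hasDerivAt (0 : ℝ) h

/-- Points of positive height on the positive side, close to the base point. -/
theorem S4Base_freq (ld : σ.LD (σ.a 0)) :
    ∃ᶠ x in 𝓝[F.V] (σ.a 0), 0 < ld.h x ∧ 0 < rv σ.ρ x := by
  have hx : σ.a 0 ∈ ld.O ∩ F.V := ⟨ld.mem, σ.good.mem⟩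
  obtain ⟨γ, h0, hγ, hev⟩ := S4Base_curve ld.toLD0 ld.zero_mem hx (I, 0, 0)
  rw [(ld.co_of_mem ld.mem σ.a0_mem_L).1] at hev
  generalize fderiv ℂ (ld.X 0) (σ.co 0 (σ.a 0)) (I, 0, 0) = v at hγ
  have hw : ∀ᶠ s in 𝓝 (0 : ℝ), σ.wc 0 (γ s) = I * s := by
    filter_upwards [hev] with s hs
    have : σ.wc 0 (γ s) = 0 + s • I := congrArg Prod.fst hs.2
    rw [this]; simp [mul_comm]
  have hh : ∀ᶠ s in 𝓝 (0 : ℝ), ld.h (γ s) = s := by
    filter_upwards [hev, hw] with s hs hs'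
    have h1 : σ.zc 0 (σ.p 0) (γ s) = 0 + s • 0 := congrArg (fun ω : PM r k => ω.2.1) hs.2
    have h2 := ld.uniq _ hs.1.1 0 σ.zero_mem_S ld.zero_mem (by rw [hs']; simp) (by simpa using h1)
    have h3 : σ.wc (ld.e (γ s)) (γ s) = I * ld.h (γ s) := congrArg Prod.fst (ld.co_e _ hs.1.1)
    rw [← h2, hs'] at h3
    exact_mod_cast (mul_left_cancel₀ I_ne_zero h3).symm
  have e : (fun x => pe σ.ρ x (star (σ.a 0))) = fun x => σ.ϱ x 0 := by
    funext x; simp [SegRaw.ϱ]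
  have d1 : HasDerivAt (fun s => σ.ϱ (γ s) 0) (dx σ.ρ (σ.a 0) (star (σ.a 0)) v) 0 := by
    rw [dx, e, ← h0]
    exact ((σ.S4Bd_d0 _).hasFDerivAt.restrictScalars ℝ).comp_hasDerivAt (0 : ℝ) hγ
  have d2 := ((σ.S4Bd_dr0 (γ 0)).hasFDerivAt.restrictScalars ℝ).comp_hasDerivAt (0 : ℝ) hγ
  have d3 : HasDerivAt (fun s : ℝ => -(I * (s : ℂ))) (-I) 0 := by
    have := ((ofRealCLM.hasDerivAt (x := (0 : ℝ))).const_mul I).fun_neg
    simpa using this
  have d4 : HasDerivAt (fun s => σ.ϱ (γ s) 0) (1 / 2) 0 := by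
    have d5 := d3.mul d2
    have e2 : -I * σ.r0 (γ 0) 0 = 1 / 2 := by
      rw [h0, σ.n0]
      linear_combination (-1 / 2 : ℂ) * I_mul_I
    simp only [Function.comp_apply, ofReal_zero, mul_zero, neg_zero, zero_mul, add_zero, e2] at d5
    refine d5.congr_of_eventuallyEq ?_
    filter_upwards [hev, hw] with s hs hs'
    have h1 := ld.r0_ne _ hs.1.1 0 ld.zero_mem
    simp only [Pi.mul_apply, Function.comp_apply, ← hs', SegRaw.wc]
    field_simp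
  have d6 := S4Base_rv (σ := σ) hγ
  rw [h0, d1.unique d4] at d6
  have d7 : HasDerivAt (fun s => rv σ.ρ (γ s)) 1 0 := by
    convert d6 using 1
    norm_num
  have hs := (hasDerivAt_iff_tendsto_slope_zero.1 d7).mono_left (nhdsGT_le_nhdsNE 0)
  have ht : Tendsto γ (𝓝[>] 0) (𝓝[F.V] (σ.a 0)) := by
    refine tendsto_nhdsWithin_iff.2 ⟨?_, ?_⟩
    · rw [← h0]
      exact hγ.continuousAt.tendsto.mono_left nhdsWithin_le_nhds
    · exact (hev.mono fun s hs => hs.1.2).filter_mono nhdsWithin_le_nhds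
  refine ht.frequently (Eventually.frequently ?_)
  filter_upwards [hs.eventually (lt_mem_nhds one_pos), self_mem_nhdsWithin,
    hh.filter_mono nhdsWithin_le_nhds] with s h1 h2 h3
  rw [h3]
  refine ⟨h2, ?_⟩
  rw [zero_add, h0, σ.good.zero, sub_zero, smul_eq_mul] at h1
  exact (pos_iff_pos_of_mul_pos h1).1 (inv_pos.2 h2)

variable (σ) in
theorem exists_base : ∃ ld : σ.LD (σ.a 0), ld.Base := by
  obtain ⟨ld, hb⟩ := σ.lo_a0.exists_LD
  obtain ⟨hp, hn⟩ := ld.mem_closure_sign ld.mem σ.a0_mem_L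
  obtain ⟨ε, hε, hev⟩ := σ.good.sign ld.O_open ld.mem (ld.h_cont.mono inter_subset_left) hb hp hn
  obtain rfl : ε = 1 := by
    rcases hε with rfl | rfl
    · rfl
    · obtain ⟨x, ⟨h1, h2⟩, h3⟩ := ((S4Base_freq ld).and_eventually hev).exists
      have := h3.1.1 h1
      linarith
  obtain ⟨O, hO, haO, h1, -, -⟩ := σ.good.nbhd
  have h0 := (ld.h_of_mem ld.mem σ.zero_mem_S ld.zero_mem σ.a0_mem_L).2
  have h2 : ∀ᶠ x in 𝓝 (σ.a 0), ld.h x ≤ 1 :=
    (ld.h_cont.continuousAt (ld.O_open.mem_nhds ld.mem)).eventually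
      (ge_mem_nhds (by rw [h0]; exact one_pos))
  obtain ⟨O', hsub, hO', haO'⟩ := _root_.mem_nhds_iff.mp
    ((eventually_nhdsWithin_iff.1 hev).and (h2.and (hO.mem_nhds haO)))
  refine ⟨ld.restrict O' hO' haO', fun x hx => hb x ⟨hx.1.1, hx.2⟩, fun x hx => ?_,
    fun x hx => ((hsub hx.1.2).1 hx.2).2, fun x hx => h1 x ⟨(hsub hx.1.2).2.2, hx.2⟩,
    fun x hx => (hsub hx.2).2.1⟩
  have := ((hsub hx.1.2).1 hx.2).1
  rwa [one_mul] at this

/-- Along the hypersurface the kernel of `d w` is the complex tangent space. -/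
theorem LD.Base.conormal {ld : σ.LD (σ.a 0)} (hb : ld.Base) :
    ∀ᶠ a in 𝓝 (σ.a 0), a ∈ F.V → rv σ.ρ a = 0 → ∀ v ∈ Tan F.V a,
      (fderiv ℂ (σ.co (ld.e a)) a v).1 = 0 → dx σ.ρ a (star a) v = 0 := by
  obtain ⟨c, hc, C, hQ⟩ := (ld.small _ ld.mem).exists_bounds
  have hO := ld.O_open.mem_nhds ld.mem
  have he : Tendsto (fun a => (a, ld.e a)) (𝓝 (σ.a 0)) (𝓝 (σ.a 0, 0)) :=
    tendsto_id.prodMk_nhds ((S4Bd_e ld).mono_right nhdsWithin_le_nhds)
  filter_upwards [he.eventually (ld.nf ld.mem σ.a0_mem_L hc).eventually_nhds, hO]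
    with a hnf haO haV h0
  obtain ⟨hS, hη⟩ := ld.e_mem a haO
  have hco : (σ.co (ld.e a) a).1 = 0 := by
    rw [ld.co_e a haO, (hb.zero a ⟨haO, haV⟩).2 h0]; simp
  have key : ∀ v ∈ Tan F.V a, (fderiv ℂ (σ.co (ld.e a)) a v).1 = 0 →
      (dx σ.ρ a (star a) v).re = 0 := by
    intro v hv hw
    obtain ⟨γ, g0, hγ, hev⟩ :=
      S4Base_curve ld.toLD0 hη ⟨haO, haV⟩ (fderiv ℂ (σ.co (ld.e a)) a v)
    rw [S4Base_dX ld.toLD0 hη ⟨haO, haV⟩ hv] at hγ
    have ht : Tendsto (fun s => (γ s, ld.e a)) (𝓝 0) (𝓝 (a, ld.e a)) := by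
      refine Tendsto.prodMk_nhds ?_ tendsto_const_nhds
      rw [← g0]
      exact hγ.continuousAt.tendsto
    have hmax : IsLocalMax (fun s => rv σ.ρ (γ s)) 0 := by
      filter_upwards [hev, ht.eventually hnf] with s hs h1
      have h2 : (σ.co (ld.e a) (γ s)).1 = 0 := by
        rw [hs.2, Prod.fst_add, Prod.smul_fst, hco, hw]; simp
      have h3 := (abs_le.1 (h1 hS)).2
      simp only [h2, zero_im, norm_zero, add_zero] at h3
      have h4 := (hQ (σ.co (ld.e a) (γ s)).2.1).1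
      rw [g0, h0]
      exact not_lt.1 fun h5 => absurd ((hb.pos _ hs.1).2 h5) (not_lt.2 (by linarith))
    have h5 := hmax.hasDerivAt_eq_zero (S4Base_rv hγ)
    rw [g0] at h5
    linarith
  intro v hv hw
  have h1 := key v hv hw
  have h2 := key (I • v) (Submodule.smul_mem _ _ hv) (by rw [map_smul, Prod.smul_fst, hw]; simp)
  rw [dx, map_smul, ← dx] at h2
  exact Complex.ext h1 (by simpa using h2)

end Crest.Agent.R264.Segre
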