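import Crest.Agent.R264.S4LD0

/-! Row 264, P4: the leaf and the height of a point (real implicit function theorem). -/

set_option autoImplicit false
open Set Filter Topology Metric Complex
open scoped Matrix

noncomputable section
namespace Crest.Agent.R264.Segre
variable {N n r k : ℕ} {U : Set (CN N)} {F : AlgFrame n U} {σ : Segre F r k} {q : CN N}

theorem S4LD_inj (hq : q ∈ σ.L F.V 0) (h0 : σ.r0 q 0 ≠ 0) (hs : Small (σ.κ q))
    {A : (ℂ × CN r) →L[ℝ] ℝ × ℝ × CN r}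
    (hA : HasFDerivAt (fun η => (rv σ.ρ (σ.a (star η)), (σ.wc η q).re, σ.zc η (σ.p η) q)) A 0)
    {d : ℂ × CN r} (hd : A d = 0) : d = 0 := by
  have hz := mem_ball_self (x := (0 : ℂ × CN r)) σ.δ_pos
  obtain ⟨-, q1, q2⟩ := σ.mem_L_zero.1 hq
  obtain ⟨L1, hL1, e1⟩ := σ.hasFDerivAt_diag hz
  obtain ⟨Lp, hLp, ep⟩ := σ.p_strict
  have hi : AnalyticAt ℂ (fun η : ℂ × CN r => (q, η)) 0 := analyticAt_const.prod analyticAt_id
  have a0 := (P3.rho_analyticAt q (σ.S4An_a hz)).differentiableAt.hasFDerivAt.restrictScalars ℝ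
  have b1 : AnalyticAt ℂ (σ.r0 q) 0 :=
    AnalyticAt.comp (f := fun η : ℂ × CN r => (q, η)) (σ.S4An_r0 q hz) hi
  have b2 : AnalyticAt ℂ (σ.r1 q) 0 :=
    AnalyticAt.comp (f := fun η : ℂ × CN r => (q, η)) (σ.S4An_r1 q hz) hi
  have a1 := b1.differentiableAt.hasFDerivAt.restrictScalars ℝ
  have a2 := b2.differentiableAt.hasFDerivAt.restrictScalars ℝ
  have a3 := (b1.inv h0).differentiableAt.hasFDerivAt.restrictScalars ℝ
  have h2I : 2 * I * σ.r0 q 0 ≠ 0 := mul_ne_zero (mul_ne_zero two_ne_zero I_ne_zero) h0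
  have a4 := (((analyticAt_const (v := 2 * I)).mul b1).inv
    h2I).differentiableAt.hasFDerivAt.restrictScalars ℝ
  have c0 := Complex.reCLM.hasFDerivAt.comp 0 (a0.mul a3).neg
  have c1 := c0.congr_of_eventuallyEq (f₁ := fun η => (σ.wc η q).re)
    (Eventually.of_forall fun η => by simp [SegRaw.wc, div_eq_mul_inv])
  have c2 : HasFDerivAt (fun η => σ.zc η (σ.p η) q) _ 0 :=
    a4.smul (a2.sub (a1.smul hLp.hasFDerivAt))
  have hu := hA.unique (hL1.hasFDerivAt.prodMk (c1.prodMk c2))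
  rw [hu] at hd
  obtain ⟨d1, d2⟩ := d
  simp only [ContinuousLinearMap.prod_apply, Prod.mk_eq_zero] at hd
  obtain ⟨k1, k2, k3⟩ := hd
  rw [e1, star_zero, σ.n0, σ.n1] at k1
  have k1' : d1.im = 0 := by
    simp at k1
    linarith
  have k2' : d1.re = 0 := by
    simp [q1, q2, σ.fderiv_ϱ, ← mul_assoc, inv_mul_cancel₀ h0] at k2
    exact k2
  obtain rfl : d1 = 0 := Complex.ext k2' k1'
  have k4 : (2 * I * σ.r0 q 0)⁻¹ • (σ.r2 q 0 *ᵥ d2 - σ.r0 q 0 • (2 * I) • star d2) = 0 := by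
    simpa [q2, σ.p_zero, ep, σ.fderiv_r1 q hz] using k3
  have k5 : bz (σ.κ q) (star d2) = 0 := by
    rw [← neg_eq_zero, ← k4, bz, star_star, SegRaw.κ, Matrix.smul_mulVec, smul_sub, smul_smul,
      smul_smul, neg_add, add_comm, ← neg_smul, sub_eq_add_neg]
    congr 1
    · congr 1
      field_simp
      simp
    · have : (2 * I * σ.r0 q 0)⁻¹ * σ.r0 q 0 * (2 * I) = 1 := by field_simp
      rw [this, one_smul]
  obtain ⟨c, hc, hb⟩ := hs.exists_bz_lower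
  have k6 := hb (star d2)
  rw [k5, norm_zero, norm_star] at k6
  have : ‖d2‖ ≤ 0 := by nlinarith [norm_nonneg d2]
  rw [norm_le_zero_iff.1 this]
  rfl

/-- The implicit function theorem for the equations `η ∈ S`, `Re w = 0`, `z = 0`. -/
theorem exists_leaf_fn (hq : q ∈ σ.L F.V 0) (h0 : σ.r0 q 0 ≠ 0) (hs : Small (σ.κ q)) {δ0 : ℝ}
    (hδ : 0 < δ0) : ∃ (O : Set (CN N)) (δ1 : ℝ) (e : CN N → ℂ × CN r), IsOpen O ∧ q ∈ O ∧
      0 < δ1 ∧ δ1 ≤ δ0 ∧ ContinuousOn e O ∧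
      (∀ x ∈ O, e x ∈ σ.S ∧ e x ∈ ball (0 : ℂ × CN r) δ1 ∧ (σ.wc (e x) x).re = 0 ∧
        σ.zc (e x) (σ.p (e x)) x = 0) ∧
      ∀ x ∈ O, ∀ η ∈ σ.S, η ∈ ball (0 : ℂ × CN r) δ1 → (σ.wc η x).re = 0 →
        σ.zc η (σ.p η) x = 0 → η = e x := by
  have hz := mem_ball_self (x := (0 : ℂ × CN r)) σ.δ_pos
  obtain ⟨L1, hL1, -⟩ := σ.hasFDerivAt_diag hz
  obtain ⟨Lp, hLp, -⟩ := σ.p_strict
  have hmem : (((0 : ℂ × CN r), σ.p 0), q) ∈ {z : ((ℂ × CN r) × CN r) × CN N |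
      z.1.1 ∈ ball (0 : ℂ × CN r) σ.δ ∧ σ.r0 z.2 z.1.1 ≠ 0} := ⟨hz, h0⟩
  have han : AnalyticAt ℂ (fun z : ((ℂ × CN r) × CN r) × CN N => σ.cof z.1.1 z.1.2 z.2)
      ((0, σ.p 0), q) := SCV.analyticOnNhd σ.cof_diff.2 σ.cof_diff.1 _ hmem
  have hs2 : HasStrictFDerivAt (Prod.snd : CN N × (ℂ × CN r) → ℂ × CN r)
      (ContinuousLinearMap.snd ℝ _ _) (q, 0) := hasStrictFDerivAt_snd
  have hs1 : HasStrictFDerivAt (Prod.fst : CN N × (ℂ × CN r) → CN N)
      (ContinuousLinearMap.fst ℝ _ _) (q, 0) := hasStrictFDerivAt_fst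
  have hj : HasStrictFDerivAt (fun z : CN N × (ℂ × CN r) => ((z.2, σ.p z.2), z.1)) _ (q, 0) :=
    (hs2.prodMk (HasStrictFDerivAt.comp (g := σ.p) (q, 0) hLp hs2)).prodMk hs1
  obtain ⟨D, hco⟩ : ∃ D : (CN N × (ℂ × CN r)) →L[ℝ] PM r k,
      HasStrictFDerivAt (fun z : CN N × (ℂ × CN r) => σ.co z.2 z.1) D (q, 0) :=
    ⟨_, HasStrictFDerivAt.comp (f := fun z : CN N × (ℂ × CN r) => ((z.2, σ.p z.2), z.1)) (q, 0)
      (han.hasStrictFDerivAt.restrictScalars ℝ) hj⟩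
  obtain ⟨B, hB⟩ : ∃ B : (CN N × (ℂ × CN r)) →L[ℝ] ℝ × ℝ × CN r,
      HasStrictFDerivAt (fun z : CN N × (ℂ × CN r) =>
        (rv σ.ρ (σ.a (star z.2)), (σ.wc z.2 z.1).re, σ.zc z.2 (σ.p z.2) z.1)) B (q, 0) :=
    ⟨_, (HasStrictFDerivAt.comp (g := fun η' => rv σ.ρ (σ.a (star η'))) (q, 0) hL1 hs2).prodMk
      ((Complex.reCLM.hasStrictFDerivAt.comp (q, 0) hco.fst).prodMk hco.snd.fst)⟩
  let G : CN N × (ℂ × CN r) → CN N × (ℝ × ℝ × CN r) := fun z =>
    (z.1, (rv σ.ρ (σ.a (star z.2)), (σ.wc z.2 z.1).re, σ.zc z.2 (σ.p z.2) z.1))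
  have hG : HasStrictFDerivAt G ((ContinuousLinearMap.fst ℝ _ _).prod B) (q, 0) := hs1.prodMk hB
  have hinj : Function.Injective ((ContinuousLinearMap.fst ℝ (CN N) (ℂ × CN r)).prod B) := by
    refine (injective_iff_map_eq_zero _).2 fun v hv => ?_
    obtain ⟨v1, d⟩ := v
    simp only [ContinuousLinearMap.prod_apply, Prod.mk_eq_zero, ContinuousLinearMap.coe_fst'] at hv
    obtain ⟨rfl, hv⟩ := hv
    have h1 := HasFDerivAt.comp (f := fun η : ℂ × CN r => (q, η)) 0 hB.hasFDerivAt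
      (hasFDerivAt_prodMk_right q 0)
    rw [S4LD_inj hq h0 hs h1 (d := d) hv]
    rfl
  have hdim : Module.finrank ℝ (CN N × (ℂ × CN r)) = Module.finrank ℝ (CN N × (ℝ × ℝ × CN r)) := by
    simp only [Module.finrank_prod, Complex.finrank_real_complex, Module.finrank_self]
    omega
  let i : (CN N × (ℂ × CN r)) ≃L[ℝ] (CN N × (ℝ × ℝ × CN r)) := ContinuousLinearEquiv.ofBijective _
    (LinearMap.ker_eq_bot.2 hinj) (LinearMap.range_eq_top.2
      ((LinearMap.injective_iff_surjective_of_finrank_eq_finrank hdim).1 hinj))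
  have hG' : HasStrictFDerivAt G (i : (CN N × (ℂ × CN r)) →L[ℝ] (CN N × (ℝ × ℝ × CN r)))
      (q, 0) := hG
  let Φ := hG'.toOpenPartialHomeomorph G
  have hΦ : (Φ : _ → _) = G := rfl
  have hsrc : (q, (0 : ℂ × CN r)) ∈ Φ.source := hG'.mem_toOpenPartialHomeomorph_source
  have hG0 : G (q, 0) = (q, 0) := by
    have := ((σ.mem_L_iff h0).1 hq).2
    have h1 : σ.wc 0 q = 0 := congrArg Prod.fst this
    have h2 : σ.zc 0 (σ.p 0) q = 0 := congrArg (fun z => z.2.1) this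
    simp only [G, star_zero, σ.good.zero, h1, h2, Complex.zero_re]
    rfl
  obtain ⟨O1, hO1, T, hT, hbox⟩ := mem_nhds_prod_iff.1 (Φ.open_source.mem_nhds hsrc)
  obtain ⟨δ2, hδ2, hT2⟩ := Metric.mem_nhds_iff.1 hT
  set δ1 := min δ2 (min δ0 σ.δ) with hδ1
  have hδ1p : 0 < δ1 := lt_min hδ2 (lt_min hδ σ.δ_pos)
  let ι : CN N → CN N × (ℝ × ℝ × CN r) := fun x => (x, 0)
  have hι : Continuous ι := by fun_prop
  have hopen : IsOpen (Φ.target ∩ Φ.symm ⁻¹' (univ ×ˢ ball 0 δ1)) :=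
    Φ.continuousOn_symm.isOpen_inter_preimage Φ.open_target (isOpen_univ.prod isOpen_ball)
  have hrv : ∀ η : ℂ × CN r, η ∈ ball (0 : ℂ × CN r) δ1 →
      (η ∈ σ.S ↔ rv σ.ρ (σ.a (star η)) = 0) := fun η hη => by
    have : η ∈ ball (0 : ℂ × CN r) σ.δ :=
      ball_subset_ball ((min_le_right _ _).trans (min_le_right _ _)) hη
    simp only [SegRaw.S, mem_ofPred_eq, this, true_and, σ.ϱ_diag, Complex.ofReal_eq_zero]
  refine ⟨interior O1 ∩ ι ⁻¹' (Φ.target ∩ Φ.symm ⁻¹' (univ ×ˢ ball 0 δ1)), δ1,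
    fun x => (Φ.symm (ι x)).2, isOpen_interior.inter (hopen.preimage hι),
    ⟨mem_interior_iff_mem_nhds.2 hO1, ?_, ?_⟩, hδ1p, (min_le_right _ _).trans (min_le_left _ _),
    (Φ.continuousOn_symm.comp hι.continuousOn fun x hx => hx.2.1).snd, ?_, ?_⟩
  · have := Φ.map_source hsrc
    rwa [hΦ, hG0] at this
  · have := Φ.left_inv hsrc
    rw [hΦ, hG0] at this
    refine ⟨mem_univ _, ?_⟩
    change (Φ.symm (q, 0)).2 ∈ ball (0 : ℂ × CN r) δ1
    rw [this]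
    exact mem_ball_self hδ1p
  · intro x hx
    have h1 := Φ.right_inv hx.2.1
    rw [hΦ] at h1
    have h2 : (Φ.symm (ι x)).1 = x := congrArg Prod.fst h1
    have h3 := congrArg Prod.snd h1
    simp only [G, ι, Prod.mk_eq_zero] at h3
    simp only [ι] at h2
    rw [h2] at h3
    exact ⟨(hrv _ hx.2.2.2).2 h3.1, hx.2.2.2, h3.2.1, h3.2.2⟩
  · intro x hx η hS hη k1 k2
    have h1 : (x, η) ∈ Φ.source :=
      hbox ⟨interior_subset hx.1, hT2 (ball_subset_ball (min_le_left _ _) hη)⟩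
    have h2 := Φ.left_inv h1
    have h3 : G (x, η) = ι x := by
      simp only [G, ι, (hrv η hη).1 hS, k1, k2]
      rfl
    rw [hΦ, h3] at h2
    exact (congrArg Prod.snd h2).symm

theorem Reg.exists_LD (hq : σ.Reg q) (hs : Small (σ.κ q)) : Nonempty (σ.LD q) := by
  obtain ⟨ld⟩ := hq.exists_LD0
  obtain ⟨O, δ1, e, hO, hqO, hδ1, hle, he, h1, h2⟩ :=
    exists_leaf_fn hq.mem hq.r0_ne hs ld.δ1_pos
  have hsm : ∀ᶠ x in 𝓝 q, Small (σ.κ x) :=
    hs.eventually (fun i j => (σ.κ_differentiableAt hq.r0_ne i j).continuousAt)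
      (Eventually.of_forall σ.κ_symm)
  obtain ⟨O2, hO2, hO2o, hqO2⟩ := _root_.mem_nhds_iff.1 hsm
  have hb : ball (0 : ℂ × CN r) δ1 ⊆ ball 0 ld.δ1 := ball_subset_ball hle
  refine ⟨{ O := ld.O ∩ (O ∩ O2)
            δ1 := δ1
            X := ld.X
            O_open := ld.O_open.inter (hO.inter hO2o)
            mem := ⟨ld.mem, hqO, hqO2⟩
            reg := hq
            δ1_pos := hδ1
            ok := fun η hη => ld.ok η (hb hη)
            dv_ne := fun x hx => ld.dv_ne x hx.1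
            r0_ne := fun x hx η hη => ld.r0_ne x hx.1 η (hb hη)
            low := ?_
            X_co := fun η hη x hx => ld.X_co η (hb hη) x ⟨hx.1.1, hx.2⟩
            X_loc := fun η hη x hx => ld.X_loc η (hb hη) x ⟨hx.1.1, hx.2⟩
            h := fun x => (σ.wc (e x) x).im
            e := e
            h_cont := ?_
            e_cont := he.mono fun x hx => hx.2.1
            e_mem := fun x hx => ⟨(h1 x hx.2.1).1, (h1 x hx.2.1).2.1⟩
            co_e := ?_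
            uniq := fun x hx => h2 x hx.2.1
            small := fun x hx => hO2 hx.2.2 }⟩
  · obtain ⟨c, hc, h⟩ := ld.low
    exact ⟨c, hc, fun η hη x hx => h η (hb hη) x ⟨hx.1.1, hx.2⟩⟩
  · intro x hx
    have k1 := hb (h1 x hx.2.1).2.1
    have k2 := ContinuousAt.comp_continuousWithinAt (f := fun y => (y, e y))
      (σ.co_continuousAt (ld.ok _ k1) (ld.r0_ne x hx.1 _ k1))
      (continuousWithinAt_id.prodMk ((he x hx.2.1).mono
        (show ld.O ∩ (O ∩ O2) ⊆ O from fun y hy => hy.2.1)))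
    exact Complex.continuous_im.continuousAt.comp_continuousWithinAt k2.fst
  · intro x hx
    obtain ⟨-, -, k1, k2⟩ := h1 x hx.2.1
    refine Prod.ext ?_ (Prod.ext k2 rfl)
    apply Complex.ext
    · simpa [SegRaw.co] using k1
    · simp [SegRaw.co]

end Crest.Agent.R264.Segre
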