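import Crest.Agent.R264.S4Loc
import Crest.Agent.R264.S4LD
import Crest.Agent.R264.Side

/-! Row 264, P4: the boundary near the base leaf. -/

set_option autoImplicit false
open Set Filter Topology Metric Complex
open scoped Matrix

noncomputable section
namespace Crest.Agent.R264.Segre
variable {N n r k : ℕ} {U : Set (CN N)} {F : AlgFrame n U} {σ : Segre F r k} {q : CN N}

theorem S4Bd_isClosed (F : AlgFrame n U) : IsClosed (closure U \ U) := by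
  obtain ⟨O, hO, hU⟩ := F.ropen.exists_open
  have : closure U \ U = closure U ∩ Oᶜ := by
    ext x
    constructor
    · rintro ⟨h1, h2⟩
      exact ⟨h1, fun h => h2 (hU ▸ ⟨F.closure_subset h1, h⟩)⟩
    · rintro ⟨h1, h2⟩
      exact ⟨h1, fun h => h2 (hU ▸ h : x ∈ F.V ∩ O).2⟩
  rw [this]
  exact isClosed_closure.inter hO.isClosed_compl

theorem S4Bd_near (ld : σ.LD q) {x : CN N} (hx : x ∈ ld.O ∩ F.V) (h0 : ld.h x = 0)
    {A : Set (ℂ × CN r)} (hA : ld.e x ∈ closure A) {W : Set (CN N)} (hW : W ∈ 𝓝 x) :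
    ∃ η ∈ A, ∃ x' ∈ W, x' ∈ σ.L F.V η := by
  have hη := (ld.e_mem x hx.1).2
  have hco : σ.co (ld.e x) x = (0, 0, σ.t x) := by
    rw [ld.co_e x hx.1, h0]; simp
  have h1 := ld.X_loc _ hη x hx (W ∩ ld.O) (inter_mem hW (ld.O_open.mem_nhds hx.1))
  rw [hco] at h1
  have ht : Tendsto (fun η : ℂ × CN r => (η, ((0, 0, σ.t x) : PM r k))) (𝓝 (ld.e x))
      (𝓝 (ld.e x, (0, 0, σ.t x))) := tendsto_id.prodMk_nhds tendsto_const_nhds
  have h2 := (ht.eventually h1).and (isOpen_ball.mem_nhds hη)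
  obtain ⟨η, ⟨⟨⟨⟨hW', hO⟩, hV⟩, hc, -⟩, hb⟩, hηA⟩ := mem_closure_iff_nhds.mp hA _ h2
  refine ⟨η, hηA, _, hW', (σ.mem_L_iff (ld.r0_ne _ hO η hb)).mpr ⟨hV, ?_⟩⟩
  have : σ.t (ld.X η (0, 0, σ.t x)) = σ.t x := congrArg (fun ω : PM r k => ω.2.2) hc
  rw [this]
  exact hc

theorem S4Bd_e (ld : σ.LD q) : Tendsto ld.e (𝓝 q) (𝓝[σ.S] 0) := by
  have hO := ld.O_open.mem_nhds ld.mem
  have h0 := (ld.h_of_mem ld.mem σ.zero_mem_S ld.zero_mem ld.reg.mem).1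
  refine tendsto_nhdsWithin_iff.mpr ⟨?_, ?_⟩
  · rw [← h0]; exact ld.e_cont.continuousAt hO
  · filter_upwards [hO] with x hx using (ld.e_mem x hx).1

/-- Nearby leaves lie in the boundary (from `genA`). -/
theorem Lo.exists_LD (hq : σ.Lo q) : ∃ ld : σ.LD q, ld.Bd := by
  obtain ⟨ld⟩ := hq.reg.exists_LD hq.small
  obtain ⟨O, hO, hqO, hOW, hgen⟩ := σ.genA q _ hq.bd
  have h1 := (S4Bd_e ld).eventually (hgen fun x hx => hOW hx.2 hx.1)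
  obtain ⟨O', hO'sub, hO', hqO'⟩ := _root_.mem_nhds_iff.mp (h1.and (hO.mem_nhds hqO))
  refine ⟨ld.restrict O' hO' hqO', fun x hx h0 => ?_⟩
  have hx' : x ∈ ld.O ∩ F.V := ⟨hx.1.1, hx.2⟩
  obtain ⟨hcl, hxO⟩ := hO'sub hx.1.2
  have : x ∈ closure (closure U \ U) := by
    rw [mem_closure_iff_nhds]
    intro W hW
    obtain ⟨η, hη, x', hx'W, hL⟩ := S4Bd_near ld hx' h0 hcl (inter_mem hW (hO.mem_nhds hxO))
    exact ⟨x', hx'W.1, hη.2 ⟨hL, hx'W.2⟩⟩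
  rw [(S4Bd_isClosed F).closure_eq] at this
  exact this

/-- Good points are dense in the base leaf (from `genB` and thinness). -/
theorem Lo.mem_closure_gd (hq : σ.Lo q) (hthin : Thin2 (F.pr '' F.Bad)) :
    q ∈ closure (σ.L F.V 0 ∩ F.Gd) := by
  obtain ⟨ld, hb⟩ := hq.exists_LD
  by_contra hcon
  have hW : (σ.L F.V 0 ∩ F.Gd)ᶜ ∈ 𝓝 q :=
    mem_of_superset (isClosed_closure.isOpen_compl.mem_nhds hcon)
      (compl_subset_compl.mpr subset_closure)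
  obtain ⟨O, hO, hqO, hOW, hgen⟩ := σ.genB q _ hW
  have h1 := (S4Bd_e ld).eventually
    (hgen (eq_empty_of_forall_notMem fun x hx => hOW hx.1.2 ⟨hx.1.1, hx.2⟩))
  -- every zero of `h` near `q` is bad
  have h2 : ∀ᶠ x in 𝓝 q, x ∈ ld.O ∧ (x ∈ F.V → ld.h x = 0 → x ∈ F.Bad) := by
    filter_upwards [h1, hO.mem_nhds hqO, ld.O_open.mem_nhds ld.mem] with x hcl hxO hxl
    refine ⟨hxl, fun hV h0 => ?_⟩
    have hbd := hb x ⟨hxl, hV⟩ h0
    refine ⟨hbd.1, hbd.2, ld.dv_ne x hxl, fun hg => ?_⟩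
    have he : Tendsto ld.e (𝓝 x) (𝓝 (ld.e x)) :=
      ld.e_cont.continuousAt (ld.O_open.mem_nhds hxl)
    have hcl' : ld.e x ∈ closure ({η' | η' ∈ σ.S ∧ σ.L F.V η' ∩ O ∩ F.Gd = ∅} ∩
        ball (0 : ℂ × CN r) ld.δ1) := by
      rw [inter_comm]
      exact isOpen_ball.inter_closure ⟨(ld.e_mem x hxl).2, hcl⟩
    obtain ⟨η, hη, x', ⟨⟨hg', hx'O⟩, hx'l⟩, hL⟩ := S4Bd_near ld ⟨hxl, hV⟩ h0 hcl'
      (inter_mem (inter_mem (AlgFrame.gd_open hg) (hO.mem_nhds hxO)) (ld.O_open.mem_nhds hxl))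
    have h0' := (ld.h_of_mem hx'l hη.1.1 hη.2 hL).2
    have hbd' := hb x' ⟨hx'l, hL.1⟩ h0'
    have : x' ∈ σ.L F.V η ∩ O ∩ F.Gd := ⟨⟨hL, hx'O⟩, hg' hbd'.1 hbd'.2⟩
    rw [hη.1.2] at this
    exact this
  obtain ⟨ch, ε, hsect, hε, hs, hc, hsub⟩ := F.exists_sect hq.reg.mem.1 hq.reg.dv_ne h2
  have hu0 : F.pr q ∈ ch.s := hs ▸ mem_ball_self hε
  have hnh : ch.c '' ch.s ∈ 𝓝[F.V] q := hc ▸ ch.nhds _ hu0
  obtain ⟨W, hW', hWs⟩ := mem_nhdsWithin_iff_exists_mem_nhds_inter.mp hnh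
  obtain ⟨hp, hn⟩ := ld.mem_closure_sign ld.mem hq.reg.mem
  have hcont : ContinuousOn (fun u => ld.h (ch.c u)) ch.s :=
    ld.h_cont.comp ch.c_diff.continuousOn fun u hu => (hsub ⟨u, hu, rfl⟩).1
  obtain ⟨u, hu, h0, hA⟩ := hthin.not_zero_set ch.s_open (hs ▸ convex_ball _ _) hcont
    (by
      obtain ⟨x, hxW, hx, hpos⟩ := mem_closure_iff_nhds.mp hp W hW'
      obtain ⟨u, hu, rfl⟩ := hWs ⟨hxW, hx.2⟩
      exact ⟨u, hu, hpos⟩)
    (by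
      obtain ⟨x, hxW, hx, hneg⟩ := mem_closure_iff_nhds.mp hn W hW'
      obtain ⟨u, hu, rfl⟩ := hWs ⟨hxW, hx.2⟩
      exact ⟨u, hu, hneg⟩)
  exact hA ⟨ch.c u, (hsub ⟨u, hu, rfl⟩).2 (ch.maps hu) h0, (hsect.pr_c hu).1⟩

/-- At a good point the positive side lies in `U` as soon as it meets `U`. -/
theorem LD.Bd.pos_side {ld : σ.LD q} (hb : ld.Bd) {x : CN N} (hx : x ∈ ld.O) (hL : x ∈ σ.L F.V 0)
    (hg : x ∈ F.Gd) (hc : x ∈ closure {y | y ∈ U ∧ 0 < ld.h y}) :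
    ∀ᶠ y in 𝓝[F.V] x, 0 < ld.h y → y ∈ U := by
  obtain ⟨ρ, hρ⟩ := hg
  obtain ⟨hp, hn⟩ := ld.mem_closure_sign hx hL
  obtain ⟨ε, hε, hev⟩ := hρ.sign ld.O_open hx (ld.h_cont.mono inter_subset_left) hb hp hn
  obtain ⟨O, hO, hxO, h1, -, h3⟩ := hρ.nbhd
  have hO' : ∀ᶠ y in 𝓝[F.V] x, y ∈ O ∩ F.V :=
    inter_mem (mem_nhdsWithin_of_mem_nhds (hO.mem_nhds hxO)) self_mem_nhdsWithin
  rcases hε with rfl | rfl
  · filter_upwards [hev, hO'] with y hy hyO hpos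
    exact h1 y hyO (by simpa using hy.1.mp hpos)
  · rcases h3 with h3 | h3
    · filter_upwards [hev, hO'] with y hy hyO hpos
      exact h3 y hyO (by simpa using hy.1.mp hpos)
    · exfalso
      obtain ⟨W, hW, hWs⟩ := mem_nhdsWithin_iff_exists_mem_nhds_inter.mp (hev.and hO')
      obtain ⟨y, hyW, hyU, hpos⟩ := mem_closure_iff_nhds.mp hc W hW
      obtain ⟨hy, hyO⟩ := hWs ⟨hyW, F.ropen.1 hyU⟩
      exact h3 y hyO (by simpa using hy.1.mp hpos) hyU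

variable (σ)

theorem reg_a0 : σ.Reg (σ.a 0) :=
  ⟨σ.a0_mem_L, σ.good.dv_ne, by rw [σ.n0]; exact div_ne_zero I_ne_zero two_ne_zero, σ.coord⟩

theorem lo_a0 : σ.Lo (σ.a 0) := by
  refine ⟨σ.reg_a0, by rw [σ.κ_a0]; exact small_zero, ?_⟩
  obtain ⟨O, hO, ha, hev⟩ := σ.leaf
  have h0 := hev.self_of_nhdsWithin σ.zero_mem_S
  filter_upwards [σ.good.near, hO.mem_nhds ha] with x hx hxO hL
  exact (hx hL.1 (h0 x ⟨hL, hxO⟩)).mem_frontier

/-- The unnormalised coordinates. -/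
def S4Bd_coh (x : CN N) : PM r k := (σ.ϱ x 0, σ.r1 x 0, σ.t x)

theorem S4Bd_slice {G : Type*} [NormedAddCommGroup G] [NormedSpace ℂ G]
    {f : CN N × (ℂ × CN r) → G} (hf : DifferentiableOn ℂ f (univ ×ˢ ball 0 σ.δ)) :
    Differentiable ℂ (fun x => f (x, 0)) := fun x => by
  have h1 : DifferentiableAt ℂ f (x, 0) :=
    hf.differentiableAt ((isOpen_univ.prod isOpen_ball).mem_nhds
      (mk_mem_prod (mem_univ _) (mem_ball_self σ.δ_pos)))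
  exact h1.comp x (differentiableAt_id.prodMk (differentiableAt_const _))

theorem S4Bd_d0 : Differentiable ℂ (fun x => σ.ϱ x 0) := σ.S4Bd_slice σ.ϱ_diff

theorem S4Bd_dr0 : Differentiable ℂ (fun x => σ.r0 x 0) := σ.S4Bd_slice σ.r0_diff

theorem S4Bd_dr1 : Differentiable ℂ (fun x => σ.r1 x 0) := σ.S4Bd_slice σ.r1_diff

theorem S4Bd_dcoh : Differentiable ℂ σ.S4Bd_coh :=
  σ.S4Bd_d0.prodMk (σ.S4Bd_dr1.prodMk σ.t_diff)

theorem S4Bd_ker {x : CN N} (hx : x ∈ σ.L F.V 0) (h0 : σ.r0 x 0 ≠ 0) (v : CN N) :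
    fderiv ℂ (σ.co 0) x v = 0 ↔ fderiv ℂ σ.S4Bd_coh x v = 0 := by
  obtain ⟨-, h1, h2⟩ := σ.mem_L_zero.mp hx
  have d0 := (σ.S4Bd_d0 x).hasFDerivAt
  have dr := (σ.S4Bd_dr0 x).hasFDerivAt
  have d1 := (σ.S4Bd_dr1 x).hasFDerivAt
  have dt := (σ.t_diff x).hasFDerivAt
  have hi : DifferentiableAt ℂ (fun y => (σ.r0 y 0)⁻¹) x := (σ.S4Bd_dr0 x).inv h0
  have hI : (2 * I * σ.r0 x 0) ≠ 0 := mul_ne_zero (mul_ne_zero two_ne_zero I_ne_zero) h0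
  have hi2 : DifferentiableAt ℂ (fun y => (2 * I * σ.r0 y 0)⁻¹) x :=
    ((σ.S4Bd_dr0 x).const_mul _).inv hI
  have e : σ.co 0 = fun y => (-(σ.ϱ y 0 * (σ.r0 y 0)⁻¹), (2 * I * σ.r0 y 0)⁻¹ • σ.r1 y 0, σ.t y) := by
    funext y
    simp [SegRaw.co, SegRaw.wc, SegRaw.zc, σ.p_zero, div_eq_mul_inv]
  have H1 := ((d0.mul hi.hasFDerivAt).neg).prodMk ((hi2.hasFDerivAt.smul d1).prodMk dt)
  have H2 := d0.prodMk (d1.prodMk dt)
  have E1 := H1.fderiv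
  have E2 := H2.fderiv
  rw [e]
  erw [E1, E2]
  simp [h1, h2, h0, Prod.ext_iff]

/-- A holomorphic function detecting regular points. -/
theorem exists_regFn : ∃ A : CN N → ℂ, Differentiable ℂ A ∧ A (σ.a 0) ≠ 0 ∧
    ∀ x ∈ σ.L F.V 0, A x ≠ 0 → σ.Reg x := by
  have hdim : Module.finrank ℂ (PM r k) = Module.finrank ℂ (CN n) := by
    simp [Module.finrank_prod, σ.dim, add_assoc]
  let T : PM r k ≃L[ℂ] CN n := ContinuousLinearEquiv.ofFinrankEq hdim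
  let Mx : CN N → Matrix (Fin n) (Fin n) ℂ := fun x => Matrix.of fun i j =>
    T (fderiv ℂ σ.S4Bd_coh x (F.xi j x)) i
  have hM : ∀ x (c : CN n), Mx x *ᵥ c = T (fderiv ℂ σ.S4Bd_coh x (∑ i, c i • F.xi i x)) := by
    intro x c
    funext i
    simp [Mx, Matrix.mulVec, dotProduct, map_sum, mul_comm]
  have hfd : Differentiable ℂ (fderiv ℂ σ.S4Bd_coh) := by
    rw [← differentiableOn_univ]
    exact differentiableOn_fderiv isOpen_univ σ.S4Bd_dcoh.differentiableOn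
  have hdet : Differentiable ℂ fun x => (Mx x).det := by
    rw [← differentiableOn_univ, ← hol_iff_differentiableOn isOpen_univ]
    refine Hol.det fun i j => Hol.of_differentiable ?_
    exact differentiable_pi.mp (T.differentiable.comp (hfd.clm_apply (F.differentiable_xi j))) i
  have key : ∀ x ∈ σ.L F.V 0, σ.r0 x 0 ≠ 0 → ((Mx x).det ≠ 0 ↔
      ∀ c : Fin n → ℂ, fderiv ℂ (σ.co 0) x (∑ i, c i • F.xi i x) = 0 → c = 0) := by
    intro x hx h0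
    rw [Ne, ← Matrix.exists_mulVec_eq_zero_iff]
    simp only [σ.S4Bd_ker hx h0, hM, map_eq_zero_iff T T.injective]
    push Not
    exact ⟨fun h c hc => by_contra fun hne => h c hne hc, fun h c hne hc => hne (h c hc)⟩
  refine ⟨fun x => F.dv x * σ.r0 x 0 * (Mx x).det,
    (F.differentiable_dv.mul σ.S4Bd_dr0).mul hdet, ?_, fun x hx hA => ?_⟩
  · have h := σ.reg_a0
    exact mul_ne_zero (mul_ne_zero h.dv_ne h.r0_ne) ((key _ h.mem h.r0_ne).mpr h.coord)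
  · have h1 := left_ne_zero_of_mul hA
    have h2 := right_ne_zero_of_mul h1
    exact ⟨hx, left_ne_zero_of_mul h1, h2, (key x hx h2).mp (right_ne_zero_of_mul hA)⟩

end Crest.Agent.R264.Segre
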