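import Crest.Agent.R264.S4Norm

/-! Row 264, P4: the set `R` is open, and closed in the preimage of the good part of the leaf. -/

set_option autoImplicit false
open Set Filter Topology Metric Complex
open scoped Matrix

noncomputable section
namespace Crest.Agent.R264.Seq
variable {S : Setup} {r k : ℕ} {σ : Segre S.F r k} {ι : Type} (Q : Seq S σ ι)

omit Q in
theorem S4Clop_inj_iff (M : TM) {E : Type*} [NormedAddCommGroup E] [NormedSpace ℂ E]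
    (ch : Chart M.n M.U) {u : CN M.n} (hu : u ∈ ch.s) {f : CN M.N → E}
    (hf : DifferentiableWithinAt ℂ f M.U (ch.c u)) :
    Function.Injective (fderiv ℂ (fun w => f (ch.c w)) u) ↔
      ∀ v ∈ M.T (ch.c u), M.D f (ch.c u) v = 0 → v = 0 := by
  rw [injective_iff_map_eq_zero]
  constructor
  · intro h v hv h0
    rw [← ch.fderiv_c_l hu hv] at h0 ⊢
    rw [h _ ((M.D_chart ch hu hf _).trans h0), map_zero]
  · intro h w h0
    rw [M.D_chart ch hu hf] at h0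
    exact (injective_iff_map_eq_zero _).1 (ch.fderiv_injective hu) w (h _ (ch.dc_mem hu w) h0)

omit Q in
theorem S4Clop_flat (M : TM) {E : Type*} [NormedAddCommGroup E] [NormedSpace ℂ E] {ι : Type*}
    {l : Filter ι} {f : ι → CN M.N → E} (ch : Chart M.n M.U)
    (hf : M.LocBdd l f (ch.c '' ch.s)) :
    Crest.Agent.R264.LocBdd l (fun j w => f j (ch.c w)) ch.s := by
  intro w hw
  obtain ⟨W, hW, C, h⟩ := hf _ ⟨w, hw, rfl⟩
  obtain ⟨ρ, hρ, hsub⟩ := Metric.mem_nhds_iff.1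
    (inter_mem (ch.s_open.mem_nhds hw) (ch.tendsto_c hw hW))
  refine ⟨ρ, hρ, C, h.mono fun j hj => ⟨?_, fun y hy => hj.2 _ (hsub hy).2⟩⟩
  exact hj.1.comp_differentiableOn (ch.c_diff.mono fun y hy => (hsub hy).1) fun y hy => (hsub hy).2

omit Q in
theorem S4Clop_wu {E : Type*} [NormedAddCommGroup E] [NormedSpace ℂ E] {r : ℕ}
    {K : E → Matrix (Fin r) (Fin r) ℂ} {a : E → ℂ} {z : E → CN r} {s : Set E}
    (hK : ∀ i j, DifferentiableOn ℂ (fun x => K x i j) s) (ha : DifferentiableOn ℂ a s)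
    (hz : DifferentiableOn ℂ z s) (v : CN r) :
    DifferentiableOn ℂ (fun x => wu (K x) v (a x) (z x)) s := by
  have hz' : ∀ i, DifferentiableOn ℂ (fun x => z x i) s := differentiableOn_pi.1 hz
  simp only [wu, bz, dotProduct, Matrix.mulVec, Pi.add_apply]
  refine (ha.sub ((DifferentiableOn.fun_sum fun i _ => (hz' i).const_mul _).const_mul _)).add
    ((DifferentiableOn.fun_sum fun i _ => ?_).const_mul _)
  exact (((DifferentiableOn.fun_sum fun j _ => (hK i j).mul_const _)).const_add _).const_mul _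

/-- Points of `R` are eventually mapped to the positive side. -/
theorem eventually_pos {q : CN S.N} (ld : σ.LD q) {y : CN S.N} (hy : y ∈ Q.R)
    (hO : Q.φ y ∈ ld.O) {b : ι → CN S.N} (hb : Tendsto b Q.l (𝓝[S.U] y)) :
    ∀ᶠ j in (Q.l : Filter ι), 0 < ld.h (S.toTM.ap (Q.γ j) (b j)) := by
  have h := ld.nf_lim hO hy.2.1.reg.mem (Q.tendsto_ap hy.1 hb) Q.η_lim Q.η_mem Q.ε_pos
    (Q.tendsto_Φ_moving hy.1 hy.2.2.1 hb).1
  filter_upwards [h.eventually (lt_mem_nhds (sub_pos.2 hy.2.2.2.1))] with j hj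
  exact (div_pos_iff_of_pos_right (Q.ε_pos j)).1 hj

/-- Propagation of the open conditions in a ball chart. -/
theorem subset_R (hL : Q.InL) {q : CN S.N} {ld : σ.LD q} (hb : ld.Bd) (ch : Chart S.n S.U)
    {u : CN S.n} {ρ : ℝ} (hs : ch.s = ball u ρ) (hφ : MapsTo Q.φ (ch.c '' ch.s) ld.O)
    (hγ : ∀ᶠ j in (Q.l : Filter ι), MapsTo (S.toTM.ap (Q.γ j)) (ch.c '' ch.s) ld.O)
    (hbd : S.toTM.LocBdd (Q.l : Filter ι) Q.Φj (ch.c '' ch.s))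
    (hpos : ∀ᶠ j in (Q.l : Filter ι), ∀ x ∈ ch.c '' ch.s, 0 < ld.h (S.toTM.ap (Q.γ j) x))
    {b : CN S.N} (hb0 : b ∈ ch.c '' ch.s) (hbR : b ∈ Q.R) : ch.c '' ch.s ⊆ Q.R := by
  have hBU : ch.c '' ch.s ⊆ S.U := ch.ropen.1
  have hb1 : ∀ x ∈ ch.c '' ch.s, S.toTM.LocBdd (Q.l : Filter ι) Q.Φj {x} := fun x hx z hz =>
    hbd z (mem_singleton_iff.1 hz ▸ hx)
  have hΦ : Hol (ch.c '' ch.s) Q.Φ := Q.hol_Φ ch.ropen hbd
  have hΦc : DifferentiableOn ℂ (fun w => Q.Φ (ch.c w)) ch.s :=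
    hΦ.comp_differentiableOn ch.c_diff (mapsTo_image _ _)
  have hconn : IsPreconnected ch.s := hs ▸ (convex_ball u ρ).isPreconnected
  have hle : ∀ x ∈ ch.c '' ch.s, 0 ≤ (Q.Φ x).1.im - Qk (σ.κ (Q.φ x)) (Q.Φ x).2.1 := by
    intro x hx
    have h := ld.nf_lim (hφ hx) (hL x (hBU hx)) (Q.φ_lim x (hBU hx)) Q.η_lim Q.η_mem Q.ε_pos
      (Q.tendsto_Φ (hBU hx) (hb1 x hx))
    exact ge_of_tendsto h (hpos.mono fun j hj => (div_pos (hj x hx) (Q.ε_pos j)).le)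
  obtain ⟨b', hb', rfl⟩ := hb0
  have hinj := hurwitz_fderiv (g := fun w => Q.Φ (ch.c w)) ch.s_open hconn
    (S4Clop_flat S.toTM ch hbd)
    (fun w hw => Q.tendsto_Φ (ch.maps hw) (hb1 _ ⟨w, hw, rfl⟩))
    (by rw [finrank_PM σ]; simp) (fun w hw => by
      obtain ⟨τ, hτ, hsub⟩ := Metric.isOpen_iff.1 ch.s_open w hw
      refine ⟨τ, hτ, ?_⟩
      filter_upwards [hγ, Q.η_lim.eventually (ball_mem_nhds 0 ld.δ1_pos)] with j h1 h2 y hy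
      have hy' : ch.c y ∈ ch.c '' ch.s := ⟨y, hsub hy, rfl⟩
      refine (S4Clop_inj_iff S.toTM ch (hsub hy) (S.toTM.hol_differentiableWithinAt ch.ropen
        (Q.hol_Φj ld.toLD0 hBU h2 h1) hy')).2 fun v hv h0 => ?_
      exact Q.D_Φj_inj ld.toLD0 h2 (hBU hy') (h1 hy') hv h0) hb'
    ((S4Clop_inj_iff S.toTM ch hb' (S.toTM.hol_differentiableWithinAt ch.ropen hΦ
      ⟨b', hb', rfl⟩)).2 hbR.2.2.2.2)
  rintro _ ⟨w, hw, rfl⟩
  have hw' : ch.c w ∈ ch.c '' ch.s := ⟨w, hw, rfl⟩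
  refine ⟨ch.maps hw, hb.lo (hφ hw') (hL _ (ch.maps hw)), hb1 _ hw', ?_,
    (S4Clop_inj_iff S.toTM ch hw (S.toTM.hol_differentiableWithinAt ch.ropen hΦ hw')).1
      (hinj w hw)⟩
  refine sub_pos.1 (lt_of_le_of_ne (hle _ hw') fun e => ?_)
  have hsm : ∀ y ∈ ch.s, Small (σ.κ (Q.φ (ch.c y))) := fun y hy => ld.small _ (hφ ⟨y, hy, rfl⟩)
  have hd := S4Clop_wu (K := fun y => σ.κ (Q.φ (ch.c y))) (a := fun y => (Q.Φ (ch.c y)).1)
    (z := fun y => (Q.Φ (ch.c y)).2.1) (s := ch.s) (fun i j y hy => by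
      have h4 := σ.κ_differentiableAt (ld.r0_ne _ (hφ ⟨y, hy, rfl⟩) 0 ld.zero_mem) i j
      exact DifferentiableAt.comp_differentiableWithinAt (f := fun w => Q.φ (ch.c w))
        (g := fun x => σ.κ x i j) y h4 (ch.hol_comp Q.φ_hol y hy)) hΦc.fst hΦc.snd.fst
    (bzInv (σ.κ (Q.φ (ch.c w))) (Q.Φ (ch.c w)).2.1)
  have h0 : (wu (σ.κ (Q.φ (ch.c w))) (bzInv (σ.κ (Q.φ (ch.c w))) (Q.Φ (ch.c w)).2.1)
      (Q.Φ (ch.c w)).1 (Q.Φ (ch.c w)).2.1).im = 0 := by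
    rw [(hsm w hw).im_wu, (hsm w hw).bz_bzInv, sub_self, Qk_zero, ← e, add_zero]
  have h1 := eqOn_const_of_im_nonneg ch.s_open hconn hd (fun y hy => by
    rw [(hsm y hy).im_wu]
    exact add_nonneg (hle _ ⟨y, hy, rfl⟩) ((hsm y hy).Qk_nonneg _)) hw h0 b' hb'
  have h2 := congrArg Complex.im h1
  rw [h0, (hsm b' hb').im_wu] at h2
  have h3 := hbR.2.2.2.1
  linarith [(hsm b' hb').Qk_nonneg ((Q.Φ (ch.c b')).2.1 - bz (σ.κ (Q.φ (ch.c b')))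
    (bzInv (σ.κ (Q.φ (ch.c w))) (Q.Φ (ch.c w)).2.1))]

theorem R_mem_nhds (hL : Q.InL) {y : CN S.N} (hy : y ∈ S.U) (hlo : σ.Lo (Q.φ y))
    (hc : y ∈ closure Q.R) : Q.R ∈ 𝓝[S.U] y := by
  obtain ⟨ld, hb⟩ := hlo.exists_LD
  obtain ⟨ch, u, ρ, hρ, hs, hc', hφ, hγ, H⟩ := Q.normal hy rfl ld hb
  have hB : ch.c '' ch.s ∈ 𝓝[S.U] y := hc' ▸ ch.nhds u (hs ▸ mem_ball_self hρ)
  have := mem_closure_iff_nhdsWithin_neBot.1 hc
  obtain ⟨b, hb0, hbR⟩ := Filter.nonempty_of_mem (f := 𝓝[Q.R] y)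
    (inter_mem (nhdsWithin_mono y (fun _ h => h.1 : Q.R ⊆ S.U) hB) self_mem_nhdsWithin)
  have hbt : Tendsto (fun _ : ι => b) Q.l (𝓝[S.U] b) := tendsto_const_nhdsWithin hbR.1
  have h1 := ((continuous_fst.norm.tendsto _).comp (Q.tendsto_Φ hbR.1 hbR.2.2.1)).eventually
    (gt_mem_nhds (lt_add_one _))
  obtain ⟨h2, h3⟩ := H (fun _ => b) b (‖(Q.Φ b).1‖ + 1) hb0 hbt
    ((Q.eventually_pos ld hbR (hφ hb0) hbt).and (h1.mono fun j hj => le_of_lt hj))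
  exact mem_of_superset hB (Q.subset_R hL hb ch hs hφ hγ h2 h3 hb0 hbR)

theorem ropen_R (hL : Q.InL) : ROpen S.U Q.R :=
  ⟨fun _ h => h.1, fun _ h => Q.R_mem_nhds hL h.1 h.2.1 (subset_closure h)⟩

theorem hol_Φ_R (hL : Q.InL) : Hol Q.R Q.Φ :=
  Q.hol_Φ (Q.ropen_R hL) fun x hx => hx.2.2.1 x rfl

/-- A connected family in the preimage of the good part of the leaf that meets `R` lies in `R`. -/
theorem mapsTo_R (hL : Q.InL) {E : Type*} [TopologicalSpace E] {Ω : Set E} (hΩ : IsPreconnected Ω)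
    {ψ : E → CN S.N} (hψ : ContinuousOn ψ Ω) (hU : MapsTo ψ Ω S.U)
    (hlo : ∀ ω ∈ Ω, σ.Lo (Q.φ (ψ ω))) {ω0 : E} (h0 : ω0 ∈ Ω) (hR : ψ ω0 ∈ Q.R) :
    MapsTo ψ Ω Q.R := by
  obtain ⟨O, hO, hRO⟩ := (Q.ropen_R hL).exists_open
  have key : ∀ ω ∈ Ω, ψ ω ∈ closure Q.R → ψ ω ∈ Q.R := fun ω hω hc =>
    mem_of_mem_nhdsWithin (hU hω) (Q.R_mem_nhds hL (hU hω) (hlo ω hω) hc)
  intro ω hω
  by_contra hn
  obtain ⟨_, ⟨ω', hω', rfl⟩, h1, h2⟩ := hΩ.image ψ hψ O (closure Q.R)ᶜ hO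
    isClosed_closure.isOpen_compl (by
      rintro _ ⟨ω', hω', rfl⟩
      by_cases hc : ψ ω' ∈ closure Q.R
      · exact Or.inl ((hRO ▸ key ω' hω' hc : ψ ω' ∈ S.U ∩ O).2)
      · exact Or.inr hc) ⟨_, ⟨ω0, h0, rfl⟩, (hRO ▸ hR : ψ ω0 ∈ S.U ∩ O).2⟩
    ⟨_, ⟨ω, hω, rfl⟩, fun hc => hn (key ω hω hc)⟩
  exact h2 (subset_closure (hRO ▸ ⟨hU hω', h1⟩))

end Crest.Agent.R264.Seq
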