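import Crest.Agent.R264.S4An
import Crest.Agent.R264.QAlg

/-! Row 264, P4: regular points of the base leaf, local data (definitions). -/

set_option autoImplicit false
open Set Filter Topology Metric Complex
open scoped Matrix

noncomputable section
namespace Crest.Agent.R264

/-- Anisotropic scaling. -/
def sc {r k : ℕ} (ε : ℝ) (ω : PM r k) : PM r k :=
  ((ε : ℂ)⁻¹ * ω.1, ((√ε : ℝ) : ℂ)⁻¹ • ω.2.1, ω.2.2)

/-- The inverse scaling. -/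
def unsc {r k : ℕ} (ε : ℝ) (ω : PM r k) : PM r k :=
  ((ε : ℂ) * ω.1, ((√ε : ℝ) : ℂ) • ω.2.1, ω.2.2)

namespace Segre
variable {N n r k : ℕ} {U : Set (CN N)} {F : AlgFrame n U} (σ : Segre F r k)

/-- Regular points of the base leaf. -/
structure Reg (q : CN N) : Prop where
  mem : q ∈ σ.L F.V 0
  dv_ne : F.dv q ≠ 0
  r0_ne : σ.r0 q 0 ≠ 0
  coord : ∀ c : Fin n → ℂ, fderiv ℂ (σ.co 0) q (∑ i, c i • F.xi i q) = 0 → c = 0

/-- Regular points with small period matrix near which the base leaf lies in the boundary. -/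
structure Lo (q : CN N) : Prop where
  reg : σ.Reg q
  small : Small (σ.κ q)
  bd : ∀ᶠ x in 𝓝 q, x ∈ σ.L F.V 0 → x ∈ closure U ∧ x ∉ U

/-- Local coordinates near a regular point, uniformly in the leaf parameter. -/
structure LD0 (q : CN N) where
  O : Set (CN N)
  δ1 : ℝ
  X : ℂ × CN r → PM r k → CN N
  O_open : IsOpen O
  mem : q ∈ O
  reg : σ.Reg q
  δ1_pos : 0 < δ1
  ok : ∀ η ∈ ball (0 : ℂ × CN r) δ1, σ.Ok η
  dv_ne : ∀ x ∈ O, F.dv x ≠ 0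
  r0_ne : ∀ x ∈ O, ∀ η ∈ ball (0 : ℂ × CN r) δ1, σ.r0 x η ≠ 0
  low : ∃ c > 0, ∀ η ∈ ball (0 : ℂ × CN r) δ1, ∀ x ∈ O ∩ F.V, ∀ v ∈ Tan F.V x,
    c * ‖v‖ ≤ ‖fderiv ℂ (σ.co η) x v‖
  X_co : ∀ η ∈ ball (0 : ℂ × CN r) δ1, ∀ x ∈ O ∩ F.V, X η (σ.co η x) = x
  X_loc : ∀ η ∈ ball (0 : ℂ × CN r) δ1, ∀ x ∈ O ∩ F.V, ∀ W ∈ 𝓝 x,
    ∀ᶠ z : (ℂ × CN r) × PM r k in 𝓝 (η, σ.co η x), X z.1 z.2 ∈ W ∩ F.V ∧
      σ.co z.1 (X z.1 z.2) = z.2 ∧ DifferentiableAt ℂ (X z.1) z.2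

/-- Local data near a regular point with small period matrix: the leaf `e x` and the height `h x`
of a point. -/
structure LD (q : CN N) extends σ.LD0 q where
  h : CN N → ℝ
  e : CN N → ℂ × CN r
  h_cont : ContinuousOn h O
  e_cont : ContinuousOn e O
  e_mem : ∀ x ∈ O, e x ∈ σ.S ∧ e x ∈ ball (0 : ℂ × CN r) δ1
  co_e : ∀ x ∈ O, σ.co (e x) x = (I * h x, 0, σ.t x)
  uniq : ∀ x ∈ O, ∀ η ∈ σ.S, η ∈ ball (0 : ℂ × CN r) δ1 → (σ.wc η x).re = 0 →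
    σ.zc η (σ.p η) x = 0 → η = e x
  small : ∀ x ∈ O, Small (σ.κ x)

variable {σ} {q : CN N}

/-- Shrinking the domain of local coordinates. -/
def LD0.restrict (ld : σ.LD0 q) (O' : Set (CN N)) (hO : IsOpen O') (hq : q ∈ O') : σ.LD0 q where
  O := ld.O ∩ O'
  δ1 := ld.δ1
  X := ld.X
  O_open := ld.O_open.inter hO
  mem := ⟨ld.mem, hq⟩
  reg := ld.reg
  δ1_pos := ld.δ1_pos
  ok := ld.ok
  dv_ne x hx := ld.dv_ne x hx.1
  r0_ne x hx := ld.r0_ne x hx.1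
  low := by
    obtain ⟨c, hc, h⟩ := ld.low
    exact ⟨c, hc, fun η hη x hx => h η hη x ⟨hx.1.1, hx.2⟩⟩
  X_co η hη x hx := ld.X_co η hη x ⟨hx.1.1, hx.2⟩
  X_loc η hη x hx := ld.X_loc η hη x ⟨hx.1.1, hx.2⟩

/-- Shrinking the domain of local data. -/
def LD.restrict (ld : σ.LD q) (O' : Set (CN N)) (hO : IsOpen O') (hq : q ∈ O') : σ.LD q where
  toLD0 := ld.toLD0.restrict O' hO hq
  h := ld.h
  e := ld.e
  h_cont := ld.h_cont.mono inter_subset_left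
  e_cont := ld.e_cont.mono inter_subset_left
  e_mem x hx := ld.e_mem x hx.1
  co_e x hx := ld.co_e x hx.1
  uniq x hx := ld.uniq x hx.1
  small x hx := ld.small x hx.1

/-- The zero set of the height lies in the boundary. -/
def LD.Bd (ld : σ.LD q) : Prop := ∀ x ∈ ld.O ∩ F.V, ld.h x = 0 → x ∈ closure U ∧ x ∉ U

/-- The parametrisation of the base leaf. -/
def LD0.lam (ld : σ.LD0 q) (t : CN k) : CN N := ld.X 0 (0, 0, t)

theorem LD0.zero_mem (ld : σ.LD0 q) : (0 : ℂ × CN r) ∈ ball (0 : ℂ × CN r) ld.δ1 :=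
  mem_ball_self ld.δ1_pos

theorem LD0.injOn (ld : σ.LD0 q) {η : ℂ × CN r} (hη : η ∈ ball (0 : ℂ × CN r) ld.δ1) :
    InjOn (σ.co η) (ld.O ∩ F.V) := fun x hx y hy e => by
  rw [← ld.X_co η hη x hx, e, ld.X_co η hη y hy]

end Segre
end Crest.Agent.R264
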