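import Crest.Agent.R264.Defs

/-! Row 264, P4: uniform second order Taylor expansions (auxiliary file for `S4Exp`). -/

set_option autoImplicit false
open Set Filter Topology Metric Complex Asymptotics
open scoped Matrix

noncomputable section
namespace Crest.Agent.R264

theorem s4e_norm_dot_le {r : ℕ} (a b : CN r) : ‖a ⬝ᵥ b‖ ≤ r * (‖a‖ * ‖b‖) := by
  unfold dotProduct
  calc ‖∑ i, a i * b i‖ ≤ ∑ i, ‖a i * b i‖ := norm_sum_le _ _
    _ ≤ ∑ _i : Fin r, ‖a‖ * ‖b‖ := Finset.sum_le_sum fun i _ => by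
        rw [norm_mul]
        exact mul_le_mul (norm_le_pi_norm a i) (norm_le_pi_norm b i) (norm_nonneg _)
          (norm_nonneg _)
    _ = r * (‖a‖ * ‖b‖) := by simp

theorem s4e_isBigO_dot {X : Type*} {r : ℕ} (l : Filter X) (a b : X → CN r) :
    (fun x => a x ⬝ᵥ b x) =O[l] fun x => ‖a x‖ * ‖b x‖ :=
  IsBigO.of_bound r (Eventually.of_forall fun x => by
    rw [Real.norm_of_nonneg (by positivity)]
    exact s4e_norm_dot_le _ _)

/-- Integration of an expansion of the derivative. -/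
theorem s4e_taylor {X G : Type*} [NormedAddCommGroup G] [NormedSpace ℝ G] {l : Filter X}
    {ψ ψ' : X → ℝ → G} {a b : X → G} {g : X → ℝ}
    (hd : ∀ᶠ x in l, ∀ τ ∈ Icc (0 : ℝ) 1, HasDerivAt (ψ x) (ψ' x τ) τ)
    (ho : (fun w : X × ℝ => ψ' w.1 w.2 - a w.1 - (2 * w.2) • b w.1) =o[l ×ˢ 𝓟 (Icc 0 1)]
      fun w => g w.1) :
    (fun x => ψ x 1 - ψ x 0 - a x - b x) =o[l] g := by
  rw [isLittleO_iff] at ho ⊢
  intro c hc
  have h1 := eventually_prod_principal_iff.1 (ho hc)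
  filter_upwards [hd, h1] with x hx1 hx2
  have key : ∀ τ ∈ Icc (0 : ℝ) 1, HasDerivWithinAt (fun τ => ψ x τ - τ • a x - τ ^ 2 • b x)
      (ψ' x τ - a x - (2 * τ) • b x) (Icc 0 1) τ := by
    intro τ hτ
    have e1 : HasDerivAt (fun τ : ℝ => τ • a x) (a x) τ := by
      simpa using (hasDerivAt_id τ).smul_const (a x)
    have e2 : HasDerivAt (fun τ : ℝ => τ ^ 2 • b x) ((2 * τ) • b x) τ := by
      simpa using (hasDerivAt_pow 2 τ).smul_const (b x)
    exact (((hx1 τ hτ).sub e1).sub e2).hasDerivWithinAt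
  have := norm_image_sub_le_of_norm_deriv_le_segment_01' key
    (fun τ hτ => hx2 τ (Ico_subset_Icc_self hτ))
  convert this using 2
  simp only [one_smul, one_pow, zero_smul, sub_zero, ne_eq, OfNat.ofNat_ne_zero,
    not_false_eq_true, zero_pow]
  abel

theorem s4e_tendsto_seg {X E : Type*} [NormedAddCommGroup E] [NormedSpace ℝ E] {l : Filter X}
    {u d : X → E} {e0 : E} (hu : Tendsto u l (𝓝 e0)) (hd : Tendsto d l (𝓝 0)) :
    Tendsto (fun w : X × ℝ => u w.1 + w.2 • d w.1) (l ×ˢ 𝓟 (Icc 0 1)) (𝓝 e0) := by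
  have h1 : Tendsto (fun w : X × ℝ => w.2 • d w.1) (l ×ˢ 𝓟 (Icc (0 : ℝ) 1)) (𝓝 0) := by
    refine squeeze_zero_norm' ?_ (tendsto_zero_iff_norm_tendsto_zero.1 (hd.comp tendsto_fst))
    refine eventually_prod_principal_iff.2 (Eventually.of_forall fun x τ hτ => ?_)
    rw [norm_smul, Real.norm_of_nonneg hτ.1]
    exact mul_le_of_le_one_left (norm_nonneg _) hτ.2
  simpa using (hu.comp tendsto_fst).add h1

theorem s4e_seg {X E H : Type*} [NormedAddCommGroup E] [NormedSpace ℝ E] [NormedAddCommGroup H]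
    [NormedSpace ℝ H] {l : Filter X} {u d : X → E} {e0 : E} {R : E → H} {R' : E →L[ℝ] H}
    (hR : HasStrictFDerivAt R R' e0) (hu : Tendsto u l (𝓝 e0)) (hd : Tendsto d l (𝓝 0)) :
    (fun w : X × ℝ => R (u w.1 + w.2 • d w.1) - R (u w.1) - w.2 • R' (d w.1))
      =o[l ×ˢ 𝓟 (Icc 0 1)] fun w => d w.1 := by
  have ht : Tendsto (fun w : X × ℝ => (u w.1 + w.2 • d w.1, u w.1)) (l ×ˢ 𝓟 (Icc 0 1))
      (𝓝 (e0, e0)) := (s4e_tendsto_seg hu hd).prodMk_nhds (hu.comp tendsto_fst)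
  have h1 := hR.isLittleO.comp_tendsto ht
  have h2 : (fun w : X × ℝ => w.2 • d w.1) =O[l ×ˢ 𝓟 (Icc (0 : ℝ) 1)] fun w => d w.1 := by
    refine IsBigO.of_bound 1 ?_
    refine eventually_prod_principal_iff.2 (Eventually.of_forall fun x τ hτ => ?_)
    rw [norm_smul, Real.norm_of_nonneg hτ.1]
    exact mul_le_mul_of_nonneg_right hτ.2 (norm_nonneg _)
  refine IsLittleO.trans_isBigO ?_ h2
  refine h1.congr (fun w => ?_) (fun w => ?_)
  · simp
  · simp

/-- The pairing on `ℂ × ℂ^r`. -/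
def s4ePair {r : ℕ} (a d : ℂ × CN r) : ℂ := a.1 * d.1 + a.2 ⬝ᵥ d.2

theorem s4e_isBigO_pair {X : Type*} {r : ℕ} (l : Filter X) (a b : X → ℂ × CN r) :
    (fun x => s4ePair (a x) (b x)) =O[l] fun x => ‖a x‖ * ‖b x‖ :=
  IsBigO.of_bound (1 + r) (Eventually.of_forall fun x => by
    rw [Real.norm_of_nonneg (by positivity)]
    have h1 : ‖(a x).1 * (b x).1‖ ≤ ‖a x‖ * ‖b x‖ := by
      rw [norm_mul]
      exact mul_le_mul (norm_fst_le _) (norm_fst_le _) (norm_nonneg _) (norm_nonneg _)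
    have h2 : ‖(a x).2‖ * ‖(b x).2‖ ≤ ‖a x‖ * ‖b x‖ :=
      mul_le_mul (norm_snd_le _) (norm_snd_le _) (norm_nonneg _) (norm_nonneg _)
    have h3 := s4e_norm_dot_le (a x).2 (b x).2
    have h4 := mul_le_mul_of_nonneg_left h2 (Nat.cast_nonneg (α := ℝ) r)
    have h5 := norm_add_le ((a x).1 * (b x).1) ((a x).2 ⬝ᵥ (b x).2)
    unfold s4ePair
    linarith)

/-- The normal component is controlled by the normal displacement. -/
theorem s4e_fst_le {X : Type*} {r : ℕ} {l : Filter X} {d : X → ℂ × CN r} {p : X → CN r}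
    (hp : Tendsto p l (𝓝 0)) {ε : ℝ} (hε : 0 < ε) :
    ∀ᶠ x in l, ‖(d x).1‖ ≤ ‖(d x).1 + p x ⬝ᵥ (d x).2‖ + ε * ‖(d x).2‖ := by
  have h1 : Tendsto (fun x => (r : ℝ) * ‖p x‖) l (𝓝 0) := by
    simpa using (tendsto_zero_iff_norm_tendsto_zero.1 hp).const_mul (r : ℝ)
  filter_upwards [h1.eventually (gt_mem_nhds hε)] with x hx
  have h2 := s4e_norm_dot_le (p x) (d x).2
  have h3 : ‖(d x).1‖ ≤ ‖(d x).1 + p x ⬝ᵥ (d x).2‖ + ‖p x ⬝ᵥ (d x).2‖ := by
    simpa using norm_sub_le ((d x).1 + p x ⬝ᵥ (d x).2) (p x ⬝ᵥ (d x).2)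
  have h4 : (r : ℝ) * ‖p x‖ * ‖(d x).2‖ ≤ ε * ‖(d x).2‖ :=
    mul_le_mul_of_nonneg_right hx.le (norm_nonneg _)
  nlinarith

theorem s4e_mul_isLittleO {X : Type*} {r : ℕ} {l : Filter X} {d : X → ℂ × CN r} {p : X → CN r}
    (hp : Tendsto p l (𝓝 0)) (hd : Tendsto d l (𝓝 0)) :
    (fun x => ‖d x‖ * ‖(d x).1‖) =o[l]
      fun x => ‖(d x).2‖ ^ 2 + ‖(d x).1 + p x ⬝ᵥ (d x).2‖ := by
  rw [isLittleO_iff]
  intro c hc
  obtain ⟨ε, hε0, hε1, hεc⟩ : ∃ ε : ℝ, 0 < ε ∧ ε ≤ 1 ∧ 2 * ε ≤ c :=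
    ⟨min 1 (c / 2), lt_min one_pos (half_pos hc), min_le_left _ _, by
      have := min_le_right 1 (c / 2); linarith⟩
  filter_upwards [s4e_fst_le (d := d) hp hε0,
    (tendsto_zero_iff_norm_tendsto_zero.1 hd).eventually (gt_mem_nhds hε0)] with x h1 h2
  rw [Real.norm_of_nonneg (by positivity), Real.norm_of_nonneg (by positivity)]
  set s := ‖(d x).1 + p x ⬝ᵥ (d x).2‖
  set a := ‖(d x).1‖
  set b := ‖(d x).2‖
  have hs : 0 ≤ s := norm_nonneg _
  have ha : 0 ≤ a := norm_nonneg _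
  have hb : 0 ≤ b := norm_nonneg _
  have h3 : ‖d x‖ ≤ a + b := by
    rw [Prod.norm_def]
    exact max_le (by linarith) (by linarith)
  have h4 : b ≤ ‖d x‖ := norm_snd_le _
  have h5 : 0 ≤ ‖d x‖ := norm_nonneg _
  set n := ‖d x‖
  have h6 : n * a ≤ n * s + ε * (n * b) := by nlinarith
  have h7 : n * s ≤ ε * s := mul_le_mul_of_nonneg_right h2.le hs
  have h8 : n * b ≤ s * b + ε * b * b + b * b := by nlinarith
  have h9 : s * b ≤ s := by nlinarith
  have h10 : ε * b * b ≤ b * b := by nlinarith [mul_nonneg hb hb]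
  have h11 : ε * (n * b) ≤ ε * (s + 2 * b ^ 2) := mul_le_mul_of_nonneg_left (by nlinarith) hε0.le
  have h12 : 2 * ε * (b ^ 2 + s) ≤ c * (b ^ 2 + s) :=
    mul_le_mul_of_nonneg_right hεc (by positivity)
  nlinarith

theorem s4e_sq_isBigO {X : Type*} {r : ℕ} {l : Filter X} {d : X → ℂ × CN r} {p : X → CN r}
    (hp : Tendsto p l (𝓝 0)) (hd : Tendsto d l (𝓝 0)) :
    (fun x => ‖d x‖ * ‖d x‖) =O[l]
      fun x => ‖(d x).2‖ ^ 2 + ‖(d x).1 + p x ⬝ᵥ (d x).2‖ := by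
  refine IsBigO.of_bound 2 ?_
  filter_upwards [(s4e_mul_isLittleO hp hd).bound one_pos] with x h1
  rw [Real.norm_of_nonneg (by positivity), Real.norm_of_nonneg (by positivity)] at h1 ⊢
  have hs : 0 ≤ ‖(d x).1 + p x ⬝ᵥ (d x).2‖ := norm_nonneg _
  rcases max_choice ‖(d x).1‖ ‖(d x).2‖ with h | h
  · rw [← Prod.norm_def] at h
    rw [← h] at h1
    nlinarith [sq_nonneg ‖(d x).2‖]
  · rw [← Prod.norm_def] at h
    rw [h]
    nlinarith [sq_nonneg ‖(d x).2‖]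

/-- Uniform second order expansion. -/
theorem s4e_T2 {X E G : Type*} {r : ℕ} [NormedAddCommGroup E] [NormedSpace ℝ E]
    [NormedAddCommGroup G] [NormedSpace ℝ G] {l : Filter X} (T : ℂ →L[ℝ] G)
    (ι : (ℂ × CN r) →L[ℝ] E) {f : E → G} {R : E → ℂ × CN r} {R' : E →L[ℝ] ℂ × CN r} {e0 : E}
    (hR : HasStrictFDerivAt R R' e0)
    (hf : ∀ᶠ e in 𝓝 e0, ∃ L : E →L[ℝ] G, HasFDerivAt f L e ∧ ∀ d, L (ι d) = T (s4ePair (R e) d))
    {u : X → E} {d : X → ℂ × CN r} {p : X → CN r} (hu : Tendsto u l (𝓝 e0))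
    (hp : Tendsto p l (𝓝 0)) (hd : Tendsto d l (𝓝 0)) :
    (fun x => f (u x + ι (d x)) - f (u x) - T (s4ePair (R (u x)) (d x)) -
      (1 / 2 : ℝ) • T ((R' (ι (0, (d x).2))).2 ⬝ᵥ (d x).2)) =o[l]
      fun x => ‖(d x).2‖ ^ 2 + ‖(d x).1 + p x ⬝ᵥ (d x).2‖ := by
  have hιd : Tendsto (fun x => ι (d x)) l (𝓝 0) := by
    simpa [Function.comp_def] using (ι.continuous.tendsto 0).comp hd
  have h1 : (fun x => f (u x + (1 : ℝ) • ι (d x)) - f (u x + (0 : ℝ) • ι (d x)) -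
      T (s4ePair (R (u x)) (d x)) - (1 / 2 : ℝ) • T (s4ePair (R' (ι (d x))) (d x))) =o[l]
      fun x => ‖d x‖ * ‖d x‖ := by
    refine s4e_taylor (ψ := fun x τ => f (u x + τ • ι (d x)))
      (ψ' := fun x τ => T (s4ePair (R (u x + τ • ι (d x))) (d x))) ?_ ?_
    · have := eventually_prod_principal_iff.1 ((s4e_tendsto_seg hu hιd).eventually hf)
      filter_upwards [this] with x hx τ hτ
      obtain ⟨L, hL, hL'⟩ := hx τ hτ
      have e1 : HasDerivAt (fun τ : ℝ => u x + τ • ι (d x)) (ι (d x)) τ := by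
        simpa using ((hasDerivAt_id τ).smul_const (ι (d x))).const_add (u x)
      have := hL.comp_hasDerivAt τ e1
      rw [hL'] at this
      exact this
    · have h2 := s4e_seg hR hu hιd
      have h3 : (fun w : X × ℝ => ι (d w.1)) =O[l ×ˢ 𝓟 (Icc (0 : ℝ) 1)] fun w => d w.1 :=
        ι.isBigO_comp _ _
      have h4 := ((h2.trans_isBigO h3).norm_norm).mul_isBigO
        (isBigO_refl (fun w : X × ℝ => ‖d w.1‖) _)
      have h5 := (T.isBigO_comp _ _).trans_isLittleO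
        ((s4e_isBigO_pair _ _ (fun w : X × ℝ => d w.1)).trans_isLittleO h4)
      refine h5.congr_left fun w => ?_
      have : (2 * w.2) • (1 / 2 : ℝ) • T (s4ePair (R' (ι (d w.1))) (d w.1)) =
          T (w.2 • s4ePair (R' (ι (d w.1))) (d w.1)) := by
        rw [smul_smul, map_smul]
        congr 1
        ring
      rw [this, ← map_sub, ← map_sub]
      congr 1
      simp only [s4ePair, Prod.fst_sub, Prod.snd_sub, Prod.smul_fst, Prod.smul_snd,
        sub_dotProduct, smul_dotProduct, smul_add, real_smul]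
      ring
  have h2 : (fun x => (1 / 2 : ℝ) • T (s4ePair (R' (ι (d x))) (d x)) -
      (1 / 2 : ℝ) • T ((R' (ι (0, (d x).2))).2 ⬝ᵥ (d x).2)) =O[l]
      fun x => ‖d x‖ * ‖(d x).1‖ := by
    have h3 : (fun x => (R' (ι (d x))).1 * (d x).1) =O[l] fun x => ‖d x‖ * ‖(d x).1‖ := by
      have := ((((ContinuousLinearMap.fst ℝ ℂ (CN r)).comp (R'.comp ι)).isBigO_comp d l).norm_norm).mul
        (isBigO_refl (fun x => ‖(d x).1‖) l)
      refine IsBigO.of_norm_left (this.congr_left fun x => ?_)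
      simp
    have h4 : (fun x => (R' (ι ((d x).1, 0))).2 ⬝ᵥ (d x).2) =O[l]
        fun x => ‖d x‖ * ‖(d x).1‖ := by
      have h5 := ((((ContinuousLinearMap.snd ℝ ℂ (CN r)).comp (R'.comp (ι.comp
        (ContinuousLinearMap.inl ℝ ℂ (CN r))))).isBigO_comp (fun x => (d x).1) l).norm_norm).mul
        (((ContinuousLinearMap.snd ℝ ℂ (CN r)).isBigO_comp d l).norm_norm)
      refine (s4e_isBigO_dot l _ _).trans (h5.congr (fun x => ?_) fun x => mul_comm _ _)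
      simp
    have h5 := ((T.isBigO_comp _ _).trans (h3.add h4)).const_smul_left (1 / 2 : ℝ)
    refine h5.congr_left fun x => ?_
    have e : ι (d x) = ι ((d x).1, 0) + ι (0, (d x).2) := by
      rw [← map_add]; simp
    simp only [Pi.smul_apply, ← smul_sub, ← map_sub]
    congr 2
    unfold s4ePair
    conv_rhs => enter [1, 2]; rw [e, map_add, Prod.snd_add, add_dotProduct]
    ring
  have h3 := (h1.trans_isBigO (s4e_sq_isBigO hp hd)).add
    (h2.trans_isLittleO (s4e_mul_isLittleO hp hd))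
  refine h3.congr_left fun x => ?_
  simp only [one_smul, zero_smul, add_zero]
  abel

end Crest.Agent.R264
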