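import Crest.Agent.R264.S4An
import Crest.Agent.R264.S4Alg
import Crest.Agent.R264.S4ExpAux

/-! Row 264, P4: expansions relating the coordinates of two nearby leaves, normal form. -/

set_option autoImplicit false
open Set Filter Topology Metric Complex Asymptotics
open scoped Matrix

noncomputable section
namespace Crest.Agent.R264

/-- The normal displacement between two slice parameters. -/
def SegRaw.sd {N r k : ℕ} (σ : SegRaw N r k) (η η' : ℂ × CN r) : ℂ :=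
  (η' - η).1 + σ.p η ⬝ᵥ (η' - η).2

namespace Segre
variable {N n r k : ℕ} {U : Set (CN N)} {F : AlgFrame n U} (σ : Segre F r k)

theorem s4e_r0_strict (q : CN N) : ∃ L : CN N × (ℂ × CN r) →L[ℂ] ℂ,
    HasStrictFDerivAt (fun z : CN N × (ℂ × CN r) => σ.r0 z.1 z.2) L (q, 0) :=
  ⟨_, hasStrictFDerivAt_of_differentiableOn (isOpen_univ.prod isOpen_ball) σ.r0_diff
    ⟨mem_univ _, mem_ball_self σ.δ_pos⟩⟩

theorem s4e_r1_strict (q : CN N) : ∃ L : CN N × (ℂ × CN r) →L[ℂ] CN r,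
    HasStrictFDerivAt (fun z : CN N × (ℂ × CN r) => σ.r1 z.1 z.2) L (q, 0) ∧
      ∀ d : CN r, L (0, (0, d)) = σ.r2 q 0 *ᵥ d := by
  have h := hasStrictFDerivAt_of_differentiableOn (isOpen_univ.prod isOpen_ball) σ.r1_diff
    (x := (q, 0)) ⟨mem_univ _, mem_ball_self σ.δ_pos⟩
  refine ⟨_, h, fun d => ?_⟩
  have h2 := (h.hasFDerivAt.comp (0 : ℂ × CN r) (hasFDerivAt_prodMk_right (𝕜 := ℂ) q 0)).fderiv
  rw [← σ.fderiv_r1 q (mem_ball_self σ.δ_pos) d]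
  change _ = fderiv ℂ ((fun z : CN N × (ℂ × CN r) => σ.r1 z.1 z.2) ∘ fun e₂ => (q, e₂)) 0 (0, d)
  rw [h2]
  simp

theorem s4e_p_tendsto : Tendsto σ.p (𝓝 0) (𝓝 0) := by
  have := σ.p_continuousAt σ.ok_zero
  rwa [ContinuousAt, σ.p_zero] at this

theorem s4e_zc_strict {q : CN N} (hq : q ∈ σ.L F.V 0) (h0 : σ.r0 q 0 ≠ 0) :
    ∃ L : CN N × (ℂ × CN r) →L[ℝ] CN r,
      HasStrictFDerivAt (fun z : CN N × (ℂ × CN r) => σ.zc z.2 (σ.p z.2) z.1) L (q, 0) ∧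
      ∀ d : CN r, L (0, (0, d)) = -bz (σ.κ q) (star d) := by
  obtain ⟨L0, hL0⟩ := σ.s4e_r0_strict q
  obtain ⟨L1, hL1, hL1'⟩ := σ.s4e_r1_strict q
  obtain ⟨Lp, hLp, hLp'⟩ := σ.p_strict
  have hr1 : σ.r1 q 0 = 0 := (σ.mem_L_zero.1 hq).2.2
  have hinv := (hasStrictDerivAt_inv h0).hasStrictFDerivAt.comp
    (f := fun z : CN N × (ℂ × CN r) => σ.r0 z.1 z.2) (q, 0) hL0
  have hg := (hinv.smul hL1).restrictScalars ℝ
  have hp : HasStrictFDerivAt (fun z : CN N × (ℂ × CN r) => σ.p z.2)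
      (Lp.comp (ContinuousLinearMap.snd ℝ _ _)) (q, 0) :=
    HasStrictFDerivAt.comp (g := σ.p) (f := Prod.snd) (q, 0) hLp hasStrictFDerivAt_snd
  have hz := (hg.sub hp).const_smul ((2 * I)⁻¹ : ℂ)
  refine ⟨_, hz.congr_of_eventuallyEq ?_, fun d => ?_⟩
  · filter_upwards [hL0.continuousAt.eventually_ne h0] with z hz
    have hz' : σ.r0 z.1 z.2 ≠ 0 := hz
    ext i
    simp only [SegRaw.zc, Pi.smul_apply, Pi.sub_apply, smul_eq_mul, Function.comp_apply,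
      Pi.smul_apply']
    field_simp
  · ext i
    simp only [ContinuousLinearMap.smul_apply, ContinuousLinearMap.sub_apply,
      ContinuousLinearMap.coe_restrictScalars', ContinuousLinearMap.add_apply,
      ContinuousLinearMap.smulRight_apply, hr1, smul_zero, add_zero, hL1',
      ContinuousLinearMap.comp_apply, ContinuousLinearMap.coe_snd', hLp', bz, star_star,
      SegRaw.κ, Matrix.smul_mulVec, Pi.smul_apply, Pi.sub_apply, Pi.neg_apply, Pi.add_apply,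
      smul_eq_mul, Function.comp_apply]
    field_simp
    ring_nf
    simp only [I_sq]
    ring

theorem s4e_r0_diag_strict : ∃ L : (ℂ × CN r) →L[ℝ] ℂ,
    HasStrictFDerivAt (fun η => σ.r0 (σ.a (star η)) η) L 0 := by
  obtain ⟨L0, hL0⟩ := σ.s4e_r0_strict (σ.a 0)
  have ha := (hasStrictFDerivAt_of_differentiableOn isOpen_ball σ.a_diff
    (mem_ball_self σ.δ_pos)).restrictScalars ℝ
  have hs : HasStrictFDerivAt (fun η : ℂ × CN r => star η)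
      ((starL' ℝ : (ℂ × CN r) ≃L[ℝ] (ℂ × CN r)) : (ℂ × CN r) →L[ℝ] (ℂ × CN r)) 0 :=
    ((starL' ℝ : (ℂ × CN r) ≃L[ℝ] (ℂ × CN r)) : (ℂ × CN r) →L[ℝ] (ℂ × CN r)).hasStrictFDerivAt
  have ha' := HasStrictFDerivAt.comp (g := σ.a) (f := fun η : ℂ × CN r => star η) 0
    (by rw [star_zero]; exact ha) hs
  have hb := ha'.prodMk (hasStrictFDerivAt_id (0 : ℂ × CN r))
  have hc := HasStrictFDerivAt.comp (g := fun z : CN N × (ℂ × CN r) => σ.r0 z.1 z.2)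
    (f := fun η : ℂ × CN r => (σ.a (star η), η)) 0
    (by rw [star_zero]; exact hL0.restrictScalars ℝ) hb
  exact ⟨_, hc⟩

theorem exp_z {q : CN N} (hq : q ∈ σ.L F.V 0) (h0 : σ.r0 q 0 ≠ 0) :
    ∃ C : ℝ, ∀ δ > 0, ∀ᶠ z : CN N × (ℂ × CN r) × (ℂ × CN r) in 𝓝 (q, 0, 0),
      ‖σ.zc z.2.1 (σ.p z.2.1) z.1 - σ.zc z.2.2 (σ.p z.2.2) z.1 -
        bz (σ.κ q) (star (z.2.2 - z.2.1).2)‖ ≤
        δ * ‖(z.2.2 - z.2.1).2‖ + C * ‖σ.sd z.2.1 z.2.2‖ := by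
  obtain ⟨L, hL, hL'⟩ := σ.s4e_zc_strict hq h0
  refine ⟨1 + 2 * ‖L‖, fun δ hδ => ?_⟩
  obtain ⟨ε, hε0, hε1, hεc⟩ : ∃ ε : ℝ, 0 < ε ∧ ε ≤ 1 ∧ ε * (2 + ‖L‖) ≤ δ :=
    ⟨min 1 (δ / (2 + ‖L‖)), lt_min one_pos (by positivity), min_le_left _ _,
      (le_div_iff₀ (by positivity)).1 (min_le_right _ _)⟩
  have hc : Continuous fun z : CN N × (ℂ × CN r) × (ℂ × CN r) => ((z.1, z.2.2), (z.1, z.2.1)) := by
    fun_prop
  have ht := hc.tendsto (q, 0, 0)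
  have h1 := (hL.isLittleO.comp_tendsto ht).bound hε0
  have hp : Tendsto (fun z : CN N × (ℂ × CN r) × (ℂ × CN r) => σ.p z.2.1) (𝓝 (q, 0, 0)) (𝓝 0) :=
    σ.s4e_p_tendsto.comp ((continuous_fst.comp continuous_snd).tendsto (q, 0, 0))
  filter_upwards [h1, s4e_fst_le (d := fun z => z.2.2 - z.2.1) hp hε0] with z hz1 hz2
  obtain ⟨x, η, η'⟩ := z
  simp only [Function.comp_apply, Prod.mk_sub_mk, sub_self] at hz1 hz2 ⊢
  change _ ≤ ‖σ.sd η η'‖ + _ at hz2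
  set d := η' - η
  have e : L (0, d) = L (0, (d.1, 0)) + L (0, (0, d.2)) := by
    rw [← map_add]; simp
  have h2 : ‖L (0, (d.1, 0))‖ ≤ ‖L‖ * ‖d.1‖ := by simpa using L.le_opNorm (0, (d.1, 0))
  have h3 : ‖((0 : CN N), d)‖ ≤ ‖d.1‖ + ‖d.2‖ := by
    have h1 := norm_nonneg d.1
    have h2 := norm_nonneg d.2
    rw [Prod.norm_def, Prod.norm_def]
    exact max_le (by simp; positivity) (max_le (by linarith) (by linarith))
  have e2 : σ.zc η (σ.p η) x - σ.zc η' (σ.p η') x - bz (σ.κ q) (star d.2) =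
      -(σ.zc η' (σ.p η') x - σ.zc η (σ.p η) x - L (0, d)) - L (0, (d.1, 0)) := by
    rw [e, hL']; abel
  rw [e2]
  refine (norm_sub_le _ _).trans ?_
  rw [norm_neg]
  have h4 := mul_le_mul_of_nonneg_left h3 hε0.le
  have h5 := mul_le_mul_of_nonneg_left hz2 (add_nonneg hε0.le (norm_nonneg L))
  have h6 := mul_le_mul_of_nonneg_right hεc (norm_nonneg d.2)
  have h7 := norm_nonneg (σ.sd η η')
  have h8 := norm_nonneg d.2
  have h9 := norm_nonneg L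
  have h10 : ε * ε * ‖d.2‖ ≤ ε * ‖d.2‖ := by
    have := mul_nonneg hε0.le h8
    nlinarith
  have h11 : ε * ‖σ.sd η η'‖ ≤ ‖σ.sd η η'‖ := by nlinarith
  have h12 := mul_nonneg h9 h7
  nlinarith

theorem exp_S : ∀ δ > 0, ∀ᶠ z : (ℂ × CN r) × (ℂ × CN r) in 𝓝 (0, 0), z.1 ∈ σ.S → z.2 ∈ σ.S →
    |(σ.sd z.1 z.2).im + (star (z.2 - z.1).2 ⬝ᵥ (z.2 - z.1).2).re| ≤
      δ * (‖(z.2 - z.1).2‖ ^ 2 + ‖σ.sd z.1 z.2‖) := by
  obtain ⟨L0, hL0⟩ := σ.s4e_r0_diag_strict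
  obtain ⟨L1, hL1, hL1'⟩ := σ.r1_diag_strict
  have hu : Tendsto (fun z : (ℂ × CN r) × (ℂ × CN r) => z.1) (𝓝 (0, 0)) (𝓝 0) :=
    continuous_fst.tendsto _
  have hd : Tendsto (fun z : (ℂ × CN r) × (ℂ × CN r) => z.2 - z.1) (𝓝 (0, 0)) (𝓝 0) := by
    have hc : Continuous fun z : (ℂ × CN r) × (ℂ × CN r) => z.2 - z.1 := by fun_prop
    simpa using hc.tendsto (0, 0)
  have h1 := s4e_T2 ((2 : ℝ) • reCLM) (ContinuousLinearMap.id ℝ _)
    (f := fun η' => rv σ.ρ (σ.a (star η'))) (hL0.prodMk hL1) (by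
      filter_upwards [ball_mem_nhds (0 : ℂ × CN r) σ.δ_pos] with η hη
      obtain ⟨L, hL, hL'⟩ := σ.hasFDerivAt_diag hη
      exact ⟨L, hL.hasFDerivAt, fun d => by simp [hL', s4ePair]⟩) hu (σ.s4e_p_tendsto.comp hu) hd
  have h2 : (fun z : (ℂ × CN r) × (ℂ × CN r) =>
      (σ.r0 (σ.a (star z.1)) z.1 - I / 2) * σ.sd z.1 z.2) =o[𝓝 (0, 0)]
      fun z => ‖(z.2 - z.1).2‖ ^ 2 + ‖σ.sd z.1 z.2‖ := by
    have h3 : Tendsto (fun z : (ℂ × CN r) × (ℂ × CN r) => σ.r0 (σ.a (star z.1)) z.1 - I / 2)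
        (𝓝 (0, 0)) (𝓝 0) := by
      have := (hL0.continuousAt.tendsto.comp hu).sub_const (I / 2)
      simpa [σ.n0, Function.comp_def] using this
    have h4 : (fun z : (ℂ × CN r) × (ℂ × CN r) => σ.sd z.1 z.2) =O[𝓝 (0, 0)]
        fun z => ‖(z.2 - z.1).2‖ ^ 2 + ‖σ.sd z.1 z.2‖ :=
      IsBigO.of_bound 1 (Eventually.of_forall fun z => by
        rw [Real.norm_of_nonneg (by positivity)]
        nlinarith [sq_nonneg ‖(z.2 - z.1).2‖])
    have := (((isLittleO_one_iff ℝ).2 h3).norm_left).mul_isBigO h4.norm_left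
    refine IsLittleO.of_norm_left ?_
    simpa using this
  have h3 := ((((2 : ℝ) • reCLM).isBigO_comp _ _).trans_isLittleO h2).add h1
  intro δ hδ
  filter_upwards [h3.bound hδ, hu.eventually (σ.isOpen_ok.mem_nhds σ.ok_zero)] with z hz hok h1 h2
  obtain ⟨η, η'⟩ := z
  have e1 : rv σ.ρ (σ.a (star η)) = 0 := by
    have := h1.2
    rw [σ.ϱ_diag] at this
    exact_mod_cast this
  have e2 : rv σ.ρ (σ.a (star η')) = 0 := by
    have := h2.2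
    rw [σ.ϱ_diag] at this
    exact_mod_cast this
  have e3 : s4ePair (σ.r0 (σ.a (star η)) η, σ.r1 (σ.a (star η)) η) (η' - η) =
      σ.r0 (σ.a (star η)) η * σ.sd η η' := by
    have h0 : σ.r0 (σ.a (star η)) η ≠ 0 := hok.2
    simp only [s4ePair, SegRaw.sd, SegRaw.p, smul_dotProduct, smul_eq_mul]
    field_simp
  rw [Real.norm_of_nonneg (add_nonneg (sq_nonneg _) (norm_nonneg _))] at hz
  simp only [ContinuousLinearMap.id_apply, add_sub_cancel, e1, e2, e3,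
    ContinuousLinearMap.prod_apply, hL1'] at hz
  rw [← Real.norm_eq_abs]
  refine le_trans (le_of_eq ?_) hz
  congr 1
  simp only [ContinuousLinearMap.smul_apply, reCLM_apply, smul_eq_mul, neg_dotProduct, neg_re,
    mul_re, sub_re, sub_im, div_ofNat_re, div_ofNat_im, I_re, I_im]
  ring

theorem exp_w {q : CN N} (h0 : σ.r0 q 0 ≠ 0) :
    ∀ δ > 0, ∀ᶠ z : CN N × (ℂ × CN r) × (ℂ × CN r) in 𝓝 (q, 0, 0),
      ‖σ.wc z.2.2 z.1 - (σ.wc z.2.1 z.1 - σ.sd z.2.1 z.2.2 -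
        2 * I * (σ.zc z.2.1 (σ.p z.2.1) z.1 ⬝ᵥ (z.2.2 - z.2.1).2) +
        I * ((z.2.2 - z.2.1).2 ⬝ᵥ σ.κ q *ᵥ (z.2.2 - z.2.1).2))‖ ≤
        δ * (‖(z.2.2 - z.2.1).2‖ ^ 2 + ‖σ.sd z.2.1 z.2.2‖ + ‖σ.wc z.2.2 z.1‖) := by
  obtain ⟨L0, hL0⟩ := σ.s4e_r0_strict q
  obtain ⟨L1, hL1, hL1'⟩ := σ.s4e_r1_strict q
  have hu : Tendsto (fun z : CN N × (ℂ × CN r) × (ℂ × CN r) => (z.1, z.2.1)) (𝓝 (q, 0, 0))
      (𝓝 (q, 0)) :=
    (by fun_prop : Continuous fun z : CN N × (ℂ × CN r) × (ℂ × CN r) => (z.1, z.2.1)).tendsto _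
  have hu' : Tendsto (fun z : CN N × (ℂ × CN r) × (ℂ × CN r) => (z.1, z.2.2)) (𝓝 (q, 0, 0))
      (𝓝 (q, 0)) :=
    (by fun_prop : Continuous fun z : CN N × (ℂ × CN r) × (ℂ × CN r) => (z.1, z.2.2)).tendsto _
  have hd : Tendsto (fun z : CN N × (ℂ × CN r) × (ℂ × CN r) => z.2.2 - z.2.1) (𝓝 (q, 0, 0))
      (𝓝 0) := by
    have hc : Continuous fun z : CN N × (ℂ × CN r) × (ℂ × CN r) => z.2.2 - z.2.1 := by fun_prop
    simpa using hc.tendsto (q, 0, 0)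
  have hp : Tendsto (fun z : CN N × (ℂ × CN r) × (ℂ × CN r) => σ.p z.2.1) (𝓝 (q, 0, 0)) (𝓝 0) :=
    σ.s4e_p_tendsto.comp ((continuous_fst.comp continuous_snd).tendsto (q, 0, 0))
  have h1 := s4e_T2 (ContinuousLinearMap.id ℝ ℂ) (ContinuousLinearMap.inr ℝ (CN N) (ℂ × CN r))
    (f := fun z : CN N × (ℂ × CN r) => σ.ϱ z.1 z.2) ((hL0.prodMk hL1).restrictScalars ℝ) (by
      have hO : IsOpen ((univ : Set (CN N)) ×ˢ ball (0 : ℂ × CN r) σ.δ) :=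
        isOpen_univ.prod isOpen_ball
      filter_upwards [hO.mem_nhds (x := (q, 0)) ⟨mem_univ _, mem_ball_self σ.δ_pos⟩] with z hz
      have h := (σ.ϱ_diff.differentiableAt (hO.mem_nhds hz)).hasFDerivAt
      refine ⟨_, h.restrictScalars ℝ, fun d => ?_⟩
      have h2 := (HasFDerivAt.comp (f := fun e => (z.1, e)) z.2 h
        (hasFDerivAt_prodMk_right (𝕜 := ℂ) z.1 z.2)).fderiv
      have h3 := σ.fderiv_ϱ z.1 z.2 d
      change fderiv ℂ ((fun z : CN N × (ℂ × CN r) => σ.ϱ z.1 z.2) ∘ fun e₂ => (z.1, e₂)) z.2 d = _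
        at h3
      rw [h2] at h3
      exact h3) hu hp hd
  have hr := hL0.continuousAt.tendsto.comp hu
  have hr' := hL0.continuousAt.tendsto.comp hu'
  have hle1 : (fun z : CN N × (ℂ × CN r) × (ℂ × CN r) =>
      ‖(z.2.2 - z.2.1).2‖ ^ 2 + ‖σ.sd z.2.1 z.2.2‖) =O[𝓝 (q, 0, 0)]
      fun z => ‖(z.2.2 - z.2.1).2‖ ^ 2 + ‖σ.sd z.2.1 z.2.2‖ + ‖σ.wc z.2.2 z.1‖ :=
    IsBigO.of_bound 1 (Eventually.of_forall fun z => by
      rw [Real.norm_of_nonneg (by positivity), Real.norm_of_nonneg (by positivity)]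
      linarith [norm_nonneg (σ.wc z.2.2 z.1)])
  have hle2 : (fun z : CN N × (ℂ × CN r) × (ℂ × CN r) => σ.wc z.2.2 z.1) =O[𝓝 (q, 0, 0)]
      fun z => ‖(z.2.2 - z.2.1).2‖ ^ 2 + ‖σ.sd z.2.1 z.2.2‖ + ‖σ.wc z.2.2 z.1‖ :=
    IsBigO.of_bound 1 (Eventually.of_forall fun z => by
      rw [Real.norm_of_nonneg (by positivity)]
      nlinarith [norm_nonneg (σ.sd z.2.1 z.2.2), sq_nonneg ‖(z.2.2 - z.2.1).2‖])
  have hle3 : (fun z : CN N × (ℂ × CN r) × (ℂ × CN r) =>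
      (σ.r2 q 0 *ᵥ (z.2.2 - z.2.1).2) ⬝ᵥ (z.2.2 - z.2.1).2) =O[𝓝 (q, 0, 0)]
      fun z => ‖(z.2.2 - z.2.1).2‖ ^ 2 + ‖σ.sd z.2.1 z.2.2‖ + ‖σ.wc z.2.2 z.1‖ := by
    refine (s4e_isBigO_dot _ _ _).trans ?_
    have h5 := (((LinearMap.toContinuousLinearMap (Matrix.mulVecLin (σ.r2 q 0))).isBigO_comp
      (fun z : CN N × (ℂ × CN r) × (ℂ × CN r) => (z.2.2 - z.2.1).2) (𝓝 (q, 0, 0))).norm_norm).mul
      (isBigO_refl (fun z : CN N × (ℂ × CN r) × (ℂ × CN r) => ‖(z.2.2 - z.2.1).2‖) _)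
    refine h5.trans (IsBigO.of_bound 1 (Eventually.of_forall fun z => ?_))
    rw [Real.norm_of_nonneg (by positivity), Real.norm_of_nonneg (by positivity)]
    nlinarith [norm_nonneg (σ.sd z.2.1 z.2.2), norm_nonneg (σ.wc z.2.2 z.1)]
  have hA : Tendsto (fun z : CN N × (ℂ × CN r) × (ℂ × CN r) =>
      1 - σ.r0 z.1 z.2.2 / σ.r0 z.1 z.2.1) (𝓝 (q, 0, 0)) (𝓝 0) := by
    have := (hr'.div hr h0).const_sub 1
    simpa [div_self h0] using this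
  have hB : Tendsto (fun z : CN N × (ℂ × CN r) × (ℂ × CN r) =>
      (1 / 2 : ℂ) * ((σ.r0 q 0)⁻¹ - (σ.r0 z.1 z.2.1)⁻¹)) (𝓝 (q, 0, 0)) (𝓝 0) := by
    have := ((hr.inv₀ h0).const_sub (σ.r0 q 0)⁻¹).const_mul (1 / 2 : ℂ)
    simpa using this
  have hA' := (((isLittleO_one_iff ℝ).2 hA).norm_left).mul_isBigO hle2.norm_left
  have hB' := (((isLittleO_one_iff ℝ).2 hB).norm_left).mul_isBigO hle3.norm_left
  have hC' := (((hr.inv₀ h0).isBigO_one ℝ).norm_left).mul_isLittleO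
    (h1.trans_isBigO hle1).norm_left
  simp only [one_mul, ← norm_mul] at hA' hB' hC'
  have h3 := (hA'.of_norm_left.sub hC'.of_norm_left).add hB'.of_norm_left
  intro δ hδ
  filter_upwards [h3.bound hδ, hr.eventually_ne h0, hr'.eventually_ne h0] with z hz hz1 hz2
  obtain ⟨x, η, η'⟩ := z
  rw [Real.norm_of_nonneg (by positivity)] at hz
  refine le_trans (le_of_eq ?_) hz
  congr 1
  have hz1' : σ.r0 x η ≠ 0 := hz1
  have hz2' : σ.r0 x η' ≠ 0 := hz2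
  simp only [ContinuousLinearMap.inr_apply, Prod.mk_add_mk, add_zero, add_sub_cancel,
    ContinuousLinearMap.id_apply, ContinuousLinearMap.coe_restrictScalars',
    ContinuousLinearMap.prod_apply, hL1', Function.comp_apply, s4ePair, SegRaw.wc, SegRaw.zc,
    SegRaw.sd, SegRaw.κ, Matrix.smul_mulVec, dotProduct_smul, smul_dotProduct, sub_dotProduct,
    smul_eq_mul, real_smul, dotProduct_comm (η' - η).2]
  push_cast
  field_simp
  ring_nf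
  simp only [I_sq]
  ring

end Segre
end Crest.Agent.R264
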