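import Crest.Agent.R264.QAlg

/-! Row 264, P4: the model flows. -/

set_option autoImplicit false
open Set Filter Topology Metric Complex
open scoped Matrix

noncomputable section
namespace Crest.Agent.R264

/-- A flow on the model fibres depending holomorphically on the period matrix. -/
structure MFlow (r k : ℕ) where
  fl : ℝ → Matrix (Fin r) (Fin r) ℂ → PM r k → PM r k
  vf : Matrix (Fin r) (Fin r) ℂ → PM r k → PM r k
  fl_t : ∀ s κ ω, (fl s κ ω).2.2 = ω.2.2
  pres : ∀ s κ ω, Small κ → Qk κ ω.2.1 < ω.1.im → Qk κ (fl s κ ω).2.1 < (fl s κ ω).1.im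
  zero : ∀ κ ω, fl 0 κ ω = ω
  add : ∀ s s' κ ω, fl (s + s') κ ω = fl s κ (fl s' κ ω)
  deriv : ∀ κ ω s, HasDerivAt (fun s' => fl s' κ ω) (vf κ (fl s κ ω)) s
  fl_diff : ∀ s, Differentiable ℂ
    fun z : (Fin r → Fin r → ℂ) × PM r k => fl s (Matrix.of z.1) z.2
  vf_diff : Differentiable ℂ fun z : (Fin r → Fin r → ℂ) × PM r k => vf (Matrix.of z.1) z.2

theorem exists_flowA (r k : ℕ) : ∃ m : MFlow r k, ∀ κ ω, m.vf κ ω = fA ω := by
  refine ⟨⟨fun s _ ω => (Real.exp s • ω.1, Real.exp (s / 2) • ω.2.1, ω.2.2), fun _ ω => fA ω,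
    fun _ _ _ => rfl, ?_, ?_, ?_, ?_, ?_, ?_⟩, fun _ _ => rfl⟩
  · intro s κ ω _ h
    have e : Real.exp (s / 2) ^ 2 = Real.exp s := by
      rw [← Real.exp_nat_mul]; congr 1; push_cast; ring
    simp only [Qk_smul, e, Complex.smul_im, smul_eq_mul]
    exact mul_lt_mul_of_pos_left h (Real.exp_pos s)
  · intro κ ω; simp
  · intro s s' κ ω
    simp only [smul_smul, ← Real.exp_add, add_div]
  · intro κ ω s
    refine ((Real.hasDerivAt_exp s).smul_const ω.1).prodMk (HasDerivAt.prodMk ?_ ?_)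
    · have h1 : HasDerivAt (fun s' : ℝ => Real.exp (s' / 2)) (Real.exp (s / 2) * (1 / 2)) s :=
        ((hasDerivAt_id s).div_const 2).exp
      refine (h1.smul_const ω.2.1).congr_deriv ?_
      funext i
      simp only [Pi.smul_apply, Complex.real_smul, smul_eq_mul]
      push_cast
      ring
    · exact hasDerivAt_const _ _
  · intro s; fun_prop
  · unfold fA; fun_prop

theorem exists_flowZ (r k : ℕ) : ∃ m : MFlow r k, ∀ κ ω, m.vf κ ω = fZ ω := by
  refine ⟨⟨fun s _ ω => (ω.1 + (s : ℂ), ω.2.1, ω.2.2), fun _ ω => fZ ω,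
    fun _ _ _ => rfl, ?_, ?_, ?_, ?_, ?_, ?_⟩, fun _ _ => rfl⟩
  · intro s κ ω _ h
    simpa using h
  · intro κ ω; simp
  · intro s s' κ ω
    simp only [Prod.mk.injEq, and_true]
    push_cast
    ring
  · intro κ ω s
    refine HasDerivAt.prodMk ?_ ((hasDerivAt_const _ _).prodMk (hasDerivAt_const _ _))
    exact (Complex.ofRealCLM.hasDerivAt (x := s)).const_add ω.1
  · intro s; fun_prop
  · unfold fZ; fun_prop

theorem exists_flowX {r : ℕ} (k : ℕ) (ζ : CN r) :
    ∃ m : MFlow r k, ∀ κ ω, m.vf κ ω = fX (fun _ => κ) ζ ω := by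
  have hb : Differentiable ℂ fun z : (Fin r → Fin r → ℂ) × PM r k => bz (Matrix.of z.1) ζ := by
    refine differentiable_pi.2 fun i => ?_
    simp only [bz, Pi.add_apply, Matrix.mulVec, dotProduct, Matrix.of_apply]
    fun_prop
  have hd : ∀ g : (Fin r → Fin r → ℂ) × PM r k → CN r, Differentiable ℂ g →
      Differentiable ℂ fun z => star ζ ⬝ᵥ g z := by
    intro g hg
    simp only [dotProduct]
    fun_prop
  have hd1 := hd _ hb
  have hd2 := hd (fun z => z.2.2.1) (by fun_prop)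
  refine ⟨⟨fun s κ ω => (ω.1 + s • (2 * I * (star ζ ⬝ᵥ ω.2.1)) + s ^ 2 • (I * (star ζ ⬝ᵥ bz κ ζ)),
    ω.2.1 + s • bz κ ζ, ω.2.2), fun κ ω => fX (fun _ => κ) ζ ω,
    fun _ _ _ => rfl, ?_, ?_, ?_, ?_, ?_, ?_⟩, fun _ _ => rfl⟩
  · intro s κ ω hκ h
    have e : star (s • ζ) = s • star ζ := by simp
    simp only [← bz_smul, hκ.Qk_add_bz, qf_smul, e, smul_dotProduct]
    simp [qf]
    simp only [← Complex.ofReal_pow, Complex.ofReal_re, Complex.ofReal_im]
    linarith
  · intro κ ω; simp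
  · intro s s' κ ω
    simp only [Prod.mk.injEq, and_true, dotProduct_add, dotProduct_smul, Complex.real_smul]
    refine ⟨?_, by rw [add_smul]; abel⟩
    push_cast
    ring
  · intro κ ω s
    refine HasDerivAt.prodMk ?_ (HasDerivAt.prodMk ?_ (hasDerivAt_const _ _))
    · have h1 := (((hasDerivAt_id s).smul_const (2 * I * (star ζ ⬝ᵥ ω.2.1))).const_add ω.1).add
        ((hasDerivAt_pow 2 s).smul_const (I * (star ζ ⬝ᵥ bz κ ζ)))
      refine h1.congr_deriv ?_
      simp only [dotProduct_add, dotProduct_smul, Complex.real_smul]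
      push_cast
      ring
    · have h1 := ((hasDerivAt_id s).smul_const (bz κ ζ)).const_add ω.2.1
      rw [one_smul] at h1
      exact h1
  · intro s; fun_prop
  · unfold fX; fun_prop

theorem fX_add {r k : ℕ} (κ : CN k → Matrix (Fin r) (Fin r) ℂ) (ζ ζ' : CN r) (ω : PM r k) :
    fX κ (ζ + ζ') ω = fX κ ζ ω + fX κ ζ' ω := by
  simp only [fX, bz_add, star_add, add_dotProduct, mul_add, Prod.mk_add_mk, add_zero]

theorem fX_smul {r k : ℕ} (κ : CN k → Matrix (Fin r) (Fin r) ℂ) (s : ℝ) (ζ : CN r) (ω : PM r k) :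
    fX κ (s • ζ) ω = s • fX κ ζ ω := by
  have e : star (s • ζ) = s • star ζ := by simp
  simp only [fX, bz_smul, e, smul_dotProduct, Prod.smul_mk, smul_zero, mul_smul_comm]

end Crest.Agent.R264
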