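import Crest.Agent.R264.S4Star
import Crest.Agent.R264.S4MF

/-! Row 264, P4: model flows lift to elements of `g`. -/

set_option autoImplicit false
open Set Filter Topology Metric Complex
open scoped Matrix

noncomputable section
namespace Crest.Agent.R264.Seq
variable {S : Setup} {r k : ℕ} {σ : Segre S.F r k} {ι : Type} (Q : Seq S σ ι)

theorem exists_g (hL : Q.InL) {y0 : CN S.N} (h0 : y0 ∈ Q.R) (ha : Q.φ y0 = σ.a 0)
    (m : MFlow r k) : ∃ Y : S.toTM.g, ∀ y ∈ Q.R,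
      S.toTM.D Q.Φ y (S.toTM.fn Y y) = m.vf (σ.κ (Q.φ y)) (Q.Φ y) := by
  have hR := Q.ropen_R hL
  have e1 : ∀ (s : ℝ), ∀ y ∈ Q.R, ∃ y' ∈ Q.R, Q.φ y' = Q.φ y ∧
      Q.Φ y' = m.fl s (σ.κ (Q.φ y)) (Q.Φ y) := by
    intro s y hy
    obtain ⟨y', h1, h2, h3⟩ := Q.surj hL hy (m.pres s _ _ hy.2.1.small hy.2.2.2.1)
    refine ⟨y', h1, h2, ?_⟩
    rw [h3, ← Q.Φ_t hy.1 hy.2.2.1, ← m.fl_t s (σ.κ (Q.φ y)) (Q.Φ y)]
  choose! θ θR θφ θΦ using e1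
  have e2 : ∀ y ∈ Q.R, ∃ v ∈ S.toTM.T y, S.toTM.D Q.Φ y v = m.vf (σ.κ (Q.φ y)) (Q.Φ y) := by
    intro y hy
    obtain ⟨ld⟩ := hy.2.1.reg.exists_LD0
    obtain ⟨-, g, -, -, hg⟩ := Q.exists_chart hL ld
    obtain ⟨-, g2, g3, -⟩ := hg y ⟨hy, ld.mem⟩
    exact ⟨_, g2 ▸ LinearMap.mem_range_self _ _, g3 _⟩
  choose! X XT XD using e2
  have loc : ∀ y0 ∈ Q.R, ∃ W, W ∈ 𝓝[Q.R] y0 ∧ (∀ s, Hol W (θ s)) ∧ Hol W X ∧
      ∀ t, HasDerivAt (fun s => θ s y0) (X (θ t y0)) t := by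
    intro y0 hy0
    obtain ⟨ld⟩ := hy0.2.1.reg.exists_LD0
    obtain ⟨hop, g, g1, g2, hg⟩ := Q.exists_chart hL ld
    have hq := Q.ropen_Rq hL ld
    have hθq : ∀ s, ∀ y ∈ Q.Rq ld, θ s y ∈ Q.Rq ld := fun s y hy =>
      ⟨θR s y hy.1, by rw [θφ s y hy.1]; exact hy.2⟩
    have hθg : ∀ s, ∀ y ∈ Q.Rq ld, θ s y = g (m.fl s (σ.κ (Q.φ y)) (Q.Φ y)) := fun s y hy => by
      rw [← θΦ s y hy.1, g2 _ (hθq s y hy)]
    have hXg : ∀ y ∈ Q.Rq ld, X y = fderiv ℂ g (Q.Φ y) (m.vf (σ.κ (Q.φ y)) (Q.Φ y)) := by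
      intro y hy
      obtain ⟨-, a2, a3, -⟩ := hg y hy
      refine sub_eq_zero.1 (hy.1.2.2.2.2 _ (sub_mem (XT y hy.1)
        (a2 ▸ LinearMap.mem_range_self _ _)) ?_)
      rw [map_sub, XD y hy.1, a3, sub_self]
    have hΦ : Hol (Q.Rq ld) Q.Φ := (Q.hol_Φ_R hL).mono fun y hy => hy.1
    have hκ : Hol (Q.Rq ld) fun y => ((fun i j => σ.κ (Q.φ y) i j : Fin r → Fin r → ℂ), Q.Φ y) := by
      refine Hol.prodMk (Hol.pi fun i => Hol.pi fun j => ?_) hΦ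
      exact (Q.φ_hol.mono hq.1).post_on (k := fun x => σ.κ x i j) ld.O_open
        (fun x hx => (σ.κ_differentiableAt (ld.r0_ne x hx 0 ld.zero_mem) i j).differentiableWithinAt)
        fun y hy => hy.2
    have hy0q : y0 ∈ Q.Rq ld := ⟨hy0, ld.mem⟩
    refine ⟨Q.Rq ld, nhdsWithin_mono _ hR.1 (hq.2 _ hy0q), fun s => ?_, ?_, fun t => ?_⟩
    · refine ((hκ.post (m.fl_diff s)).post_on hop g1 fun y hy => ?_).congr (hθg s)
      exact ⟨θ s y, hθq s y hy, θΦ s y hy.1⟩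
    · exact ((hΦ.post_on hop (SCV.differentiableOn_fderiv hop g1) (mapsTo_image _ _)).clm_apply
        (hκ.post m.vf_diff)).congr hXg
    · have a1 : DifferentiableAt ℂ g (m.fl t (σ.κ (Q.φ y0)) (Q.Φ y0)) :=
        g1.differentiableAt (hop.mem_nhds ⟨θ t y0, hθq t y0 hy0q, θΦ t y0 hy0⟩)
      have a2 := (a1.hasFDerivAt.restrictScalars ℝ).comp_hasDerivAt t
        (m.deriv (σ.κ (Q.φ y0)) (Q.Φ y0) t)
      rw [hXg _ (hθq t y0 hy0q), θφ t y0 hy0, θΦ t y0 hy0]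
      simp only [hθg _ y0 hy0q]
      exact a2
  obtain ⟨h, h1, h2, h3⟩ := Q.exists_hyp hL h0 ha
  obtain ⟨Y, hY⟩ := S.toTM.ext_flow hR h1 h2 h3 (X := X) (θ := θ)
    (Hol.of_local fun y hy => (loc y hy).imp fun W hW => ⟨hW.1, hW.2.2.1⟩).continuousOn
    (fun s => Hol.of_local fun y hy => (loc y hy).imp fun W hW => ⟨hW.1, hW.2.1 s⟩)
    (fun s y hy => θR s y hy)
    (fun y hy => Q.inj hL (θR 0 y hy) hy (θφ 0 y hy) (by rw [θΦ 0 y hy, m.zero]))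
    (fun s t y hy => Q.inj hL (θR _ y hy) (θR s _ (θR t y hy))
      (by rw [θφ _ y hy, θφ s _ (θR t y hy), θφ t y hy])
      (by rw [θΦ _ y hy, θΦ s _ (θR t y hy), θφ t y hy, θΦ t y hy, m.add]))
    (fun y hy => (loc y hy).choose_spec.2.2.2)
  exact ⟨Y, fun y hy => by rw [hY y hy, XD y hy]⟩

end Crest.Agent.R264.Seq
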