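import Crest.Agent.R264.S4Seq

/-! Row 264, P4: limits of the inverse maps at points with a full positive side. -/

set_option autoImplicit false
open Set Filter Topology Metric Complex
open scoped Matrix

noncomputable section
namespace Crest.Agent.R264.Seq
variable {S : Setup} {r k : ℕ} {σ : Segre S.F r k} {ι : Type} (Q : Seq S σ ι)

/-- Points of a thin neighbourhood of a segment in the model fibre correspond to points of `U`. -/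
theorem exists_tube {q : CN S.N} (ld : σ.LD q) {x : CN S.N} (hx : x ∈ ld.O)
    (hL : x ∈ σ.L S.F.V 0) (hside : ∀ᶠ y in 𝓝[S.F.V] x, 0 < ld.h y → y ∈ S.U) {ω0 ω1 : PM r k}
    (t0 : ω0.2.2 = σ.t x) (t1 : ω1.2.2 = σ.t x) (q0 : Qk (σ.κ x) ω0.2.1 < ω0.1.im)
    (q1 : Qk (σ.κ x) ω1.2.1 < ω1.1.im) :
    ∃ τ > 0, (∀ ω ∈ thickening τ (segment ℝ ω0 ω1), ld.lam ω.2.2 ∈ ld.O ∧
        ld.lam ω.2.2 ∈ σ.L S.F.V 0 ∧ Tendsto (fun z : (ℂ × CN r) × PM r k => ld.X z.1 z.2)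
          (𝓝 (0, (0, 0, ω.2.2))) (𝓝 (ld.lam ω.2.2))) ∧
      ∀ᶠ j in (Q.l : Filter ι), ∀ ω ∈ thickening τ (segment ℝ ω0 ω1),
        ld.X (Q.η j) (unsc (Q.ε j) ω) ∈ S.U ∧
        σ.co (Q.η j) (ld.X (Q.η j) (unsc (Q.ε j) ω)) = unsc (Q.ε j) ω ∧
        DifferentiableAt ℂ (ld.X (Q.η j)) (unsc (Q.ε j) ω) := by
  have hsm := ld.small x hx
  have hxV : x ∈ S.F.V := hL.1
  have hSg : IsCompact (segment ℝ ω0 ω1) := by
    rw [segment_eq_image_lineMap]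
    exact isCompact_Icc.image AffineMap.lineMap_continuous
  have hSt : ∀ ω ∈ segment ℝ ω0 ω1, ω.2.2 = σ.t x ∧ Qk (σ.κ x) ω.2.1 < ω.1.im := by
    rintro _ ⟨a, b, ha, hb, hab, rfl⟩
    refine ⟨?_, hsm.convex_fibre (x := (ω0.1, ω0.2.1)) (y := (ω1.1, ω1.2.1)) q0 q1 ha hb hab⟩
    change a • ω0.2.2 + b • ω1.2.2 = _
    rw [t0, t1, ← add_smul, hab, one_smul]
  have hg : Continuous fun ω : PM r k => ω.1.im - Qk (σ.κ x) ω.2.1 :=
    (continuous_im.comp continuous_fst).sub (continuous_iff_continuousAt.2 fun ω =>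
      hsm.tendsto_Qk (fun _ _ => tendsto_const_nhds) (continuous_snd.fst.tendsto ω))
  obtain ⟨τ1, hτ1, hP⟩ := hSg.exists_cthickening_subset_open (isOpen_lt continuous_const hg)
    fun ω hω => sub_pos.2 (hSt ω hω).2
  have hcK : IsCompact (cthickening τ1 (segment ℝ ω0 ω1)) := hSg.cthickening
  obtain ⟨ωm, hωm, hmin⟩ := hcK.exists_isMinOn
    ⟨ω0, self_subset_cthickening _ (left_mem_segment ℝ ω0 ω1)⟩ hg.continuousOn
  obtain ⟨M, hM⟩ := hcK.isBounded.exists_norm_le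
  set m := ωm.1.im - Qk (σ.κ x) ωm.2.1
  have hm : 0 < m := hP hωm
  have hM0 : 0 ≤ M := (norm_nonneg _).trans (hM _ hωm)
  have hδ : 0 < m / (M ^ 2 + M + 1) := by positivity
  have hnf := ld.nf hx hL hδ
  rw [nhds_prod_eq] at hnf
  obtain ⟨pa, hpa, pb, hpb, hab⟩ := eventually_prod_iff.1 hnf
  have hX := ld.X_loc 0 ld.zero_mem x ⟨hx, hxV⟩ _
    (hpa.and (eventually_nhdsWithin_iff.1 hside))
  rw [(ld.co_of_mem hx hL).1, nhds_prod_eq] at hX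
  obtain ⟨qa, hqa, qb, hqb, hqab⟩ := eventually_prod_iff.1 hX
  obtain ⟨β, hβ, hβb⟩ := Metric.eventually_nhds_iff_ball.1 hqb
  obtain ⟨β2, hβ2, hβ2b⟩ := Metric.eventually_nhds_iff_ball.1 (ld.lam_loc hx hL univ_mem)
  have ht : ∀ {τ : ℝ}, ∀ ω ∈ thickening τ (segment ℝ ω0 ω1), ω.2.2 ∈ ball (σ.t x) τ := by
    intro τ ω hω
    obtain ⟨ω', h1, h2⟩ := mem_thickening_iff.1 hω
    rw [← (hSt ω' h1).1]
    refine lt_of_le_of_lt ?_ h2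
    rw [Prod.dist_eq, Prod.dist_eq]
    exact (le_max_right _ _).trans (le_max_right _ _)
  refine ⟨min τ1 (min β β2), lt_min hτ1 (lt_min hβ hβ2), fun ω hω => ?_, ?_⟩
  · obtain ⟨h1, h2, h3, -⟩ := hβ2b _
      (ball_subset_ball ((min_le_right _ _).trans (min_le_right _ _)) (ht ω hω))
    refine ⟨h1.2, h2, fun W hW => ?_⟩
    have := ld.X_loc 0 ld.zero_mem _ ⟨h1.2, h2.1⟩ W hW
    rw [(ld.co_of_mem h1.2 h2).1, h3] at this
    exact this.mono fun z hz => hz.1.1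
  · have e1 : Tendsto (fun j => Q.ε j * M) Q.l (𝓝 0) := by simpa using Q.ε_lim.mul_const M
    have e2 : Tendsto (fun j => √(Q.ε j) * M) Q.l (𝓝 0) := by simpa using Q.ε_lim.sqrt.mul_const M
    filter_upwards [Q.η_lim.eventually hpb, Q.η_lim.eventually hqa, e1.eventually_lt_const hβ,
      e2.eventually_lt_const hβ] with j g1 g2 g3 g4 ω hω
    have hε := Q.ε_pos j
    have hωK : ω ∈ cthickening τ1 (segment ℝ ω0 ω1) :=
      thickening_subset_cthickening_of_le (min_le_left _ _) _ hω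
    have n1 : ‖ω.1‖ ≤ M := (norm_fst_le ω).trans (hM ω hωK)
    have n2 : ‖ω.2.1‖ ≤ M := ((norm_fst_le ω.2).trans (norm_snd_le ω)).trans (hM ω hωK)
    have a1 : ‖(unsc (Q.ε j) ω).1‖ = Q.ε j * ‖ω.1‖ := by
      simp only [unsc, norm_mul, norm_real, Real.norm_eq_abs, abs_of_pos hε]
    have a2 : ‖(unsc (Q.ε j) ω).2.1‖ = √(Q.ε j) * ‖ω.2.1‖ := by
      simp only [unsc, norm_smul, norm_real, Real.norm_eq_abs, abs_of_nonneg (Real.sqrt_nonneg _)]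
    have hb : unsc (Q.ε j) ω ∈ ball ((0 : ℂ), (0 : CN r), σ.t x) β := by
      rw [mem_ball, Prod.dist_eq, Prod.dist_eq, dist_zero_right, dist_zero_right, a1, a2]
      exact max_lt ((mul_le_mul_of_nonneg_left n1 hε.le).trans_lt g3)
        (max_lt ((mul_le_mul_of_nonneg_left n2 (Real.sqrt_nonneg _)).trans_lt g4)
          (ball_subset_ball ((min_le_right _ _).trans (min_le_left _ _)) (ht ω hω)))
    obtain ⟨⟨⟨k1, k2⟩, k3⟩, k4, k5⟩ := hqab g2 (hβb _ hb)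
    refine ⟨k2 k3 ?_, k4, k5⟩
    have k6 := (abs_le.1 (hab k1 g1 (Q.η_mem j))).1
    simp only at k4 k6
    rw [k4, a1, a2, mul_pow, Real.sq_sqrt hε.le] at k6
    have a3 : (unsc (Q.ε j) ω).1.im = Q.ε j * ω.1.im := by simp only [unsc, im_ofReal_mul]
    have a4 : Qk (σ.κ x) (unsc (Q.ε j) ω).2.1 = Q.ε j * Qk (σ.κ x) ω.2.1 := by
      have := Qk_smul (σ.κ x) (√(Q.ε j)) ω.2.1
      rw [Real.sq_sqrt hε.le] at this
      exact this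
    rw [a3, a4] at k6
    have a5 : m ≤ ω.1.im - Qk (σ.κ x) ω.2.1 := hmin hωK
    have a6 : m / (M ^ 2 + M + 1) * (‖ω.2.1‖ ^ 2 + ‖ω.1‖) < m := by
      rw [div_mul_eq_mul_div, div_lt_iff₀ (by positivity)]
      have : ‖ω.2.1‖ ^ 2 ≤ M ^ 2 := by gcongr
      nlinarith
    nlinarith

theorem exists_inv {q : CN S.N} (ld : σ.LD q) {b0 : CN S.N} (hb0 : b0 ∈ S.U)
    (hx : Q.φ b0 ∈ ld.O) (hL : Q.φ b0 ∈ σ.L S.F.V 0)
    (hside : ∀ᶠ y in 𝓝[S.F.V] (Q.φ b0), 0 < ld.h y → y ∈ S.U) {b : ι → CN S.N}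
    (hb : Tendsto b Q.l (𝓝[S.U] b0)) {ω0 ω1 : PM r k}
    (hω : Tendsto (fun j => Q.Φj j (b j)) Q.l (𝓝 ω0))
    (t0 : ω0.2.2 = σ.t (Q.φ b0)) (t1 : ω1.2.2 = σ.t (Q.φ b0))
    (q0 : Qk (σ.κ (Q.φ b0)) ω0.2.1 < ω0.1.im) (q1 : Qk (σ.κ (Q.φ b0)) ω1.2.1 < ω1.1.im) :
    ∃ (Ω : Set (PM r k)) (ψ : PM r k → CN S.N), IsOpen Ω ∧ IsPreconnected Ω ∧ ω0 ∈ Ω ∧ ω1 ∈ Ω ∧
      DifferentiableOn ℂ ψ Ω ∧ MapsTo ψ Ω S.U ∧ ψ ω0 = b0 ∧ ∀ ω ∈ Ω,
        Q.φ (ψ ω) = ld.lam ω.2.2 ∧ ld.lam ω.2.2 ∈ ld.O ∧ ld.lam ω.2.2 ∈ σ.L S.F.V 0 ∧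
        ∃ y : ι → CN S.N, Tendsto y Q.l (𝓝[S.U] (ψ ω)) ∧
          ∀ᶠ j in (Q.l : Filter ι), Q.Φj j (y j) = ω := by
  obtain ⟨τ, hτ, h1, h2⟩ := Q.exists_tube ld hx hL hside t0 t1 q0 q1
  set Ω := thickening τ (segment ℝ ω0 ω1)
  have hΩ : IsOpen Ω := isOpen_thickening
  have hc : IsPreconnected Ω := ((convex_segment ω0 ω1).thickening τ).isPreconnected
  have m0 : ω0 ∈ Ω := self_subset_thickening hτ _ (left_mem_segment ℝ ω0 ω1)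
  have m1 : ω1 ∈ Ω := self_subset_thickening hτ _ (right_mem_segment ℝ ω0 ω1)
  let f : ι → PM r k → CN S.N := fun j ω =>
    S.toTM.ap (Q.γ j)⁻¹ (ld.X (Q.η j) (unsc (Q.ε j) ω))
  have hf : ∀ᶠ j in (Q.l : Filter ι), DifferentiableOn ℂ (f j) Ω ∧ MapsTo (f j) Ω S.U := by
    filter_upwards [h2] with j hj
    refine ⟨(S.toTM.hol_ap _).comp_differentiableOn (fun ω hω => ?_) fun ω hω => (hj ω hω).1,
      fun ω hω => S.toTM.ap_mem _ (hj ω hω).1⟩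
    obtain ⟨L, hL⟩ := exists_unsc_clm (r := r) (k := k) (Q.ε j)
    have : DifferentiableAt ℂ (unsc (r := r) (k := k) (Q.ε j)) ω := by
      rw [funext hL]; exact L.differentiableAt
    exact ((hj ω hω).2.2.comp ω this).differentiableWithinAt
  have hlim : ∀ ω ∈ Ω, Tendsto (fun j => f j ω) Q.l (𝓝 (limUnder (Q.l : Filter ι) fun j => f j ω)) := by
    intro ω hω
    obtain ⟨a, -, ha⟩ := S.bdd.isCompact_closure.ultrafilter_le_nhds (Q.l.map fun j => f j ω)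
      (le_principal_iff.2 (hf.mono fun j hj => subset_closure (hj.2 hω)))
    exact tendsto_nhds_limUnder ⟨a, ha⟩
  set ψ : PM r k → CN S.N := fun ω => limUnder (Q.l : Filter ι) fun j => f j ω
  obtain ⟨C, hC⟩ := S.bdd.exists_norm_le
  have hbd : LocBdd (Q.l : Filter ι) f Ω := fun ω hω => by
    obtain ⟨s, hs, hsΩ⟩ := Metric.isOpen_iff.1 hΩ ω hω
    exact ⟨s, hs, C, hf.mono fun j hj => ⟨hj.1.mono hsΩ, fun y hy => hC _ (hj.2 (hsΩ hy))⟩⟩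
  have hfb : ∀ᶠ j in (Q.l : Filter ι), f j (Q.Φj j (b j)) = b j := by
    filter_upwards [(Q.tendsto_ap hb0 hb).eventually (ld.O_open.mem_nhds hx),
      hb.eventually self_mem_nhdsWithin, Q.η_lim.eventually (ball_mem_nhds _ ld.δ1_pos)]
      with j a1 a2 a3
    simp only [f, Φj, unsc_sc (Q.ε_pos j)]
    rw [ld.X_co _ a3 _ ⟨a1, S.F.ropen.1 (S.toTM.ap_mem _ a2)⟩, S.toTM.ap_inv_ap _ a2]
  have hψ0 : ψ ω0 = b0 :=
    tendsto_nhds_unique ((montel_tendsto hΩ hbd hlim m0 hω).1.congr' hfb)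
      (hb.mono_right nhdsWithin_le_nhds)
  have hψU : MapsTo ψ Ω S.U := by
    intro ω hωΩ
    obtain ⟨s, hs, hsΩ⟩ := nhds_basis_closedBall.mem_iff.1 (hΩ.mem_nhds m0)
    obtain ⟨K, hK1, hK2, hK3⟩ := S.toTM.exists_compact_nhds hb0 univ_mem
    obtain ⟨K', g1, g2, g3⟩ := S.taut.of_connected hΩ hc ((isCompact_closedBall ω0 s).insert ω)
      (insert_subset hωΩ hsΩ) hK2 (hK3.trans inter_subset_left)
    refine g2 (g1.isClosed.mem_of_tendsto (hlim ω hωΩ) ?_)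
    filter_upwards [hf, hfb, hb.eventually hK1, hω.eventually (closedBall_mem_nhds ω0 hs)]
      with j a1 a2 a3 a4
    exact g3 _ a1.1 a1.2 ⟨_, mem_insert_of_mem _ a4, a2.symm ▸ a3⟩ (mem_insert _ _)
  refine ⟨Ω, ψ, hΩ, hc, m0, m1, (montel hΩ hbd hlim).1, hψU, hψ0, fun ω hωΩ => ?_⟩
  have hy : Tendsto (fun j => f j ω) Q.l (𝓝[S.U] (ψ ω)) :=
    tendsto_nhdsWithin_iff.2 ⟨hlim ω hωΩ, hf.mono fun j hj => hj.2 hωΩ⟩
  have hap : ∀ᶠ j in (Q.l : Filter ι),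
      S.toTM.ap (Q.γ j) (f j ω) = ld.X (Q.η j) (unsc (Q.ε j) ω) :=
    h2.mono fun j hj => S.toTM.ap_ap_inv _ (hj ω hωΩ).1
  refine ⟨tendsto_nhds_unique ((Q.tendsto_ap (hψU hωΩ) hy).congr' hap) ?_, (h1 ω hωΩ).1,
    (h1 ω hωΩ).2.1, fun j => f j ω, hy, ?_⟩
  · exact (h1 ω hωΩ).2.2.comp (Q.η_lim.prodMk_nhds (tendsto_unsc Q.ε_lim tendsto_const_nhds))
  · filter_upwards [hap, h2] with j a1 a2
    rw [Φj, a1, (a2 ω hωΩ).2.1, sc_unsc (Q.ε_pos j)]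

end Crest.Agent.R264.Seq
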