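import Crest.Agent.R264.S4Norm
import Crest.Agent.R264.S4Inv
import Crest.Agent.R264.S4Base

/-! Row 264, P4: the scaling sequence attached to an approach to the base point. -/

set_option autoImplicit false
open Set Filter Topology Metric Complex
open scoped Matrix

noncomputable section
namespace Crest.Agent.R264
variable {S : Setup} {r k : ℕ} {σ : Segre S.F r k} {ι : Type}

theorem exists_seq {ld : σ.LD (σ.a 0)} (hb : ld.Base) (l : Ultrafilter ι) (γ : ι → S.toTM.Aut)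
    (y : ι → CN S.N) (hK : ∀ j, y j ∈ S.K)
    (hpos : ∀ j, S.toTM.ap (γ j) (y j) ∈ ld.O ∧ 0 < ld.h (S.toTM.ap (γ j) (y j)))
    (hlim : Tendsto (fun j => S.toTM.ap (γ j) (y j)) l (𝓝 (σ.a 0))) :
    ∃ (Q : Seq S σ ι) (y0 : CN S.N), Q.l = l ∧ Q.γ = γ ∧
      (∀ j, Q.η j = ld.e (S.toTM.ap (γ j) (y j))) ∧ (∀ j, Q.ε j = ld.h (S.toTM.ap (γ j) (y j))) ∧
      Tendsto y l (𝓝[S.U] y0) ∧ Q.φ y0 = σ.a 0 ∧ Q.InL ∧ y0 ∈ Q.R ∧
      Q.Φ y0 = (I, 0, σ.t (σ.a 0)) := by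
  obtain ⟨φ, hφ, hcl, hφl, hdich⟩ := S.toTM.exists_limit l γ
  obtain ⟨y0, hy0K, hy0⟩ := S.K_compact.ultrafilter_le_nhds (l.map y)
    (le_principal_iff.2 (by
      rw [Ultrafilter.coe_map, mem_map]
      exact Eventually.of_forall hK))
  have hy0U : y0 ∈ S.U := S.K_sub hy0K
  have hyl : Tendsto y l (𝓝[S.U] y0) :=
    tendsto_nhdsWithin_iff.2 ⟨hy0, Eventually.of_forall fun j => S.K_sub (hK j)⟩
  have hφ0 : φ y0 = σ.a 0 :=
    tendsto_nhds_unique (S.toTM.montel_tendsto (ROpen.refl _) (S.toTM.locBdd_ap l γ) hφl hy0U hyl).1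
      hlim
  have hbd : ∀ x ∈ S.U, φ x ∉ S.U := by
    refine hdich.resolve_left fun h => σ.good.mem_frontier.2 ?_
    rw [← hφ0]; exact h hy0U
  have he0 := ld.h_of_mem ld.mem σ.zero_mem_S ld.toLD0.zero_mem σ.a0_mem_L
  have hOn : ld.O ∈ 𝓝 (σ.a 0) := ld.O_open.mem_nhds ld.mem
  have hη : Tendsto (fun j => ld.e (S.toTM.ap (γ j) (y j))) l (𝓝 0) := by
    have := (ld.e_cont.continuousAt hOn).tendsto.comp hlim
    rwa [he0.1] at this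
  have hε : Tendsto (fun j => ld.h (S.toTM.ap (γ j) (y j))) l (𝓝 0) := by
    rw [← he0.2]; exact (ld.h_cont.continuousAt hOn).tendsto.comp hlim
  let Q : Seq S σ ι := ⟨l, γ, fun j => ld.e (S.toTM.ap (γ j) (y j)),
    fun j => ld.h (S.toTM.ap (γ j) (y j)), φ, fun j => (ld.e_mem _ (hpos j).1).1, hη,
    fun j => (hpos j).2, hε, hφ, hφl, fun x hx => ⟨hcl hx, hbd x hx⟩⟩
  have hQ0 : Q.φ y0 = σ.a 0 := hφ0
  have hΦj : ∀ j, Q.Φj j (y j) = (I, 0, σ.t (S.toTM.ap (γ j) (y j))) := by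
    intro j
    have h1 : ((ld.h (S.toTM.ap (γ j) (y j)) : ℝ) : ℂ) ≠ 0 := by exact_mod_cast (hpos j).2.ne'
    change sc (ld.h (S.toTM.ap (γ j) (y j)))
      (σ.co (ld.e (S.toTM.ap (γ j) (y j))) (S.toTM.ap (γ j) (y j))) = _
    rw [ld.co_e _ (hpos j).1, sc]
    simp only [smul_zero, Prod.mk.injEq, and_true]
    field_simp
  have hω : Tendsto (fun j => Q.Φj j (y j)) Q.l (𝓝 (I, 0, σ.t (σ.a 0))) := by
    simp only [hΦj]
    exact tendsto_const_nhds.prodMk_nhds (tendsto_const_nhds.prodMk_nhds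
      (σ.t_diff.continuous.continuousAt.tendsto.comp hlim))
  obtain ⟨ch, u, ρ, hρ, hs, hu, hmφ, -, hN⟩ := Q.normal hy0U hQ0 ld hb.bd
  have hu' : u ∈ ch.s := by rw [hs]; exact mem_ball_self hρ
  have hyB : y0 ∈ ch.c '' ch.s := ⟨u, hu', hu⟩
  have hLB := (hN y y0 1 hyB hyl (Eventually.of_forall fun j => ⟨(hpos j).2, by
    rw [hΦj]; simp⟩)).1
  have hB : ROpen S.U (ch.c '' ch.s) := ch.ropen
  have hL1 : ∀ x ∈ ch.c '' ch.s, S.toTM.LocBdd (Q.l : Filter ι) Q.Φj {x} := by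
    intro x hx z hz
    rw [mem_singleton_iff.1 hz]; exact hLB x hx
  have hInL : Q.InL := Q.inL_of_ropen hB ⟨y0, hyB⟩ fun x hx =>
    Q.mem_L_of_locBdd (hB.1 hx) (hL1 x hx) (ld.r0_ne _ (hmφ hx) 0 ld.toLD0.zero_mem)
  have hΦ0 : Q.Φ y0 = (I, 0, σ.t (σ.a 0)) :=
    tendsto_nhds_unique (Q.tendsto_Φ_moving hy0U (hL1 y0 hyB) hyl).1 hω
  have hq : Qk (σ.κ (Q.φ y0)) ((I, 0, σ.t (σ.a 0)) : PM r k).2.1 <
      ((I, 0, σ.t (σ.a 0)) : PM r k).1.im := by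
    simp [Qk_zero]
  refine ⟨Q, y0, rfl, rfl, fun _ => rfl, fun _ => rfl, hyl, hQ0, hInL,
    ⟨hy0U, by rw [hQ0]; exact σ.lo_a0, hL1 y0 hyB, by rw [hΦ0]; exact hq, ?_⟩, hΦ0⟩
  have hside : ∀ᶠ x in 𝓝[S.F.V] (Q.φ y0), 0 < ld.h x → x ∈ S.U := by
    rw [hQ0]
    filter_upwards [self_mem_nhdsWithin, mem_nhdsWithin_of_mem_nhds hOn] with x h1 h2 h3
    exact hb.sub x ⟨h2, h1⟩ ((hb.pos x ⟨h2, h1⟩).1 h3)
  obtain ⟨Ω, ψ, hΩ, -, hω0, -, hψd, hψU, hψ0, hψ⟩ := Q.exists_inv ld hy0U (hmφ hyB) (hInL y0 hy0U)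
    hside hyl hω (by rw [hQ0]) (by rw [hQ0]) hq hq
  set ω0 : PM r k := (I, 0, σ.t (σ.a 0)) with hω0def
  have hd : DifferentiableAt ℂ ψ ω0 := hψd.differentiableAt (hΩ.mem_nhds hω0)
  have hU : ∀ᶠ ω in 𝓝 ω0, ψ ω ∈ S.U := mem_of_superset (hΩ.mem_nhds hω0) hψU
  have hevB : ∀ᶠ ω in 𝓝 ω0, ψ ω ∈ ch.c '' ch.s := by
    have ht : Tendsto ψ (𝓝 ω0) (𝓝[S.U] y0) := by
      rw [← hψ0]; exact tendsto_nhdsWithin_iff.2 ⟨hd.continuousAt.tendsto, hU⟩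
    exact ht (hB.2 y0 hyB)
  have hid : (fun ω => Q.Φ (ψ ω)) =ᶠ[𝓝 ω0] fun ω => ω := by
    filter_upwards [hevB, hΩ.mem_nhds hω0] with ω h1 h2
    obtain ⟨-, -, -, z, hz, hz'⟩ := hψ ω h2
    exact tendsto_nhds_unique (Q.tendsto_Φ_moving (hB.1 h1) (hL1 _ h1) hz).1
      (tendsto_const_nhds.congr' (hz'.mono fun j hj => hj.symm))
  have hsur : ∀ e : PM r k, S.toTM.D Q.Φ y0 (fderiv ℂ ψ ω0 e) = e := by
    intro e
    have h1 := (Q.hol_Φ hB hLB).fderiv_comp hd hevB e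
    rw [hid.fderiv_eq, hψ0, S.toTM.D_eq_of_ropen hB _ hyB] at h1
    rw [← h1]
    simp
  have hT : ∀ e : PM r k, fderiv ℂ ψ ω0 e ∈ S.toTM.T y0 := by
    intro e
    have := fderiv_mem_Tan hd hU e
    rwa [hψ0] at this
  let f : S.toTM.T y0 →ₗ[ℂ] PM r k :=
    (S.toTM.D Q.Φ y0 : CN S.N →ₗ[ℂ] PM r k).domRestrict (S.toTM.T y0)
  have hf : Function.Surjective f := fun e => ⟨⟨_, hT e⟩, hsur e⟩
  have hinj : Function.Injective f :=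
    (LinearMap.injective_iff_surjective_of_finrank_eq_finrank
      ((S.toTM.finrank_T hy0U).trans (Seq.finrank_PM σ).symm)).2 hf
  intro v hv h0
  exact congrArg Subtype.val (hinj (a₁ := ⟨v, hv⟩) (a₂ := 0) (by rw [map_zero]; exact h0))

end Crest.Agent.R264
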