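import Crest.Agent.R264.S4Clop

/-! Row 264, P4: injectivity of the limit map, inverse charts. -/

set_option autoImplicit false
open Set Filter Topology Metric Complex
open scoped Matrix

noncomputable section
namespace Crest.Agent.R264.Seq
variable {S : Setup} {r k : ℕ} {σ : Segre S.F r k} {ι : Type} (Q : Seq S σ ι)

theorem inj (hL : Q.InL) {y y' : CN S.N} (hy : y ∈ Q.R) (hy' : y' ∈ Q.R) (h1 : Q.φ y = Q.φ y')
    (h2 : Q.Φ y = Q.Φ y') : y = y' := by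
  obtain ⟨ld⟩ := hy.2.1.reg.exists_LD0
  obtain ⟨ch, u, hu, rfl, hm, hb, -⟩ := S.toTM.SCVMb_flat (Q.ropen_R hL)
    (l := (Q.l : Filter ι)) (f := Q.Φj) (fun x hx => hx.2.2.1 x rfl) hy
  have hinj := (S4Clop_inj_iff S.toTM ch hu (S.toTM.hol_differentiableWithinAt (Q.ropen_R hL)
    (Q.hol_Φ_R hL) hy)).2 hy.2.2.2.2
  have hsurj : Function.Surjective (fderiv ℂ (fun w => Q.Φ (ch.c w)) u) :=
    (LinearMap.injective_iff_surjective_of_finrank_eq_finrank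
      (f := (fderiv ℂ (fun w => Q.Φ (ch.c w)) u : CN S.n →ₗ[ℂ] PM r k))
      (by rw [finrank_PM σ]; simp)).1 hinj
  obtain ⟨x, hx, he⟩ := exists_preimage_tendsto (g := fun w => Q.Φ (ch.c w)) ch.s_open hb
    (fun w hw => Q.tendsto_Φ (ch.maps hw) (hm hw).2.2.1) hu ⟨hinj, hsurj⟩
    (b := fun j => Q.Φj j y') (h2 ▸ Q.tendsto_Φ hy'.1 hy'.2.2.1)
  have h3 : Tendsto (fun j => ch.c (x j)) Q.l (𝓝[S.U] (ch.c u)) := (ch.tendsto_c hu).comp hx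
  have hO := ld.O_open.mem_nhds ld.mem
  have hO' : ld.O ∈ 𝓝 (Q.φ y') := by
    rw [← h1]
    exact hO
  have h4 : ∀ᶠ j in (Q.l : Filter ι), ch.c (x j) = y' := by
    filter_upwards [he, h3.eventually self_mem_nhdsWithin, (Q.tendsto_ap hy.1 h3).eventually hO,
      (Q.φ_lim y' hy'.1).eventually hO', Q.η_lim.eventually (ball_mem_nhds 0 ld.δ1_pos)]
      with j e hU h5 h6 h7
    refine S.toTM.ap_injOn (Q.γ j) hU hy'.1 (ld.injOn h7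
      ⟨h5, S.F.ropen.1 (S.toTM.ap_mem _ hU)⟩ ⟨h6, S.F.ropen.1 (S.toTM.ap_mem _ hy'.1)⟩ ?_)
    have e' := congrArg (unsc (Q.ε j)) e
    simpa only [Φj, unsc_sc (Q.ε_pos j)] using e'
  exact tendsto_nhds_unique_of_eventuallyEq (h3.mono_right nhdsWithin_le_nhds) tendsto_const_nhds h4

/-- The part of `R` over a coordinate neighbourhood. -/
def Rq {q : CN S.N} (ld : σ.LD0 q) : Set (CN S.N) := {y | y ∈ Q.R ∧ Q.φ y ∈ ld.O}

theorem ropen_Rq (hL : Q.InL) {q : CN S.N} (ld : σ.LD0 q) : ROpen S.U (Q.Rq ld) := by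
  refine ⟨fun y hy => hy.1.1, fun y hy => ?_⟩
  exact inter_mem ((Q.ropen_R hL).2 y hy.1)
    (Q.φ_hol.continuousOn y hy.1.1 (ld.O_open.mem_nhds hy.2))

theorem φ_eq_lam (hL : Q.InL) {q : CN S.N} (ld : σ.LD0 q) {y : CN S.N} (hy : y ∈ Q.Rq ld) :
    Q.φ y = ld.lam (Q.Φ y).2.2 := by
  rw [Q.Φ_t hy.1.1 hy.1.2.2.1, (ld.co_of_mem hy.2 (hL y hy.1.1)).2]

/-- The inverse chart over a coordinate neighbourhood. -/
theorem exists_chart (hL : Q.InL) {q : CN S.N} (ld : σ.LD0 q) :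
    IsOpen (Q.Φ '' Q.Rq ld) ∧ ∃ g : PM r k → CN S.N, DifferentiableOn ℂ g (Q.Φ '' Q.Rq ld) ∧
      (∀ x ∈ Q.Rq ld, g (Q.Φ x) = x) ∧ ∀ x ∈ Q.Rq ld, Function.Injective (fderiv ℂ g (Q.Φ x)) ∧
        LinearMap.range (fderiv ℂ g (Q.Φ x) : PM r k →ₗ[ℂ] CN S.N) = S.toTM.T x ∧
        (∀ e, S.toTM.D Q.Φ x (fderiv ℂ g (Q.Φ x) e) = e) ∧ map Q.Φ (𝓝[S.U] x) = 𝓝 (Q.Φ x) := by
  refine S.toTM.exists_inverse_of_injOn (finrank_PM σ) (Q.ropen_Rq hL ld)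
    ((Q.hol_Φ_R hL).mono fun y hy => hy.1) (fun y hy y' hy' e => ?_) fun x hx => hx.1.2.2.2.2
  refine Q.inj hL hy.1 hy'.1 ?_ e
  rw [Q.φ_eq_lam hL ld hy, Q.φ_eq_lam hL ld hy', e]

end Crest.Agent.R264.Seq
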