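import Crest.Agent.R264.QAlg
import Crest.Agent.R264.SCV2

/-! Row 264, P4: Jacobian estimate for maps into a model fibre. -/

set_option autoImplicit false
open Set Filter Topology Metric Complex
open scoped Matrix

noncomputable section
namespace Crest.Agent.R264

theorem S4Jac_det_le {n : Type*} [Fintype n] [DecidableEq n] (M : Matrix n n ℂ) (c : n → ℝ)
    (h : ∀ i j, ‖M i j‖ ≤ c i) : ‖M.det‖ ≤ (Fintype.card n).factorial * ∏ i, c i := by
  rw [Matrix.det_apply']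
  refine (norm_sum_le _ _).trans ?_
  have : ∀ σ : Equiv.Perm n, ‖((Equiv.Perm.sign σ : ℤ) : ℂ) * ∏ i, M (σ i) i‖ ≤ ∏ i, c i := by
    intro σ
    have hs : ‖((Equiv.Perm.sign σ : ℤ) : ℂ)‖ = 1 := by
      rcases Int.units_eq_one_or (Equiv.Perm.sign σ) with h | h <;> simp [h]
    rw [norm_mul, hs, one_mul, norm_prod, ← Equiv.prod_comp σ c]
    exact Finset.prod_le_prod (fun _ _ => norm_nonneg _) fun i _ => h _ _
  refine (Finset.sum_le_sum fun σ _ => this σ).trans (le_of_eq ?_)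
  rw [Finset.sum_const, Finset.card_univ, Fintype.card_perm, nsmul_eq_mul]

/-- `z ↦ ubar · z` -/
def S4Jac_dot {r : ℕ} (u : CN r) : CN r →L[ℂ] ℂ :=
  LinearMap.toContinuousLinearMap
    { toFun := fun z => star u ⬝ᵥ z
      map_add' := fun _ _ => dotProduct_add _ _ _
      map_smul' := fun _ _ => dotProduct_smul _ _ _ }

theorem S4Jac_dot_apply {r : ℕ} (u z : CN r) : S4Jac_dot u z = star u ⬝ᵥ z := rfl

/-- Determinant bound from bounds on the rows. -/
theorem det_le_of_rows (r : ℕ) : ∃ C : ℝ, 0 ≤ C ∧ ∀ (L : (ℂ × CN r) →L[ℂ] (ℂ × CN r)) (u : CN r)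
    (a b c : ℝ), ‖u‖ = 1 → (∀ v, ‖(L v).1‖ ≤ a * ‖v‖) → (∀ v, ‖star u ⬝ᵥ (L v).2‖ ≤ b * ‖v‖) →
    (∀ v, ‖(L v).2‖ ≤ c * ‖v‖) → ‖L.det‖ ≤ C * a * b * c ^ (r - 1) := by
  refine ⟨(Fintype.card (Unit ⊕ Fin r)).factorial, Nat.cast_nonneg _, ?_⟩
  intro L u a b c hu ha hb hc
  obtain ⟨i, hi⟩ : ∃ i, 1 ≤ ‖u i‖ := by
    by_contra h
    push Not at h
    have := (pi_norm_lt_iff one_pos).2 h
    exact absurd hu this.ne
  let B := (Module.Basis.singleton Unit ℂ).prod (Pi.basisFun ℂ (Fin r))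
  have hB : ∀ j, ‖B j‖ = 1 := by
    rintro (j | j)
    · simp [B, Prod.norm_def]
    · simp [B, Prod.norm_def, Pi.norm_single]
  let M := LinearMap.toMatrix B B (L : (ℂ × CN r) →ₗ[ℂ] (ℂ × CN r))
  have hM1 : ∀ k j, M (Sum.inl k) j = (L (B j)).1 := by
    intro k j
    simp [M, LinearMap.toMatrix_apply, B]
  have hM2 : ∀ k j, M (Sum.inr k) j = (L (B j)).2 k := by
    intro k j
    simp [M, LinearMap.toMatrix_apply, B]
  have hdet : L.det = M.det := (LinearMap.det_toMatrix B _).symm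
  have h1 := Matrix.det_updateRow_sum M (Sum.inr i) (Sum.elim (fun _ => 0) (star u))
  have h2 := S4Jac_det_le (M.updateRow (Sum.inr i) (∑ k, (Sum.elim (fun _ => 0) (star u) k : ℂ) • M k))
    (Sum.elim (fun _ => a) (Function.update (fun _ => c) i b)) (by
      rintro (k | k) j
      · rw [Matrix.updateRow_ne (by simp), hM1]
        simpa [hB] using ha (B j)
      · by_cases hk : k = i
        · subst hk
          rw [Matrix.updateRow_self]
          have := hb (B j)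
          rw [hB, mul_one] at this
          simpa [Finset.sum_apply, hM2, dotProduct] using this
        · rw [Matrix.updateRow_ne (by simpa using hk), hM2]
          have := (norm_le_pi_norm _ k).trans (hc (B j))
          simpa [hB, hk] using this)
  rw [h1, Fintype.prod_sum_type] at h2
  simp only [Sum.elim_inr, Sum.elim_inl, Finset.prod_update_of_mem (Finset.mem_univ i),
    Finset.prod_const, Finset.card_univ, Fintype.card_unit, pow_one, smul_eq_mul, norm_mul,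
    Pi.star_apply, norm_star, Finset.card_univ_diff, Finset.card_singleton, Fintype.card_fin] at h2
  rw [hdet]
  calc ‖M.det‖ ≤ ‖u i‖ * ‖M.det‖ := le_mul_of_one_le_left (norm_nonneg _) hi
    _ ≤ _ := h2
    _ = _ := by ring

/-- Jacobian estimate: a holomorphic map of a ball into a model fibre. -/
theorem jac_le (r : ℕ) {ρ : ℝ} (hρ : 0 < ρ) : ∃ C : ℝ, 0 ≤ C ∧
    ∀ (κ : Matrix (Fin r) (Fin r) ℂ) (f : ℂ × CN r → ℂ × CN r) (b : ℂ × CN r) (u : CN r), Small κ →
      DifferentiableOn ℂ f (ball b ρ) → (∀ x ∈ ball b ρ, Qk κ (f x).2 < (f x).1.im) → ‖u‖ = 1 →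
      ‖(fderiv ℂ f b).det‖ ^ 2 ≤ C * ((f b).1.im - Qk κ (f b).2) ^ (r + 2) * qf κ u := by
  obtain ⟨C, hC0, hC⟩ := det_le_of_rows r
  refine ⟨(C * (2 / ρ) * (2 / ρ) * (4 / ρ) ^ (r - 1)) ^ 2, sq_nonneg _, ?_⟩
  intro κ f b u hκ hf hin hu
  set δ := (f b).1.im - Qk κ (f b).2 with hδ
  have hδ0 : 0 < δ := sub_pos.2 (hin b (mem_ball_self hρ))
  set ζ := bzInv κ (f b).2 with hζ
  set D := fderiv ℂ f b with hD
  have hfb : HasFDerivAt f D b := (hf.differentiableAt (ball_mem_nhds b hρ)).hasFDerivAt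
  have h1 : ∀ (u' : CN r) (v : ℂ × CN r),
      ‖(D v).1 - 2 * I * (star (ζ + u') ⬝ᵥ (D v).2)‖ ≤ 2 * (δ + qf κ u') / ρ * ‖v‖ := by
    intro u' v
    let T : ℂ × CN r →L[ℂ] ℂ := ContinuousLinearMap.fst ℂ ℂ (CN r) -
      (2 * I) • (S4Jac_dot (ζ + u')).comp (ContinuousLinearMap.snd ℂ ℂ (CN r))
    have e : ∀ x, wu κ (ζ + u') (f x).1 (f x).2 =
        T (f x) + I * (star (ζ + u') ⬝ᵥ bz κ (ζ + u')) := fun x => rfl
    have hg : DifferentiableOn ℂ (fun x => wu κ (ζ + u') (f x).1 (f x).2) (ball b ρ) := by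
      simp only [e]
      exact (T.differentiable.comp_differentiableOn hf).add_const _
    have hpos : ∀ y ∈ ball b ρ, 0 < (wu κ (ζ + u') (f y).1 (f y).2).im := by
      intro y hy
      rw [hκ.im_wu]
      have := hκ.Qk_nonneg ((f y).2 - bz κ (ζ + u'))
      have := hin y hy
      linarith
    have h2 := norm_fderiv_le_of_im_pos hρ hg hpos
    have h3 : (wu κ (ζ + u') (f b).1 (f b).2).im = δ + qf κ u' := by
      rw [hκ.im_wu, bz_add, hζ, hκ.bz_bzInv, sub_add_cancel_left, ← neg_one_smul ℝ (bz κ u'),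
        Qk_smul, hκ.Qk_bz]
      ring
    have h4 : fderiv ℂ (fun x => wu κ (ζ + u') (f x).1 (f x).2) b = T.comp D := by
      simp only [e]
      exact ((T.hasFDerivAt.comp b hfb).add_const _).fderiv
    rw [h4] at h2
    simp only [h3] at h2
    exact ((T.comp D).le_opNorm v).trans (mul_le_mul_of_nonneg_right h2 (norm_nonneg _))
  have h2 : ∀ (u' : CN r) (v : ℂ × CN r),
      ‖star u' ⬝ᵥ (D v).2‖ ≤ (δ + qf κ u') / ρ * ‖v‖ := by
    intro u' v
    have a1 := h1 u' v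
    have a2 := h1 (-u') v
    have hq : qf κ (-u') = qf κ u' := by rw [← neg_one_smul ℝ u', qf_smul]; ring
    rw [hq] at a2
    have a3 := (norm_sub_le _ _).trans (add_le_add a2 a1)
    have e : (D v).1 - 2 * I * (star (ζ + -u') ⬝ᵥ (D v).2) -
        ((D v).1 - 2 * I * (star (ζ + u') ⬝ᵥ (D v).2)) = 4 * I * (star u' ⬝ᵥ (D v).2) := by
      rw [star_add, star_add, star_neg, add_dotProduct, add_dotProduct, neg_dotProduct]
      ring
    rw [e, norm_mul, norm_mul, norm_I] at a3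
    have e4 : ‖(4 : ℂ)‖ = 4 := by simp
    rw [e4] at a3
    have e5 : 2 * (δ + qf κ u') / ρ * ‖v‖ = 2 * ((δ + qf κ u') / ρ * ‖v‖) := by ring
    linarith
  set p := Real.sqrt δ with hp
  have hp0 : 0 < p := Real.sqrt_pos.2 hδ0
  have hp2 : p ^ 2 = δ := Real.sq_sqrt hδ0.le
  have h3 : ∀ (u' : CN r), u' ≠ 0 → ∀ v : ℂ × CN r,
      ‖star u' ⬝ᵥ (D v).2‖ ≤ 2 / ρ * p * Real.sqrt (qf κ u') * ‖v‖ := by
    intro u' hu' v
    have hq := (small_iff.1 hκ).2 u' hu'
    set t := Real.sqrt (qf κ u') with ht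
    have ht0 : 0 < t := Real.sqrt_pos.2 hq
    have ht2 : t ^ 2 = qf κ u' := Real.sq_sqrt hq.le
    have a1 := h2 ((p / t) • u') v
    rw [qf_smul, star_smul, smul_dotProduct, norm_smul, star_trivial,
      Real.norm_of_nonneg (div_pos hp0 ht0).le, ← ht2, ← hp2] at a1
    calc ‖star u' ⬝ᵥ (D v).2‖ = t / p * (p / t * ‖star u' ⬝ᵥ (D v).2‖) := by field_simp
      _ ≤ t / p * ((p ^ 2 + (p / t) ^ 2 * t ^ 2) / ρ * ‖v‖) :=
          mul_le_mul_of_nonneg_left a1 (div_pos ht0 hp0).le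
      _ = _ := by field_simp; ring
  have h4 : ∀ v : ℂ × CN r, ‖(D v).2‖ ≤ 4 / ρ * p * ‖v‖ := by
    intro v
    refine (pi_norm_le_iff_of_nonneg (by positivity)).2 fun i => ?_
    have a1 := h3 (Pi.single i 1) (by simp) v
    have a2 : Real.sqrt (qf κ (Pi.single i 1)) ≤ 2 :=
      Real.sqrt_le_iff.2 ⟨by norm_num, (hκ.qf_single_le i).trans (by norm_num)⟩
    have e : star (Pi.single i 1 : CN r) ⬝ᵥ (D v).2 = (D v).2 i := by
      rw [Pi.star_single, star_one, single_dotProduct, one_mul]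
    rw [e] at a1
    calc _ ≤ _ := a1
      _ ≤ 2 / ρ * p * 2 * ‖v‖ := by gcongr
      _ = _ := by ring
  have hu0 : u ≠ 0 := by rintro rfl; simp at hu
  have hr : 1 ≤ r := by
    rcases r with _ | r
    · exact absurd (Subsingleton.elim _ _) hu0
    · omega
  let φ : Module.Dual ℂ (ℂ × CN r) :=
    (-(2 * I)) • ((S4Jac_dot ζ).comp (ContinuousLinearMap.snd ℂ ℂ (CN r)) : _ →L[ℂ] ℂ).toLinearMap
  let S : (ℂ × CN r) →L[ℂ] (ℂ × CN r) :=
    LinearMap.toContinuousLinearMap (LinearMap.transvection φ ((1 : ℂ), (0 : CN r)))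
  have hS1 : ∀ x, (S x).1 = x.1 - 2 * I * (star ζ ⬝ᵥ x.2) := by
    intro x
    simp [S, φ, LinearMap.transvection.apply, S4Jac_dot_apply, sub_eq_add_neg]
  have hS2 : ∀ x, (S x).2 = x.2 := by
    intro x
    simp [S, LinearMap.transvection.apply]
  have hSd : (S.comp D).det = D.det := by
    have : LinearMap.det (S : (ℂ × CN r) →ₗ[ℂ] (ℂ × CN r)) = 1 := by
      simp [S, φ]
    have e := LinearMap.det_comp (S : (ℂ × CN r) →ₗ[ℂ] (ℂ × CN r)) (D : (ℂ × CN r) →ₗ[ℂ] (ℂ × CN r))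
    rw [this, one_mul] at e
    exact e
  have hq0 : qf κ (0 : CN r) = 0 := by simp [qf]
  have h5 := hC (S.comp D) u (2 / ρ * p ^ 2) (2 / ρ * p * Real.sqrt (qf κ u)) (4 / ρ * p) hu
    (fun v => by
      have := h1 0 v
      rw [add_zero, hq0, add_zero, ← hp2] at this
      rw [ContinuousLinearMap.comp_apply, hS1]
      exact this.trans (le_of_eq (by ring)))
    (fun v => by rw [ContinuousLinearMap.comp_apply, hS2]; exact h3 u hu0 v)
    (fun v => by rw [ContinuousLinearMap.comp_apply, hS2]; exact h4 v)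
  rw [hSd] at h5
  refine (pow_le_pow_left₀ (norm_nonneg _) h5 2).trans (le_of_eq ?_)
  have ht2 : Real.sqrt (qf κ u) ^ 2 = qf κ u := Real.sq_sqrt ((small_iff.1 hκ).2 u hu0).le
  obtain ⟨m, rfl⟩ : ∃ m, r = m + 1 := ⟨r - 1, by omega⟩
  rw [← hp2, Nat.add_sub_cancel]
  conv_rhs => rw [← ht2]
  ring

end Crest.Agent.R264
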