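import Crest.Agent.R264.S4Def

/-! Row 264, P4: existence of local coordinates at regular points. -/

set_option autoImplicit false
open Set Filter Topology Metric Complex
open scoped Matrix

noncomputable section
namespace Crest.Agent.R264.Segre
variable {N n r k : ℕ} {U : Set (CN N)} {F : AlgFrame n U} {σ : Segre F r k} {q : CN N}

/-- Lower bounds of injective linear maps are stable. -/
theorem S4LD0_low {Z E G : Type*} [TopologicalSpace Z] [NormedAddCommGroup E] [NormedSpace ℂ E]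
    [FiniteDimensional ℂ E] [NormedAddCommGroup G] [NormedSpace ℂ G] {T : Z → E →L[ℂ] G} {z0 : Z}
    (hT : ContinuousAt T z0) (hi : Function.Injective (T z0)) :
    ∃ K : ℝ, 0 < K ∧ ∀ᶠ z in 𝓝 z0, ∀ w, ‖w‖ ≤ K * ‖T z w‖ := by
  obtain ⟨K, hK, h⟩ := (T z0 : E →ₗ[ℂ] G).exists_antilipschitzWith (LinearMap.ker_eq_bot.2 hi)
  have hK' : (0 : ℝ) < K := hK
  refine ⟨2 * K, by positivity, ?_⟩
  filter_upwards [hT.eventually (ball_mem_nhds _ (show (0 : ℝ) < (2 * (K : ℝ))⁻¹ by positivity))]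
    with z hz w
  have h1 : ‖w‖ ≤ K * ‖T z0 w‖ := ZeroHomClass.bound_of_antilipschitz (T z0 : E →ₗ[ℂ] G) h w
  have h2 : ‖T z0 w‖ ≤ ‖T z w‖ + ‖(T z - T z0) w‖ := by
    rw [sub_apply]
    exact norm_le_insert _ _
  have h3 : ‖(T z - T z0) w‖ ≤ (2 * (K : ℝ))⁻¹ * ‖w‖ := ((T z - T z0).le_opNorm w).trans
    (mul_le_mul_of_nonneg_right (by rw [← dist_eq_norm]; exact hz.le) (norm_nonneg _))
  have h4 : K * ((2 * (K : ℝ))⁻¹ * ‖w‖) = ‖w‖ / 2 := by field_simp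
  have h5 := mul_le_mul_of_nonneg_left (h2.trans (add_le_add_right h3 _)) hK'.le
  linarith

theorem S4LD0_cof_zero : σ.cof 0 0 = σ.co 0 := by
  funext x
  rw [SegRaw.cof, SegRaw.co, σ.p_zero]

theorem S4LD0_inj (hq : σ.Reg q) {ch : Chart n F.V} (hs : F.IsSect ch) {u : CN n} (hu : u ∈ ch.s)
    (e : ch.c u = q) : Function.Injective ((fderiv ℂ (σ.co 0) q).comp (fderiv ℂ ch.c u)) := by
  refine (injective_iff_map_eq_zero _).2 fun w hw => hq.coord w ?_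
  have h := hs.fderiv_c hu w
  rw [e] at h
  rw [← h, map_smul]
  exact smul_eq_zero_of_right _ hw

/-- The inverse function theorem with parameters. -/
theorem S4LD0_param {P E E' : Type*} [NormedAddCommGroup P] [NormedSpace ℂ P]
    [FiniteDimensional ℂ P] [NormedAddCommGroup E] [NormedSpace ℂ E] [FiniteDimensional ℂ E]
    [NormedAddCommGroup E'] [NormedSpace ℂ E'] [FiniteDimensional ℂ E'] {G : P × E → E'} {a : P}
    {u : E} {s : Set E} (hG : ∀ᶠ z in 𝓝 (a, u), z.2 ∈ s ∧ DifferentiableAt ℂ G z)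
    (hdim : Module.finrank ℂ E = Module.finrank ℂ E') {L : E →L[ℂ] E'}
    (hL : HasFDerivAt (fun v => G (a, v)) L u) (hi : Function.Injective L) :
    ∃ (A : Set (P × E)) (B : Set (P × E')) (g : P × E' → P × E), IsOpen A ∧ (a, u) ∈ A ∧
      IsOpen B ∧ DifferentiableOn ℂ g B ∧ (∀ z ∈ A, (z.1, G z) ∈ B ∧ g (z.1, G z) = z) ∧
      ∀ y ∈ B, (g y).2 ∈ s ∧ G (y.1, (g y).2) = y.2 := by
  obtain ⟨D, hD, hDo, hD0⟩ := _root_.eventually_nhds_iff.1 hG
  have hG0 := (hD _ hD0).2.hasFDerivAt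
  have hb : Function.Bijective (fderiv ℂ (fun z => (z.1, G z)) (a, u)) := by
    have hi' : Function.Injective (fderiv ℂ (fun z => (z.1, G z)) (a, u)) := by
      rw [(hasFDerivAt_fst.prodMk hG0).fderiv]
      refine (injective_iff_map_eq_zero _).2 fun w hw => ?_
      obtain ⟨α, w⟩ := w
      obtain ⟨a1, a2⟩ := Prod.mk_eq_zero.1 hw
      have a3 : α = 0 := a1
      subst a3
      have b1 : HasFDerivAt (fun v => G (a, v)) _ u :=
        HasFDerivAt.comp u hG0 (hasFDerivAt_prodMk_right a u)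
      have b5 : w = 0 := (injective_iff_map_eq_zero _).1 hi w (by
        rw [hL.unique b1]
        exact a2)
      rw [b5]
      rfl
    refine ⟨hi', (LinearMap.injective_iff_surjective_of_finrank_eq_finrank
      (f := (fderiv ℂ (fun z => (z.1, G z)) (a, u)).toLinearMap) ?_).1 hi'⟩
    rw [Module.finrank_prod, Module.finrank_prod, hdim]
  obtain ⟨A, B, g, hA, h0, hAD, hB, hg, m1, m2, i1, i2⟩ := exists_local_inverse
    (f := fun z => (z.1, G z)) hDo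
    (fun z hz => (differentiableAt_fst.prodMk (hD z hz).2).differentiableWithinAt) hD0 hb
  refine ⟨A, B, g, hA, h0, hB, hg, fun z hz => ⟨m1 hz, i1 z hz⟩,
    fun y hy => ⟨(hD _ (hAD (m2 hy))).1, ?_⟩⟩
  have h3 := i2 y hy
  have h4 : (g y).1 = y.1 := congrArg Prod.fst h3
  have h5 : G (g y) = y.2 := congrArg Prod.snd h3
  rw [← h4]
  exact h5

/-- The local inverse, jointly in the free parameters. -/
theorem S4LD0_inverse (hq : σ.Reg q) {ch : Chart n F.V} (hs : F.IsSect ch) {u : CN n}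
    (hu : u ∈ ch.s) (e : ch.c u = q) :
    ∃ (A : Set (((ℂ × CN r) × CN r) × CN n)) (B : Set (((ℂ × CN r) × CN r) × PM r k))
      (g : ((ℂ × CN r) × CN r) × PM r k → ((ℂ × CN r) × CN r) × CN n), IsOpen A ∧ (0, u) ∈ A ∧
      IsOpen B ∧ DifferentiableOn ℂ g B ∧
      (∀ z ∈ A, (z.1, σ.cof z.1.1 z.1.2 (ch.c z.2)) ∈ B ∧
        g (z.1, σ.cof z.1.1 z.1.2 (ch.c z.2)) = z) ∧
      ∀ y ∈ B, (g y).2 ∈ ch.s ∧ σ.cof y.1.1 y.1.2 (ch.c (g y).2) = y.2 := by
  obtain ⟨hd, ho⟩ := σ.cof_diff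
  have h1 : ∀ᶠ z : ((ℂ × CN r) × CN r) × CN n in 𝓝 (0, u), z.2 ∈ ch.s :=
    continuous_snd.continuousAt.eventually (ch.s_open.mem_nhds hu)
  have hc : ∀ z : ((ℂ × CN r) × CN r) × CN n, z.2 ∈ ch.s →
      DifferentiableAt ℂ (fun z : ((ℂ × CN r) × CN r) × CN n => (z.1, ch.c z.2)) z := fun z hz =>
    differentiableAt_fst.prodMk ((ch.differentiableAt hz).comp z differentiableAt_snd)
  have h2 : ∀ᶠ z : ((ℂ × CN r) × CN r) × CN n in 𝓝 (0, u), z.2 ∈ ch.s ∧ DifferentiableAt ℂ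
      (fun z : ((ℂ × CN r) × CN r) × CN n => σ.cof z.1.1 z.1.2 (ch.c z.2)) z := by
    filter_upwards [h1, (hc (0, u) hu).continuousAt.eventually (ho.mem_nhds
      ⟨mem_ball_self σ.δ_pos, by simp only [e]; exact hq.r0_ne⟩)] with z a1 a2
    have a3 := (hd.differentiableAt (ho.mem_nhds a2)).comp z (hc z a1)
    exact ⟨a1, by simpa only [Function.comp_def] using a3⟩
  have b3 := (σ.co_differentiableAt (mem_ball_self σ.δ_pos) hq.r0_ne).hasFDerivAt
  rw [← e] at b3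
  have b4 := b3.comp u (ch.differentiableAt hu).hasFDerivAt
  rw [e] at b4
  refine S4LD0_param h2 ?_ ?_ (S4LD0_inj hq hs hu e)
  · have := σ.dim
    simp only [Module.finrank_prod, Module.finrank_self, Module.finrank_fintype_fun_eq_card,
      Fintype.card_fin]
    omega
  · simpa only [Function.comp_def, Prod.fst_zero, Prod.snd_zero, S4LD0_cof_zero] using b4

theorem Reg.exists_LD0 (hq : σ.Reg q) : Nonempty (σ.LD0 q) := by
  obtain ⟨ch, u, hs, hu, e⟩ := F.frame_sect hq.mem.1 hq.dv_ne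
  obtain ⟨A, B, g, hA, h0, hB, hg, m1, m2⟩ := S4LD0_inverse hq hs hu e
  have hlu : ch.l q = u := by rw [← e, ch.left u hu]
  have hl : ContinuousAt (fun z : CN N × (ℂ × CN r) => ch.l z.1) (q, 0) :=
    (ch.l_diff.continuous.comp continuous_fst).continuousAt
  have hdc : ContinuousAt (fun z : CN N × (ℂ × CN r) => fderiv ℂ ch.c (ch.l z.1)) (q, 0) :=
    ContinuousAt.comp (g := fderiv ℂ ch.c) (by
      rw [hlu]
      exact ((differentiableOn_fderiv ch.s_open ch.c_diff).differentiableAt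
        (ch.s_open.mem_nhds hu)).continuousAt) hl
  obtain ⟨K, hK, e1⟩ := S4LD0_low
    (T := fun z : CN N × (ℂ × CN r) => (fderiv ℂ (σ.co z.2) z.1).comp (fderiv ℂ ch.c (ch.l z.1)))
    ((σ.fderiv_co_continuousAt σ.ok_zero hq.r0_ne).clm_comp hdc)
    (by simp only [hlu]; exact S4LD0_inj hq hs hu e)
  obtain ⟨M, hM, e2⟩ : ∃ M : ℝ, 0 < M ∧
      ∀ᶠ z : CN N × (ℂ × CN r) in 𝓝 (q, 0), ‖fderiv ℂ ch.c (ch.l z.1)‖ ≤ M :=
    ⟨_, by positivity, hdc.norm.eventually (ge_mem_nhds (lt_add_one _))⟩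
  have e3 : ∀ᶠ z : CN N × (ℂ × CN r) in 𝓝 (q, 0), σ.Ok z.2 :=
    continuous_snd.continuousAt.eventually (σ.isOpen_ok.mem_nhds σ.ok_zero)
  have e4 : ∀ᶠ z : CN N × (ℂ × CN r) in 𝓝 (q, 0), F.dv z.1 ≠ 0 :=
    (F.differentiable_dv.continuous.comp continuous_fst).continuousAt.eventually_ne hq.dv_ne
  have e5 : ∀ᶠ z : CN N × (ℂ × CN r) in 𝓝 (q, 0), σ.r0 z.1 z.2 ≠ 0 :=
    (σ.r0_diff.differentiableAt ((isOpen_univ.prod isOpen_ball).mem_nhds
      ⟨mem_univ _, mem_ball_self σ.δ_pos⟩)).continuousAt.eventually_ne hq.r0_ne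
  have e6 : ∀ᶠ z : CN N × (ℂ × CN r) in 𝓝 (q, 0),
      z.1 ∈ F.V → ch.l z.1 ∈ ch.s ∧ ch.c (ch.l z.1) = z.1 := by
    have h := eventually_nhdsWithin_iff.1 (ch.ev_mem hu)
    rw [e] at h
    exact (continuous_fst.tendsto (q, (0 : ℂ × CN r))).eventually h
  have e7 : ∀ᶠ z : CN N × (ℂ × CN r) in 𝓝 (q, 0), ((z.2, σ.p z.2), ch.l z.1) ∈ A := by
    refine ((continuousAt_snd.prodMk (ContinuousAt.comp (g := σ.p) (σ.p_continuousAt σ.ok_zero)
      continuousAt_snd)).prodMk hl).eventually (hA.mem_nhds ?_)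
    simp only [Function.comp_apply, σ.p_zero, hlu]
    exact h0
  obtain ⟨O', hO', T, hT, h⟩ := mem_nhds_prod_iff.1
    (e1.and (e2.and (e3.and (e4.and (e5.and (e6.and e7))))))
  obtain ⟨O, hOO, hO, hqO⟩ := _root_.mem_nhds_iff.1 hO'
  obtain ⟨δ1, hδ, hδT⟩ := Metric.mem_nhds_iff.1 hT
  have H := fun x (hx : x ∈ O) η (hη : η ∈ ball (0 : ℂ × CN r) δ1) =>
    h (mk_mem_prod (hOO hx) (hδT hη))
  have key : ∀ η ∈ ball (0 : ℂ × CN r) δ1, ∀ x ∈ O ∩ F.V, ((η, σ.p η), σ.co η x) ∈ B ∧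
      g ((η, σ.p η), σ.co η x) = ((η, σ.p η), ch.l x) := fun η hη x hx => by
    obtain ⟨-, -, -, -, -, a1, a2⟩ := H x hx.1 η hη
    have a3 := m1 _ a2
    simp only [(a1 hx.2).2] at a3
    exact a3
  refine ⟨⟨O, δ1, fun η ω => ch.c (g ((η, σ.p η), ω)).2, hO, hqO, hq, hδ,
    fun η hη => (H q hqO η hη).2.2.1, fun x hx => (H x hx 0 (mem_ball_self hδ)).2.2.2.1,
    fun x hx η hη => (H x hx η hη).2.2.2.2.1, ⟨(M * K)⁻¹, by positivity, fun η hη x hx v hv => ?_⟩,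
    fun η hη x hx => ?_, fun η hη x hx W hW => ?_⟩⟩
  · obtain ⟨a1, a2, -, -, -, a3, -⟩ := H x hx.1 η hη
    obtain ⟨a4, a5⟩ : ch.l x ∈ ch.s ∧ ch.c (ch.l x) = x := a3 hx.2
    rw [← a5, ch.tan_eq a4] at hv
    obtain ⟨w, rfl⟩ := hv
    rw [inv_mul_le_iff₀ (by positivity), mul_assoc]
    exact ((fderiv ℂ ch.c (ch.l x)).le_opNorm w).trans
      (mul_le_mul a2 (a1 w) (norm_nonneg _) hM.le)
  · rw [(key η hη x hx).2]
    exact ((H x hx.1 η hη).2.2.2.2.2.1 hx.2).2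
  · obtain ⟨a1, a2⟩ := key η hη x hx
    obtain ⟨a4, a5⟩ : ch.l x ∈ ch.s ∧ ch.c (ch.l x) = x := (H x hx.1 η hη).2.2.2.2.2.1 hx.2
    have a6 : σ.Ok η := (H x hx.1 η hη).2.2.1
    have c1 : Tendsto (fun z : (ℂ × CN r) × PM r k => ((z.1, σ.p z.1), z.2)) (𝓝 (η, σ.co η x))
        (𝓝 ((η, σ.p η), σ.co η x)) :=
      ((continuous_fst.tendsto _).prodMk_nhds ((σ.p_continuousAt a6).tendsto.comp
        (continuous_fst.tendsto _))).prodMk_nhds (continuous_snd.tendsto _)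
    have c2 : Tendsto (fun y => (g y).2) (𝓝 ((η, σ.p η), σ.co η x)) (𝓝 (ch.l x)) := by
      have c3 := (hg.differentiableAt (hB.mem_nhds a1)).continuousAt.snd.tendsto
      rwa [a2] at c3
    have c4 : Tendsto ch.c (𝓝 (ch.l x)) (𝓝 x) := by
      have c5 := (ch.differentiableAt a4).continuousAt.tendsto
      rwa [a5] at c5
    filter_upwards [c1.eventually (hB.mem_nhds a1), (c4.comp (c2.comp c1)).eventually hW]
      with z b1 b2
    obtain ⟨b3, b4⟩ := m2 _ b1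
    refine ⟨⟨b2, ch.maps b3⟩, b4, ?_⟩
    exact (ch.differentiableAt b3).comp z.2 (DifferentiableAt.comp z.2
      (hg.differentiableAt (hB.mem_nhds b1))
      ((differentiableAt_const _).prodMk differentiableAt_id)).snd

end Crest.Agent.R264.Segre
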