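import Crest.Agent.R264.S4Def
import Crest.Agent.R264.S4Exp

/-! Row 264, P4: consequences of the local data, the normal form estimate. -/

set_option autoImplicit false
open Set Filter Topology Metric Complex
open scoped Matrix

noncomputable section
namespace Crest.Agent.R264

theorem sc_unsc {r k : ℕ} {ε : ℝ} (hε : 0 < ε) (ω : PM r k) : sc ε (unsc ε ω) = ω := by
  have h1 : (ε : ℂ) ≠ 0 := ofReal_ne_zero.2 hε.ne'
  have h2 : ((√ε : ℝ) : ℂ) ≠ 0 := ofReal_ne_zero.2 (Real.sqrt_pos.2 hε).ne'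
  simp only [sc, unsc, inv_mul_cancel_left₀ h1, inv_smul_smul₀ h2]

theorem unsc_sc {r k : ℕ} {ε : ℝ} (hε : 0 < ε) (ω : PM r k) : unsc ε (sc ε ω) = ω := by
  have h1 : (ε : ℂ) ≠ 0 := ofReal_ne_zero.2 hε.ne'
  have h2 : ((√ε : ℝ) : ℂ) ≠ 0 := ofReal_ne_zero.2 (Real.sqrt_pos.2 hε).ne'
  simp only [sc, unsc, mul_inv_cancel_left₀ h1, smul_inv_smul₀ h2]

/-- The scaling is a continuous linear map. -/
theorem exists_sc_clm {r k : ℕ} (ε : ℝ) :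
    ∃ L : PM r k →L[ℂ] PM r k, ∀ ω, sc ε ω = L ω := by
  exact ⟨((ε : ℂ)⁻¹ • ContinuousLinearMap.id ℂ ℂ).prodMap
    ((((√ε : ℝ) : ℂ)⁻¹ • ContinuousLinearMap.id ℂ _).prodMap (.id ℂ _)), fun _ => rfl⟩

theorem exists_unsc_clm {r k : ℕ} (ε : ℝ) :
    ∃ L : PM r k →L[ℂ] PM r k, ∀ ω, unsc ε ω = L ω := by
  exact ⟨((ε : ℂ) • ContinuousLinearMap.id ℂ ℂ).prodMap
    ((((√ε : ℝ) : ℂ) • ContinuousLinearMap.id ℂ _).prodMap (.id ℂ _)), fun _ => rfl⟩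

theorem norm_le_norm_sc {r k : ℕ} {ε : ℝ} (hε : 0 < ε) (h1 : ε ≤ 1) (ω : PM r k) :
    ‖ω‖ ≤ ‖sc ε ω‖ := by
  have h2 := Real.sqrt_pos.2 hε
  simp only [Prod.norm_def, sc, norm_mul, norm_smul, norm_inv, norm_real, Real.norm_of_nonneg hε.le,
    Real.norm_of_nonneg h2.le]
  exact max_le_max (le_mul_of_one_le_left (norm_nonneg _) ((one_le_inv₀ hε).2 h1))
    (max_le_max (le_mul_of_one_le_left (norm_nonneg _)
      ((one_le_inv₀ h2).2 (Real.sqrt_le_one.2 h1))) le_rfl)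

theorem tendsto_unsc {r k : ℕ} {ι : Type*} {l : Filter ι} {ε : ι → ℝ} {ω : ι → PM r k}
    {ω0 : PM r k} (hε : Tendsto ε l (𝓝 0)) (hω : Tendsto ω l (𝓝 ω0)) :
    Tendsto (fun j => unsc (ε j) (ω j)) l (𝓝 (0, 0, ω0.2.2)) := by
  have : Continuous fun z : ℝ × PM r k => unsc z.1 z.2 := by
    unfold unsc
    fun_prop
  simpa [unsc, Function.comp_def] using (this.tendsto (0, ω0)).comp (hε.prodMk_nhds hω)

namespace Segre
variable {N n r k : ℕ} {U : Set (CN N)} {F : AlgFrame n U} {σ : Segre F r k} {q : CN N}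

theorem LD0.reg_of_mem (ld : σ.LD0 q) {x : CN N} (hx : x ∈ ld.O) (hL : x ∈ σ.L F.V 0) :
    σ.Reg x := by
  refine ⟨hL, ld.dv_ne x hx, ld.r0_ne x hx 0 ld.zero_mem, fun c hc => ?_⟩
  obtain ⟨a, ha, h⟩ := ld.low
  have h1 := h 0 ld.zero_mem x ⟨hx, hL.1⟩ _ ((F.mem_Tan_iff hL.1 (ld.dv_ne x hx)).2 ⟨c, rfl⟩)
  rw [hc, norm_zero] at h1
  have h2 := F.fderiv_pr_xi hL.1 (ld.dv_ne x hx) c
  rw [norm_le_zero_iff.1 (nonpos_of_mul_nonpos_right h1 ha), map_zero] at h2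
  exact (smul_eq_zero.1 h2.symm).resolve_left (ld.dv_ne x hx)

theorem LD0.co_of_mem (ld : σ.LD0 q) {x : CN N} (hx : x ∈ ld.O) (hL : x ∈ σ.L F.V 0) :
    σ.co 0 x = (0, 0, σ.t x) ∧ ld.lam (σ.t x) = x := by
  have h := ((σ.mem_L_iff (ld.r0_ne x hx 0 ld.zero_mem)).1 hL).2
  exact ⟨h, by rw [LD0.lam, ← h, ld.X_co 0 ld.zero_mem x ⟨hx, hL.1⟩]⟩

/-- The leaf parametrisation near a point of the base leaf. -/
theorem LD0.lam_loc (ld : σ.LD0 q) {x : CN N} (hx : x ∈ ld.O) (hL : x ∈ σ.L F.V 0)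
    {W : Set (CN N)} (hW : W ∈ 𝓝 x) : ∀ᶠ t in 𝓝 (σ.t x), ld.lam t ∈ W ∩ ld.O ∧
      ld.lam t ∈ σ.L F.V 0 ∧ σ.t (ld.lam t) = t ∧ DifferentiableAt ℂ ld.lam t := by
  have h := ld.X_loc 0 ld.zero_mem x ⟨hx, hL.1⟩ _ (inter_mem hW (ld.O_open.mem_nhds hx))
  rw [(ld.co_of_mem hx hL).1] at h
  have c : Continuous fun t : CN k => (((0 : ℂ × CN r), 0, 0, t) : (ℂ × CN r) × PM r k) := by
    fun_prop
  filter_upwards [(c.tendsto _).eventually h] with t ⟨h1, h2, h3⟩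
  have e : σ.t (ld.lam t) = t := congrArg (·.2.2) h2
  exact ⟨h1.1, (σ.mem_L_iff (ld.r0_ne _ h1.1.2 0 ld.zero_mem)).2 ⟨h1.2, e.symm ▸ h2⟩, e,
    DifferentiableAt.comp (f := fun t : CN k => ((0, 0, t) : PM r k)) t h3 (by fun_prop)⟩

theorem LD.h_of_mem (ld : σ.LD q) {x : CN N} (hx : x ∈ ld.O) {η : ℂ × CN r} (hη : η ∈ σ.S)
    (hη' : η ∈ ball (0 : ℂ × CN r) ld.δ1) (hL : x ∈ σ.L F.V η) : ld.e x = η ∧ ld.h x = 0 := by
  have h := ((σ.mem_L_iff (ld.r0_ne x hx η hη')).1 hL).2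
  have e := ld.uniq x hx η hη hη' (by rw [show σ.wc η x = 0 from congrArg (·.1) h, zero_re])
    (congrArg (·.2.1) h)
  have h' := ld.co_e x hx
  rw [← e, h] at h'
  exact ⟨e.symm, by simpa using congrArg (·.1) h'⟩

theorem LD.mem_L_of_h (ld : σ.LD q) {x : CN N} (hx : x ∈ ld.O ∩ F.V) (h0 : ld.h x = 0) :
    x ∈ σ.L F.V (ld.e x) := by
  refine (σ.mem_L_iff (ld.r0_ne x hx.1 _ (ld.e_mem x hx.1).2)).2 ⟨hx.2, ?_⟩
  simp [ld.co_e x hx.1, h0]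

/-- The height takes both signs near every point of the base leaf. -/
theorem LD.mem_closure_sign (ld : σ.LD q) {x : CN N} (hx : x ∈ ld.O) (hL : x ∈ σ.L F.V 0) :
    x ∈ closure {y | y ∈ ld.O ∩ F.V ∧ 0 < ld.h y} ∧
      x ∈ closure {y | y ∈ ld.O ∩ F.V ∧ ld.h y < 0} := by
  have key : ∀ W ∈ 𝓝 x, ∀ᶠ τ : ℝ in 𝓝 0, ∃ y ∈ W, y ∈ ld.O ∩ F.V ∧ ld.h y = τ := by
    intro W hW
    have h := ld.X_loc 0 ld.zero_mem x ⟨hx, hL.1⟩ _ (inter_mem hW (ld.O_open.mem_nhds hx))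
    rw [(ld.co_of_mem hx hL).1] at h
    have c : Continuous fun τ : ℝ =>
        (((0 : ℂ × CN r), I * τ, 0, σ.t x) : (ℂ × CN r) × PM r k) := by fun_prop
    filter_upwards [(c.tendsto' 0 _ (by simp)).eventually h] with τ ⟨h1, h2, _⟩
    refine ⟨_, h1.1.1, ⟨h1.1.2, h1.2⟩, ?_⟩
    have e := ld.uniq _ h1.1.2 0 σ.zero_mem_S ld.zero_mem
      (by rw [show σ.wc 0 _ = I * τ from congrArg (·.1) h2]; simp) (congrArg (·.2.1) h2)
    have h' := ld.co_e _ h1.1.2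
    rw [← e, h2] at h'
    simpa [eq_comm] using congrArg (·.1) h'
  constructor <;> refine mem_closure_iff_nhds.2 fun W hW => ?_
  · obtain ⟨τ, ⟨y, h1, h2, h3⟩, h4⟩ := (((key W hW).filter_mono
      (nhdsWithin_le_nhds (s := Ioi 0))).and self_mem_nhdsWithin).exists
    exact ⟨y, h1, h2, h3 ▸ h4⟩
  · obtain ⟨τ, ⟨y, h1, h2, h3⟩, h4⟩ := (((key W hW).filter_mono
      (nhdsWithin_le_nhds (s := Iio 0))).and self_mem_nhdsWithin).exists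
    exact ⟨y, h1, h2, h3 ▸ h4⟩

theorem LD.Bd.lo {ld : σ.LD q} (hb : ld.Bd) {x : CN N} (hx : x ∈ ld.O) (hL : x ∈ σ.L F.V 0) :
    σ.Lo x := by
  refine ⟨ld.reg_of_mem hx hL, ld.small x hx, ?_⟩
  filter_upwards [ld.O_open.mem_nhds hx] with y hy hy'
  exact hb y ⟨hy, hy'.1⟩ (ld.h_of_mem hy σ.zero_mem_S ld.zero_mem hy').2

/-- The normal form estimate. -/
theorem LD.nf (ld : σ.LD q) {x : CN N} (hx : x ∈ ld.O) (hL : x ∈ σ.L F.V 0) {δ : ℝ} (hδ : 0 < δ) :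
    ∀ᶠ z : CN N × (ℂ × CN r) in 𝓝 (x, 0), z.2 ∈ σ.S →
      |ld.h z.1 - ((σ.co z.2 z.1).1.im - Qk (σ.κ x) (σ.co z.2 z.1).2.1)| ≤
        δ * (‖(σ.co z.2 z.1).2.1‖ ^ 2 + ‖(σ.co z.2 z.1).1‖) := by
  have h0 := ld.r0_ne x hx 0 ld.zero_mem
  obtain ⟨C, hC⟩ := σ.exp_z hL h0
  obtain ⟨δ', hδ', h⟩ := nf_alg (ld.small x hx) C hδ
  have te : Tendsto (fun z : CN N × (ℂ × CN r) => ld.e z.1) (𝓝 (x, 0)) (𝓝 0) := by
    have := (ld.e_cont.continuousAt (ld.O_open.mem_nhds hx)).tendsto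
    rw [(ld.h_of_mem hx σ.zero_mem_S ld.zero_mem hL).1] at this
    exact this.comp (continuous_fst.tendsto (x, (0 : ℂ × CN r)))
  have t1 := continuous_fst.tendsto (x, (0 : ℂ × CN r))
  have t2 := continuous_snd.tendsto (x, (0 : ℂ × CN r))
  have t3 := t2.prodMk_nhds te
  have t4 := t1.prodMk_nhds t3
  have td := (te.sub t2).snd_nhds
  have ts : Tendsto (fun z : CN N × (ℂ × CN r) => σ.sd z.2 (ld.e z.1)) (𝓝 (x, 0)) (𝓝 0) := by
    have c : Continuous fun u : CN r × CN r => u.1 ⬝ᵥ u.2 := by fun_prop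
    simpa [SegRaw.sd, Function.comp_def] using (te.sub t2).fst_nhds.add ((c.tendsto _).comp
      (((σ.p_continuousAt σ.ok_zero).tendsto.comp t2).prodMk_nhds td))
  filter_upwards [t4.eventually (hC δ' hδ'), t3.eventually (σ.exp_S δ' hδ'),
    t4.eventually (σ.exp_w h0 δ' hδ'), td.norm.eventually (ge_mem_nhds (by simpa using hδ')),
    ts.norm.eventually (ge_mem_nhds (by simpa using hδ')),
    t1.eventually (ld.O_open.mem_nhds hx)] with z h1 h2 h3 h4 h5 h6 hS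
  have e := ld.co_e _ h6
  have e1 : σ.wc (ld.e z.1) z.1 = I * ld.h z.1 := congrArg (·.1) e
  have e2 : σ.zc (ld.e z.1) (σ.p (ld.e z.1)) z.1 = 0 := congrArg (·.2.1) e
  simp only [e1, e2, sub_zero, norm_mul, norm_I, one_mul, norm_real, Real.norm_eq_abs] at h1 h3
  exact h _ _ _ _ _ h4 h5 h1 (h2 hS (ld.e_mem _ h6).1) h3

/-- The normal form estimate in the scaling limit. -/
theorem LD.nf_lim (ld : σ.LD q) {x : CN N} (hx : x ∈ ld.O) (hL : x ∈ σ.L F.V 0) {ι : Type*}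
    {l : Filter ι} {y : ι → CN N} {η : ι → ℂ × CN r} {ε : ι → ℝ} {ω : PM r k}
    (hy : Tendsto y l (𝓝 x)) (hη : Tendsto η l (𝓝 0)) (hS : ∀ j, η j ∈ σ.S) (hε : ∀ j, 0 < ε j)
    (hω : Tendsto (fun j => sc (ε j) (σ.co (η j) (y j))) l (𝓝 ω)) :
    Tendsto (fun j => ld.h (y j) / ε j) l (𝓝 (ω.1.im - Qk (σ.κ x) ω.2.1)) := by
  have ta := (continuous_im.tendsto _).comp hω.fst_nhds |>.sub
    ((ld.small x hx).tendsto_Qk (fun _ _ => tendsto_const_nhds) hω.snd_nhds.fst_nhds)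
  have tb := (hω.snd_nhds.fst_nhds.norm.pow 2).add hω.fst_nhds.norm
  set B := ‖ω.2.1‖ ^ 2 + ‖ω.1‖
  have B0 : 0 ≤ B := by positivity
  refine ta.congr_dist (Metric.tendsto_nhds.2 fun e he => ?_)
  filter_upwards [(hy.prodMk_nhds hη).eventually (ld.nf hx hL (δ := e / (B + 1)) (by positivity)),
    tb.eventually (gt_mem_nhds (lt_add_one B))] with j h1 h2
  replace h1 := h1 (hS j)
  have h3 := hε j
  have h4 := Real.sqrt_pos.2 h3
  simp only [sc, Complex.coe_smul, Qk_smul, norm_smul, norm_mul, norm_inv, norm_real, mul_pow, inv_pow,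
    Real.norm_of_nonneg h3.le, Real.norm_of_nonneg h4.le, Real.sq_sqrt h3.le, Function.comp_apply,
    ← ofReal_inv, im_ofReal_mul] at h1 h2 ⊢
  rw [dist_zero_right, Real.norm_of_nonneg dist_nonneg, dist_comm, Real.dist_eq, ← mul_sub, div_eq_inv_mul, ← mul_sub,
    abs_mul, abs_of_pos (inv_pos.2 h3)]
  refine (mul_le_mul_of_nonneg_left h1 (inv_pos.2 h3).le).trans_lt ?_
  rw [mul_left_comm, mul_add, div_mul_eq_mul_div, div_lt_iff₀ (by positivity)]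
  exact mul_lt_mul_of_pos_left h2 he

end Segre
end Crest.Agent.R264
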