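import Crest.Agent.R264.S4Flow
import Crest.Agent.R264.S4Init

/-! Row 264, P4: the model chart. -/

set_option autoImplicit false
open Set Filter Topology Metric Complex
open scoped Matrix

noncomputable section
namespace Crest.Agent.R264
variable {S : Setup} {r k : ℕ} {σ : Segre S.F r k} {ι : Type}

theorem Seq.exists_mchart (Q : Seq S σ ι) (hL : Q.InL) (ld : σ.LD (σ.a 0)) (hb : ld.Bd)
    {y0 : CN S.N} (h0 : y0 ∈ Q.R) (ha : Q.φ y0 = σ.a 0) :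
    ∃ m : S.toTM.MChart r k, m.t0 = σ.t (σ.a 0) ∧ (m.κ = fun t => σ.κ (ld.lam t)) ∧
      m.ψ (Q.Φ y0) = y0 ∧ ∀ e, S.toTM.D Q.Φ y0 (fderiv ℂ m.ψ (Q.Φ y0) e) = e := by
  have hR := Q.ropen_R hL
  obtain ⟨hop, g, g1, g2, hg⟩ := Q.exists_chart hL ld.toLD0
  have hq := Q.ropen_Rq hL ld.toLD0
  have hy0q : y0 ∈ Q.Rq ld.toLD0 := ⟨h0, by rw [ha]; exact ld.mem⟩
  have ht0 : (Q.Φ y0).2.2 = σ.t (σ.a 0) := by rw [Q.Φ_t h0.1 h0.2.2.1, ha]
  have e1 : ∀ᶠ t in 𝓝 (σ.t (σ.a 0)), ((Q.Φ y0).1, (Q.Φ y0).2.1, t) ∈ Q.Φ '' Q.Rq ld.toLD0 := by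
    have : Continuous fun t : CN k => (((Q.Φ y0).1, (Q.Φ y0).2.1, t) : PM r k) := by fun_prop
    refine this.continuousAt.eventually (hop.mem_nhds ?_)
    rw [← ht0]
    exact mem_image_of_mem _ hy0q
  obtain ⟨ρ, hρ, hball⟩ := Metric.eventually_nhds_iff_ball.1
    ((ld.lam_loc ld.mem σ.a0_mem_L univ_mem).and e1)
  let b : MBase r k :=
    { t0 := σ.t (σ.a 0)
      R := ρ
      R_pos := hρ
      κ := fun t => σ.κ (ld.lam t)
      κ_diff := fun i j t ht => ((σ.κ_differentiableAt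
        (ld.r0_ne _ (hball t ht).1.1.2 0 ld.zero_mem) i j).comp t
          (hball t ht).1.2.2.2).differentiableWithinAt
      small := fun t ht => ld.small _ (hball t ht).1.1.2 }
  have hW : b.W ⊆ Q.Φ '' Q.Rq ld.toLD0 := by
    rintro ω ⟨h1, h2⟩
    obtain ⟨x, hx, e⟩ := (hball _ h1).2
    have e' : Q.φ x = ld.lam ω.2.2 := by rw [Q.φ_eq_lam hL _ hx, e]
    obtain ⟨y, a1, a2, a3⟩ := Q.surj hL hx.1 (w := ω.1) (z := ω.2.1) (by rw [e']; exact h2)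
    refine ⟨y, ⟨a1, by rw [a2]; exact hx.2⟩, ?_⟩
    rw [a3, e', (hball _ h1).1.2.2.1]
  have hWo : IsOpen b.W := by
    refine isOpen_iff_mem_nhds.2 fun ω hω => ?_
    have c1 : Tendsto (fun ω' : PM r k => ω'.2.2) (𝓝 ω) (𝓝 ω.2.2) := continuous_snd.snd.tendsto ω
    have c2 := (b.small _ hω.1).tendsto_Qk (K := fun ω' : PM r k => b.κ ω'.2.2)
      (fun i j => ((b.κ_diff i j).continuousOn.continuousAt (isOpen_ball.mem_nhds hω.1)).tendsto.comp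
        c1) (continuous_snd.fst.tendsto ω)
    exact (c1.eventually (isOpen_ball.mem_nhds hω.1)).and
      (c2.eventually_lt ((continuous_im.comp continuous_fst).tendsto ω) hω.2)
  have huniq : ∀ y ∈ Q.R, ∀ v ∈ S.toTM.T y, ∀ w ∈ S.toTM.T y,
      S.toTM.D Q.Φ y v = S.toTM.D Q.Φ y w → v = w := fun y hy v hv w hw e =>
    sub_eq_zero.1 (hy.2.2.2.2 _ (sub_mem hv hw) (by rw [map_sub, e, sub_self]))
  have hfn : ∀ (Y : S.toTM.g), ∀ x ∈ Q.Rq ld.toLD0, ∀ e, S.toTM.D Q.Φ x (S.toTM.fn Y x) = e →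
      S.toTM.fn Y (g (Q.Φ x)) = fderiv ℂ g (Q.Φ x) e := by
    intro Y x hx e he
    obtain ⟨-, a2, a3, -⟩ := hg x hx
    rw [g2 x hx]
    exact huniq x hx.1 _ (S.toTM.fn_mem_T Y hx.1.1) _ (a2 ▸ LinearMap.mem_range_self _ _)
      (by rw [he, a3])
  obtain ⟨mA, hmA⟩ := exists_flowA r k
  obtain ⟨A, hA⟩ := Q.exists_g hL h0 ha mA
  obtain ⟨mZ, hmZ⟩ := exists_flowZ r k
  obtain ⟨Z, hZ⟩ := Q.exists_g hL h0 ha mZ
  have hX : ∀ ζ : CN r, ∃ Y : S.toTM.g, ∀ y ∈ Q.R,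
      S.toTM.D Q.Φ y (S.toTM.fn Y y) = fX (fun _ => σ.κ (Q.φ y)) ζ (Q.Φ y) := fun ζ => by
    obtain ⟨mX, hmX⟩ := exists_flowX k ζ
    obtain ⟨Y, hY⟩ := Q.exists_g hL h0 ha mX
    exact ⟨Y, fun y hy => by rw [hY y hy, hmX]⟩
  choose Xf hXf using hX
  let Xn : CN r →ₗ[ℝ] S.toTM.g :=
    { toFun := Xf
      map_add' := fun ζ ζ' => S.toTM.g_ext hR ⟨y0, h0⟩ fun y hy =>
        huniq y hy _ (S.toTM.fn_mem_T _ hy.1) _ (S.toTM.fn_mem_T _ hy.1) (by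
          rw [TM.fn_add, Pi.add_apply, map_add, hXf _ y hy, hXf _ y hy, hXf _ y hy, fX_add])
      map_smul' := fun s ζ => S.toTM.g_ext hR ⟨y0, h0⟩ fun y hy =>
        huniq y hy _ (S.toTM.fn_mem_T _ hy.1) _ (S.toTM.fn_mem_T _ hy.1) (by
          rw [RingHom.id_apply, TM.fn_smul, Pi.smul_apply,
            ContinuousLinearMap.map_smul_of_tower, hXf _ y hy, hXf _ y hy, fX_smul]) }
  refine ⟨{ toMBase := b
            ψ := g
            diff := g1.mono hW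
            maps := fun ω hω => ?_
            inj := fun ω hω ω' hω' e => ?_
            nhds := fun ω hω => ?_
            dinj := fun ω hω => ?_
            drange := fun ω hω => ?_
            proper := fun ω hω y hy hc => ?_
            A := A
            Z := Z
            Xn := Xn
            fnA := fun ω hω => ?_
            fnZ := fun ω hω => ?_
            fnX := fun ζ ω hω => ?_ }, rfl, rfl, g2 y0 hy0q, (hg y0 hy0q).2.2.1⟩
  · obtain ⟨x, hx, rfl⟩ := hW hω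
    rw [g2 x hx]; exact hx.1.1
  · obtain ⟨x, hx, rfl⟩ := hW hω
    obtain ⟨x', hx', rfl⟩ := hW hω'
    rw [g2 x hx, g2 x' hx'] at e
    rw [e]
  · obtain ⟨x, hx, rfl⟩ := hW hω
    have h1 := hWo.mem_nhds hω
    rw [← (hg x hx).2.2.2] at h1
    rw [g2 x hx]
    filter_upwards [h1, hq.2 x hx] with y a1 a2 using ⟨Q.Φ y, a1, g2 y a2⟩
  · obtain ⟨x, hx, rfl⟩ := hW hω
    exact (hg x hx).1
  · obtain ⟨x, hx, rfl⟩ := hW hω
    rw [g2 x hx]; exact (hg x hx).2.1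
  · obtain ⟨p, hp, hlim⟩ := mem_closure_iff_seq_limit.1 hc
    have : ∀ n, ∃ x ∈ Q.Rq ld.toLD0, p n = (Q.Φ x, x) := fun n => by
      obtain ⟨ω', h1, h2⟩ := hp n
      obtain ⟨x, hx, rfl⟩ := hW h1
      exact ⟨x, hx, by rw [← h2]; simp only [g2 x hx]⟩
    choose x hx hpx using this
    rw [funext hpx] at hlim
    have l1 : Tendsto (fun n => Q.Φ (x n)) atTop (𝓝 ω) := (continuous_fst.tendsto _).comp hlim
    have l2 : Tendsto x atTop (𝓝[Q.R] y) := tendsto_nhdsWithin_iff.2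
      ⟨(continuous_snd.tendsto _).comp hlim, Eventually.of_forall fun n => (hx n).1⟩
    have l3 : Q.φ y = ld.lam ω.2.2 := by
      refine tendsto_nhds_unique
        ((Q.φ_hol.continuousOn y hy).tendsto.comp (l2.mono_right (nhdsWithin_mono _ hR.1))) ?_
      refine ((hball _ hω).1.2.2.2.continuousAt.tendsto.comp
        ((continuous_snd.snd.tendsto ω).comp l1)).congr fun n => ?_
      exact (Q.φ_eq_lam hL _ (hx n)).symm
    have l4 : y ∈ Q.R := mem_of_mem_nhdsWithin hy (Q.R_mem_nhds hL hy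
      (by rw [l3]; exact hb.lo (hball _ hω).1.1.2 (hball _ hω).1.2.1)
      (mem_closure_of_tendsto (l2.mono_right nhdsWithin_le_nhds)
        (Eventually.of_forall fun n => (hx n).1)))
    have l5 : Q.Φ y = ω :=
      tendsto_nhds_unique (((Q.hol_Φ_R hL).continuousOn y l4).tendsto.comp l2) l1
    have := l4.2.2.2.1
    rw [l3, l5] at this
    exact ⟨hω, this⟩
  · obtain ⟨x, hx, rfl⟩ := hW hω
    exact hfn A x hx _ (by rw [hA x hx.1, hmA])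
  · obtain ⟨x, hx, rfl⟩ := hW hω
    exact hfn Z x hx _ (by rw [hZ x hx.1, hmZ])
  · obtain ⟨x, hx, rfl⟩ := hW hω
    refine hfn (Xf ζ) x hx _ ?_
    rw [hXf ζ x hx.1, Q.φ_eq_lam hL _ hx]
    rfl

/-- The scaled differential at a point of the positive side. -/
def Segre.LD.sD {N n r k : ℕ} {U : Set (CN N)} {F : AlgFrame n U} {σ : Segre F r k} {q : CN N}
    (ld : σ.LD q) (x v : CN N) : PM r k := sc (ld.h x) (fderiv ℂ (σ.co (ld.e x)) x v)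

/-- The scaling theorem. -/
theorem scaling {ld : σ.LD (σ.a 0)} (hb : ld.Base) (l : Ultrafilter ι) (γ : ι → S.toTM.Aut)
    (y : ι → CN S.N) (hK : ∀ j, y j ∈ S.K)
    (hpos : ∀ j, S.toTM.ap (γ j) (y j) ∈ ld.O ∧ 0 < ld.h (S.toTM.ap (γ j) (y j)))
    (hlim : Tendsto (fun j => S.toTM.ap (γ j) (y j)) l (𝓝 (σ.a 0))) :
    ∃ m : S.toTM.MChart r k, m.t0 = σ.t (σ.a 0) ∧ (m.κ = fun t => σ.κ (ld.lam t)) ∧
      Tendsto y l (𝓝[S.U] (m.ψ (I, 0, m.t0))) ∧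
      ∀ (v : ι → CN S.N) (e : PM r k), (∀ᶠ j in (l : Filter ι), v j ∈ S.toTM.T (y j)) →
        Tendsto v l (𝓝 (fderiv ℂ m.ψ (I, 0, m.t0) e)) →
        Tendsto (fun j => ld.sD (S.toTM.ap (γ j) (y j))
          (S.toTM.D (S.toTM.ap (γ j)) (y j) (v j))) l (𝓝 e) := by
  obtain ⟨Q, y0, rfl, rfl, hη, hε, hy, ha, hL, h0, hΦ⟩ := exists_seq hb l γ y hK hpos hlim
  obtain ⟨m, ht, hκ, hψ, hD⟩ := Q.exists_mchart hL ld hb.bd h0 ha
  rw [hΦ, ← ht] at hψ hD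
  refine ⟨m, ht, hκ, hψ ▸ hy, fun v e hv hve => ?_⟩
  have h1 := (Q.tendsto_Φ_moving h0.1 h0.2.2.1 hy).2 v _ hv hve
  rw [hD] at h1
  refine h1.congr' ?_
  filter_upwards [hv] with j hj
  have hyU := S.K_sub (hK j)
  have hj' : Q.η j ∈ ball (0 : ℂ × CN r) ld.δ1 := hη j ▸ (ld.e_mem _ (hpos j).1).2
  rw [Q.D_Φj ld.toLD0 hj' hyU (hpos j).1 hj, Segre.LD.sD, hη j, hε j]

end Crest.Agent.R264
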