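import Crest.Agent.R264.S4Seq

/-! Row 264, P4: normality of the scaled maps. -/

set_option autoImplicit false
open Set Filter Topology Metric Complex
open scoped Matrix

noncomputable section
namespace Crest.Agent.R264.Seq
variable {S : Setup} {r k : ℕ} {σ : Segre S.F r k} {ι : Type} (Q : Seq S σ ι)

private theorem norm_alg {κ : Matrix (Fin r) (Fin r) ℂ} {c δ h : ℝ} (hc : 0 < c)
    (hδ : 0 < δ) (h1 : δ ≤ c / 2) (h2 : δ ≤ 1 / 2) {w : ℂ} {z : CN r} (hq : c * ‖z‖ ^ 2 ≤ Qk κ z)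
    (hh : 0 < h) (e : |h - (w.im - Qk κ z)| ≤ δ * (‖z‖ ^ 2 + ‖w‖)) :
    (w.re ≠ 0 ∨ 0 < w.im) ∧ ‖z‖ ^ 2 ≤ 4 / c * ‖w‖ := by
  have e1 := (abs_le.1 e).2
  have hz : 0 ≤ ‖z‖ ^ 2 := by positivity
  have hw : 0 ≤ ‖w‖ := norm_nonneg _
  have e2 : c / 2 * ‖z‖ ^ 2 < w.im + δ * ‖w‖ := by nlinarith
  have e3 : w.im ≤ ‖w‖ := (le_abs_self _).trans (abs_im_le_norm w)
  refine ⟨?_, ?_⟩
  · by_contra! H
    have : ‖w‖ = -w.im := by
      rw [← abs_of_nonpos H.2, abs_im_eq_norm.2 H.1]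
    nlinarith [mul_nonneg hc.le hz]
  · rw [div_mul_eq_mul_div, le_div_iff₀ hc]
    nlinarith

private theorem norm_sc {ε c : ℝ} (hε : 0 < ε) {ω : PM r k}
    (h : (ω.1.re ≠ 0 ∨ 0 < ω.1.im) ∧ ‖ω.2.1‖ ^ 2 ≤ 4 / c * ‖ω.1‖) :
    ((sc ε ω).1.re ≠ 0 ∨ 0 < (sc ε ω).1.im) ∧ ‖(sc ε ω).2.1‖ ^ 2 ≤ 4 / c * ‖(sc ε ω).1‖ := by
  have hi : 0 < ε⁻¹ := inv_pos.2 hε
  simp only [sc, ← ofReal_inv, re_ofReal_mul, im_ofReal_mul, norm_mul, norm_smul, norm_real,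
    Real.norm_eq_abs, mul_pow, sq_abs, inv_pow, Real.sq_sqrt hε.le, abs_of_pos hi]
  refine ⟨h.1.imp (fun a => mul_ne_zero hi.ne' a) fun a => mul_pos hi a, ?_⟩
  rw [mul_left_comm]
  exact mul_le_mul_of_nonneg_left h.2 hi.le

/-- Normality: near a point `y` whose limit is the centre of local data, a bound at one moving
point on the positive side propagates. -/
theorem normal {y q : CN S.N} (hy : y ∈ S.U) (hq : Q.φ y = q) (ld : σ.LD q) (hb : ld.Bd) :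
    ∃ (ch : Chart S.n S.U) (u : CN S.n) (ρ : ℝ), 0 < ρ ∧ ch.s = ball u ρ ∧ ch.c u = y ∧
      MapsTo Q.φ (ch.c '' ch.s) ld.O ∧
      (∀ᶠ j in (Q.l : Filter ι), MapsTo (S.toTM.ap (Q.γ j)) (ch.c '' ch.s) ld.O) ∧
      ∀ (b : ι → CN S.N) (b0 : CN S.N) (C : ℝ), b0 ∈ ch.c '' ch.s → Tendsto b Q.l (𝓝[S.U] b0) →
        (∀ᶠ j in (Q.l : Filter ι), 0 < ld.h (S.toTM.ap (Q.γ j) (b j)) ∧ ‖(Q.Φj j (b j)).1‖ ≤ C) →
        S.toTM.LocBdd (Q.l : Filter ι) Q.Φj (ch.c '' ch.s) ∧ ∀ᶠ j in (Q.l : Filter ι),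
          ∀ x ∈ ch.c '' ch.s, 0 < ld.h (S.toTM.ap (Q.γ j) x) := by
  subst hq
  obtain ⟨c, hc, C1, hcb⟩ := (ld.small _ ld.mem).exists_bounds
  have hδ : 0 < min (c / 2) (1 / 2) := lt_min (by positivity) (by norm_num)
  have hnf := ld.nf ld.mem ld.reg.mem hδ
  rw [nhds_prod_eq] at hnf
  obtain ⟨pa, hpa, pb, hpb, hab⟩ := eventually_prod_iff.1 hnf
  obtain ⟨B, hB, hφB, hγB⟩ := Q.eventually_maps hy (inter_mem hpa (ld.O_open.mem_nhds ld.mem))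
  obtain ⟨W', hW', hW'B⟩ := mem_nhdsWithin_iff_exists_mem_nhds_inter.1 hB
  obtain ⟨ch, u, ρ, hρ, hs, hcu, hsub⟩ := S.toTM.exists_ball_chart hy hW'
  have hBU : ch.c '' ch.s ⊆ S.U := ch.maps.image_subset
  have hsB : ch.c '' ch.s ⊆ B := fun x hx => hW'B ⟨hsub hx, hBU hx⟩
  refine ⟨ch, u, ρ, hρ, hs, hcu, fun x hx => (hφB (hsB hx)).2,
    hγB.mono fun j hj x hx => (hj (hsB hx)).2, fun b b0 C hb0 hbl hbC => ?_⟩
  have hpre : IsPreconnected (ch.c '' ch.s) := by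
    refine IsPreconnected.image ?_ _ ch.c_diff.continuousOn
    rw [hs]; exact (convex_ball u ρ).isPreconnected
  have hpos : ∀ᶠ j in (Q.l : Filter ι), ∀ x ∈ ch.c '' ch.s, 0 < ld.h (S.toTM.ap (Q.γ j) x) := by
    filter_upwards [hγB, hbC, hbl.eventually (ch.ropen.2 _ hb0)] with j h1 h2 h3 x hx
    refine hpre.lt_of_ne (f := fun x => ld.h (S.toTM.ap (Q.γ j) x))
      (ld.h_cont.comp ((S.toTM.hol_ap _).continuousOn.mono hBU) fun x hx => (h1 (hsB hx)).2)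
      (fun x hx h0 => ?_) ⟨b j, h3, h2.1⟩ hx
    have hU := S.toTM.ap_mem (Q.γ j) (hBU hx)
    exact (hb _ ⟨(h1 (hsB hx)).2, S.F.ropen.1 hU⟩ h0).2 hU
  refine ⟨?_, hpos⟩
  obtain ⟨T, hT⟩ := S.bdd.isCompact_closure.exists_bound_of_continuousOn
    σ.t_diff.continuous.continuousOn
  rintro _ ⟨u1, hu1, rfl⟩
  obtain ⟨u0, hu0, rfl⟩ := hb0
  obtain ⟨ρ', h1, h2⟩ := exists_between
    (max_lt (mem_ball.1 (hs ▸ hu1 : u1 ∈ ball u ρ)) (mem_ball.1 (hs ▸ hu0 : u0 ∈ ball u ρ)))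
  have hu1' : u1 ∈ ball u ρ' := (le_max_left _ _).trans_lt h1
  have hu0' : u0 ∈ ball u ρ' := (le_max_right _ _).trans_lt h1
  have hcs : closedBall u ρ' ⊆ ball u ρ := closedBall_subset_ball h2
  have hbs : ball u ρ' ⊆ ch.s := hs ▸ ball_subset_closedBall.trans hcs
  obtain ⟨A, hA⟩ := harnack_ray isOpen_ball (convex_ball u ρ).isPreconnected
    (isCompact_closedBall u ρ') hcs
  refine ⟨ch.c '' ball u ρ', ch.image_mem_nhds hu1 (isOpen_ball.mem_nhds hu1'),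
    |A| * C + (1 + 4 / c * (|A| * C)) + |T|, ?_⟩
  filter_upwards [hγB, hbC, hpos, Q.η_lim.eventually hpb,
    Q.η_lim.eventually (ball_mem_nhds _ ld.δ1_pos),
    hbl.eventually (ch.image_mem_nhds hu0 (isOpen_ball.mem_nhds hu0'))] with j g1 g2 g3 g4 g5 g6
  have hol := Q.hol_Φj ld.toLD0 hBU g5 fun x hx => (g1 (hsB hx)).2
  have key : ∀ x ∈ ch.c '' ch.s, ((Q.Φj j x).1.re ≠ 0 ∨ 0 < (Q.Φj j x).1.im) ∧
      ‖(Q.Φj j x).2.1‖ ^ 2 ≤ 4 / c * ‖(Q.Φj j x).1‖ := fun x hx =>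
    norm_sc (Q.ε_pos j) (norm_alg hc hδ (min_le_left _ _) (min_le_right _ _) (hcb _).1 (g3 x hx)
      (hab (g1 (hsB hx)).1 g4 (Q.η_mem j)))
  refine ⟨hol.mono (image_mono hbs), ?_⟩
  rintro _ ⟨v, hv, rfl⟩
  obtain ⟨v0, hv0, e⟩ := g6
  have hd : DifferentiableOn ℂ (fun w => (Q.Φj j (ch.c w)).1) (ball u ρ) := by
    rw [← hs]
    exact (hol.comp_differentiableOn ch.c_diff (mapsTo_image _ _)).fst
  have hC : 0 ≤ C := (norm_nonneg _).trans g2.2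
  have b1 : ‖(Q.Φj j (ch.c v)).1‖ ≤ |A| * C := by
    refine (hA _ hd (fun w hw => (key _ (mem_image_of_mem _ (hs ▸ hw))).1) v
      (ball_subset_closedBall hv) v0 (ball_subset_closedBall hv0)).trans ?_
    rw [e]
    exact mul_le_mul (le_abs_self A) g2.2 (norm_nonneg _) (abs_nonneg A)
  have hAC : 0 ≤ |A| * C := by positivity
  have b2 : ‖(Q.Φj j (ch.c v)).2.1‖ ≤ 1 + 4 / c * (|A| * C) := by
    have := (key _ (mem_image_of_mem _ (hbs hv))).2.trans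
      (mul_le_mul_of_nonneg_left b1 (by positivity))
    nlinarith [sq_nonneg (‖(Q.Φj j (ch.c v)).2.1‖ - 1)]
  have b3 : ‖(Q.Φj j (ch.c v)).2.2‖ ≤ |T| :=
    (hT _ (subset_closure (S.toTM.ap_mem _ (ch.maps (hbs hv))))).trans (le_abs_self T)
  have b4 : 0 ≤ 4 / c * (|A| * C) := by positivity
  have b5 := abs_nonneg T
  rw [Prod.norm_def, Prod.norm_def]
  exact max_le (by linarith) (max_le (by linarith) (by linarith))

end Crest.Agent.R264.Seq
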