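import Crest.Agent.R264.S4Bd
import Crest.Agent.R264.P1

/-! Row 264, P4: scaling sequences (definitions and basic facts). -/

set_option autoImplicit false
open Set Filter Topology Metric Complex
open scoped Matrix

noncomputable section
namespace Crest.Agent.R264

/-- A scaling sequence: automorphisms converging to a map into the boundary, leaf parameters and
scales tending to zero. -/
structure Seq (S : Setup) {r k : ℕ} (σ : Segre S.F r k) (ι : Type) where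
  l : Ultrafilter ι
  γ : ι → S.toTM.Aut
  η : ι → ℂ × CN r
  ε : ι → ℝ
  φ : CN S.N → CN S.N
  η_mem : ∀ j, η j ∈ σ.S
  η_lim : Tendsto η l (𝓝 0)
  ε_pos : ∀ j, 0 < ε j
  ε_lim : Tendsto ε l (𝓝 0)
  φ_hol : Hol S.U φ
  φ_lim : ∀ x ∈ S.U, Tendsto (fun j => S.toTM.ap (γ j) x) l (𝓝 (φ x))
  φ_bd : ∀ x ∈ S.U, φ x ∈ closure S.U ∧ φ x ∉ S.U

namespace Seq
variable {S : Setup} {r k : ℕ} {σ : Segre S.F r k} {ι : Type} (Q : Seq S σ ι)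

/-- The scaled maps. -/
def Φj (j : ι) (y : CN S.N) : PM r k := sc (Q.ε j) (σ.co (Q.η j) (S.toTM.ap (Q.γ j) y))

/-- The limit map. -/
def Φ (y : CN S.N) : PM r k := limUnder (Q.l : Filter ι) fun j => Q.Φj j y

/-- The set where the scaled maps converge to a local biholomorphism into the model. -/
def R : Set (CN S.N) :=
  {y | y ∈ S.U ∧ σ.Lo (Q.φ y) ∧ S.toTM.LocBdd (Q.l : Filter ι) Q.Φj {y} ∧
    Qk (σ.κ (Q.φ y)) (Q.Φ y).2.1 < (Q.Φ y).1.im ∧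
    ∀ v ∈ S.toTM.T y, S.toTM.D Q.Φ y v = 0 → v = 0}

/-- The limit map sends `U` to the base leaf. -/
def InL : Prop := ∀ x ∈ S.U, Q.φ x ∈ σ.L S.F.V 0

theorem finrank_PM (σ : Segre S.F r k) : Module.finrank ℂ (PM r k) = S.n := by
  rw [σ.dim, Module.finrank_prod, Module.finrank_prod, Module.finrank_self, Module.finrank_fin_fun,
    Module.finrank_fin_fun, add_assoc]

theorem tendsto_ap {y : ι → CN S.N} {x : CN S.N} (hx : x ∈ S.U)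
    (hy : Tendsto y Q.l (𝓝[S.U] x)) :
    Tendsto (fun j => S.toTM.ap (Q.γ j) (y j)) Q.l (𝓝 (Q.φ x)) := by
  exact (S.toTM.montel_tendsto (ROpen.refl _) (S.toTM.locBdd_ap _ Q.γ) Q.φ_lim hx hy).1

/-- Uniform convergence near a point. -/
theorem eventually_maps {x : CN S.N} (hx : x ∈ S.U) {W : Set (CN S.N)} (hW : W ∈ 𝓝 (Q.φ x)) :
    ∃ B ∈ 𝓝[S.U] x, MapsTo Q.φ B W ∧ ∀ᶠ j in (Q.l : Filter ι), MapsTo (S.toTM.ap (Q.γ j)) B W := by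
  obtain ⟨ε, hε, hW⟩ := Metric.mem_nhds_iff.1 hW
  obtain ⟨t, ht, h⟩ := Metric.tendstoLocallyUniformlyOn_iff.1
    (S.toTM.montel (ROpen.refl _) (S.toTM.locBdd_ap _ Q.γ) Q.φ_lim).2 (ε / 2) (half_pos hε) x hx
  have h2 : Q.φ ⁻¹' ball (Q.φ x) (ε / 2) ∈ 𝓝[S.U] x :=
    Q.φ_hol.continuousOn x hx (ball_mem_nhds _ (half_pos hε))
  refine ⟨t ∩ Q.φ ⁻¹' ball (Q.φ x) (ε / 2), inter_mem ht h2,
    fun y hy => hW (ball_subset_ball (half_le_self hε.le) hy.2), h.mono fun j hj y hy => hW ?_⟩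
  have h3 : dist (Q.φ y) (Q.φ x) < ε / 2 := hy.2
  have h4 := hj y hy.1
  rw [mem_ball]
  linarith [dist_triangle_left (S.toTM.ap (Q.γ j) y) (Q.φ x) (Q.φ y)]

/-- The scaled maps are holomorphic where the denominators do not vanish. -/
theorem hol_Φj {q : CN S.N} (ld : σ.LD0 q) {B : Set (CN S.N)} (hB : B ⊆ S.U) {j : ι}
    (hj : Q.η j ∈ ball (0 : ℂ × CN r) ld.δ1) (hm : MapsTo (S.toTM.ap (Q.γ j)) B ld.O) :
    Hol B (Q.Φj j) := by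
  obtain ⟨L, hL⟩ := exists_sc_clm (r := r) (k := k) (Q.ε j)
  refine ((((S.toTM.hol_ap (Q.γ j)).mono hB).post_on ld.O_open (k := σ.co (Q.η j))
    (fun x hx => (σ.co_differentiableAt (ld.ok _ hj).1
      (ld.r0_ne x hx _ hj)).differentiableWithinAt) hm).clm L).congr fun y _ => hL _

theorem D_Φj {q : CN S.N} (ld : σ.LD0 q) {j : ι} (hj : Q.η j ∈ ball (0 : ℂ × CN r) ld.δ1)
    {y v : CN S.N} (hy : y ∈ S.U) (hm : S.toTM.ap (Q.γ j) y ∈ ld.O) (hv : v ∈ S.toTM.T y) :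
    S.toTM.D (Q.Φj j) y v = sc (Q.ε j) (fderiv ℂ (σ.co (Q.η j)) (S.toTM.ap (Q.γ j) y)
      (S.toTM.D (S.toTM.ap (Q.γ j)) y v)) := by
  obtain ⟨L, hL⟩ := exists_sc_clm (r := r) (k := k) (Q.ε j)
  have h1 := σ.co_differentiableAt (ld.ok _ hj).1 (ld.r0_ne _ hm _ hj)
  have h2 := (S.toTM.hol_ap (Q.γ j)).differentiableWithinAt hy
  have e : Q.Φj j = fun y => L (σ.co (Q.η j) (S.toTM.ap (Q.γ j) y)) := funext fun y => hL _
  rw [e, hL, ← S.toTM.D_comp_fderiv h2 h1 hv]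
  exact tD_clm L (h1.comp_differentiableWithinAt y h2) hv

theorem D_Φj_inj {q : CN S.N} (ld : σ.LD0 q) {j : ι} (hj : Q.η j ∈ ball (0 : ℂ × CN r) ld.δ1)
    {y v : CN S.N} (hy : y ∈ S.U) (hm : S.toTM.ap (Q.γ j) y ∈ ld.O) (hv : v ∈ S.toTM.T y)
    (h0 : S.toTM.D (Q.Φj j) y v = 0) : v = 0 := by
  obtain ⟨L, hL⟩ := exists_unsc_clm (r := r) (k := k) (Q.ε j)
  obtain ⟨c, hc, hlow⟩ := ld.low
  have hU := S.toTM.ap_mem (Q.γ j) hy
  have h1 := congrArg (unsc (Q.ε j)) ((Q.D_Φj ld hj hy hm hv).symm.trans h0)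
  rw [unsc_sc (Q.ε_pos j), hL, map_zero] at h1
  have h2 := hlow _ hj _ ⟨hm, S.F.ropen.1 hU⟩ _
    ((S.F.Tan_eq hU).le (S.toTM.D_ap_mem (Q.γ j) hy hv))
  rw [h1, norm_zero] at h2
  have h3 : S.toTM.D (S.toTM.ap (Q.γ j)) y v = 0 :=
    norm_le_zero_iff.1 (le_of_mul_le_mul_left (by rwa [mul_zero]) hc)
  rw [← S.toTM.D_ap_inv (Q.γ j) hy hv, h3, map_zero]

theorem locBdd_nhds {y : CN S.N} (hy : y ∈ S.U)
    (hb : S.toTM.LocBdd (Q.l : Filter ι) Q.Φj {y}) :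
    ∃ B, ROpen S.U B ∧ y ∈ B ∧ S.toTM.LocBdd (Q.l : Filter ι) Q.Φj B := by
  obtain ⟨W, hW, h⟩ := hb y rfl
  obtain ⟨B, hB, hyB, hBW⟩ := exists_ropen_subset hy hW
  exact ⟨B, hB, hyB, fun x hx => ⟨W, mem_of_superset (hB.2 x hx) hBW, h⟩⟩

theorem tendsto_Φ {y : CN S.N} (hy : y ∈ S.U) (hb : S.toTM.LocBdd (Q.l : Filter ι) Q.Φj {y}) :
    Tendsto (fun j => Q.Φj j y) Q.l (𝓝 (Q.Φ y)) := by
  obtain ⟨W, hW, C, h⟩ := hb y rfl
  obtain ⟨a, -, ha⟩ := (isCompact_closedBall (0 : PM r k) C).ultrafilter_le_nhds'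
    (Q.l.map fun j => Q.Φj j y) (h.mono fun j hj =>
      mem_closedBall_zero_iff.2 (hj.2 y (mem_of_mem_nhdsWithin hy hW)))
  exact tendsto_nhds_limUnder ⟨a, ha⟩

theorem hol_Φ {B : Set (CN S.N)} (hB : ROpen S.U B)
    (hb : S.toTM.LocBdd (Q.l : Filter ι) Q.Φj B) : Hol B Q.Φ := by
  exact (S.toTM.montel hB hb fun x hx =>
    Q.tendsto_Φ (hB.1 hx) fun z hz => hb z (mem_singleton_iff.1 hz ▸ hx)).1

/-- Moving points and vectors. -/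
theorem tendsto_Φ_moving {y : CN S.N} (hy : y ∈ S.U)
    (hb : S.toTM.LocBdd (Q.l : Filter ι) Q.Φj {y}) {a : ι → CN S.N}
    (ha : Tendsto a Q.l (𝓝[S.U] y)) :
    Tendsto (fun j => Q.Φj j (a j)) Q.l (𝓝 (Q.Φ y)) ∧
      ∀ (v : ι → CN S.N) (w : CN S.N), (∀ᶠ j in (Q.l : Filter ι), v j ∈ S.toTM.T (a j)) →
        Tendsto v Q.l (𝓝 w) →
        Tendsto (fun j => S.toTM.D (Q.Φj j) (a j) (v j)) Q.l (𝓝 (S.toTM.D Q.Φ y w)) := by
  obtain ⟨B, hB, hyB, hb'⟩ := Q.locBdd_nhds hy hb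
  have h := S.toTM.montel_tendsto hB hb' (fun x hx =>
    Q.tendsto_Φ (hB.1 hx) fun z hz => hb' z (mem_singleton_iff.1 hz ▸ hx)) hyB ha
  exact ⟨h.1, fun v w hv hw => (h.2 v w hv hw).2⟩

theorem Φ_t {y : CN S.N} (hy : y ∈ S.U) (hb : S.toTM.LocBdd (Q.l : Filter ι) Q.Φj {y}) :
    (Q.Φ y).2.2 = σ.t (Q.φ y) := by
  exact tendsto_nhds_unique
    (((continuous_snd.comp continuous_snd).tendsto _).comp (Q.tendsto_Φ hy hb))
    ((σ.t_diff.continuous.tendsto _).comp (Q.φ_lim y hy))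

/-- If the scaled maps are bounded at `y`, the limit point lies on the base leaf. -/
theorem mem_L_of_locBdd {y : CN S.N} (hy : y ∈ S.U)
    (hb : S.toTM.LocBdd (Q.l : Filter ι) Q.Φj {y}) (h0 : σ.r0 (Q.φ y) 0 ≠ 0) :
    Q.φ y ∈ σ.L S.F.V 0 := by
  have h1 := tendsto_unsc Q.ε_lim (Q.tendsto_Φ hy hb)
  have h2 := (σ.co_continuousAt σ.ok_zero h0).tendsto.comp ((Q.φ_lim y hy).prodMk_nhds Q.η_lim)
  refine (σ.mem_L_iff h0).2 ⟨S.F.closure_subset (Q.φ_bd y hy).1, ?_⟩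
  rw [← Q.Φ_t hy hb]
  exact tendsto_nhds_unique h2 (h1.congr fun j => unsc_sc (Q.ε_pos j) _)

theorem inL_of_ropen {B : Set (CN S.N)} (hB : ROpen S.U B) (hne : B.Nonempty)
    (h : ∀ y ∈ B, Q.φ y ∈ σ.L S.F.V 0) : Q.InL := by
  have h0 : Hol S.U fun y => (Q.φ y, (0 : ℂ × CN r)) := Q.φ_hol.prodMk (Hol.const _ _)
  have hO : IsOpen ((univ : Set (CN S.N)) ×ˢ ball (0 : ℂ × CN r) σ.δ) :=
    isOpen_univ.prod isOpen_ball
  have hm : MapsTo (fun y => (Q.φ y, (0 : ℂ × CN r))) S.U (univ ×ˢ ball 0 σ.δ) :=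
    fun y _ => ⟨mem_univ _, mem_ball_self σ.δ_pos⟩
  have h1 := S.toTM.eqOn_of_ropen hB hne (h0.post_on hO σ.ϱ_diff hm) (Hol.const _ 0)
    fun y hy => (σ.mem_L_zero.1 (h y hy)).2.1
  have h2 := S.toTM.eqOn_of_ropen hB hne (h0.post_on hO σ.r1_diff hm) (Hol.const _ 0)
    fun y hy => (σ.mem_L_zero.1 (h y hy)).2.2
  exact fun x hx => σ.mem_L_zero.2 ⟨S.F.closure_subset (Q.φ_bd x hx).1, h1 hx, h2 hx⟩

end Seq
end Crest.Agent.R264
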