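import Crest.Agent.R264.S4Wall

/-! Row 264, P4: the complement of `R` lies in a hypersurface. -/

set_option autoImplicit false
open Set Filter Topology Metric Complex
open scoped Matrix

noncomputable section
namespace Crest.Agent.R264

theorem TM.S4Star_ne (M : TM) {R : Set (CN M.N)} (hR : ROpen M.U R) (hne : R.Nonempty)
    {h : CN M.N → ℂ} (hh : Hol M.U h) (h0 : ∃ x ∈ M.U, h x ≠ 0) : ∃ y ∈ R, h y ≠ 0 := by
  by_contra hn
  obtain ⟨x, hx, hx0⟩ := h0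
  exact hx0 (M.eqOn_of_ropen hR hne hh (Hol.const _ 0)
    (fun y hy => by_contra fun h' => hn ⟨y, hy, h'⟩) hx)

/-- A holomorphic function detecting submersive points. -/
theorem TM.exists_subm_fn (M : TM) (F : AlgFrame M.n M.U) {k : ℕ} {f : CN M.N → CN k}
    (hf : Hol M.U f) {R : Set (CN M.N)} (hR : ROpen M.U R) (hne : R.Nonempty)
    (hs : ∀ y ∈ R, ∀ e, ∃ v ∈ M.T y, M.D f y v = e) :
    ∃ h : CN M.N → ℂ, Hol M.U h ∧ (∃ x ∈ M.U, h x ≠ 0) ∧
      ∀ y ∈ M.U, h y ≠ 0 → ∀ e, ∃ v ∈ M.T y, M.D f y v = e := by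
  obtain ⟨y1, hy1, hd⟩ := M.S4Star_ne hR hne (Hol.of_differentiable F.differentiable_dv)
    F.exists_dv_ne
  have hU1 := hR.1 hy1
  have hc : ∀ b : Fin k, ∃ c : CN M.n, M.D f y1 (∑ i, c i • F.xi i y1) = Pi.single b 1 := by
    intro b
    obtain ⟨v, hv, e⟩ := hs y1 hy1 (Pi.single b 1)
    have hv' : v ∈ Tan F.V y1 := F.Tan_eq hU1 ▸ hv
    obtain ⟨c, rfl⟩ := (F.mem_Tan_iff (F.ropen.1 hU1) hd).1 hv'
    exact ⟨c, e⟩
  choose c hc using hc
  have hT : ∀ b, ∀ y ∈ M.U, ∑ i, c b i • F.xi i y ∈ M.T y := fun b y hy =>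
    Submodule.sum_mem _ fun i _ => Submodule.smul_mem _ _ (M.xi_mem_T F i hy)
  have hX : ∀ b, Hol M.U fun y => ∑ i, c b i • F.xi i y := fun b =>
    Hol.sum _ fun i _ => (Hol.of_differentiable (F.differentiable_xi i)).fun_const_smul _
  refine ⟨fun y => (Matrix.of fun a b => M.D f y (∑ i, c b i • F.xi i y) a).det,
    Hol.det fun a b => (M.hol_D (ROpen.refl _) hf (hX b) (hT b)).apply a, ⟨y1, hU1, ?_⟩,
    fun y hy h0 e => ?_⟩
  · have : (Matrix.of fun a b => M.D f y1 (∑ i, c b i • F.xi i y1) a) = 1 := by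
      ext a b
      rw [Matrix.of_apply, hc, Matrix.one_apply, Pi.single_apply]
    simp only [this, Matrix.det_one]
    exact one_ne_zero
  · obtain ⟨w, hw⟩ := Matrix.mulVec_surjective_iff_isUnit.2
      ((Matrix.isUnit_iff_isUnit_det _).2 (isUnit_iff_ne_zero.2 h0)) e
    refine ⟨∑ b, w b • ∑ i, c b i • F.xi i y,
      Submodule.sum_mem _ fun b _ => Submodule.smul_mem _ _ (hT b y hy), ?_⟩
    rw [← hw, map_sum]
    funext a
    simp only [map_smul, Finset.sum_apply, Pi.smul_apply, smul_eq_mul, Matrix.mulVec, dotProduct,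
      Matrix.of_apply, mul_comm]

namespace Seq
variable {S : Setup} {r k : ℕ} {σ : Segre S.F r k} {ι : Type} (Q : Seq S σ ι)

theorem exists_hyp (hL : Q.InL) {y0 : CN S.N} (h0 : y0 ∈ Q.R) (ha : Q.φ y0 = σ.a 0) :
    ∃ h : CN S.N → ℂ, Hol S.U h ∧ (∃ x ∈ S.U, h x ≠ 0) ∧ ∀ x ∈ S.U, h x ≠ 0 → x ∈ Q.R := by
  obtain ⟨A, hA, hA0, hAr⟩ := σ.exists_regFn
  have hR := Q.ropen_R hL
  obtain ⟨h2, g1, g2, g3⟩ := S.toTM.exists_subm_fn S.F (Q.φ_hol.post σ.t_diff) hR ⟨y0, h0⟩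
    fun y hy => Q.subm_of_mem hL hy
  have h1 : Hol S.U fun x => A (Q.φ x) := Q.φ_hol.post hA
  have hh := h1.mul g1
  have hne := S.toTM.exists_mul_ne_zero h1 g1 ⟨y0, h0.1, by rwa [ha]⟩ g2
  refine ⟨_, hh, hne, fun x hx hx0 => ?_⟩
  obtain ⟨y1, hy1, hy0⟩ := S.toTM.S4Star_ne hR ⟨y0, h0⟩ hh hne
  obtain ⟨O, hO, eO⟩ := hR.exists_open
  have hp := S.toTM.isPreconnected_ne (ROpen.refl _) S.conn.isPreconnected hh
  rcases isPreconnected_iff_subset_of_disjoint.1 hp O (closure Q.R)ᶜ hO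
    isClosed_closure.isOpen_compl (fun y hy => by
      by_cases hc : y ∈ closure Q.R
      · have hy0 : A (Q.φ y) * h2 y ≠ 0 := hy.2
        have := Q.mem_R_of_subm hL hy.1 (hAr _ (hL y hy.1) (left_ne_zero_of_mul hy0))
          (g3 y hy.1 (right_ne_zero_of_mul hy0)) hc
        rw [eO] at this
        exact Or.inl this.2
      · exact Or.inr hc)
    (eq_empty_of_forall_notMem fun y hy => hy.2.2 (subset_closure (eO ▸ ⟨hy.1.1, hy.2.1⟩)))
    with h | h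
  · rw [eO]
    exact ⟨hx, h ⟨hx, hx0⟩⟩
  · exact absurd (subset_closure hy1) (h ⟨hR.1 hy1, hy0⟩)

end Seq
end Crest.Agent.R264
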