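import Crest.Agent.R264.S4Inj
import Crest.Agent.R264.S4Inv

/-! Row 264, P4: the limit map is onto the model fibres. -/

set_option autoImplicit false
open Set Filter Topology Metric Complex
open scoped Matrix

noncomputable section
namespace Crest.Agent.R264.Seq
variable {S : Setup} {r k : ℕ} {σ : Segre S.F r k} {ι : Type} (Q : Seq S σ ι)

theorem surj_gd (hL : Q.InL) {b : CN S.N} (hb : b ∈ Q.R) (hg : Q.φ b ∈ S.F.Gd) {w : ℂ} {z : CN r}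
    (hq : Qk (σ.κ (Q.φ b)) z < w.im) :
    ∃ y ∈ Q.R, Q.φ y = Q.φ b ∧ Q.Φ y = (w, z, σ.t (Q.φ b)) := by
  obtain ⟨hbU, hlo, hbd, hq0, -⟩ := id hb
  obtain ⟨ld, hBd⟩ := hlo.exists_LD
  have hO : Q.φ b ∈ ld.O := ld.mem
  have hLb := hL b hbU
  have hconst : Tendsto (fun _ : ι => b) Q.l (𝓝[S.U] b) :=
    tendsto_nhdsWithin_iff.2 ⟨tendsto_const_nhds, Eventually.of_forall fun _ => hbU⟩
  have hc : Q.φ b ∈ closure {y | y ∈ S.U ∧ 0 < ld.h y} :=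
    mem_closure_of_tendsto (Q.φ_lim b hbU)
      ((Q.eventually_pos ld hb hO hconst).mono fun j hj => ⟨S.toTM.ap_mem _ hbU, hj⟩)
  have hside := hBd.pos_side hO hLb hg hc
  obtain ⟨Ω, ψ, -, hΩc, h0, h1, hψ, hψU, hψ0, hω⟩ := Q.exists_inv ld hbU hO hLb hside hconst
    (ω0 := Q.Φ b) (ω1 := (w, z, σ.t (Q.φ b))) (Q.tendsto_Φ hbU hbd) (Q.Φ_t hbU hbd) rfl hq0 hq
  have hR : MapsTo ψ Ω Q.R := Q.mapsTo_R hL hΩc hψ.continuousOn hψU (fun ω hω' => by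
    obtain ⟨e, a, c, -⟩ := hω ω hω'
    rw [e]
    exact hBd.lo a c) h0 (by rw [hψ0]; exact hb)
  refine ⟨ψ (w, z, σ.t (Q.φ b)), hR h1, ?_, ?_⟩
  · rw [(hω _ h1).1]
    exact (ld.toLD0.co_of_mem hO hLb).2
  · obtain ⟨-, -, -, y, hy, hy'⟩ := hω _ h1
    exact tendsto_nhds_unique (Q.tendsto_Φ_moving (hψU h1) (hR h1).2.2.1 hy).1
      (tendsto_const_nhds.congr' (hy'.mono fun j h => h.symm))

theorem surj (hL : Q.InL) {b : CN S.N} (hb : b ∈ Q.R) {w : ℂ} {z : CN r}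
    (hq : Qk (σ.κ (Q.φ b)) z < w.im) :
    ∃ y ∈ Q.R, Q.φ y = Q.φ b ∧ Q.Φ y = (w, z, σ.t (Q.φ b)) := by
  obtain ⟨hbU, hlo, hbd, hq0, -⟩ := id hb
  obtain ⟨ld', -⟩ := hlo.exists_LD
  set q := Q.φ b with hqdef
  set ld := ld'.toLD0 with hld
  have hO : q ∈ ld.O := ld.mem
  obtain ⟨hWo, g, hgd, hgΦ, -⟩ := Q.exists_chart hL ld
  set W := Q.Φ '' Q.Rq ld with hW
  have hbq : b ∈ Q.Rq ld := ⟨hb, hO⟩
  set p0 : ℂ × CN r := ((Q.Φ b).1, (Q.Φ b).2.1) with hp0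
  set p1 : ℂ × CN r := (w, z) with hp1
  have hΦb : Q.Φ b = (p0.1, p0.2, σ.t q) := by
    rw [← Q.Φ_t hbU hbd]
  -- the fibre and the tube around the segment
  have hκ : ∀ i j, Tendsto (fun x => σ.κ x i j) (𝓝 q) (𝓝 (σ.κ q i j)) := fun i j =>
    (σ.κ_differentiableAt hlo.reg.r0_ne i j).continuousAt
  have hjoint : ∀ p : ℂ × CN r, Qk (σ.κ q) p.2 < p.1.im →
      ∀ᶠ a : CN S.N × (ℂ × CN r) in 𝓝 (q, p), Qk (σ.κ a.1) a.2.2 < a.2.1.im := by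
    intro p hp
    have h1 : Tendsto (fun a : CN S.N × (ℂ × CN r) => Qk (σ.κ a.1) a.2.2) (𝓝 (q, p))
        (𝓝 (Qk (σ.κ q) p.2)) :=
      hlo.small.tendsto_Qk (fun i j => (hκ i j).comp (continuous_fst.tendsto (q, p)))
        (continuous_snd.snd.tendsto (q, p))
    have h2 : Tendsto (fun a : CN S.N × (ℂ × CN r) => a.2.1.im) (𝓝 (q, p)) (𝓝 p.1.im) :=
      (Complex.continuous_im.comp continuous_snd.fst).tendsto (q, p)
    exact h1.eventually_lt h2 hp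
  have hFo : IsOpen {p : ℂ × CN r | Qk (σ.κ q) p.2 < p.1.im} :=
    isOpen_iff_mem_nhds.2 fun p hp =>
      ((continuous_const.prodMk continuous_id).tendsto p).eventually (hjoint p hp)
  have hsegc : IsCompact (segment ℝ p0 p1) := by
    rw [segment_eq_image]
    exact isCompact_Icc.image (by fun_prop)
  have hsegF : segment ℝ p0 p1 ⊆ {p : ℂ × CN r | Qk (σ.κ q) p.2 < p.1.im} :=
    hlo.small.convex_fibre.segment_subset hq0 hq
  obtain ⟨τ, hτ, hτF⟩ := hsegc.exists_cthickening_subset_open hFo hsegF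
  have hunif : ∀ᶠ x in 𝓝 q, ∀ p ∈ cthickening τ (segment ℝ p0 p1), Qk (σ.κ x) p.2 < p.1.im :=
    (hsegc.cthickening (r := τ)).eventually_forall_of_forall_eventually
      (P := fun x p => Qk (σ.κ x) p.2 < p.1.im) fun p hp => hjoint p (hτF hp)
  -- the compact set around `b`
  obtain ⟨ρ, hρ, hρW⟩ := nhds_basis_closedBall.mem_iff.1 (hWo.mem_nhds ⟨b, hbq, rfl⟩)
  have hgR : ∀ ω ∈ W, g ω ∈ Q.Rq ld ∧ Q.Φ (g ω) = ω := by
    rintro _ ⟨x, hx, rfl⟩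
    rw [hgΦ x hx]
    exact ⟨hx, rfl⟩
  have hK : IsCompact (g '' closedBall (Q.Φ b) ρ) :=
    (isCompact_closedBall _ _).image_of_continuousOn (hgd.continuousOn.mono hρW)
  have hKU : g '' closedBall (Q.Φ b) ρ ⊆ S.U := by
    rintro _ ⟨ω, hω, rfl⟩
    exact (hgR ω (hρW hω)).1.1.1
  obtain ⟨K', hK', hK'U, hK'f⟩ := S.taut.of_connected (E := ℂ × CN r)
    (Ω := thickening τ (segment ℝ p0 p1)) (C := segment ℝ p0 p1) isOpen_thickening
    ((convex_segment p0 p1).thickening τ).isPreconnected hsegc (self_subset_thickening hτ _) hK hKU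
  have ht : ∀ p : ℂ × CN r, Tendsto (fun x => ((p.1, p.2, σ.t x) : PM r k)) (𝓝 q)
      (𝓝 (p.1, p.2, σ.t q)) := fun p =>
    tendsto_const_nhds.prodMk_nhds (tendsto_const_nhds.prodMk_nhds
      (σ.t_diff.continuous.tendsto q))
  have hball : ∀ᶠ x in 𝓝 q, ((p0.1, p0.2, σ.t x) : PM r k) ∈ closedBall (Q.Φ b) ρ :=
    (ht p0).eventually (hΦb ▸ closedBall_mem_nhds (Q.Φ b) hρ)
  -- the good points
  have hgood : ∀ᶠ x in 𝓝[σ.L S.F.V 0 ∩ S.F.Gd] q, g (w, z, σ.t x) ∈ K' ∧ g (w, z, σ.t x) ∈ Q.R ∧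
      Q.φ (g (w, z, σ.t x)) = x ∧ Q.Φ (g (w, z, σ.t x)) = (w, z, σ.t x) := by
    filter_upwards [self_mem_nhdsWithin, mem_nhdsWithin_of_mem_nhds hunif,
      mem_nhdsWithin_of_mem_nhds hball, mem_nhdsWithin_of_mem_nhds (ld.O_open.mem_nhds hO)]
      with x hx hx1 hx2 hx3
    have hφ : ∀ p : ℂ × CN r, ((p.1, p.2, σ.t x) : PM r k) ∈ W →
        Q.φ (g (p.1, p.2, σ.t x)) = x := fun p hp => by
      rw [Q.φ_eq_lam hL ld (hgR _ hp).1, (hgR _ hp).2]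
      exact (ld.co_of_mem hx3 hx.1).2
    have h0W := hρW hx2
    have hall : ∀ p ∈ thickening τ (segment ℝ p0 p1), ((p.1, p.2, σ.t x) : PM r k) ∈ W := by
      intro p hp
      have e := hφ p0 h0W
      obtain ⟨y, hy, hy1, hy2⟩ := Q.surj_gd hL (hgR _ h0W).1.1 (by rw [e]; exact hx.2)
        (w := p.1) (z := p.2) (by rw [e]; exact hx1 p (thickening_subset_cthickening _ _ hp))
      rw [e] at hy1 hy2
      exact ⟨y, ⟨hy, by rw [hy1]; exact hx3⟩, hy2⟩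
    have hd : DifferentiableOn ℂ (fun p : ℂ × CN r => g (p.1, p.2, σ.t x))
        (thickening τ (segment ℝ p0 p1)) :=
      hgd.comp (f := fun p : ℂ × CN r => ((p.1, p.2, σ.t x) : PM r k)) (by fun_prop) hall
    have h1W := hall p1 (self_subset_thickening hτ _ (right_mem_segment ℝ p0 p1))
    exact ⟨hK'f _ hd (fun p hp => (hgR _ (hall p hp)).1.1.1)
      ⟨p0, left_mem_segment ℝ p0 p1, _, hx2, rfl⟩ (right_mem_segment ℝ p0 p1),
      (hgR _ h1W).1.1, hφ p1 h1W, (hgR _ h1W).2⟩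
  have hne : (𝓝[σ.L S.F.V 0 ∩ S.F.Gd] q).NeBot :=
    mem_closure_iff_nhdsWithin_neBot.1 (hlo.mem_closure_gd S.thin)
  set m := Ultrafilter.of (𝓝[σ.L S.F.V 0 ∩ S.F.Gd] q) with hm
  have hml : (m : Filter (CN S.N)) ≤ 𝓝[σ.L S.F.V 0 ∩ S.F.Gd] q := Ultrafilter.of_le _
  have hmq : (m : Filter (CN S.N)) ≤ 𝓝 q := hml.trans nhdsWithin_le_nhds
  have hev := hgood.filter_mono hml
  obtain ⟨y, hyK, hy⟩ := hK'.ultrafilter_le_nhds (m.map fun x => g (w, z, σ.t x))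
    (le_principal_iff.2 (hev.mono fun x hx => hx.1))
  have hy' : Tendsto (fun x => g (w, z, σ.t x)) m (𝓝 y) := hy
  have hyU : y ∈ S.U := hK'U hyK
  have hφy : Q.φ y = q := by
    have h1 : Tendsto (fun x => Q.φ (g (w, z, σ.t x))) m (𝓝 (Q.φ y)) :=
      (Q.φ_hol.continuousOn y hyU).tendsto.comp
        (tendsto_nhdsWithin_iff.2 ⟨hy', hev.mono fun x hx => hx.2.1.1⟩)
    exact tendsto_nhds_unique h1 ((tendsto_id.mono_left hmq).congr'
      (hev.mono fun x hx => hx.2.2.1.symm))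
  have hyR : y ∈ Q.R := mem_of_mem_nhdsWithin hyU (Q.R_mem_nhds hL hyU (hφy ▸ hlo)
    (mem_closure_of_tendsto hy' (hev.mono fun x hx => hx.2.1)))
  refine ⟨y, hyR, hφy, ?_⟩
  have h1 : Tendsto (fun x => Q.Φ (g (w, z, σ.t x))) m (𝓝 (Q.Φ y)) :=
    ((Q.hol_Φ_R hL).continuousOn y hyR).tendsto.comp
      (tendsto_nhdsWithin_iff.2 ⟨hy', hev.mono fun x hx => hx.2.1⟩)
  exact tendsto_nhds_unique h1 (((ht p1).mono_left hmq).congr'
    (hev.mono fun x hx => hx.2.2.2.symm))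

end Crest.Agent.R264.Seq
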