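import Crest.Agent.R264.S4Jac

/-! Row 264, P4: the degenerate wall is not reached (flat version). -/

set_option autoImplicit false
open Set Filter Topology Metric Complex
open scoped Matrix

noncomputable section
namespace Crest.Agent.R264

private theorem wallF_g {r k : ℕ} {κ : CN k → Matrix (Fin r) (Fin r) ℂ} {O : Set (CN k)}
    (hκ : ∀ i j, DifferentiableOn ℂ (fun t => κ t i j) O) (u : CN r) :
    DifferentiableOn ℂ (fun t => I * (star u ⬝ᵥ bz (κ t) u)) O := by
  refine DifferentiableOn.const_mul ?_ _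
  simp only [bz, dotProduct, Matrix.mulVec, Pi.add_apply]
  refine DifferentiableOn.fun_sum fun i _ => DifferentiableOn.const_mul ?_ _
  refine DifferentiableOn.const_add _ ?_
  exact DifferentiableOn.fun_sum fun j _ => (hκ i j).mul_const _

private theorem wallF_im {r : ℕ} (κ : Matrix (Fin r) (Fin r) ℂ) (u : CN r) :
    (I * (star u ⬝ᵥ bz κ u)).im = qf κ u := by
  simp [qf]

private theorem wallF_unit {r : ℕ} {κ : Matrix (Fin r) (Fin r) ℂ} (hs : κ.IsSymm)
    (h : ¬ Small κ) : ∃ u : CN r, ‖u‖ = 1 ∧ qf κ u ≤ 0 := by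
  rw [small_iff] at h
  push Not at h
  obtain ⟨u, hu, hq⟩ := h hs
  have hn : 0 < ‖u‖ := norm_pos_iff.2 hu
  refine ⟨(‖u‖⁻¹ : ℝ) • u, ?_, ?_⟩
  · rw [norm_smul, norm_inv, norm_norm, inv_mul_cancel₀ hn.ne']
  · rw [qf_smul]
    exact mul_nonpos_of_nonneg_of_nonpos (sq_nonneg _) hq

theorem wall_flat {r k m : ℕ} {b : ℂ × CN r} {t0 : CN k} {ρ : ℝ} (hρ : 0 < ρ)
    {κ : CN k → Matrix (Fin r) (Fin r) ℂ}
    (hκ : ∀ i j, DifferentiableOn ℂ (fun t => κ t i j) (ball t0 ρ))
    (hs : ∀ t ∈ ball t0 ρ, (κ t).IsSymm) {T : Set (CN k)} (hT : IsOpen T) (hTs : T ⊆ ball t0 ρ)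
    (hne : T.Nonempty) (hsm : ∀ t ∈ T, Small (κ t))
    (hcl : ∀ t ∈ ball t0 ρ, t ∈ closure T → Small (κ t) → t ∈ T)
    {f : (ℂ × CN r) × CN k → ℂ × CN r} (hf : DifferentiableOn ℂ f (ball b ρ ×ˢ T))
    (hq : ∀ x ∈ ball b ρ, ∀ t ∈ T, Qk (κ t) (f (x, t)).2 < (f (x, t)).1.im)
    (hinj : ∀ t ∈ T, Function.Injective (fderiv ℂ (fun x => f (x, t)) b))
    {Z : CN k → CN m} (hZ : DifferentiableOn ℂ Z T) (hZ0 : ∀ t ∈ T, Z t ≠ 0) {C : ℝ}
    (hZb : ∀ t ∈ T, ‖Z t‖ * ((f (b, t)).1.im - Qk (κ t) (f (b, t)).2) ≤ C) :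
    T = ball t0 ρ := by
  by_contra hne'
  have hpos : ∀ t ∈ T, ∀ u : CN r, ‖u‖ = 1 → 0 < qf (κ t) u := by
    intro t ht u hu
    refine (small_iff.1 (hsm t ht)).2 u ?_
    rintro rfl
    simp at hu
  have hcont : ∀ u : CN r, ∀ x ∈ ball t0 ρ,
      Tendsto (fun t => qf (κ t) u) (𝓝[T] x) (𝓝 (qf (κ x) u)) := by
    intro u x hx
    have h1 := ((wallF_g hκ u).continuousOn.continuousAt (isOpen_ball.mem_nhds hx))
    have h2 := (Complex.continuous_im.continuousAt.comp h1).tendsto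
    simp only [Function.comp_def, wallF_im] at h2
    exact h2.mono_left nhdsWithin_le_nhds
  have hnn : ∀ u : CN r, ‖u‖ = 1 → ∀ x ∈ ball t0 ρ, x ∈ closure T → 0 ≤ qf (κ x) u := by
    intro u hu x hx hxT
    have := mem_closure_iff_nhdsWithin_neBot.1 hxT
    refine ge_of_tendsto (hcont u x hx) ?_
    filter_upwards [self_mem_nhdsWithin] with t ht using (hpos t ht u hu).le
  have hkey : ∀ x ∈ ball t0 ρ, x ∉ T → x ∈ closure T → ∃ u : CN r, ‖u‖ = 1 ∧ qf (κ x) u = 0 := by
    intro x hx hxT hxc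
    obtain ⟨u, hu, hq⟩ := wallF_unit (hs x hx) (fun h => hxT (hcl x hx hxc h))
    exact ⟨u, hu, le_antisymm hq (hnn u hu x hx hxc)⟩
  by_cases hd : ball t0 ρ ⊆ closure T
  · obtain ⟨x, hx, hxT⟩ : ∃ x ∈ ball t0 ρ, x ∉ T := by
      by_contra h
      push Not at h
      exact hne' (Subset.antisymm hTs h)
    obtain ⟨u, hu, hq0⟩ := hkey x hx hxT (hd hx)
    have h1 := eqOn_const_of_im_nonneg isOpen_ball (convex_ball t0 ρ).isPreconnected
      (wallF_g hκ u) (fun y hy => by rw [wallF_im]; exact hnn u hu y hy (hd hy)) hx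
      (by rw [wallF_im]; exact hq0)
    obtain ⟨t, ht⟩ := hne
    have h2 := congrArg Complex.im (h1 t (hTs ht))
    simp only [wallF_im] at h2
    have := hpos t ht u hu
    linarith
  · obtain ⟨Ω', -, ⟨t, ht⟩, hΩT, hzero⟩ := zero_boundary hT hTs hne hd
    obtain ⟨C₀, hC₀, hjac⟩ := jac_le r hρ
    have hb : b ∈ ball b ρ := mem_ball_self hρ
    have hO : IsOpen (ball b ρ ×ˢ T) := isOpen_ball.prod hT
    have hsl : ∀ t ∈ T, DifferentiableOn ℂ (fun x => f (x, t)) (ball b ρ) := fun t ht =>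
      hf.comp (differentiable_id.prodMk (differentiable_const t)).differentiableOn
        (fun x hx => ⟨hx, ht⟩)
    have hD : ∀ t ∈ T, fderiv ℂ (fun x => f (x, t)) b
        = (fderiv ℂ f (b, t)).comp (ContinuousLinearMap.inl ℂ (ℂ × CN r) (CN k)) := by
      intro t ht
      have h1 : DifferentiableAt ℂ f (b, t) := hf.differentiableAt (hO.mem_nhds ⟨hb, ht⟩)
      exact (h1.hasFDerivAt.comp b (hasFDerivAt_prodMk_left b t)).fderiv
    have hDd : DifferentiableOn ℂ (fun t => fderiv ℂ (fun x => f (x, t)) b) T := by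
      refine DifferentiableOn.congr ?_ hD
      refine DifferentiableOn.clm_comp ?_ (differentiableOn_const _)
      exact (differentiableOn_fderiv hO hf).comp
        ((differentiable_const b).prodMk differentiable_id).differentiableOn
        (fun t ht => ⟨hb, ht⟩)
    have hdet : DifferentiableOn ℂ (fun t => (fderiv ℂ (fun x => f (x, t)) b).det) T :=
      fun t ht => (SCV2a_det (E := ℂ × CN r) _).comp_differentiableWithinAt t (hDd t ht)
    have htT := hΩT ht
    obtain ⟨i, hi⟩ : ∃ i, Z t i ≠ 0 := by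
      by_contra h
      push Not at h
      exact hZ0 t htT (funext h)
    have hF := hzero (fun t => (fderiv ℂ (fun x => f (x, t)) b).det ^ 2 * Z t i ^ (r + 2))
      ((hdet.pow 2).mul ((differentiableOn_pi.1 hZ i).pow _)) ?_ t ht
    · have h1 := (SCV2a_inj (ContinuousLinearEquiv.refl ℂ (ℂ × CN r)) _).1 (hinj t htT)
      simp only [ContinuousLinearEquiv.coe_refl, ContinuousLinearMap.id_comp] at h1
      exact mul_ne_zero (pow_ne_zero _ h1) (pow_ne_zero _ hi) hF
    · intro x hx hxT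
      by_cases hxc : x ∈ closure T
      · obtain ⟨u, hu, hq0⟩ := hkey x hx hxT hxc
        have h1 : Tendsto (fun t => C₀ * C ^ (r + 2) * qf (κ t) u) (𝓝[T] x) (𝓝 0) := by
          have := (hcont u x hx).const_mul (C₀ * C ^ (r + 2))
          rwa [hq0, mul_zero] at this
        refine squeeze_zero_norm' ?_ h1
        filter_upwards [self_mem_nhdsWithin] with s hs
        have h2 := hjac (κ s) (fun x => f (x, s)) b u (hsm s hs) (hsl s hs)
          (fun y hy => hq y hy s hs) hu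
        have h3 := hZb s hs
        have h4 : 0 ≤ (f (b, s)).1.im - Qk (κ s) (f (b, s)).2 := (sub_pos.2 (hq b hb s hs)).le
        have h5 := (hpos s hs u hu).le
        have h6 : ‖Z s i‖ ≤ ‖Z s‖ := norm_le_pi_norm _ i
        rw [norm_mul, norm_pow, norm_pow]
        generalize (f (b, s)).1.im - Qk (κ s) (f (b, s)).2 = h at h2 h3 h4
        calc _ ≤ (C₀ * h ^ (r + 2) * qf (κ s) u) * ‖Z s‖ ^ (r + 2) := by gcongr
          _ = C₀ * (‖Z s‖ * h) ^ (r + 2) * qf (κ s) u := by rw [mul_pow]; ring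
          _ ≤ _ := by gcongr
      · rw [mem_closure_iff_nhdsWithin_neBot, not_neBot] at hxc
        rw [hxc]
        exact tendsto_bot

end Crest.Agent.R264
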