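import Crest.Agent.R264.S4Surj
import Crest.Agent.R264.S4WallF

/-! Row 264, P4: `R` is closed where the limit map is a submersion onto the regular leaf. -/

set_option autoImplicit false
open Set Filter Topology Metric Complex
open scoped Matrix

noncomputable section
namespace Crest.Agent.R264.Seq
variable {S : Setup} {r k : ℕ} {σ : Segre S.F r k} {ι : Type} (Q : Seq S σ ι)

/-- The leaf coordinate of the limit map is a submersion at `y`. -/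
def Subm (y : CN S.N) : Prop :=
  ∀ e : CN k, ∃ v ∈ S.toTM.T y, S.toTM.D (fun x => σ.t (Q.φ x)) y v = e

theorem S4Wall_hol_t : Hol S.U (fun x => σ.t (Q.φ x)) := Q.φ_hol.post σ.t_diff

theorem S4Wall_dΦ (hL : Q.InL) {y : CN S.N} (hy : y ∈ Q.R) : DifferentiableWithinAt ℂ Q.Φ S.U y :=
  S.toTM.hol_differentiableWithinAt (Q.ropen_R hL) (Q.hol_Φ_R hL) hy

theorem S4Wall_D_t (hL : Q.InL) {y v : CN S.N} (hy : y ∈ Q.R) (hv : v ∈ S.toTM.T y) :
    S.toTM.D (fun x => σ.t (Q.φ x)) y v = (S.toTM.D Q.Φ y v).2.2 := by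
  have h1 : (fun x => σ.t (Q.φ x)) =ᶠ[𝓝[S.U] y] fun x =>
      ((ContinuousLinearMap.snd ℂ (CN r) (CN k)).comp
        (ContinuousLinearMap.snd ℂ ℂ (CN r × CN k))) (Q.Φ x) := by
    filter_upwards [(Q.ropen_R hL).2 y hy] with x hx
    exact (Q.Φ_t hx.1 hx.2.2.1).symm
  rw [S.toTM.D_congr hy.1 h1]
  exact tD_clm _ (Q.S4Wall_dΦ hL hy) hv

theorem subm_of_mem (hL : Q.InL) {y : CN S.N} (hy : y ∈ Q.R) : Q.Subm y := by
  obtain ⟨ld⟩ := hy.2.1.reg.exists_LD0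
  obtain ⟨-, g, -, -, hg⟩ := Q.exists_chart hL ld
  obtain ⟨-, h1, h2, -⟩ := hg y ⟨hy, ld.mem⟩
  intro e
  have hv : fderiv ℂ g (Q.Φ y) (0, 0, e) ∈ S.toTM.T y := h1 ▸ LinearMap.mem_range_self _ _
  exact ⟨_, hv, by rw [Q.S4Wall_D_t hL hy hv, h2]⟩

/-- At a submersive point the leaf lies in the boundary near the image point. -/
theorem bd_of_subm (hL : Q.InL) {y : CN S.N} (hy : y ∈ S.U) (hreg : σ.Reg (Q.φ y))
    (hs : Q.Subm y) :
    ∀ᶠ x in 𝓝 (Q.φ y), x ∈ σ.L S.F.V 0 → x ∈ closure S.U ∧ x ∉ S.U := by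
  obtain ⟨ld⟩ := hreg.exists_LD0
  have h1 := S.toTM.nhds_le_map_of_D (ROpen.refl S.U) Q.S4Wall_hol_t hy hs
  have h2 : {x | x ∈ S.U ∧ Q.φ x ∈ ld.O} ∈ 𝓝[S.U] y :=
    inter_mem self_mem_nhdsWithin
      ((Q.φ_hol.continuousOn y hy).preimage_mem_nhdsWithin (ld.O_open.mem_nhds ld.mem))
  have h3 := h1 (image_mem_map h2)
  filter_upwards [σ.t_diff.continuous.continuousAt.preimage_mem_nhds h3,
    ld.O_open.mem_nhds ld.mem] with x hx hxO hxL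
  obtain ⟨x', ⟨hx'U, hx'O⟩, e⟩ := hx
  have e2 : x = Q.φ x' := by
    rw [← (ld.co_of_mem hxO hxL).2, ← (ld.co_of_mem hx'O (hL x' hx'U)).2]
    exact congrArg _ e.symm
  rw [e2]
  exact Q.φ_bd x' hx'U

/-- Coordinates adapted to the submersion. -/
theorem exists_adapted {y : CN S.N} (hy : y ∈ S.U) (hs : Q.Subm y) {W : Set (CN S.N)}
    (hW : W ∈ 𝓝 y) : ∃ (b : ℂ × CN r) (ρ : ℝ) (G : (ℂ × CN r) × CN k → CN S.N), 0 < ρ ∧
      G (b, σ.t (Q.φ y)) = y ∧ DifferentiableOn ℂ G (ball b ρ ×ˢ ball (σ.t (Q.φ y)) ρ) ∧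
      ∀ z ∈ ball b ρ ×ˢ ball (σ.t (Q.φ y)) ρ, G z ∈ S.U ∩ W ∧ σ.t (Q.φ (G z)) = z.2 ∧
        Q.Subm (G z) ∧ Function.Injective (fderiv ℂ G z) ∧ map G (𝓝 z) = 𝓝[S.U] (G z) := by
  set τ : CN S.N → CN k := fun x => σ.t (Q.φ x) with hτ
  let A : S.toTM.T y →ₗ[ℂ] CN k := (S.toTM.D τ y : CN S.N →ₗ[ℂ] CN k).domRestrict (S.toTM.T y)
  have hA : LinearMap.range A = ⊤ := LinearMap.range_eq_top.2 fun e => by
    obtain ⟨v, hv, h⟩ := hs e
    exact ⟨⟨v, hv⟩, h⟩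
  let K : Submodule ℂ (CN S.N) := (LinearMap.ker A).map (S.toTM.T y).subtype
  have hdim : Module.finrank ℂ K = Module.finrank ℂ (ℂ × CN r) := by
    rw [Submodule.finrank_map_subtype_eq]
    have h1 := LinearMap.finrank_range_add_finrank_ker A
    have h2 := σ.dim
    rw [hA, finrank_top, S.toTM.finrank_T hy] at h1
    simp only [Module.finrank_prod, Module.finrank_self, Module.finrank_fin_fun] at h1 ⊢
    omega
  obtain ⟨μ2, hμ2⟩ := LinearMap.exists_extend (LinearEquiv.ofFinrankEq _ _ hdim).toLinearMap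
  let μ : CN S.N →L[ℂ] ℂ × CN r := LinearMap.toContinuousLinearMap μ2
  let f : CN S.N → (ℂ × CN r) × CN k := fun x => (μ x, τ x)
  have hf : Hol S.U f := (Hol.of_differentiable μ.differentiable).prodMk Q.S4Wall_hol_t
  have hD : ∀ x ∈ S.U, ∀ v ∈ S.toTM.T x, S.toTM.D f x v = (μ v, S.toTM.D τ x v) := by
    intro x hx v hv
    exact tD_eq (μ.hasFDerivWithinAt.prodMk
      (Q.S4Wall_hol_t.differentiableWithinAt hx).hasFDerivWithinAt) hv
  have hdim2 : Module.finrank ℂ ((ℂ × CN r) × CN k) = S.n := by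
    have h2 := σ.dim
    simp only [Module.finrank_prod, Module.finrank_self, Module.finrank_fin_fun]
    omega
  obtain ⟨R0, hR0, hy0, hR0W⟩ := exists_ropen_subset hy (mem_nhdsWithin_of_mem_nhds hW)
  obtain ⟨R', hR', hy', hsub, hinj, hb⟩ := S.toTM.exists_injOn_of_D hdim2 hR0 (hf.mono hR0.1) hy0 (by
    intro v hv h0
    rw [hD y hy v hv, Prod.mk_eq_zero] at h0
    have hk : v ∈ K := ⟨⟨v, hv⟩, h0.2, rfl⟩
    have h1 : (LinearEquiv.ofFinrankEq _ _ hdim) ⟨v, hk⟩ = 0 :=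
      (LinearMap.congr_fun hμ2 ⟨v, hk⟩).symm.trans h0.1
    exact congrArg Subtype.val ((LinearEquiv.map_eq_zero_iff _).1 h1))
  obtain ⟨hopen, g, hg, hgf, hg'⟩ :=
    S.toTM.exists_inverse_of_injOn hdim2 hR' (hf.mono hR'.1) hinj hb
  obtain ⟨ρ, hρ, hball⟩ := Metric.isOpen_iff.1 hopen _ (mem_image_of_mem f hy')
  have hball' : ball (μ y) ρ ×ˢ ball (τ y) ρ ⊆ f '' R' := by
    rw [ball_prod_same]
    exact hball
  refine ⟨μ y, ρ, g, hρ, hgf y hy', hg.mono hball', fun z hz => ?_⟩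
  obtain ⟨x, hx, rfl⟩ := hball' hz
  obtain ⟨i1, i2, i3, i4⟩ := hg' x hx
  rw [hgf x hx]
  refine ⟨⟨hR'.1 hx, hR0W (hsub hx)⟩, rfl, fun e => ?_, i1, ?_⟩
  · have hv : fderiv ℂ g (f x) (0, e) ∈ S.toTM.T x := i2 ▸ LinearMap.mem_range_self _ _
    have h1 := i3 (0, e)
    rw [hD x (hR'.1 hx) _ hv] at h1
    exact ⟨_, hv, congrArg Prod.snd h1⟩
  · rw [← i4, map_map]
    have : g ∘ f =ᶠ[𝓝[S.U] x] id := by
      filter_upwards [hR'.2 x hx] with w hw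
      exact hgf w hw
    rw [map_congr this, map_id]

/-- The translation field on `R` and its size. -/
theorem exists_Z (hL : Q.InL) : ∃ (Z : CN S.N → CN S.N) (C : ℝ), Hol Q.R Z ∧ ∀ y ∈ Q.R, Z y ≠ 0 ∧
    ‖Z y‖ * ((Q.Φ y).1.im - Qk (σ.κ (Q.φ y)) (Q.Φ y).2.1) ≤ C := by
  have hex : ∀ y, ∃ v, y ∈ Q.R → v ∈ S.toTM.T y ∧ S.toTM.D Q.Φ y v = (1, 0, 0) := by
    intro y
    by_cases hy : y ∈ Q.R
    · obtain ⟨ld⟩ := hy.2.1.reg.exists_LD0
      obtain ⟨-, g, -, -, hg⟩ := Q.exists_chart hL ld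
      obtain ⟨-, h1, h2, -⟩ := hg y ⟨hy, ld.mem⟩
      exact ⟨fderiv ℂ g (Q.Φ y) (1, 0, 0), fun _ => ⟨h1 ▸ LinearMap.mem_range_self _ _, h2 _⟩⟩
    · exact ⟨0, fun h => absurd h hy⟩
  choose Z hZ using hex
  have huniq : ∀ y ∈ Q.R, ∀ v ∈ S.toTM.T y, S.toTM.D Q.Φ y v = (1, 0, 0) → Z y = v := by
    intro y hy v hv h
    refine sub_eq_zero.1 (hy.2.2.2.2 _ (sub_mem (hZ y hy).1 hv) ?_)
    rw [map_sub, (hZ y hy).2, h, sub_self]
  obtain ⟨B, hB⟩ := S.bdd.exists_norm_le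
  refine ⟨Z, B, Hol.of_local fun y hy => ?_, fun y hy => ⟨fun h0 => ?_, ?_⟩⟩
  · obtain ⟨ld⟩ := hy.2.1.reg.exists_LD0
    obtain ⟨hopen, g, hgd, -, hg⟩ := Q.exists_chart hL ld
    refine ⟨Q.Rq ld, nhdsWithin_mono _ (Q.ropen_R hL).1 ((Q.ropen_Rq hL ld).2 y ⟨hy, ld.mem⟩), ?_⟩
    have h1 : Hol (Q.Rq ld) fun x => fderiv ℂ g (Q.Φ x) (1, 0, 0) :=
      ((Q.hol_Φ_R hL).mono fun _ h => h.1).post_on hopen
        (SCV.differentiableOn_fderiv_apply hopen hgd (1, 0, 0)) (mapsTo_image _ _)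
    refine h1.congr fun x hx => ?_
    obtain ⟨-, h2, h3, -⟩ := hg x hx
    exact huniq x hx.1 _ (h2 ▸ LinearMap.mem_range_self _ _) (h3 _)
  · have h1 := (hZ y hy).2
    rw [h0, map_zero] at h1
    exact zero_ne_one (congrArg Prod.fst h1)
  · obtain ⟨ld⟩ := hy.2.1.reg.exists_LD0
    obtain ⟨hopen, g, hgd, hgΦ, hg⟩ := Q.exists_chart hL ld
    obtain ⟨-, h2, h3, -⟩ := hg y ⟨hy, ld.mem⟩
    have hZy := huniq y hy _ (h2 ▸ LinearMap.mem_range_self _ (1, 0, 0)) (h3 _)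
    set δ := (Q.Φ y).1.im - Qk (σ.κ (Q.φ y)) (Q.Φ y).2.1 with hδ
    have hδ0 : 0 < δ := sub_pos.2 hy.2.2.2.1
    have hmaps : MapsTo (fun s : ℂ => Q.Φ y + s • ((1, 0, 0) : PM r k)) (ball 0 δ)
        (Q.Φ '' Q.Rq ld) := by
      intro s hs
      have h4 : |s.im| < δ := (abs_im_le_norm s).trans_lt (mem_ball_zero_iff.1 hs)
      obtain ⟨y', hy', e1, e2⟩ := Q.surj hL hy (w := (Q.Φ y).1 + s) (z := (Q.Φ y).2.1) (by
        rw [add_im]
        linarith [(abs_lt.1 h4).1])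
      refine ⟨y', ⟨hy', by rw [e1]; exact ld.mem⟩, ?_⟩
      rw [e2, ← Q.Φ_t hy.1 hy.2.2.1]
      ext <;> simp
    have hline : ∀ s : ℂ, HasDerivAt (fun s : ℂ => Q.Φ y + s • ((1, 0, 0) : PM r k))
        ((1, 0, 0) : PM r k) s := fun s => by
      simpa using ((hasDerivAt_id s).smul_const ((1, 0, 0) : PM r k)).const_add (Q.Φ y)
    have h5 := norm_fderiv_le_of_ball (f := fun s : ℂ => g (Q.Φ y + s • ((1, 0, 0) : PM r k))) hδ0
      (hgd.comp (fun s _ => (hline s).differentiableAt.differentiableWithinAt) hmaps) (C := B) (by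
        intro s hs
        obtain ⟨x, hx, e⟩ := hmaps hs
        rw [← show Q.Φ x = Q.Φ y + s • ((1, 0, 0) : PM r k) from e, hgΦ x hx]
        exact hB x hx.1.1)
    have h6 : HasFDerivAt g (fderiv ℂ g (Q.Φ y)) (Q.Φ y + (0 : ℂ) • ((1, 0, 0) : PM r k)) := by
      rw [zero_smul, add_zero]
      exact (hgd.differentiableAt (hopen.mem_nhds ⟨y, ⟨hy, ld.mem⟩, rfl⟩)).hasFDerivAt
    have h7 := (h6.comp_hasDerivAt (0 : ℂ) (hline 0)).deriv
    rw [← norm_deriv_eq_norm_fderiv, le_div_iff₀ hδ0] at h5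
    rw [hZy]
    erw [← h7]
    exact h5

theorem mem_R_of_subm (hL : Q.InL) {y : CN S.N} (hy : y ∈ S.U) (hreg : σ.Reg (Q.φ y))
    (hs : Q.Subm y) (hc : y ∈ closure Q.R) : y ∈ Q.R := by
  obtain ⟨ld⟩ := hreg.exists_LD0
  obtain ⟨W, hW, hWO⟩ := mem_nhdsWithin_iff_exists_mem_nhds_inter.1
    ((Q.φ_hol.continuousOn y hy).preimage_mem_nhdsWithin (ld.O_open.mem_nhds ld.mem))
  obtain ⟨b, ρ, G, hρ, hG0, hGd, hG⟩ := Q.exists_adapted hy hs hW
  obtain ⟨Z, C, hZ, hZb⟩ := Q.exists_Z hL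
  set t0 := σ.t (Q.φ y) with ht0
  have hb : b ∈ ball b ρ := mem_ball_self hρ
  have hopen : IsOpen (ball b ρ ×ˢ ball t0 ρ) := isOpen_ball.prod isOpen_ball
  have hU : ∀ z ∈ ball b ρ ×ˢ ball t0 ρ, G z ∈ S.U := fun z hz => (hG z hz).1.1
  have hO : ∀ z ∈ ball b ρ ×ˢ ball t0 ρ, Q.φ (G z) ∈ ld.O := fun z hz =>
    hWO ⟨(hG z hz).1.2, (hG z hz).1.1⟩
  have hlam : ∀ z ∈ ball b ρ ×ˢ ball t0 ρ, Q.φ (G z) = ld.lam z.2 := fun z hz => by
    rw [← (hG z hz).2.1, (ld.co_of_mem (hO z hz) (hL _ (hU z hz))).2]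
  have hφ : ∀ x ∈ ball b ρ, ∀ x' ∈ ball b ρ, ∀ t ∈ ball t0 ρ, Q.φ (G (x, t)) = Q.φ (G (x', t)) :=
    fun x hx x' hx' t ht => (hlam (x, t) ⟨hx, ht⟩).trans (hlam (x', t) ⟨hx', ht⟩).symm
  have key : ∀ t ∈ ball t0 ρ, ∀ x ∈ ball b ρ, G (x, t) ∈ Q.R → ∀ x' ∈ ball b ρ, G (x', t) ∈ Q.R := by
    intro t ht x hx hR
    exact Q.mapsTo_R hL (ψ := fun x' => G (x', t)) (convex_ball b ρ).isPreconnected
      (hGd.continuousOn.comp (f := fun x' => (x', t)) (by fun_prop) fun x' hx' => ⟨hx', ht⟩)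
      (fun x' hx' => hU _ ⟨hx', ht⟩) (fun x' hx' => by rw [hφ x' hx' x hx t ht]; exact hR.2.1) hx hR
  have hGb : DifferentiableOn ℂ (fun t => G (b, t)) (ball t0 ρ) :=
    hGd.comp (f := fun t => (b, t)) (by fun_prop) fun t ht => ⟨hb, ht⟩
  have hGc : ∀ t ∈ ball t0 ρ, Tendsto (fun t => G (b, t)) (𝓝 t) (𝓝[S.U] (G (b, t))) := by
    intro t ht
    refine tendsto_nhdsWithin_iff.2 ⟨hGb.continuousOn.continuousAt (isOpen_ball.mem_nhds ht), ?_⟩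
    filter_upwards [isOpen_ball.mem_nhds ht] with t' ht'
    exact hU _ ⟨hb, ht'⟩
  have hT := wall_flat (b := b) (t0 := t0) hρ (κ := fun t => σ.κ (Q.φ (G (b, t))))
    (T := {t | t ∈ ball t0 ρ ∧ G (b, t) ∈ Q.R})
    (f := fun z => ((Q.Φ (G z)).1, (Q.Φ (G z)).2.1)) (Z := fun t => Z (G (b, t))) (C := C)
    (fun i j t ht => by
      have h1 := Q.φ_hol.comp_differentiableOn hGb (fun t ht => hU _ ⟨hb, ht⟩) t ht
      exact (σ.κ_differentiableAt (ld.r0_ne _ (hO _ ⟨hb, ht⟩) 0 ld.zero_mem) i j).comp_differentiableWithinAt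
        t h1)
    (fun t _ => σ.κ_symm _)
    (isOpen_iff_mem_nhds.2 fun t ht =>
      inter_mem (isOpen_ball.mem_nhds ht.1) (hGc t ht.1 ((Q.ropen_R hL).2 _ ht.2)))
    (fun t ht => ht.1)
    (by
      have h1 : ∃ᶠ x in 𝓝[S.U] y, x ∈ Q.R :=
        frequently_nhdsWithin_iff.2 ((mem_closure_iff_frequently.1 hc).mono fun x hx => ⟨hx, hx.1⟩)
      have hz0 : (b, t0) ∈ ball b ρ ×ˢ ball t0 ρ := ⟨hb, mem_ball_self hρ⟩
      rw [← hG0, ← (hG _ hz0).2.2.2.2, frequently_map] at h1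
      obtain ⟨z, hz1, hz2⟩ := (h1.and_eventually (hopen.mem_nhds hz0)).exists
      exact ⟨z.2, hz2.2, key z.2 hz2.2 z.1 hz2.1 hz1 b hb⟩)
    (fun t ht => ht.2.2.1.small)
    (fun t ht hcl hsm => by
      have hz : (b, t) ∈ ball b ρ ×ˢ ball t0 ρ := ⟨hb, ht⟩
      have hr := ld.reg_of_mem (hO _ hz) (hL _ (hU _ hz))
      have hlo : σ.Lo (Q.φ (G (b, t))) :=
        ⟨hr, hsm, Q.bd_of_subm hL (hU _ hz) hr (hG _ hz).2.2.1⟩
      have hcl' : G (b, t) ∈ closure Q.R :=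
        mem_closure_of_frequently_of_tendsto
          ((mem_closure_iff_frequently.1 hcl).mono fun t' ht' => ht'.2)
          (hGb.continuousOn.continuousAt (isOpen_ball.mem_nhds ht))
      exact ⟨ht, mem_of_mem_nhdsWithin (hU _ hz) (Q.R_mem_nhds hL (hU _ hz) hlo hcl')⟩)
    (by
      have h1 : DifferentiableOn ℂ (fun z => Q.Φ (G z))
          (ball b ρ ×ˢ {t | t ∈ ball t0 ρ ∧ G (b, t) ∈ Q.R}) :=
        (Q.hol_Φ_R hL).comp_differentiableOn (hGd.mono (prod_mono subset_rfl fun _ h => h.1))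
          fun z hz => key z.2 hz.2.1 b hb hz.2.2 z.1 hz.1
      exact h1.fst.prodMk h1.snd.fst)
    (fun x hx t ht => by
      have h1 := (key t ht.1 b hb ht.2 x hx).2.2.2.1
      rwa [hφ x hx b hb t ht.1] at h1)
    (fun t ht => by
      have hz : (b, t) ∈ ball b ρ ×ˢ ball t0 ρ := ⟨hb, ht.1⟩
      have hc1 : HasFDerivAt (fun x => G (x, t))
          ((fderiv ℂ G (b, t)).comp (ContinuousLinearMap.inl ℂ (ℂ × CN r) (CN k))) b :=
        (hGd.differentiableAt (hopen.mem_nhds hz)).hasFDerivAt.comp b (hasFDerivAt_prodMk_left b t)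
      have hev : ∀ᶠ x in 𝓝 b, G (x, t) ∈ S.U := by
        filter_upwards [isOpen_ball.mem_nhds hb] with x hx
        exact hU _ ⟨hx, ht.1⟩
      have hP := hasFDerivAt_comp_of_mem (c := fun x => G (x, t)) (Q.S4Wall_dΦ hL ht.2) hc1 hev
      have h3 := hP.snd.snd.unique ((hasFDerivAt_const t b).congr_of_eventuallyEq (by
        filter_upwards [isOpen_ball.mem_nhds hb] with x hx
        have hR := key t ht.1 b hb ht.2 x hx
        exact (Q.Φ_t hR.1 hR.2.2.1).trans (hG (x, t) ⟨hx, ht.1⟩).2.1))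
      rw [(hP.fst.prodMk hP.snd.fst).fderiv, injective_iff_map_eq_zero]
      intro d hd
      have hv := mem_tan_of_hasFDerivAt hc1 hev d
      have hd1 := congrArg Prod.fst hd
      have hd2 := congrArg Prod.snd hd
      have hd3 := congrArg (fun T => T d) h3
      have h4 := ht.2.2.2.2.2 _ hv (Prod.ext hd1 (Prod.ext hd2 hd3))
      have h5 : ((d, 0) : (ℂ × CN r) × CN k) = 0 :=
        (injective_iff_map_eq_zero _).1 (hG _ hz).2.2.2.1 _ h4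
      exact congrArg Prod.fst h5)
    (hZ.comp_differentiableOn (hGb.mono fun _ h => h.1) fun _ h => h.2)
    (fun t ht => (hZb _ ht.2).1) (fun t ht => (hZb _ ht.2).2)
  have h0 : t0 ∈ {t | t ∈ ball t0 ρ ∧ G (b, t) ∈ Q.R} := by
    rw [hT]
    exact mem_ball_self hρ
  rw [← hG0]
  exact h0.2

end Crest.Agent.R264.Seq
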