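import Crest.Agent.R264.SCV1b

/-! Row 264, P1: several complex variables (Harnack type estimates). -/

set_option autoImplicit false
open Set Filter Topology Metric Complex

noncomputable section
namespace Crest.Agent.R264
variable {E F : Type*} [NormedAddCommGroup E] [NormedSpace ℂ E] [FiniteDimensional ℂ E]
  [NormedAddCommGroup F] [NormedSpace ℂ F] [CompleteSpace F]

/-- A holomorphic function with `Im ≥ 0` and one real value is constant. -/
theorem eqOn_const_of_im_nonneg {f : E → ℂ} {O : Set E} (hO : IsOpen O) (hc : IsPreconnected O)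
    (hf : DifferentiableOn ℂ f O) (h : ∀ x ∈ O, 0 ≤ (f x).im) {a : E} (ha : a ∈ O)
    (h0 : (f a).im = 0) : ∀ x ∈ O, f x = f a := by
  have h1 : ∀ x ∈ O, 1 ≤ ‖f x - f a + I‖ := fun x hx => by
    refine le_trans ?_ (Complex.im_le_norm _)
    have := h x hx
    simp only [add_im, sub_im, I_im, h0]
    linarith
  have h2 : ∀ x ∈ O, f x - f a + I ≠ 0 := fun x hx h3 => by
    have := h1 x hx
    rw [h3, norm_zero] at this
    linarith
  have hd : DifferentiableOn ℂ (fun x => (f x - f a + I)⁻¹) O :=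
    ((hf.sub_const (f a)).add_const I).inv h2
  have hm : IsMaxOn (norm ∘ fun x => (f x - f a + I)⁻¹) O a := fun x hx => by
    simp only [mem_ofPred_eq, Function.comp, sub_self, zero_add, norm_inv, norm_I, inv_one]
    exact inv_le_one_of_one_le₀ (h1 x hx)
  intro x hx
  have := Complex.eqOn_of_isPreconnected_of_isMaxOn_norm hc hO hd ha hm hx
  simp only [Function.const, sub_self, zero_add, inv_inj] at this
  linear_combination this

omit [FiniteDimensional ℂ E] in
/-- Derivative bound for functions with positive imaginary part. -/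
theorem norm_fderiv_le_of_im_pos {f : E → ℂ} {x : E} {r : ℝ} (hr : 0 < r)
    (hf : DifferentiableOn ℂ f (ball x r)) (h : ∀ y ∈ ball x r, 0 < (f y).im) :
    ‖fderiv ℂ f x‖ ≤ 2 * (f x).im / r := by
  set w := f x with hw
  have hw0 : 0 < w.im := h x (mem_ball_self hr)
  have hne : ∀ z : ℂ, 0 < z.im → z - (starRingEnd ℂ) w ≠ 0 := fun z hz h3 => by
    have := congrArg Complex.im h3
    simp only [sub_im, conj_im, zero_im] at this
    linarith
  have hle : ∀ z : ℂ, 0 < z.im → ‖(z - w) / (z - (starRingEnd ℂ) w)‖ ≤ 1 := fun z hz => by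
    rw [norm_div, div_le_one (norm_pos_iff.2 (hne z hz)), ← sq_le_sq₀ (norm_nonneg _)
      (norm_nonneg _), Complex.sq_norm, Complex.sq_norm, normSq_apply, normSq_apply]
    simp only [sub_re, sub_im, conj_re, conj_im]
    nlinarith [mul_pos hz hw0]
  have hg : DifferentiableOn ℂ (fun y => (f y - w) / (f y - (starRingEnd ℂ) w)) (ball x r) := by
    simp only [div_eq_mul_inv]
    exact (hf.sub_const w).mul ((hf.sub_const _).inv fun y hy => hne _ (h y hy))
  have hb := norm_fderiv_le_of_ball hr hg fun y hy => hle _ (h y hy)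
  have hφ : HasDerivAt (fun z : ℂ => (z - w) / (z - (starRingEnd ℂ) w))
      ((w - (starRingEnd ℂ) w)⁻¹) (f x) := by
    have := ((hasDerivAt_id w).sub_const w).div ((hasDerivAt_id w).sub_const ((starRingEnd ℂ) w))
      (hne w hw0)
    have h5 := hne w hw0
    refine this.congr_deriv ?_
    simp only [id, sub_self, zero_mul, sub_zero, one_mul]
    field_simp
  have hfd : HasFDerivAt f (fderiv ℂ f x) x :=
    (hf.differentiableAt (ball_mem_nhds x hr)).hasFDerivAt
  have h6 := (hφ.comp_hasFDerivAt x hfd).fderiv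
  have h7 : ‖w - (starRingEnd ℂ) w‖ = 2 * w.im := by
    rw [Complex.sub_conj, norm_mul, norm_I, mul_one, Complex.norm_real, Real.norm_eq_abs,
      abs_of_pos (by positivity)]
  have h8 : fderiv ℂ (fun y => (f y - w) / (f y - (starRingEnd ℂ) w)) x =
      (w - (starRingEnd ℂ) w)⁻¹ • fderiv ℂ f x := h6
  rw [h8, norm_smul, norm_inv, h7, inv_mul_le_iff₀ (by positivity)] at hb
  refine hb.trans (le_of_eq ?_)
  ring

omit [FiniteDimensional ℂ E] in
private theorem SCV1_harnack_ball {f : E → ℂ} {x : E} {r : ℝ} (hr : 0 < r)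
    (hf : DifferentiableOn ℂ f (ball x r))
    (h : ∀ y ∈ ball x r, (f y).re ≠ 0 ∨ 0 < (f y).im) {y z : E}
    (hy : y ∈ ball x (r / 2)) (hz : z ∈ ball x (r / 2)) :
    ‖f y‖ ≤ Real.exp (8 * Real.pi) * ‖f z‖ := by
  have hs : ∀ u ∈ ball x r, -I * f u ∈ slitPlane := fun u hu => by
    rw [mem_slitPlane_iff]
    rcases h u hu with h1 | h1
    · right
      simpa using h1
    · left
      simpa using h1
  have hL : DifferentiableOn ℂ (fun u => log (-I * f u) + Real.pi * I) (ball x r) :=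
    ((hf.const_mul (-I)).clog hs).add_const _
  have him : ∀ u, (log (-I * f u) + Real.pi * I).im = arg (-I * f u) + Real.pi := fun u => by
    simp [log_im]
  have hre : ∀ u, (log (-I * f u) + Real.pi * I).re = Real.log ‖f u‖ := fun u => by
    simp [log_re]
  have hsub : ball x (r / 2) ⊆ ball x r := ball_subset_ball (by linarith)
  have hb : ∀ u ∈ ball x (r / 2),
      ‖fderiv ℂ (fun u => log (-I * f u) + Real.pi * I) u‖ ≤ 8 * Real.pi / r := fun u hu => by
    refine (norm_fderiv_le_of_im_pos (half_pos hr) (hL.mono (SCV.ball_half_subset hu))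
      fun v _ => ?_).trans ?_
    · rw [him]
      linarith [neg_pi_lt_arg (-I * f v)]
    · rw [him, div_le_div_iff₀ (half_pos hr) hr]
      have := arg_le_pi (-I * f u)
      nlinarith
  have h1 := (convex_ball x (r / 2)).norm_image_sub_le_of_norm_fderiv_le (𝕜 := ℂ)
    (fun u hu => hL.differentiableAt (isOpen_ball.mem_nhds (hsub hu))) hb hz hy
  have h2 : ‖y - z‖ ≤ r := by
    rw [← dist_eq_norm]
    linarith [dist_triangle_right y z x, mem_ball.1 hy, mem_ball.1 hz]
  have h3 : 8 * Real.pi / r * ‖y - z‖ ≤ 8 * Real.pi := by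
    calc 8 * Real.pi / r * ‖y - z‖ ≤ 8 * Real.pi / r * r := by
          have := Real.pi_pos
          gcongr
      _ = 8 * Real.pi := by field_simp
  have h4 := (Complex.re_le_norm _).trans (h1.trans h3)
  rw [sub_re, hre, hre] at h4
  have hpos : ∀ u ∈ ball x r, 0 < ‖f u‖ := fun u hu => by
    refine norm_pos_iff.2 fun h0 => ?_
    have := h u hu
    simp [h0] at this
  rw [← Real.exp_log (hpos y (hsub hy)), ← Real.exp_log (hpos z (hsub hz)), ← Real.exp_add]
  exact Real.exp_le_exp.2 (by linarith)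

/-- Harnack inequality for functions omitting the ray `-i [0, ∞)`. -/
theorem harnack_ray {O C : Set E} (hO : IsOpen O) (hc : IsPreconnected O) (hC : IsCompact C)
    (hCO : C ⊆ O) : ∃ A : ℝ, ∀ f : E → ℂ, DifferentiableOn ℂ f O →
      (∀ x ∈ O, (f x).re ≠ 0 ∨ 0 < (f x).im) → ∀ x ∈ C, ∀ y ∈ C, ‖f x‖ ≤ A * ‖f y‖ := by
  rcases C.eq_empty_or_nonempty with rfl | ⟨a, ha⟩
  · exact ⟨0, fun f _ _ x hx => hx.elim⟩
  have loc : ∀ x ∈ O, ∃ s ∈ 𝓝 x, ∀ f : E → ℂ, DifferentiableOn ℂ f O →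
      (∀ x ∈ O, (f x).re ≠ 0 ∨ 0 < (f x).im) → ∀ y ∈ s, ∀ z ∈ s,
        ‖f y‖ ≤ Real.exp (8 * Real.pi) * ‖f z‖ := fun x hx => by
    obtain ⟨r, hr, hsub⟩ := Metric.isOpen_iff.1 hO x hx
    exact ⟨ball x (r / 2), ball_mem_nhds x (half_pos hr), fun f hf h y hy z hz =>
      SCV1_harnack_ball hr (hf.mono hsub) (fun u hu => h u (hsub hu)) hy hz⟩
  have rel : ∀ x ∈ O, ∀ y ∈ O, ∃ A : ℝ, 0 ≤ A ∧ ∀ f : E → ℂ, DifferentiableOn ℂ f O →
      (∀ x ∈ O, (f x).re ≠ 0 ∨ 0 < (f x).im) → ‖f x‖ ≤ A * ‖f y‖ := fun x hx y hy => by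
    refine hc.induction₂' (fun x y => ∃ A : ℝ, 0 ≤ A ∧ ∀ f : E → ℂ, DifferentiableOn ℂ f O →
      (∀ x ∈ O, (f x).re ≠ 0 ∨ 0 < (f x).im) → ‖f x‖ ≤ A * ‖f y‖) (fun x hx => ?_) ?_ hx hy
    · obtain ⟨s, hs, h⟩ := loc x hx
      filter_upwards [mem_nhdsWithin_of_mem_nhds hs] with y hy
      exact ⟨⟨_, (Real.exp_pos _).le, fun f hf h' => h f hf h' x (mem_of_mem_nhds hs) y hy⟩,
        ⟨_, (Real.exp_pos _).le, fun f hf h' => h f hf h' y hy x (mem_of_mem_nhds hs)⟩⟩
    · rintro x y z - - - ⟨A, hA, h1⟩ ⟨B, hB, h2⟩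
      refine ⟨A * B, mul_nonneg hA hB, fun f hf h => (h1 f hf h).trans ?_⟩
      rw [mul_assoc]
      exact mul_le_mul_of_nonneg_left (h2 f hf h) hA
  have key : ∃ A : ℝ, 0 ≤ A ∧ ∀ f : E → ℂ, DifferentiableOn ℂ f O →
      (∀ x ∈ O, (f x).re ≠ 0 ∨ 0 < (f x).im) → ∀ x ∈ C,
        ‖f x‖ ≤ A * ‖f a‖ ∧ ‖f a‖ ≤ A * ‖f x‖ := by
    refine hC.induction_on (p := fun S => ∃ A : ℝ, 0 ≤ A ∧ ∀ f : E → ℂ, DifferentiableOn ℂ f O →
      (∀ x ∈ O, (f x).re ≠ 0 ∨ 0 < (f x).im) → ∀ x ∈ S,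
        ‖f x‖ ≤ A * ‖f a‖ ∧ ‖f a‖ ≤ A * ‖f x‖) ⟨0, le_rfl, fun f _ _ x hx => hx.elim⟩ ?_ ?_ ?_
    · rintro s t hst ⟨A, hA, h⟩
      exact ⟨A, hA, fun f hf h' x hx => h f hf h' x (hst hx)⟩
    · rintro s t ⟨A, hA, h1⟩ ⟨B, hB, h2⟩
      refine ⟨max A B, le_max_of_le_left hA, fun f hf h x hx => ?_⟩
      rcases hx with hx | hx
      · exact ⟨(h1 f hf h x hx).1.trans (by gcongr; exact le_max_left _ _),
          (h1 f hf h x hx).2.trans (by gcongr; exact le_max_left _ _)⟩
      · exact ⟨(h2 f hf h x hx).1.trans (by gcongr; exact le_max_right _ _),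
          (h2 f hf h x hx).2.trans (by gcongr; exact le_max_right _ _)⟩
    · intro x hx
      obtain ⟨s, hs, h⟩ := loc x (hCO hx)
      obtain ⟨A, hA, h1⟩ := rel x (hCO hx) a (hCO ha)
      obtain ⟨B, hB, h2⟩ := rel a (hCO ha) x (hCO hx)
      have he := Real.exp_pos (8 * Real.pi)
      refine ⟨s, mem_nhdsWithin_of_mem_nhds hs, Real.exp (8 * Real.pi) * max A B,
        mul_nonneg he.le (le_max_of_le_left hA), fun f hf h' y hy => ⟨?_, ?_⟩⟩
      · refine (h f hf h' y hy x (mem_of_mem_nhds hs)).trans ?_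
        rw [mul_assoc]
        refine mul_le_mul_of_nonneg_left ((h1 f hf h').trans ?_) he.le
        gcongr
        exact le_max_left _ _
      · refine (h2 f hf h').trans ?_
        calc B * ‖f x‖ ≤ max A B * (Real.exp (8 * Real.pi) * ‖f y‖) :=
              mul_le_mul (le_max_right _ _) (h f hf h' x (mem_of_mem_nhds hs) y hy)
                (norm_nonneg _) (le_max_of_le_left hA)
          _ = Real.exp (8 * Real.pi) * max A B * ‖f y‖ := by ring
  obtain ⟨A, hA, h⟩ := key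
  refine ⟨A * A, fun f hf h' x hx y hy => (h f hf h' x hx).1.trans ?_⟩
  rw [mul_assoc]
  exact mul_le_mul_of_nonneg_left (h f hf h' y hy).2 hA

end Crest.Agent.R264
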