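import Crest.Agent.R264.Defs
import Crest.Agent.R264.Osgood

/-! Row 264, P1: several complex variables (Cauchy estimates, Montel). -/

set_option autoImplicit false
open Set Filter Topology Metric Complex

noncomputable section
namespace Crest.Agent.R264
variable {E F : Type*} [NormedAddCommGroup E] [NormedSpace ℂ E] [FiniteDimensional ℂ E]
  [NormedAddCommGroup F] [NormedSpace ℂ F] [CompleteSpace F]

omit [FiniteDimensional ℂ E] in
/-- Cauchy estimate. -/
theorem norm_fderiv_le_of_ball {f : E → F} {x : E} {r C : ℝ} (hr : 0 < r)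
    (hf : DifferentiableOn ℂ f (ball x r)) (hC : ∀ y ∈ ball x r, ‖f y‖ ≤ C) :
    ‖fderiv ℂ f x‖ ≤ C / r := by
  have hC0 : 0 ≤ C := (norm_nonneg _).trans (hC x (mem_ball_self hr))
  refine ContinuousLinearMap.opNorm_le_bound _ (by positivity) fun v => ?_
  rcases eq_or_ne v 0 with rfl | hv
  · simp
  have hv0 : 0 < ‖v‖ := norm_pos_iff.2 hv
  have hm : ∀ t : ℂ, ‖t‖ < r / ‖v‖ → x + t • v ∈ ball x r := fun t ht => by
    rw [mem_ball_iff_norm, add_sub_cancel_left, norm_smul]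
    exact (lt_div_iff₀ hv0).1 ht
  have hd : DifferentiableOn ℂ (fun t : ℂ => f (x + t • v)) (ball 0 (r / ‖v‖)) :=
    hf.comp (by fun_prop) fun t ht => hm t (mem_ball_zero_iff.1 ht)
  have h0 : HasDerivAt (fun t : ℂ => f (x + t • v)) (fderiv ℂ f x v) 0 := by
    have h1 : HasDerivAt (fun t : ℂ => x + t • v) v 0 := by
      simpa using ((hasDerivAt_id (0 : ℂ)).smul_const v).const_add x
    have h2 : HasFDerivAt f (fderiv ℂ f x) (x + (0 : ℂ) • v) := by
      simpa using (hf.differentiableAt (ball_mem_nhds x hr)).hasFDerivAt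
    exact h2.comp_hasDerivAt (0 : ℂ) h1
  have key : ∀ ρ ∈ Ioo 0 (r / ‖v‖), ‖fderiv ℂ f x v‖ ≤ C / ρ := fun ρ hρ => by
    rw [← h0.deriv]
    refine Complex.norm_deriv_le_of_forall_mem_sphere_norm_le hρ.1
      (hd.diffContOnCl_ball (closedBall_subset_ball hρ.2)) fun z hz => hC _ (hm z ?_)
    rw [mem_sphere_zero_iff_norm.1 hz]
    exact hρ.2
  have hR : 0 < r / ‖v‖ := by positivity
  have hlim : Tendsto (fun ρ : ℝ => C / ρ) (𝓝[<] (r / ‖v‖)) (𝓝 (C / (r / ‖v‖))) :=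
    (tendsto_const_nhds.div tendsto_id hR.ne').mono_left nhdsWithin_le_nhds
  refine (ge_of_tendsto hlim (mem_of_superset (Ioo_mem_nhdsLT hR) key)).trans (le_of_eq ?_)
  field_simp

omit [FiniteDimensional ℂ E] in
/-- Bounded holomorphic maps are Lipschitz on the half ball. -/
theorem norm_sub_le_of_ball {f : E → F} {x : E} {r C : ℝ} (hr : 0 < r)
    (hf : DifferentiableOn ℂ f (ball x r)) (hC : ∀ y ∈ ball x r, ‖f y‖ ≤ C) {y z : E}
    (hy : y ∈ ball x (r / 2)) (hz : z ∈ ball x (r / 2)) : ‖f y - f z‖ ≤ 2 * C / r * ‖y - z‖ := by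
  refine (convex_ball x (r / 2)).norm_image_sub_le_of_norm_fderiv_le (𝕜 := ℂ) (fun w hw => ?_)
    (fun w hw => ?_) hz hy
  · exact hf.differentiableAt (isOpen_ball.mem_nhds (ball_subset_ball (by linarith) hw))
  · refine (norm_fderiv_le_of_ball (half_pos hr) (hf.mono (SCV.ball_half_subset hw))
      fun u hu => hC u (SCV.ball_half_subset hw hu)).trans (le_of_eq ?_)
    field_simp

omit [FiniteDimensional ℂ E] in
/-- Second order Taylor estimate. -/
theorem norm_taylor_le_of_ball {f : E → F} {x : E} {r C : ℝ} (hr : 0 < r)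
    (hf : DifferentiableOn ℂ f (ball x r)) (hC : ∀ y ∈ ball x r, ‖f y‖ ≤ C) {v : E}
    (hv : ‖v‖ ≤ r / 2) : ‖f (x + v) - f x - fderiv ℂ f x v‖ ≤ 8 * C / r ^ 2 * ‖v‖ ^ 2 := by
  have hC0 : 0 ≤ C := (norm_nonneg _).trans (hC x (mem_ball_self hr))
  have := SCV.norm_sub_sub_fderiv_le hf hC (z := x + v) (by
    rw [mem_ball_iff_norm, add_sub_cancel_left]; linarith)
  rw [add_sub_cancel_left] at this
  refine this.trans ?_
  have e : 8 * C / r ^ 2 * ‖v‖ ^ 2 = 8 * C * (‖v‖ / r) ^ 2 := by field_simp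
  rw [e]
  exact mul_le_mul_of_nonneg_right (by linarith) (sq_nonneg _)

/-- The family `f` is, near every point of `O`, eventually holomorphic and uniformly bounded. -/
def LocBdd {ι E F : Type*} [NormedAddCommGroup E] [NormedSpace ℂ E] [NormedAddCommGroup F]
    [NormedSpace ℂ F] (l : Filter ι) (f : ι → E → F) (O : Set E) : Prop :=
  ∀ x ∈ O, ∃ r > 0, ∃ C : ℝ, ∀ᶠ j in l,
    DifferentiableOn ℂ (f j) (ball x r) ∧ ∀ y ∈ ball x r, ‖f j y‖ ≤ C

private theorem SCV1a_ball {ι : Type*} {l : Filter ι} [l.NeBot] {f : ι → E → F} {g : E → F}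
    {O : Set E} (hO : IsOpen O) (hf : LocBdd l f O)
    (hg : ∀ x ∈ O, Tendsto (fun j => f j x) l (𝓝 (g x))) {x : E} (hx : x ∈ O) :
    ∃ r > 0, (∀ᶠ j in l, DifferentiableOn ℂ (f j) (ball x r)) ∧
      TendstoUniformlyOn f g l (ball x r) := by
  obtain ⟨r0, hr0, C, h⟩ := hf x hx
  obtain ⟨r1, hr1, hsub⟩ := Metric.isOpen_iff.1 hO x hx
  set r := min r0 r1 with hrd
  have hr : 0 < r := lt_min hr0 hr1
  have h' : ∀ᶠ j in l, DifferentiableOn ℂ (f j) (ball x r) ∧ ∀ y ∈ ball x r, ‖f j y‖ ≤ C :=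
    h.mono fun j hj => ⟨hj.1.mono (ball_subset_ball (min_le_left _ _)),
      fun y hy => hj.2 y (ball_subset_ball (min_le_left _ _) hy)⟩
  have hO' : ∀ y ∈ ball x (r / 2), y ∈ O := fun y hy =>
    hsub (ball_subset_ball ((half_le_self hr.le).trans (min_le_right _ _)) hy)
  have hC : 0 ≤ C := by
    obtain ⟨j, hj⟩ := h'.exists
    exact (norm_nonneg _).trans (hj.2 x (mem_ball_self hr))
  have hL : 0 ≤ 2 * C / r := by positivity
  have hgL : ∀ y ∈ ball x (r / 2), ∀ z ∈ ball x (r / 2), ‖g y - g z‖ ≤ 2 * C / r * ‖y - z‖ :=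
    fun y hy z hz => le_of_tendsto ((hg y (hO' y hy)).sub (hg z (hO' z hz))).norm
      (h'.mono fun j hj => norm_sub_le_of_ball hr hj.1 hj.2 hy hz)
  refine ⟨r / 4, by positivity, h'.mono fun j hj => hj.1.mono (ball_subset_ball (by linarith)), ?_⟩
  have := FiniteDimensional.proper ℂ E
  rw [Metric.tendstoUniformlyOn_iff]
  intro ε hε
  have hδ : 0 < ε / 3 / (2 * C / r + 1) := by positivity
  obtain ⟨T, hT, hTf, hcov⟩ := finite_cover_balls_of_compact (isCompact_closedBall x (r / 4)) hδ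
  have hT' : ∀ t ∈ T, t ∈ ball x (r / 2) := fun t ht =>
    closedBall_subset_ball (by linarith) (hT ht)
  have he : ∀ᶠ j in l, ∀ t ∈ T, dist (f j t) (g t) < ε / 3 :=
    (eventually_all_finite hTf).2 fun t ht =>
      Metric.tendsto_nhds.1 (hg t (hO' t (hT' t ht))) _ (by positivity)
  filter_upwards [he, h'] with j h1 h2 y hy
  obtain ⟨t, ht, hyt⟩ := mem_iUnion₂.1 (hcov (ball_subset_closedBall hy))
  have hy' : y ∈ ball x (r / 2) := ball_subset_ball (by linarith) hy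
  have a0 : 2 * C / r * ‖y - t‖ ≤ ε / 3 := by
    have b1 : ‖y - t‖ * (2 * C / r + 1) < ε / 3 :=
      (lt_div_iff₀ (by positivity)).1 (mem_ball_iff_norm.1 hyt)
    nlinarith [norm_nonneg (y - t)]
  have a1 := (hgL y hy' t (hT' t ht)).trans a0
  have a2 := (norm_sub_le_of_ball hr h2.1 h2.2 hy' (hT' t ht)).trans a0
  have a3 := h1 t ht
  rw [← dist_eq_norm] at a1 a2
  have a4 := dist_triangle4 (g y) (g t) (f j t) (f j y)
  rw [dist_comm (g t), dist_comm (f j t) (f j y)] at a4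
  linarith

/-- Vitali–Montel–Weierstrass along a filter. -/
theorem montel {ι : Type*} {l : Filter ι} [l.NeBot] {f : ι → E → F} {g : E → F} {O : Set E}
    (hO : IsOpen O) (hf : LocBdd l f O) (hg : ∀ x ∈ O, Tendsto (fun j => f j x) l (𝓝 (g x))) :
    DifferentiableOn ℂ g O ∧ TendstoLocallyUniformlyOn f g l O ∧
      TendstoLocallyUniformlyOn (fun j => fderiv ℂ (f j)) (fderiv ℂ g) l O := by
  refine ⟨fun x hx => ?_, fun u hu x hx => ?_, fun u hu x hx => ?_⟩
  · obtain ⟨r, hr, h1, h2⟩ := SCV1a_ball hO hf hg hx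
    exact ((SCV.weierstrass_ball h1 h2).1 x (mem_ball_self (half_pos hr))).differentiableWithinAt
  · obtain ⟨r, hr, -, h2⟩ := SCV1a_ball hO hf hg hx
    exact ⟨_, mem_nhdsWithin_of_mem_nhds (ball_mem_nhds x hr), h2 u hu⟩
  · obtain ⟨r, hr, h1, h2⟩ := SCV1a_ball hO hf hg hx
    exact ⟨_, mem_nhdsWithin_of_mem_nhds (ball_mem_nhds x (half_pos hr)),
      (SCV.weierstrass_ball h1 h2).2 u hu⟩

/-- Moving points. -/
theorem montel_tendsto {ι : Type*} {l : Filter ι} [l.NeBot] {f : ι → E → F} {g : E → F}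
    {O : Set E} (hO : IsOpen O) (hf : LocBdd l f O)
    (hg : ∀ x ∈ O, Tendsto (fun j => f j x) l (𝓝 (g x))) {a : ι → E} {x : E} (hx : x ∈ O)
    (ha : Tendsto a l (𝓝 x)) :
    Tendsto (fun j => f j (a j)) l (𝓝 (g x)) ∧
      Tendsto (fun j => fderiv ℂ (f j) (a j)) l (𝓝 (fderiv ℂ g x)) := by
  obtain ⟨h1, h2, h3⟩ := montel hO hf hg
  have ha' : Tendsto a l (𝓝[O] x) := by rwa [hO.nhdsWithin_eq hx]
  exact ⟨h2.tendsto_comp (h1.continuousOn x hx) hx ha',
    h3.tendsto_comp ((SCV.differentiableOn_fderiv hO h1).continuousOn x hx) hx ha'⟩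

end Crest.Agent.R264
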