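import Crest.Agent.R264.SCV1a
import Crest.Agent.R264.Osgood

/-! Row 264, P1: several complex variables (Osgood, identity theorem). -/

set_option autoImplicit false
open Set Filter Topology Metric Complex

noncomputable section
namespace Crest.Agent.R264
variable {E F : Type*} [NormedAddCommGroup E] [NormedSpace ℂ E] [FiniteDimensional ℂ E]
  [NormedAddCommGroup F] [NormedSpace ℂ F] [CompleteSpace F]

/-- Osgood: the derivative of a holomorphic map is holomorphic. -/
theorem differentiableOn_fderiv {f : E → F} {O : Set E} (hO : IsOpen O)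
    (hf : DifferentiableOn ℂ f O) : DifferentiableOn ℂ (fderiv ℂ f) O := by
  exact SCV.differentiableOn_fderiv hO hf

theorem contDiffOn_of_differentiableOn {f : E → F} {O : Set E} (hO : IsOpen O)
    (hf : DifferentiableOn ℂ f O) (m : ℕ) : ContDiffOn ℂ m f O := by
  exact SCV.contDiffOn_nat hO m hf

theorem analyticOnNhd_of_differentiableOn {f : E → F} {O : Set E} (hO : IsOpen O)
    (hf : DifferentiableOn ℂ f O) : AnalyticOnNhd ℂ f O := by
  exact SCV.analyticOnNhd hO hf

theorem hasStrictFDerivAt_of_differentiableOn {f : E → F} {O : Set E} (hO : IsOpen O)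
    (hf : DifferentiableOn ℂ f O) {x : E} (hx : x ∈ O) :
    HasStrictFDerivAt f (fderiv ℂ f x) x := by
  exact (SCV.analyticOnNhd hO hf x hx).hasStrictFDerivAt

/-- Identity theorem. -/
theorem eqOn_of_eventuallyEq {f g : E → F} {O : Set E} (hO : IsOpen O) (hc : IsPreconnected O)
    (hf : DifferentiableOn ℂ f O) (hg : DifferentiableOn ℂ g O) {x : E} (hx : x ∈ O)
    (h : f =ᶠ[𝓝 x] g) : EqOn f g O := by
  exact SCV.eqOn_of_eventuallyEq hO hc hf hg hx h

end Crest.Agent.R264
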