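import Crest.Agent.R264.SCV1

/-! Row 264, P1: several complex variables (inverse functions, Hurwitz). -/

set_option autoImplicit false
open Set Filter Topology Metric Complex

noncomputable section
namespace Crest.Agent.R264
variable {E E' F : Type*} [NormedAddCommGroup E] [NormedSpace ℂ E] [FiniteDimensional ℂ E]
  [NormedAddCommGroup E'] [NormedSpace ℂ E'] [FiniteDimensional ℂ E']
  [NormedAddCommGroup F] [NormedSpace ℂ F] [CompleteSpace F]

omit [FiniteDimensional ℂ E'] in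
theorem SCV2a_equiv {A : E →L[ℂ] E'} (hb : Function.Bijective A) :
    ∃ e : E ≃L[ℂ] E', (e : E →L[ℂ] E') = A :=
  ⟨(LinearEquiv.ofBijective (A : E →ₗ[ℂ] E') hb).toContinuousLinearEquiv, by ext; rfl⟩

/-- Holomorphic inverse function theorem. -/
theorem exists_local_inverse {f : E → E'} {O : Set E} (hO : IsOpen O) (hf : DifferentiableOn ℂ f O)
    {a : E} (ha : a ∈ O) (hb : Function.Bijective (fderiv ℂ f a)) :
    ∃ (A : Set E) (B : Set E') (g : E' → E), IsOpen A ∧ a ∈ A ∧ A ⊆ O ∧ IsOpen B ∧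
      DifferentiableOn ℂ g B ∧ MapsTo f A B ∧ MapsTo g B A ∧ (∀ x ∈ A, g (f x) = x) ∧
      (∀ y ∈ B, f (g y) = y) := by
  have := FiniteDimensional.complete ℂ E
  have := FiniteDimensional.complete ℂ E'
  obtain ⟨e, he⟩ := SCV2a_equiv hb
  have hc : ContDiffAt ℂ 1 f a :=
    (contDiffOn_of_differentiableOn hO hf 1).contDiffAt (hO.mem_nhds ha)
  have hd : HasFDerivAt f (e : E →L[ℂ] E') a := by
    rw [he]; exact (hf.differentiableAt (hO.mem_nhds ha)).hasFDerivAt
  set Φ := hc.toOpenPartialHomeomorph f hd one_ne_zero with hΦ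
  have hΦf : (Φ : E → E') = f := rfl
  have h1 : ContDiffAt ℂ 1 Φ.symm (f a) := hc.to_localInverse hd one_ne_zero
  obtain ⟨B0, hB0, hB0o, haB0⟩ := _root_.eventually_nhds_iff.1 (h1.eventually (by simp))
  have haΦ : a ∈ Φ.source := hc.mem_toOpenPartialHomeomorph_source hd one_ne_zero
  refine ⟨Φ.source ∩ f ⁻¹' B0 ∩ O, Φ.target ∩ Φ.symm ⁻¹' O ∩ B0, Φ.symm,
    (Φ.isOpen_inter_preimage hB0o).inter hO, ⟨⟨haΦ, haB0⟩, ha⟩, inter_subset_right,
    (Φ.isOpen_inter_preimage_symm hO).inter hB0o,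
    fun y hy => ((hB0 y hy.2).differentiableAt one_ne_zero).differentiableWithinAt, ?_, ?_,
    fun x hx => Φ.left_inv hx.1.1, fun y hy => Φ.right_inv hy.1.1⟩
  · intro x hx
    refine ⟨⟨Φ.map_source hx.1.1, ?_⟩, hx.1.2⟩
    have : Φ.symm (f x) = x := Φ.left_inv hx.1.1
    rw [mem_preimage, this]
    exact hx.2
  · intro y hy
    refine ⟨⟨Φ.map_target hy.1.1, ?_⟩, hy.1.2⟩
    have : f (Φ.symm y) = y := Φ.right_inv hy.1.1
    rw [mem_preimage, this]
    exact hy.2

/-- An injective holomorphic map with bijective derivatives has an open image and a holomorphic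
inverse. -/
theorem exists_inverse_of_injOn {f : E → E'} {O : Set E} (hO : IsOpen O)
    (hf : DifferentiableOn ℂ f O) (hi : InjOn f O)
    (hb : ∀ a ∈ O, Function.Bijective (fderiv ℂ f a)) :
    IsOpen (f '' O) ∧ ∃ g : E' → E, DifferentiableOn ℂ g (f '' O) ∧ ∀ x ∈ O, g (f x) = x := by
  have hl : ∀ x ∈ O, Function.invFunOn f O (f x) = x := fun x hx => hi.leftInvOn_invFunOn hx
  refine ⟨isOpen_iff_mem_nhds.2 ?_, Function.invFunOn f O, ?_, hl⟩
  · rintro _ ⟨a, ha, rfl⟩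
    obtain ⟨A, B, g, -, haA, hAO, hB, -, h1, h2, -, h4⟩ := exists_local_inverse hO hf ha (hb a ha)
    exact mem_of_superset (hB.mem_nhds (h1 haA)) fun y hy => ⟨g y, hAO (h2 hy), h4 y hy⟩
  · rintro _ ⟨a, ha, rfl⟩
    obtain ⟨A, B, g, -, haA, hAO, hB, hg, h1, h2, -, h4⟩ := exists_local_inverse hO hf ha (hb a ha)
    have hn := hB.mem_nhds (h1 haA)
    refine ((hg.differentiableAt hn).congr_of_eventuallyEq ?_).differentiableWithinAt
    filter_upwards [hn] with y hy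
    conv_lhs => rw [← h4 y hy]
    exact hl _ (hAO (h2 hy))

/-- Stability of solutions of `f x = b` under locally uniform convergence. -/
theorem exists_preimage_tendsto {ι : Type*} {l : Filter ι} [l.NeBot] {f : ι → E → E'} {g : E → E'}
    {O : Set E} (hO : IsOpen O) (hf : LocBdd l f O)
    (hg : ∀ x ∈ O, Tendsto (fun j => f j x) l (𝓝 (g x))) {a : E} (ha : a ∈ O)
    (hb : Function.Bijective (fderiv ℂ g a)) {b : ι → E'} (hlim : Tendsto b l (𝓝 (g a))) :
    ∃ x : ι → E, Tendsto x l (𝓝 a) ∧ ∀ᶠ j in l, f j (x j) = b j := by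
  classical
  have := FiniteDimensional.complete ℂ E
  have := FiniteDimensional.complete ℂ E'
  obtain ⟨e, he⟩ := SCV2a_equiv hb
  obtain ⟨hgd, -, hU⟩ := montel hO hf hg
  obtain ⟨N, hN⟩ : ∃ N : NNReal, N = ‖(e.symm : E' →L[ℂ] E)‖₊ + 1 := ⟨_, rfl⟩
  have hN' : (N : ℝ) = ‖(e.symm : E' →L[ℂ] E)‖ + 1 := by rw [hN]; simp
  have hN0 : (0 : ℝ) < N := by rw [hN']; positivity
  have hNb : ∀ y, ‖e.symm y‖ ≤ N * ‖y‖ := fun y =>
    ((e.symm : E' →L[ℂ] E).le_opNorm y).trans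
      (mul_le_mul_of_nonneg_right (by rw [hN']; linarith) (norm_nonneg _))
  let R : (e : E →L[ℂ] E').NonlinearRightInverse :=
    ⟨e.symm, N, hNb, fun y => e.apply_symm_apply y⟩
  obtain ⟨c, hc⟩ : ∃ c : NNReal, (c : ℝ) = (N : ℝ)⁻¹ / 2 := ⟨⟨(N : ℝ)⁻¹ / 2, by positivity⟩, rfl⟩
  have hc0 : (0 : ℝ) < c := by rw [hc]; positivity
  obtain ⟨r, hr, C, hC⟩ := hf a ha
  obtain ⟨t, ht, hUt⟩ := Metric.tendstoLocallyUniformlyOn_iff.1 hU (c / 2) (by positivity) a ha
  rw [hO.nhdsWithin_eq ha] at ht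
  have hcont : ContinuousAt (fderiv ℂ g) a :=
    ((differentiableOn_fderiv hO hgd).differentiableAt (hO.mem_nhds ha)).continuousAt
  have h1 : ∀ᶠ y in 𝓝 a, y ∈ t ∧ y ∈ ball a r ∧ dist (fderiv ℂ g y) (fderiv ℂ g a) < c / 2 :=
    (show ∀ᶠ y in 𝓝 a, y ∈ t from ht).and ((show ∀ᶠ y in 𝓝 a, y ∈ ball a r from
      ball_mem_nhds a hr).and (Metric.tendsto_nhds.1 hcont _ (by positivity)))
  obtain ⟨ρ, hρ, hρs⟩ := nhds_basis_closedBall.eventually_iff.1 h1
  have hA : ∀ᶠ j in l, ApproximatesLinearOn (f j) (e : E →L[ℂ] E') (closedBall a ρ) c := by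
    filter_upwards [hC, hUt] with j h2 h3 x hx y hy
    refine (convex_closedBall a ρ).norm_image_sub_le_of_norm_fderiv_le' (fun z hz => ?_)
      (fun z hz => ?_) hy hx
    · exact h2.1.differentiableAt (isOpen_ball.mem_nhds (hρs hz).2.1)
    · rw [he, ← dist_eq_norm]
      have a1 := h3 z (hρs hz).1
      have a2 := (hρs hz).2.2
      have a3 := dist_triangle_left (fderiv ℂ (f j) z) (fderiv ℂ g a) (fderiv ℂ g z)
      linarith
  have hbd : Tendsto (fun j => dist (b j) (f j a)) l (𝓝 0) := by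
    simpa using hlim.dist (hg a ha)
  have hS : ∀ᶠ j in l, ∃ x ∈ closedBall a ρ, f j x = b j := by
    filter_upwards [hA, hbd.eventually (gt_mem_nhds (mul_pos hc0 hρ))] with j h2 h3
    refine h2.surjOn_closedBall_of_nonlinearRightInverse R hρ.le Subset.rfl ?_
    have : ((R.nnnorm : ℝ)⁻¹ - c) = c := by
      change (N : ℝ)⁻¹ - c = c
      rw [hc]; ring
    rw [mem_closedBall, this]
    exact h3.le
  let x : ι → E := fun j => if h : ∃ x ∈ closedBall a ρ, f j x = b j then h.choose else a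
  have hx : ∀ᶠ j in l, x j ∈ closedBall a ρ ∧ f j (x j) = b j := by
    filter_upwards [hS] with j h
    simp only [x, dif_pos h]
    exact h.choose_spec
  refine ⟨x, ?_, hx.mono fun j h => h.2⟩
  rw [tendsto_iff_norm_sub_tendsto_zero]
  have hlim2 : Tendsto (fun j => 2 * N * dist (b j) (f j a)) l (𝓝 0) := by
    simpa using hbd.const_mul (2 * (N : ℝ))
  refine squeeze_zero' (Eventually.of_forall fun _ => norm_nonneg _) ?_ hlim2
  filter_upwards [hA, hx] with j h2 h3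
  have a1 := h2 (x j) h3.1 a (mem_closedBall_self hρ.le)
  rw [h3.2] at a1
  have a2 := hNb (e (x j - a))
  rw [e.symm_apply_apply] at a2
  have a3 : ‖e (x j - a)‖ ≤ ‖b j - f j a‖ + ‖b j - f j a - (e : E →L[ℂ] E') (x j - a)‖ := by
    have := norm_sub_le (b j - f j a) (b j - f j a - (e : E →L[ℂ] E') (x j - a))
    rwa [sub_sub_cancel] at this
  rw [dist_eq_norm]
  have a4 : (N : ℝ) * c = 1 / 2 := by rw [hc]; field_simp
  have a5 := mul_le_mul_of_nonneg_left (a3.trans (add_le_add le_rfl a1)) hN0.le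
  rw [mul_add, ← mul_assoc, a4] at a5
  linarith

/-- Hurwitz theorem for functions. -/
theorem hurwitz {ι : Type*} {l : Filter ι} [l.NeBot] {f : ι → E → ℂ} {g : E → ℂ}
    {O : Set E} (hO : IsOpen O) (hc : IsPreconnected O) (hf : LocBdd l f O)
    (hg : ∀ x ∈ O, Tendsto (fun j => f j x) l (𝓝 (g x)))
    (hne : ∀ x ∈ O, ∃ r > 0, ∀ᶠ j in l, ∀ y ∈ ball x r, f j y ≠ 0) {a : E} (ha : a ∈ O)
    (h0 : g a ≠ 0) : ∀ x ∈ O, g x ≠ 0 := by
  intro x hx hx0
  obtain ⟨hgd, hU, -⟩ := montel hO hf hg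
  obtain ⟨r1, hr1, C, hC⟩ := hf x hx
  obtain ⟨r2, hr2, hne2⟩ := hne x hx
  obtain ⟨r3, hr3, hr3O⟩ := Metric.isOpen_iff.1 hO x hx
  obtain ⟨ρ, hρ, hρ1, hρ2, hρ3⟩ : ∃ ρ > 0, ρ ≤ r1 ∧ ρ ≤ r2 ∧ ρ ≤ r3 :=
    ⟨min r1 (min r2 r3), by positivity, min_le_left _ _,
      (min_le_right _ _).trans (min_le_left _ _), (min_le_right _ _).trans (min_le_right _ _)⟩
  have hρO : ball x ρ ⊆ O := (ball_subset_ball hρ3).trans hr3O
  obtain ⟨y, hy, hy0⟩ : ∃ y ∈ ball x ρ, g y ≠ 0 := by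
    by_contra hcon
    push Not at hcon
    exact h0 (eqOn_of_eventuallyEq hO hc hgd (differentiableOn_const 0) hx
      (mem_of_superset (ball_mem_nhds x hρ) hcon) ha)
  obtain ⟨L, hL⟩ : ∃ L : ℂ → E, L = fun t => x + t • (y - x) := ⟨_, rfl⟩
  have hLd : Differentiable ℂ L := by rw [hL]; fun_prop
  have hL0 : L 0 = x := by simp [hL]
  have hL1 : L 1 = y := by simp [hL]
  have hLb : ∀ t ∈ closedBall (0 : ℂ) 1, L t ∈ ball x ρ := by
    intro t ht
    rw [mem_closedBall_zero_iff] at ht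
    rw [mem_ball, dist_eq_norm] at hy ⊢
    rw [hL]
    simp only [add_sub_cancel_left, norm_smul]
    exact lt_of_le_of_lt (mul_le_of_le_one_left (norm_nonneg _) ht) hy
  have hW : IsOpen (L ⁻¹' ball x ρ) := isOpen_ball.preimage hLd.continuous
  have hφ : AnalyticOnNhd ℂ (g ∘ L) (closedBall 0 1) :=
    (((hgd.mono hρO).comp hLd.differentiableOn (mapsTo_preimage L _)).analyticOnNhd hW).mono hLb
  have h01 : (0 : ℂ) ∈ closedBall (0 : ℂ) 1 := mem_closedBall_self zero_le_one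
  have hiso : ∀ᶠ t in 𝓝[≠] (0 : ℂ), (g ∘ L) t ≠ 0 := by
    refine (hφ 0 h01).eventually_eq_zero_or_eventually_ne_zero.resolve_left fun h => hy0 ?_
    have := hφ.eqOn_zero_of_preconnected_of_eventuallyEq_zero (convex_closedBall _ _).isPreconnected
      h01 h (show (1 : ℂ) ∈ closedBall (0 : ℂ) 1 by simp)
    simpa [hL1] using this
  obtain ⟨δ0, hδ0, hδs⟩ := nhds_basis_closedBall.eventually_iff.1
    (eventually_nhdsWithin_iff.1 hiso)
  obtain ⟨δ, hδ, hδ1, hδ2⟩ : ∃ δ > 0, δ ≤ 1 ∧ δ ≤ δ0 :=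
    ⟨min 1 δ0, by positivity, min_le_left _ _, min_le_right _ _⟩
  have hsub : closedBall (0 : ℂ) δ ⊆ closedBall 0 1 := closedBall_subset_closedBall hδ1
  obtain ⟨t0, ht0, hmin⟩ := (isCompact_sphere (0 : ℂ) δ).exists_isMinOn
    (NormedSpace.sphere_nonempty.2 hδ.le)
    ((hφ.continuousOn.mono (sphere_subset_closedBall.trans hsub)).norm)
  have hm : 0 < ‖(g ∘ L) t0‖ := by
    refine norm_pos_iff.2 (hδs (closedBall_subset_closedBall hδ2 (sphere_subset_closedBall ht0)) ?_)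
    exact ne_of_mem_sphere ht0 hδ.ne'
  obtain ⟨m, hmd⟩ : ∃ m, m = ‖(g ∘ L) t0‖ := ⟨_, rfl⟩
  rw [← hmd] at hm
  have hK : IsCompact (L '' closedBall 0 δ) := (isCompact_closedBall _ _).image hLd.continuous
  have hKO : L '' closedBall 0 δ ⊆ O := by
    rintro _ ⟨t, ht, rfl⟩
    exact hρO (hLb t (hsub ht))
  have hUK := (tendstoLocallyUniformlyOn_iff_tendstoUniformlyOn_of_compact hK).1 (hU.mono hKO)
  obtain ⟨j, ⟨h1, h2⟩, h3⟩ := ((hC.and hne2).and
    (Metric.tendstoUniformlyOn_iff.1 hUK (m / 2) (by positivity))).exists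
  have hd : DifferentiableOn ℂ (fun t => (f j (L t))⁻¹) (closedBall 0 δ) :=
    (h1.1.comp hLd.differentiableOn fun t ht => ball_subset_ball hρ1 (hLb t (hsub ht))).inv
      fun t ht => h2 _ (ball_subset_ball hρ2 (hLb t (hsub ht)))
  have hmax := Complex.norm_le_of_forall_mem_frontier_norm_le (U := ball (0 : ℂ) δ)
    (f := fun t => (f j (L t))⁻¹) isBounded_ball
    (DifferentiableOn.diffContOnCl (by rwa [closure_ball _ hδ.ne'])) (C := (m / 2)⁻¹)
    (fun t ht => by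
      rw [frontier_ball _ hδ.ne'] at ht
      rw [norm_inv]
      refine inv_anti₀ (by positivity) ?_
      have a1 := h3 (L t) ⟨t, sphere_subset_closedBall ht, rfl⟩
      have a2 : m ≤ ‖g (L t)‖ := by rw [hmd]; exact hmin ht
      rw [dist_eq_norm] at a1
      have a3 := norm_sub_norm_le (g (L t)) (f j (L t))
      linarith) (z := 0) (subset_closure (mem_ball_self hδ))
  have a1 := h3 (L 0) ⟨0, mem_closedBall_self hδ.le, rfl⟩
  rw [hL0] at hmax a1
  rw [hx0, dist_zero_left] at a1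
  have a2 : 0 < ‖f j x‖ := norm_pos_iff.2 (h2 x (mem_ball_self hr2))
  rw [norm_inv, inv_le_inv₀ a2 (by positivity)] at hmax
  linarith

theorem SCV2a_det : Differentiable ℂ fun A : E →L[ℂ] E => A.det := by
  classical
  let b := Module.finBasis ℂ E
  have e : (fun A : E →L[ℂ] E => A.det) = fun A : E →L[ℂ] E =>
      ∑ σ : Equiv.Perm (Fin (Module.finrank ℂ E)), Equiv.Perm.sign σ •
        ∏ i, LinearMap.toContinuousLinearMap (b.coord (σ i)) (A (b i)) := by
    funext A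
    rw [ContinuousLinearMap.det, ← LinearMap.det_toMatrix b, Matrix.det_apply]
    simp [LinearMap.toMatrix_apply]
  rw [e]
  refine Differentiable.fun_sum fun σ _ => Differentiable.const_smul ?_ _
  intro A
  exact (HasFDerivAt.finsetProd (u := Finset.univ)
    (g := fun i (A : E →L[ℂ] E) => LinearMap.toContinuousLinearMap (b.coord (σ i)) (A (b i)))
    fun i _ => (show DifferentiableAt ℂ _ A by fun_prop).hasFDerivAt).differentiableAt

omit [FiniteDimensional ℂ E'] in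
theorem SCV2a_inj (L : E' ≃L[ℂ] E) (A : E →L[ℂ] E') :
    Function.Injective A ↔ ((L : E' →L[ℂ] E).comp A).det ≠ 0 := by
  rw [ContinuousLinearMap.det, Ne, LinearMap.det_eq_zero_iff_ker_ne_bot, not_not,
    LinearMap.ker_eq_bot]
  exact (L.injective.of_comp_iff A).symm

/-- Hurwitz theorem for Jacobians. -/
theorem hurwitz_fderiv {ι : Type*} {l : Filter ι} [l.NeBot] {f : ι → E → E'} {g : E → E'}
    {O : Set E} (hO : IsOpen O) (hc : IsPreconnected O) (hf : LocBdd l f O)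
    (hg : ∀ x ∈ O, Tendsto (fun j => f j x) l (𝓝 (g x)))
    (hdim : Module.finrank ℂ E = Module.finrank ℂ E')
    (hne : ∀ x ∈ O, ∃ r > 0, ∀ᶠ j in l, ∀ y ∈ ball x r, Function.Injective (fderiv ℂ (f j) y))
    {a : E} (ha : a ∈ O) (h0 : Function.Injective (fderiv ℂ g a)) :
    ∀ x ∈ O, Function.Injective (fderiv ℂ g x) := by
  have := FiniteDimensional.complete ℂ E'
  have := FiniteDimensional.proper ℂ (E →L[ℂ] E')
  let L : E' ≃L[ℂ] E := ContinuousLinearEquiv.ofFinrankEq hdim.symm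
  obtain ⟨D, hD⟩ : ∃ D : (E →L[ℂ] E') → ℂ, D = fun A => ((L : E' →L[ℂ] E).comp A).det := ⟨_, rfl⟩
  have hDd : Differentiable ℂ D := by
    rw [hD]
    exact Differentiable.comp (g := fun A : E →L[ℂ] E => A.det) SCV2a_det
      (ContinuousLinearMap.compL ℂ E E' E (L : E' →L[ℂ] E)).differentiable
  have hDi : ∀ A : E →L[ℂ] E', Function.Injective A ↔ D A ≠ 0 := fun A => by rw [hD]; exact SCV2a_inj L A
  obtain ⟨-, -, hU⟩ := montel hO hf hg
  intro x hx
  rw [hDi]
  refine hurwitz (l := l) (f := fun j y => D (fderiv ℂ (f j) y)) (g := fun y => D (fderiv ℂ g y))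
    hO hc ?_ (fun y hy => (hDd.continuous.tendsto _).comp (hU.tendsto_at hy)) ?_ ha
    ((hDi _).1 h0) x hx
  · intro y hy
    obtain ⟨r, hr, C, hC⟩ := hf y hy
    obtain ⟨M, hM⟩ := (isCompact_closedBall (0 : E →L[ℂ] E') (C / (r / 2))).exists_bound_of_continuousOn
      hDd.continuous.continuousOn
    refine ⟨r / 2, by positivity, M, ?_⟩
    filter_upwards [hC] with j hj
    refine ⟨hDd.comp_differentiableOn ((differentiableOn_fderiv isOpen_ball hj.1).mono
      (ball_subset_ball (by linarith))), fun z hz => hM _ ?_⟩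
    rw [mem_closedBall_zero_iff]
    exact norm_fderiv_le_of_ball (by positivity) (hj.1.mono (SCV.ball_half_subset hz))
      fun w hw => hj.2 w (SCV.ball_half_subset hz hw)
  · intro y hy
    obtain ⟨r, hr, h⟩ := hne y hy
    exact ⟨r, hr, h.mono fun j hj z hz => (hDi _).1 (hj z hz)⟩

end Crest.Agent.R264
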