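import Crest.Agent.R264.Calc
import Crest.Agent.R264.SCV2

/-! Row 264, P1: identity theorem and Riemann extension on `U`. -/

set_option autoImplicit false
open Set Filter Topology Metric Complex

noncomputable section
namespace Crest.Agent.R264.TM
variable (M : TM) {F : Type*} [NormedAddCommGroup F] [NormedSpace ℂ F] [CompleteSpace F]

/-- The derivative along a holomorphic tangent field is holomorphic. -/
theorem hol_D {R : Set (CN M.N)} (hR : ROpen M.U R) {f : CN M.N → F} (hf : Hol R f)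
    {X : CN M.N → CN M.N} (hX : Hol R X) (hT : ∀ x ∈ R, X x ∈ M.T x) :
    Hol R (fun x => M.D f x (X x)) := by
  refine ((M.isSub_ropen hR).hol_D hf hX fun x hx => by rw [M.T_ropen hR hx]; exact hT x hx).congr
    fun x hx => ?_
  simp only [M.D_eq_of_ropen hR f hx]

/-- Identity theorem. -/
theorem eqOn_of_eventuallyEq {R : Set (CN M.N)} (hR : ROpen M.U R) (hc : IsPreconnected R)
    {f g : CN M.N → F} (hf : Hol R f) (hg : Hol R g) {x : CN M.N} (hx : x ∈ R)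
    (h : f =ᶠ[𝓝[M.U] x] g) : EqOn f g R := by
  exact (M.isSub_ropen hR).eqOn_of_eventuallyEq hc hf hg hx (by rwa [hR.nhdsWithin_eq hx])

theorem eqOn_of_ropen {R : Set (CN M.N)} (hR : ROpen M.U R) (hne : R.Nonempty)
    {f g : CN M.N → F} (hf : Hol M.U f) (hg : Hol M.U g) (h : EqOn f g R) : EqOn f g M.U := by
  obtain ⟨x, hx⟩ := hne
  exact M.isSub.eqOn_of_eventuallyEq M.conn.isPreconnected hf hg (hR.1 hx)
    (Filter.eventually_of_mem (hR.2 x hx) h)

theorem subset_closure_ne {R : Set (CN M.N)} (hR : ROpen M.U R) (hc : IsPreconnected R)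
    {h : CN M.N → ℂ} (hh : Hol R h) (hne : ∃ x ∈ R, h x ≠ 0) :
    R ⊆ closure (R ∩ {y | h y ≠ 0}) := by
  intro x hx
  have := (M.isSub_ropen hR).frequently_ne hc hh hne hx
  rw [mem_closure_iff_frequently]
  exact (this.and_eventually self_mem_nhdsWithin).mono (fun y hy => ⟨hy.2, hy.1⟩) |>.filter_mono
    nhdsWithin_le_nhds

theorem isPreconnected_ne {R : Set (CN M.N)} (hR : ROpen M.U R) (hc : IsPreconnected R)
    {h : CN M.N → ℂ} (hh : Hol R h) : IsPreconnected (R ∩ {y | h y ≠ 0}) := by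
  have hS := M.isSub_ropen hR
  by_cases hne : ∃ x ∈ R, h x ≠ 0
  swap
  · have : R ∩ {y | h y ≠ 0} = ∅ := eq_empty_of_forall_notMem fun y hy => hne ⟨y, hy.1, hy.2⟩
    rw [this]; exact isPreconnected_empty
  -- local connectedness of the complement
  have loc : ∀ x ∈ R, ∃ W ∈ 𝓝[R] x, W ⊆ R ∧ IsPreconnected (W ∩ {y | h y ≠ 0}) := by
    intro x hx
    obtain ⟨ch, u, r, hr, hrs, rfl⟩ := hS.exists_ball hx
    have hsub : ball u r ⊆ ch.s := ball_subset_closedBall.trans hrs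
    refine ⟨ch.c '' ball u r, ch.image_mem_nhds (hsub (mem_ball_self hr)) (ball_mem_nhds u hr),
      (ch.maps.mono_left hsub).image_subset, ?_⟩
    have h1 := R264.isPreconnected_ne isOpen_ball (convex_ball u r).isPreconnected
      ((ch.hol_comp hh).mono hsub)
    have h2 := h1.image ch.c (ch.c_diff.continuousOn.mono (inter_subset_left.trans hsub))
    convert h2 using 1
    ext y
    constructor
    · rintro ⟨⟨w, hw, rfl⟩, hy⟩; exact ⟨w, ⟨hw, hy⟩, rfl⟩
    · rintro ⟨w, ⟨hw, hy⟩, rfl⟩; exact ⟨⟨w, hw, rfl⟩, hy⟩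
  choose! W hW hWR hWc using loc
  set A := R ∩ {y | h y ≠ 0} with hA
  have hfr : ∀ x ∈ R, ∀ V ∈ 𝓝[R] x, (V ∩ {y | h y ≠ 0}).Nonempty := fun x hx V hV =>
    ((hS.frequently_ne hc hh hne hx).and_eventually hV).exists.imp fun y hy => ⟨hy.2, hy.1⟩
  -- the component of `A` near a point is locally constant
  let P : CN M.N → CN M.N → Prop := fun a b => ∀ p ∈ W a ∩ {y | h y ≠ 0}, ∀ q ∈ W b ∩ {y | h y ≠ 0},
    connectedComponentIn A p = connectedComponentIn A q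
  have hin : ∀ a ∈ R, ∀ p ∈ W a ∩ {y | h y ≠ 0}, ∀ q ∈ W a ∩ {y | h y ≠ 0},
      connectedComponentIn A p = connectedComponentIn A q := fun a ha p hp q hq =>
    connectedComponentIn_eq ((hWc a ha).subset_connectedComponentIn hp
      (inter_subset_inter_left _ (hWR a ha)) hq)
  have hP : ∀ a ∈ R, ∀ b ∈ R, P a b := by
    intro a ha b hb
    refine hc.induction₂' P (fun a ha => ?_) (fun a b c _ hb _ h1 h2 p hp q hq => ?_) ha hb
    · filter_upwards [self_mem_nhdsWithin, eventually_eventually_nhdsWithin.2 (hW a ha)] with b hb hb'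
      obtain ⟨z, ⟨hz1, hz2⟩, hz3⟩ := hfr b hb _ (inter_mem hb' (hW b hb))
      exact ⟨fun p hp q hq => (hin a ha p hp z ⟨hz1, hz3⟩).trans (hin b hb z ⟨hz2, hz3⟩ q hq),
        fun p hp q hq => (hin b hb p hp z ⟨hz2, hz3⟩).trans (hin a ha z ⟨hz1, hz3⟩ q hq)⟩
    · obtain ⟨z, hz⟩ := hfr b hb _ (hW b hb)
      exact (h1 p hp z hz).trans (h2 z hz q hq)
  refine isPreconnected_of_forall_pair fun p hp q hq => ⟨connectedComponentIn A p,
    connectedComponentIn_subset _ _, mem_connectedComponentIn hp, ?_,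
    isPreconnected_connectedComponentIn⟩
  rw [hP p hp.1 q hq.1 p ⟨mem_of_mem_nhdsWithin hp.1 (hW p hp.1), hp.2⟩ q
    ⟨mem_of_mem_nhdsWithin hq.1 (hW q hq.1), hq.2⟩]
  exact mem_connectedComponentIn hq

/-- `Hol U` functions form a domain. -/
theorem exists_mul_ne_zero {f g : CN M.N → ℂ} (hf : Hol M.U f) (hg : Hol M.U g)
    (h1 : ∃ x ∈ M.U, f x ≠ 0) (h2 : ∃ x ∈ M.U, g x ≠ 0) : ∃ x ∈ M.U, f x * g x ≠ 0 := by
  obtain ⟨x, hx, hfx⟩ := h1
  have h3 := M.isSub.frequently_ne M.conn.isPreconnected hg h2 hx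
  have h4 : ∀ᶠ y in 𝓝[M.U] x, f y ≠ 0 := (hf.continuousOn x hx).eventually_ne hfx
  obtain ⟨y, hy1, hy2, hy3⟩ := (h3.and_eventually (h4.and self_mem_nhdsWithin)).exists
  exact ⟨y, hy3, mul_ne_zero hy2 hy1⟩

/-- Riemann extension theorem on `U`. -/
theorem riemann_ext {h : CN M.N → ℂ} (hh : Hol M.U h) (hne : ∃ x ∈ M.U, h x ≠ 0)
    {f : CN M.N → F} (hf : Hol (M.U ∩ {y | h y ≠ 0}) f)
    (hb : ∀ x ∈ M.U, ∃ W ∈ 𝓝 x, ∃ B : ℝ, ∀ y ∈ W ∩ M.U, h y ≠ 0 → ‖f y‖ ≤ B) :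
    ∃ g : CN M.N → F, Hol M.U g ∧ ∀ y ∈ M.U, h y ≠ 0 → g y = f y := by
  have hfr := fun x (hx : x ∈ M.U) => M.isSub.frequently_ne M.conn.isPreconnected hh hne hx
  -- extension in each chart
  have key : ∀ ch : Chart M.n M.U, ∃ g : CN M.n → F, DifferentiableOn ℂ g ch.s ∧
      ∀ u ∈ ch.s, h (ch.c u) ≠ 0 → g u = f (ch.c u) := by
    intro ch
    refine R264.riemann_ext ch.s_open (ch.hol_comp hh) (fun u hu h0 => ?_)
      (hf.comp_differentiableOn (ch.c_diff.mono inter_subset_left) fun u hu => ⟨ch.maps hu.1, hu.2⟩)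
      fun u hu => ?_
    · exact hfr _ (ch.maps hu) (((ch.ev_iff hu (p := fun y => h y = 0)).2 h0).mono fun y hy => not_not.2 hy)
    · obtain ⟨W, hW, B, hB⟩ := hb _ (ch.maps hu)
      exact ⟨ch.c ⁻¹' W, (ch.differentiableAt hu).continuousAt hW, B,
        fun w hw hw' => hB _ ⟨hw.1, ch.maps hw.2⟩ hw'⟩
  choose G hG hGf using key
  have lim : ∀ (ch : Chart M.n M.U), ∀ u ∈ ch.s,
      Tendsto f (𝓝[M.U ∩ {y | h y ≠ 0}] (ch.c u)) (𝓝 (G ch u)) := by
    intro ch u hu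
    have h1 : Tendsto (fun y => G ch (ch.l y)) (𝓝[M.U ∩ {y | h y ≠ 0}] (ch.c u)) (𝓝 (G ch u)) :=
      (((hG ch).differentiableAt (ch.s_open.mem_nhds hu)).continuousAt.tendsto.comp
        (ch.tendsto_l hu)).mono_left nhdsWithin_le_nhds
    refine h1.congr' ?_
    filter_upwards [self_mem_nhdsWithin, nhdsWithin_mono _ inter_subset_left (ch.ev_mem hu)]
      with y hy hy'
    rw [hGf ch _ hy'.1 (by rw [hy'.2]; exact hy.2), hy'.2]
  have hnb : ∀ x ∈ M.U, (𝓝[M.U ∩ {y | h y ≠ 0}] x).NeBot := fun x hx => by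
    rw [nhdsWithin_inter']
    exact frequently_iff_neBot.1 (hfr x hx)
  refine ⟨fun y => limUnder (𝓝[M.U ∩ {y | h y ≠ 0}] y) f, M.isSub.hol_of_chart fun ch => ?_,
    fun y hy hy' => ?_⟩
  · refine (hG ch).congr fun u hu => ?_
    haveI := hnb _ (ch.maps hu)
    exact (lim ch u hu).limUnder_eq
  · haveI := hnb y hy
    exact (hf.continuousOn y ⟨hy, hy'⟩).tendsto.limUnder_eq

end Crest.Agent.R264.TM
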