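import Crest.Agent.R264.SCVM

/-! Row 264, P7a: holomorphic subbundles, normalised frames. -/

set_option autoImplicit false
open Set Filter Topology Metric Complex

noncomputable section
namespace Crest.Agent.R264.TM
variable (M : TM)

/-- `E` is a holomorphic subbundle of rank `d`. -/
def IsSub (E : CN M.N → Submodule ℂ (CN M.N)) (d : ℕ) : Prop :=
  ∀ y0 ∈ M.U, ∃ R, ROpen M.U R ∧ y0 ∈ R ∧ ∃ Ξ : Fin d → CN M.N → CN M.N,
    (∀ l, Hol R (Ξ l)) ∧ ∀ y ∈ R, LinearIndependent ℂ (fun l => Ξ l y) ∧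
      Submodule.span ℂ (range fun l => Ξ l y) = E y

variable {M} {E : CN M.N → Submodule ℂ (CN M.N)} {d : ℕ}

open Matrix in
theorem T7Fr_mulVec {N d : ℕ} (Ξ : Fin d → CN N) (L : CN N →L[ℂ] CN d) (c : Fin d → ℂ) :
    L (∑ m, c m • Ξ m) = (Matrix.of fun a m => L (Ξ m) a) *ᵥ c := by
  funext a
  simp [Matrix.mulVec, dotProduct, mul_comm]

open Matrix in
theorem T7Fr_cramer {N d : ℕ} (Ξ : Fin d → CN N) (L : CN N →L[ℂ] CN d) {v : CN N}
    (hv : v ∈ Submodule.span ℂ (range Ξ)) :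
    (Matrix.of fun a m => L (Ξ m) a).det • v =
      ∑ m, ((Matrix.of fun a m => L (Ξ m) a).adjugate *ᵥ L v) m • Ξ m := by
  obtain ⟨c, rfl⟩ := (Submodule.mem_span_range_iff_exists_fun ℂ).mp hv
  rw [T7Fr_mulVec, Matrix.mulVec_mulVec, Matrix.adjugate_mul, Matrix.smul_mulVec,
    Matrix.one_mulVec, Finset.smul_sum]
  simp [smul_smul]

theorem T7Fr_det {N d : ℕ} {Ξ : Fin d → CN N} (hΞ : LinearIndependent ℂ Ξ) (L : CN N →L[ℂ] CN d)
    (hinj : ∀ v ∈ Submodule.span ℂ (range Ξ), L v = 0 → v = 0) :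
    (Matrix.of fun a m => L (Ξ m) a).det ≠ 0 := by
  intro h0
  obtain ⟨c, hc, h1⟩ := Matrix.exists_mulVec_eq_zero_iff.mpr h0
  rw [← T7Fr_mulVec] at h1
  exact hc (funext (Fintype.linearIndependent_iff.mp hΞ c
    (hinj _ ((Submodule.mem_span_range_iff_exists_fun ℂ).mpr ⟨c, rfl⟩) h1)))

theorem IsSub.finrank (h : M.IsSub E d) {y : CN M.N} (hy : y ∈ M.U) :
    Module.finrank ℂ (E y) = d := by
  obtain ⟨R, -, hyR, Ξ, -, h2⟩ := h y hy
  rw [← (h2 y hyR).2, finrank_span_eq_card (h2 y hyR).1, Fintype.card_fin]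

/-- Limits of vectors of the subbundle belong to it. -/
theorem IsSub.mem_of_tendsto (h : M.IsSub E d) {ι : Type*} {l : Filter ι} [l.NeBot]
    {a v : ι → CN M.N} {y w : CN M.N} (hy : y ∈ M.U) (ha : Tendsto a l (𝓝[M.U] y))
    (hv : Tendsto v l (𝓝 w)) (hm : ∀ᶠ j in l, v j ∈ E (a j)) : w ∈ E y := by
  obtain ⟨R, hR, hyR, Ξ, h1, h2⟩ := h y hy
  obtain ⟨g, hg⟩ := LinearMap.exists_leftInverse_of_injective
    (Fintype.linearCombination ℂ fun m => Ξ m y)
    (LinearMap.ker_eq_bot.mpr (h2 y hyR).1.fintypeLinearCombination_injective)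
  let P : CN M.N →L[ℂ] CN d := LinearMap.toContinuousLinearMap g
  have hP : (Matrix.of fun a m => P (Ξ m y) a) = 1 := by
    ext a m
    have := LinearMap.congr_fun hg (Pi.single m 1)
    rw [LinearMap.comp_apply, Fintype.linearCombination_apply_single, one_smul] at this
    simp only [Matrix.of_apply, P, LinearMap.coe_toContinuousLinearMap', this, LinearMap.id_apply,
      Matrix.one_apply, Pi.single_apply]
  have hA : Continuous fun p : (Fin d → CN M.N) × CN M.N =>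
      (Matrix.of fun a m => P (p.1 m) a : Matrix (Fin d) (Fin d) ℂ) :=
    continuous_matrix fun a m => by simp only [Matrix.of_apply]; fun_prop
  have hF1 : Continuous fun p : (Fin d → CN M.N) × CN M.N =>
      (Matrix.of fun a m => P (p.1 m) a).det • p.2 := hA.matrix_det.smul continuous_snd
  have hF2 : Continuous fun p : (Fin d → CN M.N) × CN M.N =>
      ∑ m, (Matrix.mulVec (Matrix.of fun a m => P (p.1 m) a).adjugate (P p.2)) m • p.1 m :=
    continuous_finsetSum _ fun m _ =>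
      ((continuous_apply m).comp (hA.matrix_adjugate.matrix_mulVec
        (P.continuous.comp continuous_snd))).smul ((continuous_apply m).comp continuous_fst)
  rw [← hR.nhdsWithin_eq hyR] at ha
  have ht : Tendsto (fun j => ((fun m => Ξ m (a j)), v j)) l (𝓝 ((fun m => Ξ m y), w)) :=
    (tendsto_pi_nhds.mpr fun m => ((h1 m).continuousOn y hyR).tendsto.comp ha).prodMk_nhds hv
  have he := tendsto_nhds_unique_of_eventuallyEq ((hF1.tendsto _).comp ht)
    ((hF2.tendsto _).comp ht) (by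
      filter_upwards [hm, ha.eventually self_mem_nhdsWithin] with j h3 h4
      exact T7Fr_cramer _ P ((h2 _ h4).2.symm ▸ h3))
  simp only [hP, Matrix.det_one, one_smul] at he
  rw [he, ← (h2 y hyR).2]
  exact (Submodule.mem_span_range_iff_exists_fun ℂ).mpr ⟨_, rfl⟩

/-- Vectors of the subbundle extend to local continuous sections. -/
theorem IsSub.exists_section (h : M.IsSub E d) {y w : CN M.N} (hy : y ∈ M.U) (hw : w ∈ E y) :
    ∃ s : CN M.N → CN M.N, Tendsto s (𝓝[M.U] y) (𝓝 w) ∧ ∀ᶠ x in 𝓝[M.U] y, s x ∈ E x := by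
  obtain ⟨R, hR, hyR, Ξ, h1, h2⟩ := h y hy
  rw [← (h2 y hyR).2] at hw
  obtain ⟨c, rfl⟩ := (Submodule.mem_span_range_iff_exists_fun ℂ).mp hw
  refine ⟨fun x => ∑ m, c m • Ξ m x, ?_, ?_⟩
  · rw [← hR.nhdsWithin_eq hyR]
    exact tendsto_finsetSum _ fun m _ => ((h1 m).continuousOn y hyR).tendsto.const_smul _
  · filter_upwards [hR.2 y hyR] with x hx
    rw [← (h2 x hx).2]
    exact (Submodule.mem_span_range_iff_exists_fun ℂ).mpr ⟨c, rfl⟩

/-- The frame dual to a family of linear forms that is injective on the subbundle. -/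
theorem IsSub.exists_frame (h : M.IsSub E d) {R : Set (CN M.N)} (hR : ROpen M.U R)
    {L : CN M.N → CN M.N →L[ℂ] CN d} (hL : Hol R L)
    (hinj : ∀ x ∈ R, ∀ v ∈ E x, L x v = 0 → v = 0) :
    ∃ Ξ : Fin d → CN M.N → CN M.N, (∀ l, Hol R (Ξ l)) ∧ ∀ x ∈ R,
      (∀ l, Ξ l x ∈ E x ∧ L x (Ξ l x) = Pi.single l 1) ∧
        E x ≤ Submodule.span ℂ (range fun l => Ξ l x) := by
  have hex : ∀ l : Fin d, ∀ x ∈ R, ∃ v ∈ E x, L x v = Pi.single l 1 := by
    intro l x hx
    obtain ⟨R', -, hxR, Ξ, -, h2⟩ := h x (hR.1 hx)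
    have hdet := T7Fr_det (h2 x hxR).1 (L x) ((h2 x hxR).2.symm ▸ hinj x hx)
    refine ⟨∑ m, (Matrix.mulVec (Matrix.of fun a m => L x (Ξ m x) a)⁻¹ (Pi.single l 1)) m • Ξ m x,
      ?_, ?_⟩
    · rw [← (h2 x hxR).2]
      exact (Submodule.mem_span_range_iff_exists_fun ℂ).mpr ⟨_, rfl⟩
    · rw [T7Fr_mulVec (fun m => Ξ m x), Matrix.mulVec_mulVec,
        Matrix.mul_nonsing_inv _ (isUnit_iff_ne_zero.mpr hdet), Matrix.one_mulVec]
  choose! Ξ hΞE hΞL using hex
  refine ⟨Ξ, fun l => Hol.of_local fun x₀ hx₀ => ?_, fun x hx =>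
    ⟨fun l => ⟨hΞE l x hx, hΞL l x hx⟩, fun v hv => ?_⟩⟩
  · obtain ⟨R', hR', hxR, Ξ', h1, h2⟩ := h x₀ (hR.1 hx₀)
    refine ⟨R ∩ R', inter_mem self_mem_nhdsWithin ((hR.nhdsWithin_eq hx₀).symm ▸ hR'.2 x₀ hxR), ?_⟩
    have hA : ∀ a m, Hol (R ∩ R') fun x => (Matrix.of fun a m => L x (Ξ' m x) a) a m := fun a m =>
      ((hL.mono inter_subset_left).clm_apply ((h1 m).mono inter_subset_right)).apply a
    have hdet : ∀ x ∈ R ∩ R', (Matrix.of fun a m => L x (Ξ' m x) a).det ≠ 0 := fun x hx =>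
      T7Fr_det (h2 x hx.2).1 (L x) ((h2 x hx.2).2.symm ▸ hinj x hx.1)
    have hadj : ∀ m, Hol (R ∩ R') fun x => (Matrix.of fun a m => L x (Ξ' m x) a).adjugate m l := by
      intro m
      simp only [Matrix.adjugate_apply]
      refine Hol.det fun i j => ?_
      simp only [Matrix.updateRow_apply]
      split_ifs
      · exact Hol.const _ _
      · exact hA i j
    refine (((Hol.det hA).inv hdet).smul (Hol.sum Finset.univ fun m _ =>
      (hadj m).smul ((h1 m).mono inter_subset_right))).congr fun x hx => ?_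
    have e := T7Fr_cramer (fun m => Ξ' m x) (L x) ((h2 x hx.2).2.symm ▸ hΞE l x hx.1)
    rw [hΞL l x hx.1] at e
    simp only [Matrix.mulVec_single_one, Matrix.col_apply] at e
    beta_reduce
    rw [← e, smul_smul, inv_mul_cancel₀ (hdet x hx), one_smul]
  · have h0 := hinj x hx (v - ∑ l, L x v l • Ξ l x)
      (sub_mem hv (Submodule.sum_mem _ fun l _ => Submodule.smul_mem _ _ (hΞE l x hx))) (by
        rw [map_sub, map_sum]
        simp only [map_smul, hΞL _ x hx]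
        funext a
        simp [Pi.single_apply])
    exact (Submodule.mem_span_range_iff_exists_fun ℂ).mpr ⟨_, (sub_eq_zero.mp h0).symm⟩

end Crest.Agent.R264.TM
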