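import Crest.Agent.R264.S4Main
import Crest.Agent.R264.P6
import Crest.Agent.R264.T7Fr

/-! Row 264, P7a: position of the distributions in scaled coordinates (definitions). -/

set_option autoImplicit false
open Set Filter Topology Metric Complex

noncomputable section
namespace Crest.Agent.R264
variable {S : Setup} {r k : ℕ} {σ : Segre S.F r k}

/-- The positive side. -/
def Pos (ld : σ.LD (σ.a 0)) : Set (CN S.N) := {x | x ∈ ld.O ∩ S.F.V ∧ 0 < rv σ.ρ x}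

/-- The kernel of the differential of the period matrix at the base point. -/
def E0 (ld : σ.LD (σ.a 0)) : Submodule ℂ (CN k) :=
  ⨅ i, ⨅ j, LinearMap.ker
    (fderiv ℂ (fun t => σ.κ (ld.lam t) i j) (σ.t (σ.a 0)) : CN k →ₗ[ℂ] ℂ)

/-- The distribution of `s` at `x` avoids the normal direction. -/
def PP (ld : σ.LD (σ.a 0)) (s : LieIdeal ℝ S.toTM.g) (x : CN S.N) : Prop :=
  ∀ v ∈ S.toTM.Dist s x, ‖(ld.sD x v).1‖ ≤ 1 / 2 * ‖ld.sD x v‖

/-- The distribution of `s` at `x` is close to `E0`. -/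
def QQ (ld : σ.LD (σ.a 0)) (P : CN k →L[ℂ] CN k) (s : LieIdeal ℝ S.toTM.g) (x : CN S.N) : Prop :=
  Module.finrank ℂ (S.toTM.Dist s x) = Module.finrank ℂ (E0 ld) ∧
    ∀ v ∈ S.toTM.Dist s x, ‖ld.sD x v - (0, 0, P (ld.sD x v).2.2)‖ ≤ 1 / 2 * ‖ld.sD x v‖

theorem QQ.pp {ld : σ.LD (σ.a 0)} {P : CN k →L[ℂ] CN k} {s : LieIdeal ℝ S.toTM.g} {x : CN S.N}
    (h : QQ ld P s x) : PP ld s x := fun v hv => by
  refine le_trans ?_ (h.2 v hv)
  have := norm_fst_le (ld.sD x v - (0, 0, P (ld.sD x v).2.2))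
  rwa [Prod.fst_sub, sub_zero] at this

theorem isSub_dist {s : LieIdeal ℝ S.toTM.g} (hs : S.toTM.Good s) :
    ∃ d, S.toTM.IsSub (S.toTM.Dist s) d := S.toTMG.dist_frame hs

/-- Data along an ultrafilter converging to the base point from the positive side. -/
theorem exists_approach {ld : σ.LD (σ.a 0)} (hb : ld.Base) (l : Ultrafilter (CN S.N))
    (hl : (l : Filter (CN S.N)) ≤ 𝓝[Pos ld] (σ.a 0)) :
    ∃ (γ : CN S.N → S.toTM.Aut) (y : CN S.N → CN S.N) (m : S.toTM.MChart r k),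
      (∀ x, y x ∈ S.U) ∧ (∀ᶠ x in (l : Filter (CN S.N)), S.toTM.ap (γ x) (y x) = x) ∧
      m.t0 = σ.t (σ.a 0) ∧ (m.κ = fun t => σ.κ (ld.lam t)) ∧
      Tendsto y l (𝓝[S.U] (m.ψ (I, 0, m.t0))) ∧ m.ψ (I, 0, m.t0) ∈ S.U ∧
      (I, 0, m.t0) ∈ m.toMBase.W ∧
      ∀ (v : CN S.N → CN S.N) (e : PM r k), (∀ᶠ x in (l : Filter (CN S.N)), v x ∈ S.toTM.T (y x)) →
        Tendsto v l (𝓝 (fderiv ℂ m.ψ (I, 0, m.t0) e)) →
        Tendsto (fun x => ld.sD x (S.toTM.D (S.toTM.ap (γ x)) (y x) (v x))) l (𝓝 e) := by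
  classical
  have hP : ∀ᶠ x in (l : Filter (CN S.N)), x ∈ Pos ld := hl self_mem_nhdsWithin
  obtain ⟨x0, hx0⟩ := hP.exists
  have hc : ∀ x, ∃ (γ : S.toTM.Aut) (y : CN S.N), y ∈ S.K ∧ S.toTM.ap γ y ∈ Pos ld ∧
      (x ∈ Pos ld → S.toTM.ap γ y = x) := by
    intro x
    by_cases hx : x ∈ Pos ld
    · obtain ⟨γ, -, y, hy, e⟩ := S.cover x (hb.sub x hx.1 hx.2)
      exact ⟨γ, y, hy, e ▸ hx, fun _ => e⟩
    · obtain ⟨γ, -, y, hy, e⟩ := S.cover x0 (hb.sub x0 hx0.1 hx0.2)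
      exact ⟨γ, y, hy, e ▸ hx0, fun h => absurd h hx⟩
  choose γ y hy hp he using hc
  have hev : ∀ᶠ x in (l : Filter (CN S.N)), S.toTM.ap (γ x) (y x) = x := hP.mono he
  obtain ⟨m, h1, h2, h3, h4⟩ := scaling hb l γ y hy
    (fun x => ⟨(hp x).1.1, (hb.pos _ (hp x).1).2 (hp x).2⟩)
    ((tendsto_id'.2 (hl.trans nhdsWithin_le_nhds)).congr' (hev.mono fun x hx => hx.symm))
  have hW : ((I, 0, m.t0) : PM r k) ∈ m.toMBase.W :=
    ⟨mem_ball_self m.R_pos, by simp [Qk]⟩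
  refine ⟨γ, y, m, fun x => S.K_sub (hy x), hev, h1, h2, h3, m.maps hW, hW, fun v e hv hve => ?_⟩
  refine (h4 v e hv hve).congr' ?_
  filter_upwards [hev] with x hx
  rw [hx]

end Crest.Agent.R264
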