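import Crest.Agent.R264.T7Def

/-! Row 264, P7a: existence of a well positioned good ideal. -/

set_option autoImplicit false
open Set Filter Topology Metric Complex

noncomputable section
namespace Crest.Agent.R264
variable {S : Setup} {r k : ℕ} {σ : Segre S.F r k}

theorem T7Ex_sD_smul (ld : σ.LD (σ.a 0)) (x v : CN S.N) (c : ℂ) :
    ld.sD x (c • v) = c • ld.sD x v := by
  obtain ⟨L, hL⟩ := exists_sc_clm (r := r) (k := k) (ld.h x)
  simp only [Segre.LD.sD, hL, map_smul]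

theorem T7Ex_D_inv' (M : TM) (h : M.Aut) {y v : CN M.N} (hy : y ∈ M.U)
    (hv : v ∈ M.T (M.ap h y)) : M.D (M.ap h) y (M.D (M.ap h⁻¹) (M.ap h y) v) = v := by
  have := M.D_ap_inv h⁻¹ (M.ap_mem h hy) hv
  rwa [inv_inv, M.ap_inv_ap h hy] at this

theorem T7Ex_dist_inv (M : TM) (h : M.Aut) (s : LieIdeal ℝ M.g) {y v : CN M.N} (hy : y ∈ M.U)
    (hv : v ∈ M.Dist (M.AdI h s) (M.ap h y)) : M.D (M.ap h⁻¹) (M.ap h y) v ∈ M.Dist s y := by
  have := M.dist_AdI h⁻¹ _ (M.ap_mem h hy) hv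
  rwa [M.AdI_inv_AdI, M.ap_inv_ap h hy] at this

theorem T7Ex_finrank (M : TM) (h : M.Aut) (s : LieIdeal ℝ M.g) {y : CN M.N} (hy : y ∈ M.U) :
    Module.finrank ℂ (M.Dist (M.AdI h s) (M.ap h y)) = Module.finrank ℂ (M.Dist s y) := by
  apply le_antisymm
  · refine LinearMap.finrank_le_finrank_of_injective
      (f := (M.D (M.ap h⁻¹) (M.ap h y) : CN M.N →ₗ[ℂ] CN M.N).restrict
        fun v hv => T7Ex_dist_inv M h s hy hv) ?_
    intro v w e
    have e' : M.D (M.ap h⁻¹) (M.ap h y) v = M.D (M.ap h⁻¹) (M.ap h y) w := congrArg Subtype.val e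
    apply Subtype.ext
    rw [← T7Ex_D_inv' M h hy v.2.1, e', T7Ex_D_inv' M h hy w.2.1]
  · refine LinearMap.finrank_le_finrank_of_injective
      (f := (M.D (M.ap h) y : CN M.N →ₗ[ℂ] CN M.N).restrict
        fun v hv => M.dist_AdI h s hy hv) ?_
    intro v w e
    have e' : M.D (M.ap h) y v = M.D (M.ap h) y w := congrArg Subtype.val e
    apply Subtype.ext
    rw [← M.D_ap_inv h hy v.2.1, e', M.D_ap_inv h hy w.2.1]

theorem T7Ex_mem_E0 {ld : σ.LD (σ.a 0)} {e : CN k} : e ∈ E0 ld ↔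
    ∀ i j, fderiv ℂ (fun t => σ.κ (ld.lam t) i j) (σ.t (σ.a 0)) e = 0 := by
  simp [E0, Submodule.mem_iInf]

theorem eventually_exists_QQ {ld : σ.LD (σ.a 0)} (hb : ld.Base) {P : CN k →L[ℂ] CN k}
    (hP : ∀ e ∈ E0 ld, P e = e) :
    ∀ᶠ x in 𝓝[Pos ld] (σ.a 0), ∃ s, S.toTM.Good s ∧ QQ ld P s x := by
  by_contra hcon
  rw [Filter.not_eventually, Filter.frequently_iff_neBot] at hcon
  obtain ⟨l, hl⟩ := Ultrafilter.exists_le (𝓝[Pos ld] (σ.a 0) ⊓
    𝓟 {x | ¬∃ s, S.toTM.Good s ∧ QQ ld P s x})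
  have hbad : ∀ᶠ x in (l : Filter (CN S.N)), ¬∃ s, S.toTM.Good s ∧ QQ ld P s x :=
    le_principal_iff.1 (hl.trans inf_le_right)
  obtain ⟨γ, y, m, hy, hγ, ht, hκ, hlim, hU, hW, hD⟩ := exists_approach hb l (hl.trans inf_le_left)
  set s := LieSubmodule.lieSpan ℝ S.toTM.g {m.A} with hs
  have hgood : S.toTM.Good s := (S.toTMG.good_of_chart m).1
  obtain ⟨d, hd⟩ := isSub_dist hgood
  have hmodel : ∀ v, v ∈ S.toTM.Dist s (m.ψ (I, 0, m.t0)) ↔
      ∃ e ∈ E0 ld, v = fderiv ℂ m.ψ (I, 0, m.t0) (0, 0, e) := by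
    intro v
    rw [S.toTMG.dist_model m (mem_ball_self m.R_pos) v]
    simp only [T7Ex_mem_E0, hκ, ← ht]
  have hdE : d = Module.finrank ℂ (E0 ld) := by
    rw [← hd.finrank hU]
    let j : CN k →ₗ[ℂ] CN S.N := (fderiv ℂ m.ψ (I, 0, m.t0) : PM r k →ₗ[ℂ] CN S.N) ∘ₗ
      (LinearMap.inr ℂ ℂ (CN r × CN k)) ∘ₗ (LinearMap.inr ℂ (CN r) (CN k))
    have hj : Function.Injective j := by
      intro a b e
      have := m.dinj _ hW e
      simpa using this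
    have e : S.toTM.Dist s (m.ψ (I, 0, m.t0)) = (E0 ld).map j := by
      ext v
      rw [hmodel, Submodule.mem_map]
      exact ⟨fun ⟨e, h1, h2⟩ => ⟨e, h1, h2.symm⟩, fun ⟨e, h1, h2⟩ => ⟨e, h1, h2.symm⟩⟩
    rw [e]
    exact (LinearEquiv.finrank_eq (Submodule.equivMapOfInjective j hj (E0 ld))).symm
  have hviol : ∀ᶠ x in (l : Filter (CN S.N)), ∃ u ∈ S.toTM.Dist s (y x), ‖u‖ = 1 ∧
      1 / 2 * ‖ld.sD x (S.toTM.D (S.toTM.ap (γ x)) (y x) u)‖ <
        ‖ld.sD x (S.toTM.D (S.toTM.ap (γ x)) (y x) u) -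
          (0, 0, P (ld.sD x (S.toTM.D (S.toTM.ap (γ x)) (y x) u)).2.2)‖ := by
    filter_upwards [hbad, hγ] with x hx hxγ
    have h1 : ¬QQ ld P (S.toTM.AdI (γ x) s) x := fun h => hx ⟨_, S.toTM.good_AdI _ hgood, h⟩
    have h2 : Module.finrank ℂ (S.toTM.Dist (S.toTM.AdI (γ x) s) x) = Module.finrank ℂ (E0 ld) := by
      have := T7Ex_finrank S.toTM (γ x) s (hy x)
      rw [hxγ] at this
      rw [this, hd.finrank (hy x), hdE]
    simp only [QQ, h2, true_and, not_forall, not_le] at h1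
    obtain ⟨v, hv, hlt⟩ := h1
    have hv' : v ∈ S.toTM.Dist (S.toTM.AdI (γ x) s) (S.toTM.ap (γ x) (y x)) := by rwa [hxγ]
    set u := S.toTM.D (S.toTM.ap (γ x)⁻¹) (S.toTM.ap (γ x) (y x)) v with hu
    have huv : S.toTM.D (S.toTM.ap (γ x)) (y x) u = v := T7Ex_D_inv' S.toTM _ (hy x) hv'.1
    have hu0 : u ≠ 0 := by
      intro h0
      rw [h0, map_zero] at huv
      have h3 := T7Ex_sD_smul ld x 0 0
      rw [zero_smul, zero_smul] at h3
      rw [← huv, h3] at hlt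
      simp at hlt
    have hn : 0 < ‖u‖ := norm_pos_iff.2 hu0
    refine ⟨((‖u‖⁻¹ : ℝ) : ℂ) • u, Submodule.smul_mem _ _ (T7Ex_dist_inv S.toTM _ s (hy x) hv'),
      ?_, ?_⟩
    · rw [norm_smul, Complex.norm_real, norm_inv, norm_norm, inv_mul_cancel₀ hn.ne']
    · rw [map_smul, huv, T7Ex_sD_smul]
      have e : ((‖u‖⁻¹ : ℝ) : ℂ) • ld.sD x v - (0, 0, P (((‖u‖⁻¹ : ℝ) : ℂ) • ld.sD x v).2.2) =
          ((‖u‖⁻¹ : ℝ) : ℂ) • (ld.sD x v - (0, 0, P (ld.sD x v).2.2)) := by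
        rw [smul_sub]
        simp
      rw [e, norm_smul, norm_smul, Complex.norm_real, norm_inv, norm_norm, mul_left_comm]
      exact mul_lt_mul_of_pos_left hlt (inv_pos.2 hn)
  obtain ⟨u, hu⟩ := hviol.choice
  have hsph : ∀ᶠ x in (l : Filter (CN S.N)), u x ∈ sphere (0 : CN S.N) 1 :=
    hu.mono fun x hx => mem_sphere_zero_iff_norm.2 hx.2.1
  obtain ⟨w, hw, hwl⟩ := (isCompact_sphere (0 : CN S.N) 1).ultrafilter_le_nhds (l.map u)
    (by rw [Ultrafilter.coe_map, le_principal_iff]; exact hsph)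
  have hwt : Tendsto u l (𝓝 w) := hwl
  have hwD := hd.mem_of_tendsto hU hlim hwt (hu.mono fun x hx => hx.1)
  obtain ⟨e, he, rfl⟩ := (hmodel w).1 hwD
  have he0 : e ≠ 0 := by
    rintro rfl
    have : ((0, 0, 0) : PM r k) = 0 := rfl
    rw [this, map_zero] at hw
    simp at hw
  have h1 := hD u (0, 0, e) (hu.mono fun x hx => hx.1.1) hwt
  have hc : Continuous fun z : PM r k => ‖z - (0, 0, P z.2.2)‖ := by fun_prop
  have hc' : Continuous fun z : PM r k => 1 / 2 * ‖z‖ := by fun_prop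
  have h2 := le_of_tendsto_of_tendsto ((hc'.tendsto _).comp h1) ((hc.tendsto _).comp h1)
    (hu.mono fun x hx => hx.2.2.le)
  simp only [hP e he, sub_self, norm_zero] at h2
  have h3 : ‖((0, 0, e) : PM r k)‖ = 0 := by linarith [norm_nonneg ((0, 0, e) : PM r k)]
  have h4 := norm_eq_zero.1 h3
  exact he0 (congrArg (fun z : PM r k => z.2.2) h4)

end Crest.Agent.R264
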