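import Crest.Agent.R264.T7Def

/-! Row 264, P7a: uniqueness of the well positioned good ideal. -/

set_option autoImplicit false
open Set Filter Topology Metric Complex

noncomputable section
namespace Crest.Agent.R264
variable {S : Setup} {r k : ℕ} {σ : Segre S.F r k}

theorem eventually_unique_PP {ld : σ.LD (σ.a 0)} (hb : ld.Base) :
    ∀ᶠ x in 𝓝[Pos ld] (σ.a 0), ∀ s s', S.toTM.Good s → S.toTM.Good s' → PP ld s x → PP ld s' x →
      s = s' := by
  refine Filter.mem_iff_ultrafilter.2 fun l hl => ?_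
  obtain ⟨γ, y, m, hyU, hap, -, -, hy, hψU, hW, hlim⟩ := exists_approach hb l hl
  obtain ⟨hg0, hZ, -⟩ := S.toTMG.good_of_chart m
  set s0 := LieSubmodule.lieSpan ℝ S.toTM.g {m.A} with hs0
  have hv : Tendsto (fun x => S.toTM.fn m.Z (y x)) l (𝓝 (fderiv ℂ m.ψ (I, 0, m.t0) (1, 0, 0))) := by
    have h1 := ((S.toTM.hol_fn m.Z).continuousOn _ hψU).tendsto.comp hy
    rw [m.fnZ _ hW] at h1
    exact h1
  have h2 := hlim _ _ (Eventually.of_forall fun x => S.toTM.fn_mem_T m.Z (hyU x)) hv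
  have h3 : ∀ᶠ ω : PM r k in 𝓝 (1, 0, 0), 1 / 2 * ‖ω‖ < ‖ω.1‖ := by
    refine ContinuousAt.eventually_lt (by fun_prop) (by fun_prop) ?_
    norm_num [Prod.norm_def]
  have key : ∀ s ∈ {s | S.toTM.Good s}, ∀ᶠ x in (l : Filter (CN S.N)),
      PP ld (S.toTM.AdI (γ x) s) x → s = s0 := by
    intro s hs
    filter_upwards [hap, h2.eventually h3] with x hx h4 hp
    by_contra hne
    have h5 := S.toTM.dist_AdI (γ x) s (hyU x) (S.toTMG.fn_mem_dist hs hg0 hne hZ (hyU x))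
    rw [hx] at h5
    exact absurd (hp _ h5) (not_le.2 h4)
  have key2 := (eventually_all_finite S.toTMG.good_finite).2 key
  filter_upwards [key2] with x hx s s' hs hs' hp hp'
  have e1 := hx _ (S.toTM.good_AdI (γ x)⁻¹ hs) (by rwa [S.toTM.AdI_AdI_inv])
  have e2 := hx _ (S.toTM.good_AdI (γ x)⁻¹ hs') (by rwa [S.toTM.AdI_AdI_inv])
  rw [← S.toTM.AdI_AdI_inv (γ x) s, e1, ← e2, S.toTM.AdI_AdI_inv]

theorem continuousOn_sD {ld : σ.LD (σ.a 0)} (hb : ld.Base) :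
    ContinuousOn (fun z : CN S.N × CN S.N => ld.sD z.1 z.2) (Pos ld ×ˢ univ) := by
  rintro ⟨x, v⟩ ⟨hx, -⟩
  have hO : ld.O ∈ 𝓝 x := ld.O_open.mem_nhds hx.1.1
  have hpos : 0 < ld.h x := (hb.pos x hx.1).2 hx.2
  have hh : ContinuousAt (fun z : CN S.N × CN S.N => ld.h z.1) (x, v) :=
    ContinuousAt.comp (g := ld.h) (ld.h_cont.continuousAt hO) continuousAt_fst
  have he : ContinuousAt (fun z : CN S.N × CN S.N => ld.e z.1) (x, v) :=
    ContinuousAt.comp (g := ld.e) (ld.e_cont.continuousAt hO) continuousAt_fst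
  have hem := (ld.e_mem x hx.1.1).2
  have hd : ContinuousAt (fun z : CN S.N × CN S.N => fderiv ℂ (σ.co (ld.e z.1)) z.1) (x, v) :=
    ContinuousAt.comp (f := fun z : CN S.N × CN S.N => (z.1, ld.e z.1))
      (g := fun z : CN S.N × (ℂ × CN r) => fderiv ℂ (σ.co z.2) z.1)
      (σ.fderiv_co_continuousAt (ld.ok _ hem) (ld.r0_ne x hx.1.1 _ hem))
      (continuousAt_fst.prodMk he)
  have hw := hd.clm_apply continuousAt_snd
  have h1 : ContinuousAt (fun z : CN S.N × CN S.N => ((ld.h z.1 : ℝ) : ℂ)⁻¹) (x, v) :=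
    (Complex.continuous_ofReal.continuousAt.comp hh).inv₀ (Complex.ofReal_ne_zero.2 hpos.ne')
  have h2 : ContinuousAt (fun z : CN S.N × CN S.N => ((√(ld.h z.1) : ℝ) : ℂ)⁻¹) (x, v) :=
    (Complex.continuous_ofReal.continuousAt.comp hh.sqrt).inv₀
      (Complex.ofReal_ne_zero.2 (Real.sqrt_pos.2 hpos).ne')
  exact ((h1.mul hw.fst).prodMk ((h2.smul hw.snd.fst).prodMk hw.snd.snd)).continuousWithinAt

theorem PP_of_closure {ld : σ.LD (σ.a 0)} (hb : ld.Base) {s : LieIdeal ℝ S.toTM.g}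
    (hs : S.toTM.Good s) {x : CN S.N} (hx : x ∈ Pos ld)
    (hc : x ∈ closure {x' | x' ∈ Pos ld ∧ PP ld s x'}) : PP ld s x := by
  intro v hv
  have hU : Pos ld ⊆ S.U := fun z hz => hb.sub z hz.1 hz.2
  obtain ⟨d, hd⟩ := isSub_dist hs
  obtain ⟨w, hw, hwE⟩ := hd.exists_section (hU hx) hv
  set A := {x' | x' ∈ Pos ld ∧ PP ld s x'} with hA
  have : (𝓝[A] x).NeBot := mem_closure_iff_nhdsWithin_neBot.1 hc
  have hAP : 𝓝[A] x ≤ 𝓝[Pos ld] x := nhdsWithin_mono _ fun z hz => hz.1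
  have hAU : 𝓝[A] x ≤ 𝓝[S.U] x := nhdsWithin_mono _ fun z hz => hU hz.1
  have h1 : Tendsto (fun z => (z, w z)) (𝓝[A] x) (𝓝[Pos ld ×ˢ univ] (x, v)) := by
    rw [nhdsWithin_prod_eq, nhdsWithin_univ]
    exact Tendsto.prodMk hAP (hw.mono_left hAU)
  have h2 := (continuousOn_sD hb (x, v) ⟨hx, mem_univ _⟩).tendsto.comp h1
  refine le_of_tendsto_of_tendsto (b := 𝓝[A] x) h2.fst_nhds.norm (h2.norm.const_mul _) ?_
  filter_upwards [self_mem_nhdsWithin, hAU hwE] with z hz hz'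
  exact hz.2 _ hz'

end Crest.Agent.R264
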