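import Crest.Agent.R264.T7Ex
import Crest.Agent.R264.T7Un

/-! Row 264, P7a: one good ideal works on a whole one-sided neighbourhood. -/

set_option autoImplicit false
open Set Filter Topology Metric Complex

noncomputable section
namespace Crest.Agent.R264
variable {S : Setup} {r k : ℕ} {σ : Segre S.F r k}

theorem exists_one {ld : σ.LD (σ.a 0)} (hb : ld.Base) {P : CN k →L[ℂ] CN k}
    (hP : ∀ e ∈ E0 ld, P e = e) {W : Set (CN S.N)} (hW : W ∈ 𝓝 (σ.a 0)) :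
    ∃ O, IsOpen O ∧ σ.a 0 ∈ O ∧ O ⊆ W ∩ ld.O ∧ ∃ s, S.toTM.Good s ∧
      ∀ x ∈ O ∩ S.F.V, 0 < rv σ.ρ x → QQ ld P s x := by
  have hev := eventually_nhdsWithin_iff.1 ((eventually_exists_QQ hb hP).and (eventually_unique_PP hb))
  obtain ⟨O, hO, haO, hOW, hc, -⟩ := σ.good.conn
    (inter_mem (inter_mem hW (ld.O_open.mem_nhds ld.mem)) hev)
  set A : Set (CN S.N) := {x | x ∈ O ∩ S.F.V ∧ 0 < rv σ.ρ x} with hA
  have hpos : A ⊆ Pos ld := fun x hx => ⟨⟨(hOW hx.1.1).1.2, hx.1.2⟩, hx.2⟩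
  have hex : ∀ x ∈ A, ∃ s, S.toTM.Good s ∧ QQ ld P s x := fun x hx =>
    ((hOW hx.1.1).2 (hpos hx)).1
  have hun : ∀ x ∈ A, ∀ s s', S.toTM.Good s → S.toTM.Good s' → PP ld s x → PP ld s' x → s = s' :=
    fun x hx => ((hOW hx.1.1).2 (hpos hx)).2
  obtain ⟨x1, hx1O, hx1⟩ := mem_closure_iff_nhds.1 σ.good.mem_closure_pos O (hO.mem_nhds haO)
  have hx1A : x1 ∈ A := ⟨⟨hx1O, hx1.1⟩, hx1.2⟩
  obtain ⟨s, hs, hQ⟩ := hex x1 hx1A
  refine ⟨O, hO, haO, fun x hx => (hOW hx).1, s, hs, fun x hx hx' => ?_⟩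
  have hnot : ∀ y ∈ A, ∀ t, S.toTM.Good t → ¬ PP ld t y → ∀ᶠ z in 𝓝[A] y, ¬ PP ld t z := by
    intro y hy t ht h
    have h1 : (closure {x' | x' ∈ Pos ld ∧ PP ld t x'})ᶜ ∈ 𝓝 y :=
      isClosed_closure.isOpen_compl.mem_nhds fun hc => h (PP_of_closure hb ht (hpos hy) hc)
    filter_upwards [self_mem_nhdsWithin, nhdsWithin_le_nhds h1] with z hz h2 h3
    exact h2 (subset_closure ⟨hpos hz, h3⟩)
  have hPP : PP ld s x := by
    refine (hc.induction₂ (fun x y => (PP ld s x ↔ PP ld s y)) (fun y hy => ?_)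
      (fun _ _ _ _ _ _ => Iff.trans) (fun _ _ _ _ => Iff.symm) hx1A ⟨hx, hx'⟩).1 hQ.pp
    by_cases h : PP ld s y
    · have h1 : ∀ᶠ z in 𝓝[A] y, ∀ t ∈ {t | S.toTM.Good t}, t ≠ s → ¬ PP ld t z := by
        refine (eventually_all_finite S.toTMG.good_finite).2 fun t ht => ?_
        by_cases e : t = s
        · exact Eventually.of_forall fun z h2 => absurd e h2
        · exact (hnot y hy t ht fun h2 => e (hun y hy t s ht hs h2 h)).mono fun z h2 _ => h2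
      filter_upwards [self_mem_nhdsWithin, h1] with z hz h2
      obtain ⟨t, ht, hq⟩ := hex z hz
      refine iff_of_true h ?_
      by_contra h3
      exact h2 t ht (fun e => h3 (e ▸ hq.pp)) hq.pp
    · exact (hnot y hy s hs h).mono fun z hz => iff_of_false h hz
  obtain ⟨t, ht, hq⟩ := hex x ⟨hx, hx'⟩
  rwa [hun x ⟨hx, hx'⟩ s t hs ht hPP hq.pp]

theorem T7One_apply {ι E F G : Type*} [NormedAddCommGroup E] [NormedSpace ℂ E]
    [NormedAddCommGroup F] [NormedSpace ℂ F] [NormedAddCommGroup G] [NormedSpace ℂ G]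
    {l : Filter ι} {T : ι → E →L[ℂ] F × G} {T0 : E →L[ℂ] F × G} {X : ι → E} {v : E}
    (h1 : Tendsto T l (𝓝 T0)) (hv : Tendsto X l (𝓝 v)) :
    Tendsto (fun x => (T x (X x)).1) l (𝓝 (T0 v).1) :=
  (continuous_fst.tendsto _).comp ((isBoundedBilinearMap_apply.continuous.tendsto
    (T0, v)).comp (h1.prodMk_nhds hv))

set_option maxHeartbeats 400000 in
/-- Bounded tangent fields whose normal component is `O(h)` become complex tangent. -/
theorem tendsto_dx {ld : σ.LD (σ.a 0)} (hb : ld.Base) {a : CN S.N} (ha : a ∈ ld.O ∩ S.F.V)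
    (h0 : rv σ.ρ a = 0) (hco : ∀ v ∈ Tan S.F.V a,
      (fderiv ℂ (σ.co (ld.e a)) a v).1 = 0 → dx σ.ρ a (star a) v = 0)
    {A : Set (CN S.N)} (hA : A ⊆ Pos ld) {X : CN S.N → CN S.N} {C : ℝ}
    (hX : ∀ x ∈ A, X x ∈ Tan S.F.V x ∧ ‖X x‖ ≤ C ∧ ‖ld.sD x (X x)‖ ≤ C) :
    Tendsto (fun x => dx σ.ρ a (star a) (X x)) (𝓝[A] a) (𝓝 0) := by
  refine (tendsto_iff_ultrafilter _ _ _).2 fun l hl => ?_
  have hlA : ∀ᶠ x in (l : Filter (CN S.N)), x ∈ A := hl self_mem_nhdsWithin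
  have hla : Tendsto (fun x => x) (l : Filter (CN S.N)) (𝓝 a) := hl.trans nhdsWithin_le_nhds
  obtain ⟨v, -, hv⟩ := (isCompact_closedBall (0 : CN S.N) C).ultrafilter_le_nhds (l.map X)
    (le_principal_iff.2 (hlA.mono fun x hx => mem_closedBall_zero_iff.2 (hX x hx).2.1))
  replace hv : Tendsto X l (𝓝 v) := hv
  have hvT : v ∈ Tan S.F.V a := S.F.mem_Tan_of_tendsto ha.2 (ld.dv_ne a ha.1)
    (tendsto_nhdsWithin_iff.2 ⟨hla, hlA.mono fun x hx => (hA hx).1.2⟩) hv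
    (hlA.mono fun x hx => (hX x hx).1)
  have hO := ld.O_open.mem_nhds ha.1
  have he := (ld.e_mem a ha.1).2
  have h1 : Tendsto (fun x => fderiv ℂ (σ.co (ld.e x)) x) l (𝓝 (fderiv ℂ (σ.co (ld.e a)) a)) := by
    have h1a := (σ.fderiv_co_continuousAt (ld.ok _ he) (ld.r0_ne a ha.1 _ he)).tendsto
    have h1b : Tendsto (fun x => (x, ld.e x)) l (𝓝 (a, ld.e a)) :=
      hla.prodMk_nhds ((ld.e_cont.continuousAt hO).tendsto.comp hla)
    have h1c := h1a.comp h1b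
    simpa only [Function.comp_def] using h1c
  have h2 := T7One_apply h1 hv
  have h3 : Tendsto (fun x => ld.h x * C) l (𝓝 0) := by
    have := ((ld.h_cont.continuousAt hO).tendsto.comp hla).mul_const C
    rwa [(hb.zero a ha).2 h0, zero_mul] at this
  have h4 : Tendsto (fun x => (fderiv ℂ (σ.co (ld.e x)) x (X x)).1) l (𝓝 0) := by
    refine squeeze_zero_norm' (hlA.mono fun x hx => ?_) h3
    have hh : 0 < ld.h x := (hb.pos x (hA hx).1).2 (hA hx).2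
    have h5 := (norm_fst_le _).trans (hX x hx).2.2
    simp only [Segre.LD.sD, sc, norm_mul, norm_inv, norm_real, Real.norm_eq_abs,
      abs_of_pos hh] at h5
    rwa [inv_mul_le_iff₀ hh] at h5
  have h6 := hco v hvT (tendsto_nhds_unique h2 h4)
  have h7 : Tendsto (dx σ.ρ a (star a)) (𝓝 v) (𝓝 (dx σ.ρ a (star a) v)) :=
    (fderiv ℂ (fun x' => pe σ.ρ x' (star a)) a).continuous.tendsto v
  rw [h6] at h7
  exact h7.comp hv

end Crest.Agent.R264
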