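import Crest.Agent.R264.Br

/-! Row 264, P1: the Lie algebra of vector fields, the automorphism group, flows (definitions). -/

set_option autoImplicit false
open Set Filter Topology Metric Complex

noncomputable section
namespace Crest.Agent.R264.TM
variable (M : TM)

instance : LieRing M.VF where
  bracket X Y := ⟨M.br X Y, M.br_mem X.2 Y.2⟩
  add_lie X Y Z := Subtype.ext (M.br_add_left X.2 Y.2 Z.2)
  lie_add X Y Z := Subtype.ext (M.br_add_right X.2 Y.2 Z.2)
  lie_self X := Subtype.ext (M.br_self X)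
  leibniz_lie X Y Z := Subtype.ext (M.br_leibniz X.2 Y.2 Z.2)

instance : LieAlgebra ℂ M.VF where
  lie_smul a X Y := Subtype.ext (M.br_smul_right a X.2 Y.2)

instance : LieAlgebra ℝ M.VF where
  lie_smul a X Y := Subtype.ext (M.br_smul_right (a : ℂ) X.2 Y.2)

@[simp] theorem coe_lie (X Y : M.VF) : ((⁅X, Y⁆ : M.VF) : CN M.N → CN M.N) = M.br X Y := rfl

/-- The group of biholomorphisms of `U`. -/
def Aut : Subgroup (Equiv.Perm M.U) where
  carrier := {h | Hol M.U (M.act h) ∧ Hol M.U (M.act h⁻¹)}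
  mul_mem' := by
    rintro g h ⟨g1, g2⟩ ⟨h1, h2⟩
    exact ⟨M.hol_act_mul g1 h1, by rw [mul_inv_rev]; exact M.hol_act_mul h2 g2⟩
  one_mem' := ⟨M.hol_act_one, by rw [inv_one]; exact M.hol_act_one⟩
  inv_mem' := by
    rintro h ⟨h1, h2⟩
    exact ⟨h2, by rw [inv_inv]; exact h1⟩

/-- The action of an automorphism on the ambient space (zero off `U`). -/
abbrev ap (h : M.Aut) : CN M.N → CN M.N := M.act (h : Equiv.Perm M.U)

/-- The adjoint action on vector fields. -/
def Ad (h : M.Aut) : M.VF →ₗ[ℂ] M.VF where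
  toFun X := ⟨M.push h X, M.push_mem h.2.1 h.2.2 X.2⟩
  map_add' X Y := Subtype.ext (M.push_add h X Y)
  map_smul' a X := Subtype.ext (M.push_smul h a X)

theorem Ad_one (X : M.VF) : M.Ad 1 X = X := Subtype.ext (M.push_one X.2)

theorem Ad_mul (g h : M.Aut) (X : M.VF) : M.Ad (g * h) X = M.Ad g (M.Ad h X) :=
  Subtype.ext (M.push_mul g.2.1 h.2.1 X.2)

theorem Ad_lie (h : M.Aut) (X Y : M.VF) : M.Ad h ⁅X, Y⁆ = ⁅M.Ad h X, M.Ad h Y⁆ :=
  Subtype.ext (M.push_br h.2.1 h.2.2 X.2 Y.2)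

/-- `θ` is a one-parameter group of automorphisms generated by `X`. -/
structure IsFlow (X : CN M.N → CN M.N) (θ : ℝ → M.Aut) : Prop where
  zero : θ 0 = 1
  add : ∀ s t, θ (s + t) = θ s * θ t
  deriv : ∀ x ∈ M.U, ∀ t : ℝ, HasDerivAt (fun s => M.ap (θ s) x) (X (M.ap (θ t) x)) t

end Crest.Agent.R264.TM
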